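import Vale.Agent.P318.C.Block1

/-! The block lemma for the linear window. -/

namespace Vale.Agent.P318.C

open Finset MeasureTheory ProbabilityTheory
open M (ind tm Per BM ip fc gm cube chi kap k0 bb A0 A1 Dual Lat lin Inv U01 Ksh torus_proof)
open M.Block (bm_int bm_const bm_mul bm_add bm_sub bm_sq bm_abs bm_comp bm_sum bm_of_mem bm_ind
  ind_sq tm_mono tm_nonneg tm_add tm_sub tm_cmul tm_const tm_sum abs_tm_le tm_cs tm_sq_le ip_add
  ip_smul ip_single meas_ip tm_le_sqrt tm_mul_le bm_line bm_corr chi_le bm_chi exists_shift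
  meas_lin exp_small)

namespace Block2

variable {ι κ : Type} [Fintype ι] [DecidableEq ι] [Fintype κ] {w : Wn} {Γ : AddSubgroup (κ → ℝ)}
  {s : ι → κ → ℤ} {h : (ι → ℤ) → ℝ}

theorem bm_c1 (hD : DerivStmt) (h0 : w.Ok) (hU : U01 h) (s : ι → κ → ℤ)
    (t : ι → ℝ) (j : ι) : BM fun η => c1 w h j (t + lin s η) := by
  obtain ⟨a, -, b⟩ := (hD ι w h h0 hU).2.1 j
  exact bm_comp ⟨a, 1, fun y => (b y).1.trans (b y).2⟩ (meas_lin s t)

theorem inv_c1 (hD : DerivStmt) (h0 : w.Ok) (hU : U01 h)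
    (hd : ∀ j, Dual Γ (s j)) (hi : Inv Γ s h) (t : ι → ℝ) (j : ι) {ρ : κ → ℝ} (hρ : ρ ∈ Γ)
    (β : κ → ℝ) : c1 w h j (t + lin s (β + ρ)) = c1 w h j (t + lin s β) := by
  obtain ⟨r, a, b⟩ := exists_shift hd hi hρ
  rw [b]
  exact (((hD ι w h h0 hU).2.2.2.2.1 r a _).2.1 j).1

/-- The mean first derivatives lie in the kernel of the matrix. -/
theorem kernel (R : WinAt w) (hD : DerivStmt) (h0 : w.Ok)
    (hU : U01 h) (hn : ∀ n : κ → ℤ, (fun k => (n k : ℝ)) ∈ Γ) (hd : ∀ j, Dual Γ (s j))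
    (hi : Inv Γ s h) (t : ι → ℝ) (k : κ) :
    ∑ j, tm (fun η => dpr w (t j + ip (s j) η) * c1 w h j (t + lin s η)) * (s j k : ℝ) = 0 := by
  classical
  obtain ⟨⟨mE, uE⟩, -, -, -, iv, d1, -⟩ := hD ι w h h0 hU
  have bE : BM fun η => Ey w h (t + lin s η) :=
    bm_comp (bm_of_mem mE (fun y => (uE y).1) fun y => (uE y).2) (meas_lin s t)
  have pE : Per fun η => Ey w h (t + lin s η) := fun β n => by
    obtain ⟨r, a, b⟩ := exists_shift hd hi (hn n)
    simp only [b]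
    exact (iv r a _).1
  have bj : ∀ j, BM fun η => (s j k : ℝ) *
      (dpr w (t j + ip (s j) η) * c1 w h j (t + lin s η)) := fun j =>
    bm_mul (bm_const _) (bm_mul (bm_line (bm_dpr R) _ _) (bm_c1 hD h0 hU s t j))
  obtain ⟨Φ, hΦ⟩ : ∃ Φ : (κ → ℝ) → ℝ, Φ = fun η => ∑ j, (s j k : ℝ) *
    (dpr w (t j + ip (s j) η) * c1 w h j (t + lin s η)) := ⟨_, rfl⟩
  have bΦ : BM Φ := hΦ ▸ bm_sum _ fun j _ => bj j
  have pΦ : Per Φ := fun β n => by
    rw [hΦ]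
    refine sum_congr rfl fun j _ => ?_
    obtain ⟨m, hm⟩ := hd j _ (hn n)
    rw [inv_c1 hD h0 hU hd hi t j (hn n), ip_add, hm, ← add_assoc, R.dpr_per]
  have e : ∀ η, Ey w h (t + lin s (η + Pi.single k 1)) - Ey w h (t + lin s η) =
      ∫ r in (0 : ℝ)..1, Φ (η + r • Pi.single k 1) := fun η => by
    have a : t + lin s (η + Pi.single k 1) = t + lin s η + fun j => (s j k : ℝ) :=
      funext fun j => by simp only [Pi.add_apply, lin, ip_add, ip_single, mul_one, add_assoc]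
    rw [a, d1, hΦ]
    refine intervalIntegral.integral_congr fun r _ => sum_congr rfl fun j _ => ?_
    have b : t + lin s (η + r • Pi.single k 1) = t + lin s η + r • fun j => (s j k : ℝ) :=
      funext fun j => by
        simp only [Pi.add_apply, lin, ip_add, ip_smul, ip_single, mul_one, add_assoc,
          Pi.smul_apply, smul_eq_mul]
    rw [b]
    simp only [Pi.add_apply, lin, ip_add, ip_smul, ip_single, mul_one, add_assoc, mul_assoc]
  have z : tm (fun η => ∫ r in (0 : ℝ)..1, Φ (η + r • Pi.single k 1)) = 0 := by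
    simp only [← e]
    have m : Measurable fun η : κ → ℝ => η + Pi.single k 1 := measurable_id.add_const _
    rw [tm_sub (bm_comp bE m) bE, (torus_proof κ).1 _ pE bE, sub_self]
  have fin : IsFiniteMeasure (volume.restrict (Set.uIoc (0 : ℝ) 1)) := by
    rw [Set.uIoc_of_le zero_le_one]; infer_instance
  have sw := intervalIntegral_integral_swap (μ := cube κ) (a := 0) (b := 1)
    (f := fun r η => Φ (η + r • Pi.single k 1))
    (bm_int (bm_comp bΦ (g := fun p : ℝ × (κ → ℝ) => p.2 + p.1 • Pi.single k 1) (by fun_prop)) _)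
  have z2 : ∫ r in (0 : ℝ)..1, tm (fun η => Φ (η + r • Pi.single k 1)) = 0 := sw.trans z
  simp only [(torus_proof κ).1 _ pΦ bΦ, intervalIntegral.integral_const, sub_zero, one_smul] at z2
  rw [hΦ, tm_sum _ fun j _ => bj j] at z2
  rw [← z2]
  exact sum_congr rfl fun j _ => by rw [tm_cmul, mul_comm]

theorem params {c0 : ℝ} (hc : 0 < c0) : ∃ r0 : ℝ, 0 < r0 ∧ r0 ≤ 1 / 10 ∧
    ∀ r : ℝ, 0 < r → r ≤ r0 → ∀ W : ℝ, 1 / r ≤ W → W ≤ 2 / r →
      bb W r ≤ 1 ∧ r ^ 2 / 3 ≤ A0 W r ∧ 0 ≤ A1 W r ∧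
      (4 * Real.pi * r ^ 16 + 8 * Real.pi * Real.sqrt (2 * r ^ 16)) * A1 W r ≤ A0 W r / 8 ∧
      (2 * Real.exp (-(2 * Real.pi ^ 2 * c0 / r ^ 2)) + 3 * Real.exp (-(1 / (8 * r ^ 2)))) /
        r ^ 16 ≤ A0 W r / 8 := by
  have pi3 := Real.pi_gt_three
  have pi4 := Real.pi_lt_four
  obtain ⟨K, hK⟩ : ∃ K : ℝ, K = 2 * (3628800 / (2 * Real.pi ^ 2 * c0) ^ 10) +
    3 * (3628800 / (1 / 8) ^ 10) := ⟨_, rfl⟩
  have K0 : 0 < K := by rw [hK]; positivity
  refine ⟨min (1 / 10) (1 / (24 * K)), by positivity, min_le_left _ _,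
    fun r r0 r1 W hW1 hW2 => ?_⟩
  have ra : r ≤ 1 / 10 := r1.trans (min_le_left _ _)
  have rb : r * (24 * K) ≤ 1 := (le_div_iff₀ (by positivity)).1 (r1.trans (min_le_right _ _))
  have r2 : r ^ 2 ≤ 1 / 100 := by nlinarith
  have r4 : r ^ 4 ≤ 1 / 10000 := by nlinarith [sq_nonneg r, sq_nonneg (r ^ 2)]
  have p4 : 0 < r ^ 4 := by positivity
  have W0 : 0 < W := lt_of_lt_of_le (by positivity) hW1
  have iW : 1 / W ^ 2 ≤ r ^ 2 := by
    rw [div_le_iff₀ (by positivity), ← mul_pow]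
    have : 1 ≤ r * W := by rwa [div_le_iff₀ r0, mul_comm] at hW1
    nlinarith
  have iW0 : 0 < 1 / W ^ 2 := by positivity
  have ir : 100 ≤ 1 / r ^ 2 := by rw [le_div_iff₀ (by positivity)]; linarith
  have b1 : bb W r ≤ 1 := by
    unfold bb
    rw [div_le_one (by positivity)]
    nlinarith
  have b2 : 9 * r ^ 2 ≤ bb W r := by
    unfold bb
    rw [le_div_iff₀ (by positivity), mul_add, mul_assoc, mul_one_div_cancel (by positivity)]
    nlinarith [mul_le_mul_of_nonneg_left iW (sq_nonneg r)]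
  obtain ⟨-, -, k1, k2, k3, k4⟩ := M.gauss_proof.2 W r W0 r0 b1
  have k5 : r ^ 2 / 3 ≤ k0 W r := by
    unfold k0
    rw [le_div_iff₀ (by positivity), ← le_div_iff₀' (by positivity)]
    refine Real.sqrt_le_iff.2 ⟨by positivity, ?_⟩
    have a1 : W ^ 2 ≤ (2 / r) ^ 2 := pow_le_pow_left₀ W0.le hW2 2
    have a2 : W ^ 2 / r ^ 2 ≤ 4 / r ^ 4 :=
      (div_le_div_of_nonneg_right a1 (by positivity)).trans (le_of_eq (by field_simp; norm_num))
    have a3 : 1 ≤ 5 / r ^ 4 := by rw [le_div_iff₀ p4]; linarith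
    rw [show (1 / (r ^ 2 / 3)) ^ 2 = 5 / r ^ 4 + 4 / r ^ 4 by field_simp; norm_num]
    linarith
  refine ⟨b1, k5.trans k2, k3, ?_, ?_⟩
  · have s1 : Real.sqrt (2 * r ^ 16) ≤ 2 * r ^ 8 :=
      Real.sqrt_le_iff.2 ⟨by positivity, by nlinarith [pow_pos r0 16]⟩
    have s2 : r ^ 16 ≤ r ^ 8 := pow_le_pow_of_le_one r0.le (by linarith) (by norm_num)
    have s3 : A1 W r ≤ 8 * k0 W r / (9 * r ^ 2) ^ 2 := k4.trans (by gcongr)
    have s4 : 4 * Real.pi * r ^ 16 + 8 * Real.pi * Real.sqrt (2 * r ^ 16) ≤ 81 * r ^ 8 := by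
      have := Real.sqrt_nonneg (2 * r ^ 16)
      nlinarith [pow_pos r0 16, pow_pos r0 8]
    refine (mul_le_mul s4 s3 k3 (by positivity)).trans ?_
    rw [show 81 * r ^ 8 * (8 * k0 W r / (9 * r ^ 2) ^ 2) = 8 * r ^ 4 * k0 W r by
      field_simp; norm_num]
    nlinarith [mul_le_mul_of_nonneg_right r4 k1.le]
  · have s1 := exp_small (c := 2 * Real.pi ^ 2 * c0) (by positivity) r0
    have s2 := exp_small (c := 1 / 8) (by norm_num) r0
    rw [show 1 / 8 / r ^ 2 = 1 / (8 * r ^ 2) by field_simp] at s2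
    have s3 : 2 * Real.exp (-(2 * Real.pi ^ 2 * c0 / r ^ 2)) +
        3 * Real.exp (-(1 / (8 * r ^ 2))) ≤ K * r ^ 20 := by
      rw [hK]; linarith
    rw [div_le_iff₀ (by positivity)]
    refine s3.trans ?_
    have s4 : K * r ^ 2 ≤ 1 / 24 := by nlinarith
    calc K * r ^ 20 = K * r ^ 2 * r ^ 18 := by ring
      _ ≤ 1 / 24 * r ^ 18 := by gcongr
      _ = r ^ 2 / 3 / 8 * r ^ 16 := by ring
      _ ≤ _ := by gcongr; exact k5.trans k2

theorem sub_mean {F G : (κ → ℝ) → ℝ} (hF : BM F) (hG : BM G) (m : ℝ) :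
    tm (fun η => F η * (G η - m)) = tm (fun η => F η * G η) - m * tm F := by
  rw [← tm_cmul, ← tm_sub (bm_mul hF hG) (bm_mul (bm_const _) hF)]
  exact congrArg tm (funext fun η => by ring)

theorem kashin (R : WinAt w) (hD : DerivStmt) (hw : w.Ok)
    (hU : U01 h) (hn : ∀ n : κ → ℤ, (fun k => (n k : ℝ)) ∈ Γ) (hd : ∀ j, Dual Γ (s j))
    (hi : Inv Γ s h) (t : ι → ℝ) {J : Finset ι} (hJ : ∀ j, j ∉ J → s j = 0) {ε : ℝ} (e0 : 0 ≤ ε)
    (hK : Ksh J s (ε ^ 2)) (H0 : ∀ j ∈ J, Hyp w Γ (s j) fun η => c1 w h j (t + lin s η))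
    {d : ι → ℝ}
    (hd' : ∀ j, d j = tm fun η => dpr w (t j + ip (s j) η) * c1 w h j (t + lin s η)) :
    0 ≤ tm (fun η => Inf w J h (t + lin s η)) ∧
      ∑ j ∈ J, d j ^ 2 ≤ Fi w * (ε * tm fun η => Inf w J h (t + lin s η)) := by
  have bc := bm_c1 hD hw hU s t
  have bq : ∀ j, BM fun η => pq w (t j + ip (s j) η) := fun j => bm_line (bm_pq R) _ _
  have bd : ∀ j, BM fun η => dpr w (t j + ip (s j) η) := fun j => bm_line (bm_dpr R) _ _
  obtain ⟨-, cb, -, wb, -⟩ := hD ι w h hw hU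
  have F1 := R.Fi_ge
  have b2 : tm (fun η => W1 w J h (t + lin s η)) =
      ∑ j ∈ J, tm fun η => pq w (t j + ip (s j) η) * c1 w h j (t + lin s η) ^ 2 :=
    tm_sum J fun j _ => bm_mul (bq j) (bm_sq (bc j))
  have b1 : tm (fun η => W1 w J h (t + lin s η)) ≤ 1 :=
    (tm_mono (bm_comp (wb J).1 (meas_lin s t)) (bm_const 1)
      fun η => ((wb J).2.2.2 _).2.1).trans (tm_const 1).le
  have bi : ∀ j, BM fun η => inf1 w h j (t + lin s η) := fun j =>
    bm_comp (bm_of_mem (cb j).2.1 (fun y => (abs_nonneg _).trans ((cb j).2.2 y).1)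
      fun y => ((cb j).2.2 y).2) (meas_lin s t)
  have a1 := hK d fun k => by
    rw [← kernel R hD hw hU hn hd hi t k]
    simp only [hd']
    exact sum_subset (subset_univ J) fun j _ hj => by simp [hJ j hj]
  have a2 : ∑ j ∈ J, |d j| ≤ tm fun η => Inf w J h (t + lin s η) := by
    simp only [hd']
    refine le_trans (sum_le_sum fun j _ => (abs_tm_le _).trans
      (tm_mono (bm_abs (bm_mul (bd j) (bc j))) (bm_mul (bd j) (bi j)) fun η => ?_))
      (tm_sum J fun j _ => bm_mul (bd j) (bi j)).ge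
    rw [abs_mul, abs_of_nonneg (R.dpr_nonneg _)]
    exact mul_le_mul_of_nonneg_left ((cb j).2.2 _).1 (R.dpr_nonneg _)
  have a3 : ∑ j ∈ J, d j ^ 2 ≤ Fi w ^ 2 := by
    refine (sum_le_sum fun j hj => (hd' j).symm ▸ (H0 j hj).fisher (t j)).trans ?_
    rw [← mul_sum, ← b2]
    nlinarith
  have a0 : 0 ≤ ∑ j ∈ J, |d j| := sum_nonneg fun _ _ => abs_nonneg _
  have n2 : 0 ≤ tm fun η => Inf w J h (t + lin s η) := a0.trans a2
  have a4 := a1.trans (mul_le_mul_of_nonneg_left (pow_le_pow_left₀ a0 a2 2) (sq_nonneg ε))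
  refine ⟨n2, (abs_le_of_sq_le_sq' ?_ (by positivity)).2⟩
  rw [sq, mul_pow, mul_pow]
  exact mul_le_mul a3 a4 (sum_nonneg fun _ _ => sq_nonneg _) (sq_nonneg _)

theorem fin_arith {r C D φ x1 x2 x3 y ε z sd : ℝ} (rp : 0 < r) (C0 : 0 < C) (F1 : 1 ≤ φ)
    (sl : 1 ≤ y) (e0 : 0 ≤ ε) (e1 : ε ≤ 1) (n1 : 0 ≤ x2) (n2 : 0 ≤ x3) (n3 : 0 ≤ z)
    (O2 : r ^ 2 / 12 * D ≤ r ^ 2 / 24 * D + C * (φ * x2 + y * ε * x3 + ε * z))
    (P2 : x1 ≤ 3 * φ * D + sd) (Ks : sd ≤ φ * (ε * x3)) :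
    x1 ≤ (72 * C / r ^ 2 + 1) * φ ^ 2 * x2 + (72 * C / r ^ 2 + 1) * φ * y * ε * x3 +
      (72 * C / r ^ 2 + 1) * φ * z := by
  have D1 : D ≤ 24 * C / r ^ 2 * (φ * x2 + y * ε * x3 + ε * z) := by
    rw [div_mul_eq_mul_div, le_div_iff₀ (by positivity)]
    linarith
  have D2 := mul_le_mul_of_nonneg_left D1 (by linarith : 0 ≤ 3 * φ)
  have φ0 : 0 ≤ φ := by linarith
  have E1 : φ * (ε * x3) ≤ φ * y * ε * x3 := by
    have := mul_le_mul_of_nonneg_right sl (mul_nonneg φ0 (mul_nonneg e0 n2))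
    linarith
  have E2 : 72 * C / r ^ 2 * φ * (ε * z) ≤ 72 * C / r ^ 2 * φ * z :=
    mul_le_mul_of_nonneg_left (mul_le_of_le_one_left n3 e1) (by positivity)
  have E3 : 0 ≤ φ ^ 2 * x2 := by positivity
  have E4 : 0 ≤ φ * z := by positivity
  rw [show 3 * φ * (24 * C / r ^ 2 * (φ * x2 + y * ε * x3 + ε * z)) =
    72 * C / r ^ 2 * φ ^ 2 * x2 + 72 * C / r ^ 2 * φ * y * ε * x3 +
      72 * C / r ^ 2 * φ * (ε * z) by ring] at D2
  linarith

theorem one_pt {s0 : κ → ℤ} {c : (κ → ℝ) → ℝ} (H0 : Hyp w Γ s0 c) (R : WinAt w) (t m : ℝ)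
    (H1 : Hyp w Γ s0 fun η => c η - m) :
    tm (fun η => pq w (t + ip s0 η) * c η ^ 2) ≤
      3 * Fi w * tm (fun η => pq w (t + ip s0 η) * (c η - m) ^ 2) +
        tm (fun η => dpr w (t + ip s0 η) * c η) ^ 2 := by
  have F1 := R.Fi_ge
  have a1 := H1.fisher t
  have a2 := H1.w_nonneg t
  rw [sub_mean (bm_line (bm_dpr R) _ _) H0.bm, H0.tm_dpr, mul_one] at a1
  have a3 := (tm_mono (H0.bm0 t)
    (bm_add (bm_mul (bm_const 2) (H1.bm0 t)) (bm_const (m ^ 2 / 2))) fun η => by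
      have := mul_le_mul_of_nonneg_right (R.pq_le (t + ip s0 η)) (sq_nonneg m)
      nlinarith [mul_nonneg (R.pq_nonneg (t + ip s0 η)) (sq_nonneg (c η - 2 * m))])
  rw [tm_add (bm_mul (bm_const 2) (H1.bm0 t)) (bm_const _), tm_cmul, tm_const] at a3
  nlinarith [sq_nonneg (2 * tm (fun η => dpr w (t + ip s0 η) * c η) - m),
    mul_le_mul_of_nonneg_right F1 a2]

end Block2

open Block2 in
theorem block_proof2 (hW : WinStmt) (hL : LineStmt) (hD : DerivStmt) (hN : NearStmt) :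
    BlockStmt := by
  intro c0 hc
  obtain ⟨r0, p0, p1, hp⟩ := params hc
  refine ⟨r0 ^ 16, by positivity, fun ω C1 h0 h1 hC => ?_⟩
  obtain ⟨r, rp, rfl⟩ : ∃ r : ℝ, 0 < r ∧ r ^ 16 = ω :=
    ⟨ω ^ (((16 : ℕ) : ℝ)⁻¹), by positivity, Real.rpow_inv_natCast_pow h0.le (by norm_num)⟩
  have hp' := hp r rp (le_of_pow_le_pow_left₀ (by norm_num) p0.le h1)
  obtain ⟨C, C0, hC⟩ := hN (r ^ 16) (2 / r) (r ^ 2 / 24) C1 (64 / (r ^ 16) ^ 2) h0 (by positivity)
    (by positivity) hC (by positivity)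
  have Cp : 0 < 72 * C / r ^ 2 := by positivity
  refine ⟨72 * C / r ^ 2 + 1, by linarith, ?_⟩
  intro w hw hom ι κ _ _ _ _ Γ J s ε l hLat hd ht3 hn hJ hZ hS hK e0 e1 hl t h hU hi
  have R := hW w hw
  have cp : (0 : ℝ) < Fintype.card κ := Nat.cast_pos.2 Fintype.card_pos
  obtain ⟨σ, hσd⟩ : ∃ σ : ℝ, σ = 2 / r / Real.sqrt (Fintype.card κ) := ⟨_, rfl⟩
  have σ0 : 0 < σ := by rw [hσd]; positivity
  have hσ : (2 / r) ^ 2 = σ ^ 2 * Fintype.card κ := by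
    rw [hσd, div_pow (2 / r), Real.sq_sqrt cp.le, div_mul_cancel₀ _ cp.ne']
  have bc := bm_c1 hD hw hU s t
  have bP : ∀ j, BM fun η => psi w (t j + ip (s j) η) := fun j => bm_line (bm_psi R) _ _
  have bq : ∀ j, BM fun η => pq w (t j + ip (s j) η) := fun j => bm_line (bm_pq R) _ _
  have bd : ∀ j, BM fun η => dpr w (t j + ip (s j) η) := fun j => bm_line (bm_dpr R) _ _
  obtain ⟨-, cb, -, wb, -⟩ := hD ι w h hw hU
  have c1le : ∀ j y, |c1 w h j y| ≤ 1 := fun j y => ((cb j).2.2 y).1.trans ((cb j).2.2 y).2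
  obtain ⟨m, hm⟩ : ∃ m : ι → ℝ, ∀ j, m j =
      tm (fun η => psi w (t j + ip (s j) η) * c1 w h j (t + lin s η)) /
        tm fun η => psi w (t j + ip (s j) η) := ⟨_, fun _ => rfl⟩
  have m1 : ∀ j, |m j| ≤ 1 := fun j => by
    rw [hm, abs_div, abs_of_nonneg (tm_nonneg fun η => R.psi_nonneg (t j + ip (s j) η))]
    refine div_le_one_of_le₀ ((abs_tm_le _).trans (tm_mono (bm_abs (bm_mul (bP j) (bc j))) (bP j)
      fun η => ?_)) (tm_nonneg fun η => R.psi_nonneg _)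
    rw [abs_mul, abs_of_nonneg (R.psi_nonneg _)]
    exact mul_le_of_le_one_right (R.psi_nonneg _) (c1le _ _)
  have unit : ∀ j ∈ J, ∃ k, s j k = 1 ∨ s j k = -1 := fun j hj => by
    by_contra hne
    push Not at hne
    have : ∀ k, s j k = 0 := fun k => by
      rcases ht3 j k with a | a | a
      exacts [a, absurd a (hne k).1, absurd a (hne k).2]
    have := hn j hj
    simp only [‹∀ k, s j k = 0›, Int.cast_zero] at this
    simp at this
    linarith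
  have H0 : ∀ j ∈ J, Hyp w Γ (s j) fun η => c1 w h j (t + lin s η) := fun j hj =>
    ⟨R, hw.1, hLat.1, ht3 j, unit j hj, hd j, bc j, fun ρ hρ β => inv_c1 hD hw hU hd hi t j hρ β⟩
  have H1 : ∀ j ∈ J, Hyp w Γ (s j) fun η => c1 w h j (t + lin s η) - m j := fun j hj =>
    ⟨R, hw.1, hLat.1, ht3 j, unit j hj, hd j, bm_sub (bc j) (bm_const _), fun ρ hρ β => by
      rw [inv_c1 hD hw hU hd hi t j hρ β]⟩
  have b2 : tm (fun η => W1 w J h (t + lin s η)) =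
      ∑ j ∈ J, tm fun η => pq w (t j + ip (s j) η) * c1 w h j (t + lin s η) ^ 2 :=
    tm_sum J fun j _ => bm_mul (bq j) (bm_sq (bc j))
  have b1 : tm (fun η => W1 w J h (t + lin s η)) ≤ 1 :=
    (tm_mono (bm_comp (wb J).1 (meas_lin s t)) (bm_const 1)
      fun η => ((wb J).2.2.2 _).2.1).trans (tm_const 1).le
  have m2 : ∑ j ∈ J, m j ^ 2 ≤ 64 / (r ^ 16) ^ 2 := by
    have : ∀ j ∈ J, m j ^ 2 ≤ 64 / (r ^ 16) ^ 2 *
        tm fun η => pq w (t j + ip (s j) η) * c1 w h j (t + lin s η) ^ 2 := fun j hj => by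
      have a1 := (H0 j hj).psi_lo (t j)
      have a2 := (tm_sq_le ((H0 j hj).bm2 (t j))).trans ((tm_mono (bm_sq ((H0 j hj).bm2 (t j)))
        (bm_mul (bm_const _) ((H0 j hj).bm0 (t j))) ((H0 j hj).sq2 (t j))).trans (tm_cmul _ _).le)
      rw [hom] at a2
      rw [hm, div_pow, div_le_iff₀ (by positivity)]
      have a3 := (H0 j hj).w_nonneg (t j)
      have a4 : 1 / 4 ≤ tm (fun η => psi w (t j + ip (s j) η)) ^ 2 := by nlinarith
      have a5 := mul_le_mul_of_nonneg_left a4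
        (mul_nonneg (by positivity : 0 ≤ 64 / (r ^ 16) ^ 2) a3)
      refine a2.trans (le_trans (le_of_eq ?_) a5)
      ring
    refine (sum_le_sum this).trans ?_
    rw [← mul_sum, ← b2]
    exact mul_le_of_le_one_right (by positivity) b1
  obtain ⟨Wj, hWj⟩ : ∃ Wj : ι → ℝ, ∀ j, Wj j = σ * Real.sqrt (∑ k, (s j k : ℝ) ^ 2) :=
    ⟨_, fun _ => rfl⟩
  have Wsq : ∀ j, Wj j ^ 2 = σ ^ 2 * ∑ k, (s j k : ℝ) ^ 2 := fun j => by
    rw [hWj, mul_pow, Real.sq_sqrt (sum_nonneg fun _ _ => sq_nonneg _)]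
  have Wn0 : ∀ j, 0 ≤ Wj j := fun j => by rw [hWj]; positivity
  have Wlo : ∀ j ∈ J, 1 / r ≤ Wj j := fun j hj => by
    refine (abs_le_of_sq_le_sq' ?_ (Wn0 j)).2
    rw [Wsq]
    have := mul_le_mul_of_nonneg_left (hn j hj) (sq_nonneg σ)
    rw [show (1 / r) ^ 2 = (2 / r) ^ 2 / 4 by ring, hσ]
    linarith
  have Whi : ∀ j, Wj j ≤ 2 / r := fun j => by
    refine (abs_le_of_sq_le_sq' ?_ (by positivity)).2
    rw [Wsq, hσ]
    refine mul_le_mul_of_nonneg_left ?_ (sq_nonneg σ)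
    refine (sum_le_card_nsmul _ _ 1 fun k _ => ?_).trans (by simp)
    rcases ht3 j k with a | a | a <;> simp [a]
  obtain ⟨q, hq⟩ : ∃ q : ι → ℝ, ∀ j, q j = if j ∈ J then r ^ 2 / 3 / A0 (Wj j) r else 0 :=
    ⟨_, fun _ => rfl⟩
  have r3 : 0 < r ^ 2 / 3 := by positivity
  have q01 : ∀ j, 0 ≤ q j ∧ q j ≤ 1 := fun j => by
    rw [hq]
    split_ifs with hj
    · have := (hp' _ (Wlo j hj) (Whi j)).2.1
      exact ⟨div_nonneg r3.le (r3.le.trans this), div_le_one_of_le₀ this (r3.le.trans this)⟩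
    · exact ⟨le_rfl, zero_le_one⟩
  have N := (abs_le.1 (hC w hw hom ι κ Γ J s t h σ ε l (fun j u => q j * chi r u) m hLat.1 hJ hU
    hi σ0 hσ ht3 hZ hS e0 hl (fun j => (bm_chi r).1.const_mul _)
    (fun j u => by
      rw [abs_mul, abs_of_nonneg (q01 j).1,
        abs_of_nonneg (show 0 ≤ chi r u from (Real.exp_pos _).le)]
      exact mul_le_one₀ (q01 j).2 (Real.exp_pos _).le (chi_le r u)) m1 m2)).2
  have O : ∀ j ∈ J, r ^ 2 / 12 *
      tm (fun η => pq w ((t + lin s η) j) * (c1 w h j (t + lin s η) - m j) ^ 2) ≤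
      ∫ ξ, (if |ip (s j) ξ| < 1 / 2 then q j * chi r (ip (s j) ξ) else 0) *
        tm (fun η => pq w ((t + lin s η) j) * (c1 w h j (t + lin s η) - m j) *
          psi w ((t + lin s (η + ξ)) j) *
          (c1 w h j (t + lin s η) - c1 w h j (t + lin s (η + ξ)))) ∂gm κ σ := fun j hj => by
    obtain ⟨a1, a2, a3, a4, a5⟩ := hp' _ (Wlo j hj) (Whi j)
    have A0p : 0 < A0 (Wj j) r := r3.trans_le a2
    have hz : tm (fun η => psi w (t j + ip (s j) η) * (c1 w h j (t + lin s η) - m j)) = 0 := by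
      have := (H0 j hj).psi_lo (t j)
      rw [sub_mean (bP j) (bc j), hm, div_mul_cancel₀ _ (by linarith), sub_self]
    have := (H1 j hj).one hL (t j) hLat rp (lt_of_lt_of_le (by positivity) (Wlo j hj)) (Wsq j) a1
      A0p.le a3 hz (by rw [hom]; exact a4) (by
        rw [hom, show 2 * Real.pi ^ 2 * σ ^ 2 * (c0 * Fintype.card κ / 4) =
          Real.pi ^ 2 * c0 / 2 * (σ ^ 2 * Fintype.card κ) by ring, ← hσ,
          show Real.pi ^ 2 * c0 / 2 * (2 / r) ^ 2 = 2 * Real.pi ^ 2 * c0 / r ^ 2 by ring]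
        exact a5)
    have t2 := mul_le_mul_of_nonneg_left this (q01 j).1
    rw [← integral_const_mul, ← mul_assoc, show q j * (A0 (Wj j) r / 4) = r ^ 2 / 12 by
      rw [hq, if_pos hj]; field_simp; norm_num] at t2
    refine t2.trans (le_of_eq (congrArg _ (funext fun ξ => ?_)))
    simp only [sub_sub_sub_cancel_right, Pi.add_apply, lin]
    split_ifs <;> ring
  have O2 := (sum_le_sum O).trans N
  rw [← mul_sum] at O2
  obtain ⟨d, hd'⟩ : ∃ d : ι → ℝ, ∀ j, d j =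
      tm fun η => dpr w (t j + ip (s j) η) * c1 w h j (t + lin s η) := ⟨_, fun _ => rfl⟩
  have F1 := R.Fi_ge
  have P : ∀ j ∈ J, tm (fun η => pq w (t j + ip (s j) η) * c1 w h j (t + lin s η) ^ 2) ≤
      3 * Fi w * tm (fun η => pq w ((t + lin s η) j) * (c1 w h j (t + lin s η) - m j) ^ 2) +
        d j ^ 2 := fun j hj => by
    rw [hd']
    exact one_pt (H0 j hj) R (t j) (m j) (H1 j hj)
  have P2 := sum_le_sum P
  rw [← b2, sum_add_distrib, ← mul_sum] at P2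
  obtain ⟨n2, Ks⟩ := kashin R hD hw hU hLat.1 hd hi t hJ e0 hK H0 hd'
  have n1 : 0 ≤ tm fun η => W2 w J h (t + lin s η) := tm_nonneg fun η => ((wb J).2.2.2 _).2.2.1
  have n3 : 0 ≤ (J.card : ℝ) * Real.exp (-l) := by positivity
  have sl : 1 ≤ Real.sqrt l + l * w.et := by
    have := Real.one_le_sqrt.2 hl
    have := mul_nonneg (zero_le_one.trans hl) hw.2.2.1.le
    linarith
  rw [mul_assoc ε] at O2
  rw [mul_assoc (_ * Fi w) (J.card : ℝ)]
  exact fin_arith rp C0 F1 sl e0 e1 n1 n2 n3 O2 P2 Ks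

end Vale.Agent.P318.C
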