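import Vale.Agent.P318.C.EStmt
import Vale.Agent.P318.B.C1

/-!
Track C, part (E): the property `C1c` for independent rows.
-/

namespace Vale.Agent.P318.C

open Finset
open scoped BigOperators
open M (ind ip nsq lin)
open B (nd cd av Kt tc res Pat pS pJ pD pw zone Bk bk sb)
open B.C1p (av_ind lin_sb le_pr_of_update)

namespace C1q

variable {A : Type} [Fintype A] [DecidableEq A] {Ω : A → Type} [∀ a, Fintype (Ω a)]

lemma expect_upd [∀ a, Nonempty (Ω a)] (a : A) (f : (∀ a, Ω a) → ℝ) :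
    𝔼 u, f u = 𝔼 u, 𝔼 t : Ω a, f (Function.update u a t) := by
  let e : (∀ a, Ω a) × Ω a ≃ (∀ a, Ω a) × Ω a :=
    { toFun := fun p => (Function.update p.1 a p.2, p.1 a)
      invFun := fun p => (Function.update p.1 a p.2, p.1 a)
      left_inv := fun p => by simp
      right_inv := fun p => by simp }
  have := Fintype.expect_equiv e (fun p => f (Function.update p.1 a p.2)) (fun p => f p.1)
    fun p => rfl
  rw [← univ_product_univ, expect_product, expect_product] at this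
  rw [this]
  exact expect_congr rfl fun u _ => (expect_const univ_nonempty (f u)).symm

lemma le_pr_of_update2 [∀ a, Nonempty (Ω a)] (a a0 : A) (E : (∀ a, Ω a) → Prop) {q : ℝ}
    (h : ∀ u, q ≤ R.pr fun t : Ω a × Ω a0 =>
      E (Function.update (Function.update u a t.1) a0 t.2)) : q ≤ R.pr E := by
  have e : R.pr E = 𝔼 u, R.pr fun t : Ω a × Ω a0 =>
      E (Function.update (Function.update u a t.1) a0 t.2) := by
    simp only [R.pr_prod]
    rw [← expect_upd a fun u => R.pr fun t : Ω a0 => E (Function.update u a0 t)]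
    exact expect_upd a0 _
  rw [e]
  exact le_expect univ_nonempty fun u _ => h u

variable {ι : Type} [Fintype ι] [DecidableEq ι] {m Mf : A → ℕ} {a0 : A}
  {ρ : ι → ((a : A) → Ω a) → (a : A) → Fin (Mf a) → ℤ}
  {Γ : (a : A) → AddSubgroup (Fin (Mf a) → ℝ)} {τ0 : ℝ}

lemma one_pattern (hL : Law a0 ρ Γ τ0) (π : (a : A) → ι → Fin (m a)) (hm : m a0 = 1)
    (v0 : Fin (m a0)) (Δ : Kt (fun J : Bk m => Mf J.1) → ℝ) (S : Finset (Bk m))
    {η : ℝ} (h0 : 0 < η) (h1 : η ≤ 1 / 2)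
    (hΓ : ∀ J ∈ S, ∀ γ ∈ Γ J.1, η ^ 2 ≤ nsq (res (M := fun J : Bk m => Mf J.1) Δ J - γ))
    (hJ0 : (⟨a0, v0⟩ : Bk m) ∈ S ∨
      nsq (res (M := fun J : Bk m => Mf J.1) Δ ⟨a0, v0⟩) ≤ 16 * η ^ 2) :
    R.pr (fun x : ι → (a : A) → Ω a =>
      (((zone (bk π) S).filter fun i => η / 10 ≤ nd (lin (tc (M := fun J : Bk m => Mf J.1)
        (smp π ρ x)) Δ i)).card : ℝ) ≤ ((zone (bk π) S).card : ℝ) / 40) ≤
      Real.exp (-(((zone (bk π) S).card : ℝ) / 160)) := by
  have := hL.ne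
  have hv : ∀ v : Fin (m a0), v = v0 := fun v => Fin.ext (by have := v.2; have := v0.2; omega)
  have h := R.pr_card_le_le (Ω := fun _ : ι => (a : A) → Ω a) (zone (bk π) S)
    (fun i u => η / 10 ≤ nd (∑ a, ip (ρ i u a)
      (res (M := fun J : Bk m => Mf J.1) Δ ⟨a, π a i⟩))) (q := 1 / 20) fun i hi => by
      by_cases c : (⟨a0, v0⟩ : Bk m) ∈ S
      · refine le_pr_of_update a0 _ fun u => ?_
        have h2 := hL.sb i u a0 (res (M := fun J : Bk m => Mf J.1) Δ ⟨a0, v0⟩)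
          (∑ a ∈ univ.erase a0, ip (ρ i u a) (res (M := fun J : Bk m => Mf J.1) Δ ⟨a, π a i⟩))
          η h0 h1 (hΓ _ c)
        rw [av_ind] at h2
        refine h2.trans (le_of_eq ?_)
        congr 1
        funext t
        rw [← add_sum_erase _ _ (mem_univ a0), hv (π a0 i)]
        congr 3
        exact sum_congr rfl fun a ha => by
          rw [hL.dep i _ u a (mem_erase.1 ha).1 (Function.update_of_ne (mem_erase.1 ha).1 _ _)]
      · obtain ⟨⟨a1, j⟩, hJ, hi⟩ := mem_biUnion.1 hi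
        have hj : π a1 i = j := (mem_filter.1 hi).2
        subst hj
        have ha : a1 ≠ a0 := by
          rintro rfl
          exact c (hv (π a1 i) ▸ hJ)
        refine le_pr_of_update2 a1 a0 _ fun u => ?_
        have h2 := hL.jsb i u a1 (res (M := fun J : Bk m => Mf J.1) Δ ⟨a1, π a1 i⟩)
          (res (M := fun J : Bk m => Mf J.1) Δ ⟨a0, v0⟩)
          (∑ a ∈ (univ.erase a1).erase a0,
            ip (ρ i u a) (res (M := fun J : Bk m => Mf J.1) Δ ⟨a, π a i⟩))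
          η ha h0 h1 (hΓ _ hJ) (hJ0.resolve_left c)
        rw [av_ind] at h2
        refine h2.trans (le_of_eq ?_)
        congr 1
        funext t
        rw [← add_sum_erase _ _ (mem_univ a1),
          ← add_sum_erase _ _ (mem_erase.2 ⟨ha.symm, mem_univ a0⟩), hv (π a0 i), add_assoc]
        congr 4
        refine sum_congr rfl fun a hb => ?_
        obtain ⟨b1, b2⟩ := mem_erase.1 hb
        rw [hL.dep i _ u a b1 ((Function.update_of_ne b1 _ _).trans
          (Function.update_of_ne (mem_erase.1 b2).1 _ _))]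
  refine le_trans (le_of_eq ?_) (h.trans (le_of_eq ?_))
  · congr 1
    funext x
    have e : smp π ρ x = sb π fun a i => ρ i (x i) a := rfl
    simp only [e, lin_sb]
    congr 1
    ring
  · congr 1
    ring

end C1q

open C1q in
theorem c1c_proof (hP : B.PatStmt) : C1cStmt := by
  intro ι A _ _ _ _ a0 m Mf Ω _ π ρ Γ τ0 Υ v0 wt g hL hm hΥ
  rw [av_ind]
  refine le_trans ?_ ((hP (Bk m) (fun J => Mf J.1) g).2.2 fun J => wt J / (160 * Υ))
  have hsub := (hP (Bk m) (fun J => Mf J.1) g).1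
  let bad : Pat (fun J : Bk m => Mf J.1) g → (ι → (a : A) → Ω a) → Prop := fun P x =>
    ∃ η : ℝ, 0 < η ∧ η ≤ 1 / 2 ∧ ∑ J ∈ pS P, wt J ≤ Υ * (zone (bk π) (pJ P)).card ∧
      (∀ J ∈ pJ P, ∀ γ ∈ Γ J.1, η ^ 2 ≤ nsq (res (pD P) J - γ)) ∧
      ((⟨a0, v0⟩ : Bk m) ∈ pJ P ∨ nsq (res (pD P) ⟨a0, v0⟩) ≤ 16 * η ^ 2) ∧
      (((zone (bk π) (pJ P)).filter fun i => η / 10 ≤ nd (pw (smp π ρ x) P i)).card : ℝ) <
          ((zone (bk π) (pJ P)).card : ℝ) / 40
  refine le_trans (R.pr_mono (F := fun x => ∃ P, bad P x) fun x hx => ?_)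
    ((R.pr_exists_le bad).trans (sum_le_sum fun P _ => ?_))
  · unfold C1c at hx
    simp only [not_forall, not_le] at hx
    obtain ⟨P, η, h1, h2, h3, h4, h5, h6⟩ := hx
    exact ⟨P, η, h1, h2, h3, h4, h5, h6⟩
  by_cases hb : ∃ x, bad P x
  swap
  · have : R.pr (bad P) = 0 := by
      unfold R.pr
      exact expect_eq_zero fun x _ => if_neg fun h => hb ⟨x, h⟩
    rw [this]
    split_ifs
    · exact le_rfl
    · positivity
  obtain ⟨x0, η0, h1, h2, h3, h4, h4', h5⟩ := hb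
  have hZ : (zone (bk π) (pJ P)).Nonempty := by
    rw [← card_pos, ← Nat.cast_pos (α := ℝ)]
    have : (0 : ℝ) ≤ _ := Nat.cast_nonneg ((zone (bk π) (pJ P)).filter fun i =>
      η0 / 10 ≤ nd (pw (smp π ρ x0) P i)).card
    linarith
  have hS : pS P ≠ ∅ := by
    obtain ⟨i, hi⟩ := hZ
    obtain ⟨J, hJ, -⟩ := mem_biUnion.1 hi
    exact ne_empty_of_mem (hsub P hJ)
  rw [if_neg hS]
  let Ad : Set ℝ := {η | 0 < η ∧ η ≤ 1 / 2 ∧
    ∀ J ∈ pJ P, ∀ γ ∈ Γ J.1, η ^ 2 ≤ nsq (res (pD P) J - γ)}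
  have hne : Ad.Nonempty := ⟨η0, h1, h2, h4⟩
  have hbd : BddAbove Ad := ⟨1 / 2, fun η hη => hη.2.1⟩
  have hle : η0 ≤ sSup Ad := le_csSup hbd ⟨h1, h2, h4⟩
  have hpos : 0 < sSup Ad := h1.trans_le hle
  have h6 := one_pattern hL π hm v0 (pD P) (pJ P) hpos (csSup_le hne fun η hη => hη.2.1)
    (fun J hJ γ hγ => by
      have h7 : sSup Ad ≤ √(nsq (res (pD P) J - γ)) :=
        csSup_le hne fun η hη => Real.le_sqrt_of_sq_le (hη.2.2 J hJ γ hγ)
      exact (Real.le_sqrt hpos.le (sum_nonneg fun _ _ => sq_nonneg _)).1 h7)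
    (h4'.imp_right fun h => h.trans (by gcongr))
  refine le_trans (R.pr_mono fun x hx => ?_) (h6.trans (Real.exp_le_exp.2 ?_))
  · obtain ⟨η, g1, g2, -, g4, -, g5⟩ := hx
    refine le_trans ?_ g5.le
    have g6 : η ≤ sSup Ad := le_csSup hbd ⟨g1, g2, g4⟩
    exact_mod_cast card_le_card fun i hi => mem_filter.2 ⟨(mem_filter.1 hi).1,
      le_trans (by linarith) (mem_filter.1 hi).2⟩
  · rw [neg_le_neg_iff, ← sum_div, div_le_div_iff₀ (by positivity) (by norm_num)]
    nlinarith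

end Vale.Agent.P318.C
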