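import Vale.Agent.P318.C.EStmt
import Vale.Agent.P318.RAff
import Vale.Agent.P318.B.Char

set_option linter.unusedSectionVars false

/-!
Track C, existence: codes, global parity checks and the law of the rows.
-/

namespace Vale.Agent.P318.C

open Finset Function
open M (ind ip nsq Dual Lat)
open B (nd cd av Kt tc res Bk bk sb rw GH MinD)
open R (FibA rowA syn dualv ang DualFar mass sig)
open scoped BigOperators Real

namespace LawEx

theorem av_eq {α : Type} [Fintype α] (f : α → ℝ) : av f = 𝔼 x, f x :=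
  (Fintype.expect_eq_sum_div_card f).symm

theorem av_ind {α : Type} [Fintype α] (E : α → Prop) : av (fun x => ind (E x)) = R.pr E := by
  unfold av R.pr ind
  rw [Fintype.expect_eq_sum_div_card]

theorem expect_eval {A K : Type} [Fintype A] [DecidableEq A] {β : A → Type} [∀ a, Fintype (β a)]
    [∀ a, Nonempty (β a)] [AddCommMonoid K] [Module ℚ≥0 K] (a : A) (f : β a → K) :
    𝔼 x : (a : A) → β a, f (x a) = 𝔼 b, f b := by
  rw [Fintype.expect_equiv (Equiv.piSplitAt a β) (fun x => f (x a)) (fun y => f y.1) fun _ => rfl,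
    ← univ_product_univ, expect_product]
  simp

/-- the character -/
noncomputable def ee (x : ℝ) : ℂ := Complex.exp (((2 * π * x : ℝ) : ℂ) * Complex.I)

theorem ee_add (x y : ℝ) : ee (x + y) = ee x * ee y := by
  rw [ee, ee, ee, ← Complex.exp_add]
  congr 1
  push_cast
  ring

theorem norm_ee (x : ℝ) : ‖ee x‖ = 1 := Complex.norm_exp_ofReal_mul_I _

theorem norm_expect_le {α : Type} [Fintype α] [Nonempty α] {f : α → ℂ} {c : ℝ}
    (h : ∀ a, ‖f a‖ ≤ c) : ‖𝔼 a, f a‖ ≤ c :=
  (RCLike.norm_expect_le (K := ℝ)).trans (expect_le univ_nonempty fun a _ => h a)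

theorem sb_of_cf {α : Type} [Fintype α] [Nonempty α] (X : α → ℝ) {η : ℝ} {k : ℕ}
    (hk : k * η ≤ 1 / 2) (h : ‖𝔼 t, ee (k * X t)‖ ≤ 4 / 5) :
    1 / 20 ≤ av fun t => ind (η / 10 ≤ nd (X t)) := by
  have h1 := (Complex.re_le_norm _).trans h
  simp only [Complex.re_expect, ee, Complex.exp_ofReal_mul_I_re] at h1
  have h2 := expect_le_expect fun t (_ : t ∈ univ) => B.CharS.ind_ge (x := X t) hk
  rw [expect_sub_distrib, expect_add_distrib, ← expect_div, Fintype.expect_const,
    Fintype.expect_const] at h2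
  rw [av_eq]
  linarith

theorem joint {α β : Type} [Fintype α] [Nonempty α] [Fintype β] {f : α → ℂ} {g : α → β → ℂ}
    {c : ℂ} (h1 : ∀ a, ‖f a‖ = 1) (h2 : ‖𝔼 a, f a‖ ≤ 79 / 100) (h3 : ‖c‖ ≤ 1)
    (h4 : ∀ a, ‖𝔼 b, g a b - c‖ ≤ 1 / 100) : ‖𝔼 t : α × β, f t.1 * g t.1 t.2‖ ≤ 4 / 5 := by
  have e : 𝔼 t : α × β, f t.1 * g t.1 t.2 =
      (𝔼 a, f a) * c + 𝔼 a, f a * (𝔼 b, g a b - c) := by
    rw [← univ_product_univ, expect_product, expect_mul, ← expect_add_distrib]
    refine expect_congr rfl fun a _ => ?_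
    simp only [← mul_expect]
    ring
  have h5 : ‖𝔼 a, f a * (𝔼 b, g a b - c)‖ ≤ 1 / 100 :=
    norm_expect_le fun a => by rw [norm_mul, h1, one_mul]; exact h4 a
  rw [e]
  refine (norm_add_le _ _).trans ?_
  rw [norm_mul]
  nlinarith [norm_nonneg (𝔼 a, f a), norm_nonneg c]

section Code

variable {p M r : ℕ} [Fact p.Prime] {H : Fin r → Fin M → ZMod p}

theorem half_cos (θ : ℝ) (y : Fin r → ZMod p) (k : Fin M) :
    (1 - Real.cos (2 * π * θ + ang (dualv H y k))) / 2 =
      Real.sin (π * (θ + B.CharS.hh H y k)) ^ 2 := by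
  rw [Real.sin_sq_eq_half_sub, show 2 * (π * (θ + B.CharS.hh H y k)) =
    2 * π * θ + ang (dualv H y k) by simp only [ang, dualv, B.CharS.hh]; ring]
  ring

theorem minD (hH : DualFar H) : MinD H := fun y hy => by
  have h := hH y hy
  have e : ∑ k, Real.sin (π * (((∑ a, y a * H a k).val : ℝ) / p)) ^ 2 =
      ∑ k, (1 - Real.cos (ang (dualv H y k))) / 2 := sum_congr rfl fun k _ => by
    simpa [B.CharS.hh] using (half_cos 0 y k).symm
  rw [e, ← sum_div, sum_sub_distrib]
  simp only [Fintype.card_fin, sum_const, card_univ, nsmul_eq_mul, mul_one] at h ⊢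
  linarith [Nat.cast_nonneg (α := ℝ) M]

theorem small (hp : (p : ℝ) ^ r ≤ Real.exp (M / 100)) {x y : ℝ} (h : M / 100 + x ≤ y) :
    (p : ℝ) ^ Fintype.card (Fin r) * Real.exp x ≤ Real.exp y := by
  rw [Fintype.card_fin]
  exact (mul_le_mul_of_nonneg_right hp (Real.exp_pos _).le).trans
    (by rw [← Real.exp_add]; exact Real.exp_le_exp.2 h)

theorem exp_small : Real.exp (-40) ≤ 1 / 400 := by
  rw [Real.exp_neg, one_div]
  exact inv_anti₀ (by norm_num) (by linarith [Real.quadratic_le_exp_of_nonneg (x := 40) (by norm_num)])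

theorem ee_ip (θ : Fin M → ℝ) (n : Fin M → ℤ) :
    ee (ip n θ) = Complex.exp (((∑ j, 2 * π * θ j * n j : ℝ) : ℂ) * Complex.I) := by
  rw [ee, ip, mul_sum]
  congr 3
  exact sum_congr rfl fun j _ => by ring

variable (hM : (1000 : ℝ) ≤ M) (hp : (p : ℝ) ^ r ≤ Real.exp (M / 100)) (hH : DualFar H)
include hM hp hH

theorem mass_near (u : Fin r → ZMod p) : |mass H u - 1| ≤ 1 / 400 :=
  (R.abs_mass_sub_one hH u).trans ((small hp (by rw [Fintype.card_fin]; linarith)).trans exp_small)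

omit hH in
theorem half : (p : ℝ) ^ Fintype.card (Fin r) * Real.exp (-(Fintype.card (Fin M) / 4)) ≤ 1 / 2 :=
  (small hp (by rw [Fintype.card_fin]; linarith)).trans (exp_small.trans (by norm_num))

theorem cf1 (u : Fin r → ZMod p) {θ : Fin M → ℝ} (h : ∀ γ ∈ GH H, 1 / 16 ≤ nsq (θ - γ)) :
    ‖𝔼 e : FibA H u, ee (ip (rowA e) θ)‖ ≤ 79 / 100 := by
  have := R.fibA_nonempty hH u (half hM hp)
  have h1 := R.fibA_cf hH u (fun j => 2 * π * θ j) (s := 1 / 4) fun y => by
    have h3 := h _ ((GH H).neg_mem (B.CharS.mem_GH.2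
      ⟨y, fun k => -round (θ k + B.CharS.hh H y k), fun k => rfl⟩))
    simp only [sig, half_cos]
    refine le_trans ?_ (sum_le_sum fun k _ => B.CharS.four_sq_le (θ k + B.CharS.hh H y k))
    rw [← mul_sum]
    refine le_trans (by linarith) (mul_le_mul_of_nonneg_left (h3.trans_eq ?_) (by norm_num))
    exact sum_congr rfl fun k _ => by simp; ring
  have h2 := (small hp (x := -(Fintype.card (Fin M) / 16))
    (by rw [Fintype.card_fin]; linarith)).trans exp_small
  have h7 : Real.exp (-(1 / 4)) ≤ 32 / 41 := by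
    rw [Real.exp_neg, inv_le_comm₀ (Real.exp_pos _) (by norm_num)]
    linarith [Real.quadratic_le_exp_of_nonneg (x := 1 / 4) (by norm_num)]
  simp only [← ee_ip] at h1
  have h4 : ‖𝔼 e : FibA H u, ee (ip (rowA e) θ)‖ ≤ 1 := norm_expect_le fun _ => (norm_ee _).le
  nlinarith [(abs_le.1 (mass_near hM hp hH u)).1, norm_nonneg (𝔼 e : FibA H u, ee (ip (rowA e) θ))]

theorem cf0 {θ : Fin M → ℝ} (h : nsq θ ≤ 4) : ∃ c : ℂ, ‖c‖ ≤ 1 ∧ ∀ u : Fin r → ZMod p,
    ‖𝔼 e : FibA H u, ee (ip (rowA e) θ) - c‖ ≤ 1 / 100 := by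
  let T : (Fin r → ZMod p) → ℂ := fun y => ∏ j, 𝔼 s : Bool × Bool,
    Complex.exp (((2 * π * θ j : ℝ) : ℂ) * Complex.I * (R.sg s : ℤ)) *
      ZMod.stdAddChar (dualv H y j * (R.sg s : ZMod p))
  have hT : ∀ y, ‖T y‖ ≤ Real.exp (-sig H (fun j => 2 * π * θ j) y) := fun y => by
    simp only [T, R.expect_exp_char, norm_prod, R.norm_two_add_exp, sig]
    rw [← sum_neg_distrib, Real.exp_sum]
    simp only [Complex.add_re, Complex.mul_re, Complex.ofReal_re, Complex.I_re, mul_zero,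
      Complex.ofReal_im, Complex.I_im, mul_one, sub_self, add_zero, Real.cosh_zero,
      Complex.add_im, Complex.mul_im]
    refine prod_le_prod (fun j _ => by
      linarith [Real.neg_one_le_cos (2 * π * θ j + ang (dualv H y j))]) fun j _ => ?_
    linarith [Real.add_one_le_exp (-((1 - Real.cos (2 * π * θ j + ang (dualv H y j))) / 2))]
  have h0 : sig H (fun j => 2 * π * θ j) 0 ≤ 64 := by
    simp only [sig, half_cos, B.CharS.hh_zero, add_zero]
    refine (sum_le_sum (g := fun k => 16 * θ k ^ 2) fun k _ => Real.sin_sq_le_sq.trans ?_).trans ?_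
    · rw [mul_pow]
      gcongr
      nlinarith [Real.pi_le_four, Real.pi_pos]
    · rw [← mul_sum]
      unfold nsq at h
      linarith
  refine ⟨T 0, (hT 0).trans (Real.exp_le_one_iff.2 (neg_nonpos.2 (sum_nonneg fun j _ => by
    linarith [Real.cos_le_one (2 * π * θ j + ang (dualv H 0 j))]))), fun u => ?_⟩
  have := R.fibA_nonempty hH u (half hM hp)
  have h1 := R.fibA_fourier H u fun j n => Complex.exp (((2 * π * θ j : ℝ) : ℂ) * Complex.I * n)
  have e : ∀ e : FibA H u, ∏ j, Complex.exp (((2 * π * θ j : ℝ) : ℂ) * Complex.I * rowA e j) =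
      ee (ip (rowA e) θ) := fun e => by
    rw [ee_ip, ← Complex.exp_sum]
    push_cast
    rw [sum_mul]
    exact congrArg _ (sum_congr rfl fun _ _ => by ring)
  rw [← add_sum_erase _ _ (mem_univ 0)] at h1
  simp only [e, Pi.zero_apply, zero_mul, sum_const_zero, neg_zero, AddChar.map_zero_eq_one,
    one_mul] at h1
  have h2 : ‖∑ y ∈ univ.erase 0, ZMod.stdAddChar (-∑ a, y a * u a) * T y‖ ≤ 1 / 400 := by
    refine (norm_sum_le _ _).trans ((sum_le_card_nsmul _ _ (Real.exp (64 - M / 8))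
      fun y hy => ?_).trans ?_)
    · rw [norm_mul, R.norm_stdAddChar, one_mul]
      have := R.sig_add_sig' hH (fun j => 2 * π * θ j) (mem_erase.1 hy).1
      rw [Fintype.card_fin] at this
      exact (hT y).trans (Real.exp_le_exp.2 (by linarith))
    · rw [nsmul_eq_mul]
      refine le_trans (mul_le_mul_of_nonneg_right ?_ (Real.exp_pos _).le)
        ((small hp (by linarith)).trans exp_small)
      exact_mod_cast card_erase_le.trans_eq (by simp)
  have h3 : 𝔼 e : FibA H u, ee (ip (rowA e) θ) - T 0 =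
      ∑ y ∈ univ.erase 0, ZMod.stdAddChar (-∑ a, y a * u a) * T y -
        ((mass H u - 1 : ℝ) : ℂ) * 𝔼 e : FibA H u, ee (ip (rowA e) θ) := by
    push_cast
    linear_combination h1
  have h4 : ‖𝔼 e : FibA H u, ee (ip (rowA e) θ)‖ ≤ 1 := norm_expect_le fun _ => (norm_ee _).le
  rw [h3]
  refine (norm_sub_le _ _).trans ?_
  rw [norm_mul, Complex.norm_real, Real.norm_eq_abs]
  nlinarith [mass_near hM hp hH u, abs_nonneg (mass H u - 1)]

end Code

section Lattice

variable {p r : ℕ} [Fact p.Prime] {κ : Type} [Fintype κ]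

theorem ip_int_iff (h : κ → ZMod p) (m : κ → ℤ) :
    (∃ n : ℤ, ip m (fun x => ((h x).val : ℝ) / p) = n) ↔ ∑ x, h x * (m x : ZMod p) = 0 := by
  have h3 : (p : ℝ) ≠ 0 := Nat.cast_ne_zero.2 (NeZero.ne p)
  have e : ((∑ k, m k * (h k).val : ℤ) : ZMod p) = ∑ k, h k * (m k : ZMod p) := by simp [mul_comm]
  have e' : ip m (fun x => ((h x).val : ℝ) / p) = (∑ k, m k * (h k).val : ℤ) / p := by
    simp [ip, sum_div, mul_div_assoc]
  rw [← e, ZMod.intCast_zmod_eq_zero_iff_dvd, e']
  refine exists_congr fun n => ?_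
  rw [div_eq_iff h3, mul_comm]
  norm_cast

/-- the lattice of a system of parity checks -/
def lat (H : Fin r → κ → ZMod p) : AddSubgroup (κ → ℝ) where
  carrier := {ρ | ∀ m, syn H m = 0 → ∃ n : ℤ, ip m ρ = n}
  add_mem' := fun ha hb m hm => by
    obtain ⟨n, hn⟩ := ha m hm
    obtain ⟨n', hn'⟩ := hb m hm
    exact ⟨n + n', by simp [← hn, ← hn', ip, mul_add, sum_add_distrib]⟩
  zero_mem' := fun m _ => ⟨0, by simp [ip]⟩
  neg_mem' := fun ha m hm => by
    obtain ⟨n, hn⟩ := ha m hm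
    exact ⟨-n, by simp [← hn, ip]⟩

theorem int_mem (H : Fin r → κ → ZMod p) (n : κ → ℤ) : (fun k => (n k : ℝ)) ∈ lat H :=
  fun m _ => ⟨∑ k, m k * n k, by simp [ip]⟩

theorem row_mem (H : Fin r → κ → ZMod p) (i : Fin r) :
    (fun x => ((H i x).val : ℝ) / p) ∈ lat H :=
  fun m hm => (ip_int_iff _ m).2 (congrFun hm i)

theorem dual_lat {H : Fin r → κ → ZMod p} {m : κ → ℤ} : Dual (lat H) m ↔ syn H m = 0 :=
  ⟨fun h => funext fun i => (ip_int_iff _ m).1 (h _ (row_mem H i)), fun h _ hρ => hρ m h⟩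

end Lattice

section Build

variable {ι A : Type} [Fintype A] [DecidableEq A] {m Mf : A → ℕ} {p : ℕ} [Fact p.Prime] {a0 : A}

/-- the coordinates of the top block -/
def emb (Mf : A → ℕ) (v : Fin (m a0)) (k : Fin (Mf a0)) : Kt fun J : Bk m => Mf J.1 := ⟨⟨a0, v⟩, k⟩

omit [Fintype A] [DecidableEq A] in
theorem emb_inj (v : Fin (m a0)) : Injective (emb Mf v) := fun _ _ h => by simpa [emb] using h

omit [Fintype A] [DecidableEq A] in
theorem mem_range (h : m a0 = 1) (v : Fin (m a0)) (x : Kt fun J : Bk m => Mf J.1) :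
    (∃ k, emb Mf v k = x) ↔ x.1.1 = a0 := by
  refine ⟨by rintro ⟨k, rfl⟩; rfl, ?_⟩
  obtain ⟨⟨a, w⟩, k⟩ := x
  intro e
  obtain rfl : a0 = a := e.symm
  obtain rfl : v = w := Fin.ext (by omega)
  exact ⟨k, rfl⟩

theorem sum_split {K : Type} [AddCommMonoid K] (h : m a0 = 1) (v : Fin (m a0))
    (f : (Kt fun J : Bk m => Mf J.1) → K) :
    ∑ x, f x = ∑ k, f (emb Mf v k) + ∑ x, if x.1.1 = a0 then 0 else f x := by
  rw [Fintype.sum_of_injective _ (emb_inj v) _ (fun x => if x.1.1 = a0 then f x else 0)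
    (fun x hx => if_neg fun e => hx ((mem_range h v x).2 e)) fun k => (if_pos rfl).symm,
    ← sum_add_distrib]
  exact sum_congr rfl fun x _ => by split_ifs <;> simp

theorem exists_checks (hp : ∀ a, (Mf a : ℝ) ≤ (p : ℝ) ^ 2) (hM : ∀ a, (1000 : ℝ) ≤ Mf a)
    (hl : ∀ a, 200 * Real.log p ≤ Mf a) (hs : ∑ a ∈ univ.erase a0, m a * Mf a ≤ Mf a0) (a : A) :
    ∃ (r : ℕ) (H : Fin r → Fin (Mf a) → ZMod p) (G : Fin r → (Kt fun J : Bk m => Mf J.1) → ZMod p),
      (p : ℝ) ^ r ≤ Real.exp (Mf a / 100) ∧ DualFar H ∧ (∀ i x, x.1.1 = a0 → G i x = 0) ∧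
      (a ≠ a0 → G = 0) ∧ ∀ k k', (∀ x, a ≠ a0 ∨ x.1.1 = a0 → k' x = 0) → k ≠ 0 ∨ k' ≠ 0 →
        syn H k + syn G k' = 0 → (Mf a : ℝ) / 10000 < ∑ j, (k j : ℝ) ^ 2 + ∑ j, (k' j : ℝ) ^ 2 := by
  obtain ⟨r, h1, h2⟩ := R.exists_rank (Fact.out : p.Prime).two_le (hl a)
  have h3 : 400 ≤ Fintype.card (Fin (Mf a)) := by
    rw [Fintype.card_fin]
    exact_mod_cast le_trans (by norm_num : (400 : ℝ) ≤ 1000) (hM a)
  by_cases ha : a = a0
  · subst ha
    obtain ⟨H, G, h4, h5⟩ := R.exists_coupling (p := p) (κ := Fin r)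
      (ι' := {x : Kt fun J : Bk m => Mf J.1 // x.1.1 ≠ a}) h3 (by
        rw [Fintype.card_fin, Fintype.card_subtype, card_filter, Fintype.sum_sigma,
          Fintype.sum_sigma]
        refine le_trans (le_of_eq ?_) hs
        rw [← filter_ne', sum_filter]
        exact sum_congr rfl fun b _ => by split_ifs <;> simp)
      (by simpa using hp a) (by simpa using h1) (by simpa using h2)
    refine ⟨r, H, fun i x => if h : x.1.1 ≠ a then G i ⟨x, h⟩ else 0, h2, h4,
      fun i x hx => dif_neg (not_not.2 hx), fun h => absurd rfl h, fun k k' e1 e2 e3 => ?_⟩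
    have e4 : ∀ x, x ∉ Set.range (Subtype.val : {x : Kt fun J : Bk m => Mf J.1 // x.1.1 ≠ a} → _) →
        k' x = 0 := fun x hx => e1 x (Or.inr (by_contra fun h => hx ⟨⟨x, h⟩, rfl⟩))
    have := h5 k (fun x => k' x.1) (e2.imp_right fun h h' => h (funext fun x =>
      by_contra fun k => k (e4 x fun ⟨y, hy⟩ => k (hy ▸ congrFun h' y)))) (by
        rw [← e3]
        congr 1
        exact funext fun i => Fintype.sum_of_injective _ Subtype.val_injective _ _
          (fun x hx => by simp [e4 x hx]) fun x => by simp [x.2])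
    rwa [Fintype.card_fin, Fintype.sum_of_injective _ Subtype.val_injective
      (fun x => (k' x.1 : ℝ) ^ 2) (fun x => (k' x : ℝ) ^ 2) (fun x hx => by simp [e4 x hx])
      fun _ => rfl] at this
  · obtain ⟨H, h4, h5⟩ := R.exists_code (p := p) (κ := Fin r) h3 (by simpa using hp a)
      (by simpa using h1) (by simpa using h2)
    refine ⟨r, H, 0, h2, h4, fun _ _ _ => rfl, fun _ => rfl, fun k k' e1 e2 e3 => ?_⟩
    obtain rfl : k' = 0 := funext fun x => e1 x (Or.inl ha)
    simpa using h5 k (e2.resolve_right fun h => h rfl) (by simpa [R.syn_zero] using e3)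

variable {r : A → ℕ} (P : (a : A) → ι → Fin (m a)) (H : ∀ a, Fin (r a) → Fin (Mf a) → ZMod p)
  (G : ∀ a, Fin (r a) → (Kt fun J : Bk m => Mf J.1) → ZMod p)

/-- one point of each fibre -/
abbrev Om (a : A) : Type := (u : Fin (r a) → ZMod p) → FibA (H a) u

/-- the row with all syndromes zero -/
def k0 (j : ι) (ω : ∀ a, Om H a) (x : Kt fun J : Bk m => Mf J.1) : ℤ :=
  if P x.1.1 j = x.1.2 then rowA (ω x.1.1 0) x.2 else 0

/-- the syndrome -/
def su (j : ι) (ω : ∀ a, Om H a) (a : A) : Fin (r a) → ZMod p := -syn (G a) (k0 P H j ω)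

/-- the row -/
def rho (j : ι) (ω : ∀ a, Om H a) (a : A) : Fin (Mf a) → ℤ := rowA (ω a (su P H G j ω a))

variable {G} (h0 : ∀ a i x, x.1.1 = a0 → G a i x = 0) (h1 : ∀ a, a ≠ a0 → G a = 0)

omit [DecidableEq A] in
include h1 in
theorem rho_ne (j : ι) (ω : ∀ a, Om H a) {a : A} (ha : a ≠ a0) :
    rho P H G j ω a = rowA (ω a 0) :=
  congrArg (fun u => rowA (ω a u)) (funext fun i => by simp [su, syn, h1 a ha])

include h0 h1 in
theorem rho_update (j : ι) (ω : ∀ a, Om H a) (a : A) (t : Om H a) :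
    rho P H G j (update ω a t) a = rowA (t (su P H G j ω a)) := by
  rw [rho, update_self]
  refine congrArg (fun u => rowA (t u)) (congrArg _ (funext fun i => sum_congr rfl fun x _ => ?_))
  by_cases h : x.1.1 = a
  · by_cases ha : a = a0
    · simp [h0 a i x (h.trans ha)]
    · simp [h1 a ha]
  · simp only [k0, update_of_ne h]

end Build

end LawEx

open LawEx in
theorem lawEx_proof : LawExStmt := by
  refine ⟨1000, by norm_num, fun ι A _ _ _ _ a0 m Mf P L hm hL hA hι hC hE hs => ?_⟩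
  have hM : ∀ a, (1000 : ℝ) ≤ Mf a := fun a => le_trans (by linarith) (hC a)
  have hL1 : 1 ≤ Real.exp L := Real.one_le_exp (by linarith)
  obtain ⟨p, hp, p1, p2⟩ := Nat.exists_prime_lt_and_le_two_mul ⌊Real.exp L⌋₊
    (Nat.floor_pos.2 hL1).ne'
  have : Fact p.Prime := ⟨hp⟩
  have p3 : Real.exp L ≤ p := (Nat.floor_lt' hp.ne_zero).1 p1 |>.le
  have p4 : (p : ℝ) ≤ 2 * Real.exp L :=
    le_trans (by exact_mod_cast p2) (mul_le_mul_of_nonneg_left (Nat.floor_le (by linarith)) zero_le_two)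
  have p5 : Real.log p ≤ 2 * L := by
    refine (Real.log_le_iff_le_exp (by linarith)).2 (p4.trans ?_)
    rw [two_mul L, Real.exp_add]
    exact mul_le_mul_of_nonneg_right (by linarith [Real.add_one_le_exp L]) (by linarith)
  choose r H G k1 k2 h0 h1 k5 using exists_checks (p := p) (a0 := a0) (m := m)
    (fun a => (hE a).trans (by nlinarith)) hM (fun a => by linarith [hC a]) hs
  have ne : ∀ a u, Nonempty (FibA (H a) u) := fun a u =>
    R.fibA_nonempty (k2 a) u (half (hM a) (k1 a))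
  have hmin : ∀ a, ∀ γ ∈ GH (H a), γ ≠ 0 → 1 ≤ nsq γ := fun a =>
    B.CharS.min_nsq (by exact_mod_cast le_trans (by norm_num : (256 : ℝ) ≤ 1000) (hM a)) (minD (k2 a))
  have hint : ∀ a (n : Fin (Mf a) → ℤ), (fun k => (n k : ℝ)) ∈ GH (H a) := fun a n =>
    B.CharS.mem_GH.2 ⟨0, n, fun k => by simp [B.CharS.hh_zero]⟩
  have hip : ∀ {N : ℕ} (k : ℝ) (n : Fin N → ℤ) (Δ : Fin N → ℝ), k * ip n Δ = ip n (k • Δ) :=
    fun k n Δ => by simp [ip, mul_sum, mul_left_comm]
  let v0 : Fin (m a0) := ⟨0, by omega⟩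
  let Ht : Fin (r a0) → (Kt fun J : Bk m => Mf J.1) → ZMod p := fun i =>
    extend (emb Mf v0) (H a0 i) (G a0 i)
  have hsyn : ∀ n, syn Ht n = syn (H a0) (fun k => n (emb Mf v0 k)) + syn (G a0) n := fun n => by
    funext i
    simp only [syn, Pi.add_apply]
    rw [sum_split hm v0]
    congr 1
    · exact sum_congr rfl fun k _ => by simp only [Ht, (emb_inj v0).extend_apply]
    · refine sum_congr rfl fun x _ => ?_
      split_ifs with h
      · rw [h0 a0 i x h, zero_mul]
      · simp only [Ht, extend_apply' _ _ _ (mt (mem_range hm v0 x).1 h)]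
  refine ⟨Om H, inferInstance, rho P H G, fun a => GH (H a), 4 * Real.exp (-(10 * L)), lat Ht,
    ⟨fun a => inferInstance, fun j ω ω' a ha e => ?_, fun j ω a => R.rowA_cases _,
      fun j ω a v => ?_, fun j ω a E => ?_, fun j ω a Δ z η e1 e2 e3 => ?_,
      fun j ω a Δ Δ0 z η ha e1 e2 e3 e4 => ?_, hint, hmin, fun j ω a ha => ?_,
      fun a ha => ⟨hint a, fun n hn => ?_⟩, by positivity, ?_⟩,
    ⟨int_mem Ht, fun n hn => ?_⟩, fun x j => dual_lat.2 ?_, fun v γ0 hγ => ?_⟩
  · rw [rho_ne P H h1 j ω ha, rho_ne P H h1 j ω' ha, e]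
  · simp only [rho_update P H h0 h1]
    rw [av_eq, expect_eval (β := FibA (H a)) _ fun e => Real.exp (ip (rowA e) v)]
    have := R.fibA_mgf (k2 a) (su P H G j ω a) (τ := Real.exp (-(10 * L)))
      (small (k1 a) (by rw [Fintype.card_fin]; linarith [hC a]))
      ((Real.exp_le_exp.2 (by linarith)).trans (Real.exp_neg_one_lt_d9.le.trans (by norm_num))) v
    simpa only [ip, nsq, mul_comm (v _)] using this
  · simp only [rho_update P H h0 h1]
    rw [av_eq, expect_eval (β := FibA (H a)) _ fun e => ind (E (rowA e)), ← av_eq, av_ind, av_ind]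
    refine (R.pr_fibA_le (k2 a) _ (half (hM a) (k1 a)) E).trans ?_
    rw [Fintype.card_fin]
    exact mul_le_mul_of_nonneg_right (by linarith [k1 a]) (R.pr_nonneg _)
  · obtain ⟨k, e4, e5⟩ := B.CharS.exists_mult (hmin a) e1 e2 e3
    refine sb_of_cf _ e4 ?_
    simp only [rho_update P H h0 h1, mul_add, hip, ee_add]
    rw [← expect_mul, expect_eval (β := FibA (H a)) _ fun e => ee (ip (rowA e) ((k : ℝ) • Δ)),
      norm_mul, norm_ee, mul_one]
    exact (cf1 (hM a) (k1 a) (k2 a) _ e5).trans (by norm_num)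
  · obtain ⟨k, e5, e6⟩ := B.CharS.exists_mult (hmin a) e1 e2 e3
    obtain ⟨c, c1, c2⟩ := cf0 (hM a0) (k1 a0) (k2 a0) (θ := (k : ℝ) • Δ0) (by
      have : nsq ((k : ℝ) • Δ0) = k ^ 2 * nsq Δ0 := by simp [nsq, mul_sum, mul_pow]
      have h2 : 0 ≤ k * η := by positivity
      rw [this]
      nlinarith [mul_le_mul_of_nonneg_left e4 (sq_nonneg (k : ℝ))])
    refine sb_of_cf _ e5 ?_
    simp only [rho_update P H h0 h1, rho_ne P H h1 _ _ ha, update_of_ne ha, update_self, mul_add,
      hip, ee_add]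
    rw [← expect_mul, norm_mul, norm_ee, mul_one]
    refine joint (f := fun t : Om H a => ee (ip (rowA (t 0)) ((k : ℝ) • Δ)))
      (g := fun t (t' : Om H a0) => ee (ip (rowA (t' (su P H G j (update ω a t) a0))) ((k : ℝ) • Δ0)))
      (fun _ => norm_ee _) ?_ c1 fun t => ?_
    · rw [expect_eval (β := FibA (H a)) _ fun e => ee (ip (rowA e) ((k : ℝ) • Δ))]
      exact cf1 (hM a) (k1 a) (k2 a) _ e6
    · rw [expect_eval (β := FibA (H a0)) _ fun e => ee (ip (rowA e) ((k : ℝ) • Δ0))]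
      exact c2 _
  · rw [rho_ne P H h1 j ω ha]
    exact (B.CharS.dual_iff _ _).2 (congrFun (R.syn_rowA _))
  · refine or_iff_not_imp_left.2 fun h => ?_
    simpa using (k5 a n 0 (fun _ _ => rfl) (Or.inl h) (by
      rw [R.syn_zero, add_zero]
      exact funext ((B.CharS.dual_iff _ _).1 hn))).le
  · have e1 : Real.exp (-(10 * L)) * (Real.exp L * Real.exp L) ≤ 1 / 16 := by
      rw [← Real.exp_add, ← Real.exp_add]
      refine (Real.exp_le_exp.2 (by linarith : -(10 * L) + (L + L) ≤ -8)).trans ?_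
      rw [Real.exp_neg, one_div]
      exact inv_anti₀ (by norm_num)
        (by linarith [Real.quadratic_le_exp_of_nonneg (x := 8) (by norm_num)])
    have e2 : cd A * (cd ι + 1) ≤ Real.exp L * (2 * Real.exp L) :=
      mul_le_mul hA (by linarith) (by unfold cd; positivity) (by linarith)
    nlinarith [mul_le_mul_of_nonneg_left e2 (Real.exp_pos (-(10 * L))).le]
  · refine or_iff_not_imp_left.2 fun h => ?_
    rw [dual_lat, hsyn] at hn
    rw [sum_split hm v0]
    refine (k5 a0 (fun k => n (emb Mf v0 k)) (fun x => if x.1.1 = a0 then 0 else n x)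
      (fun x hx => if_pos (hx.resolve_left fun h => h rfl)) (by_contra fun k => h ?_) ?_).le.trans_eq ?_
    · simp only [not_or, not_not] at k
      funext x
      by_cases e : x.1.1 = a0
      · obtain ⟨y, rfl⟩ := (mem_range hm v0 x).2 e
        exact congrFun k.1 y
      · exact (if_neg e).symm.trans (congrFun k.2 x)
    · rw [← hn]
      congr 1
      refine funext fun i => sum_congr rfl fun x _ => ?_
      by_cases e : x.1.1 = a0
      · simp [h0 a0 i x e]
      · simp only [if_neg e]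
    · congr 1
      exact sum_congr rfl fun x _ => by split_ifs <;> simp
  · have e1 : (fun k => tc (smp P (rho P H G) x) j (emb Mf v0 k)) = rho P H G j (x j) a0 :=
      funext fun k => if_pos (Fin.ext (by have := (P a0 j).2; simp only [emb, v0]; omega))
    rw [hsyn, e1, rho, R.syn_rowA, su, neg_add_eq_zero]
    refine funext fun i => sum_congr rfl fun y _ => ?_
    by_cases e : y.1.1 = a0
    · simp [h0 a0 i y e]
    · simp only [k0, tc, smp, sb, rho_ne P H h1 _ _ e]
  · obtain rfl : v0 = v := Fin.ext (by have := v.2; simp only [v0]; omega)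
    obtain ⟨y, n, h⟩ := hγ
    refine ⟨_, (lat Ht).add_mem (int_mem Ht (extend (emb Mf v0) n 0))
      ((lat Ht).sum_mem (t := univ) fun i _ => (lat Ht).zsmul_mem (row_mem Ht i) (y i)),
      funext fun k => ?_⟩
    rw [h k]
    change _ + (∑ i, y i • fun x => ((Ht i x).val : ℝ) / p) (emb Mf v0 k) = _
    simp only [Finset.sum_apply, Pi.smul_apply, Ht, (emb_inj v0).extend_apply, sum_div,
      mul_div_assoc]
    simp only [zsmul_eq_mul]
    congr 2
    exact (emb_inj v0).extend_apply _ _ k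

end Vale.Agent.P318.C
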