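import Vale.Agent.P318.C.C1c
import Vale.Agent.P318.RSparse

/-!
Track C, part (E): the leave-out estimate for independent rows.
-/

namespace Vale.Agent.P318.C

open Finset
open scoped BigOperators
open M (ind ip nsq lin)
open B (nd cd av Kt tc res zone Bk bk sb)
open B.C1p (av_ind lin_sb)

noncomputable section

namespace Lv

section Det

variable {ι B : Type} [Fintype ι] [DecidableEq ι] [Fintype B] [DecidableEq B] {M : B → ℕ}
  {blk : B → Finset ι} {s : (J : B) → ι → Fin (M J) → ℤ} {L : Finset B} {I I2 : Finset ι}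
  {E : ℝ}

omit [DecidableEq B] in
lemma sol_comb {T : ι → Kt M → ℝ} (h : ∀ l ∈ I2, Sol s L I I2 (Pi.single l 1) (T l)) (q : ι → ℝ) :
    Sol s L I I2 q fun x => ∑ l ∈ I2, q l * T l x := by
  refine ⟨fun x hx => sum_eq_zero fun l hl => by rw [(h l hl).1 x hx, mul_zero], fun x hx => ?_⟩
  have e : ∀ i, lin (tc s) (fun x => ∑ l ∈ I2, q l * T l x) i =
      ∑ l ∈ I2, q l * lin (tc s) (T l) i := fun i => by
    simp only [lin, ip, mul_sum]
    rw [sum_comm]
    exact sum_congr rfl fun _ _ => sum_congr rfl fun _ _ => by ring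
  simp only [e, mul_sum]
  rw [sum_comm]
  refine sum_congr rfl fun l hl => ?_
  have h1 := (h l hl).2 x hx
  rw [sum_eq_single_of_mem l hl fun j _ hj => by simp [Pi.single_eq_of_ne hj]] at h1
  rw [Pi.single_eq_same, one_mul] at h1
  rw [← h1, mul_sum]
  exact sum_congr rfl fun _ _ => by ring

omit [DecidableEq ι] [Fintype ι] [DecidableEq B] in
lemma en_zero (hne : ∀ J, (blk J).Nonempty) {τ : Kt M → ℝ} (h : en blk τ ≤ 0) : τ = 0 := by
  have h0 : ∀ J, 0 ≤ nsq (res τ J) := fun J => sum_nonneg fun _ _ => sq_nonneg _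
  have h1 := (sum_eq_zero_iff_of_nonneg fun J _ => mul_nonneg (Nat.cast_nonneg (blk J).card)
    (h0 J)).1 (le_antisymm h (sum_nonneg fun J _ => mul_nonneg (Nat.cast_nonneg _) (h0 J)))
  funext x
  have h2 := (mul_eq_zero.1 (h1 x.1 (mem_univ _))).resolve_left
    (Nat.cast_ne_zero.2 (hne _).card_pos.ne')
  exact pow_eq_zero_iff two_ne_zero |>.1
    ((sum_eq_zero_iff_of_nonneg fun _ _ => sq_nonneg _).1 h2 x.2 (mem_univ _))

omit [DecidableEq B] in
lemma sol_uniq (hne : ∀ J, (blk J).Nonempty)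
    (H : ∀ y τ, Sol s L I I2 y τ → en blk τ ≤ E * ∑ j ∈ I2, y j ^ 2) {y : ι → ℝ}
    {τ τ' : Kt M → ℝ} (h : Sol s L I I2 y τ) (h' : Sol s L I I2 y τ') : τ = τ' := by
  refine sub_eq_zero.1 (en_zero hne ((H 0 _ ⟨fun x hx => ?_, fun x hx => ?_⟩).trans (by simp)))
  · rw [Pi.sub_apply, h.1 x hx, h'.1 x hx, sub_zero]
  · have h1 := (h.2 x hx).trans (h'.2 x hx).symm
    simp only [lin, ip, Pi.sub_apply, mul_sub, sum_sub_distrib, Pi.zero_apply, zero_mul,
      sum_const_zero] at h1 ⊢
    exact sub_eq_zero.2 h1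

lemma sol_ex (hne : ∀ J, (blk J).Nonempty)
    (H : ∀ y τ, Sol s L I I2 y τ → en blk τ ≤ E * ∑ j ∈ I2, y j ^ 2) (y : ι → ℝ) :
    ∃ τ, Sol s L I I2 y τ := by
  let Φ : (Kt M → ℝ) →ₗ[ℝ] (Kt M → ℝ) :=
    { toFun := fun τ x => if x.1 ∈ L then τ x else ∑ i ∈ Iᶜ, (tc s i x : ℝ) * lin (tc s) τ i
      map_add' := fun τ τ' => funext fun x => by
        simp only [Pi.add_apply, lin, ip, mul_add, sum_add_distrib]
        split_ifs <;> rfl
      map_smul' := fun c τ => funext fun x => by
        simp only [Pi.smul_apply, smul_eq_mul, lin, ip, RingHom.id_apply]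
        split_ifs
        · rfl
        · simp only [mul_sum]
          exact sum_congr rfl fun _ _ => sum_congr rfl fun _ _ => by ring }
  have hinj : Function.Injective Φ := (injective_iff_map_eq_zero Φ).2 fun τ hτ =>
    en_zero hne ((H 0 τ ⟨fun x hx => (if_pos hx).symm.trans (congrFun hτ x),
      fun x hx => ((if_neg hx).symm.trans (congrFun hτ x)).trans (by simp)⟩).trans (by simp))
  obtain ⟨τ, hτ⟩ := LinearMap.injective_iff_surjective.1 hinj
    fun x => if x.1 ∈ L then 0 else ∑ j ∈ I2, y j * tc s j x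
  exact ⟨τ, fun x hx => ((if_pos hx).symm.trans (congrFun hτ x)).trans (if_pos hx),
    fun x hx => ((if_neg hx).symm.trans (congrFun hτ x)).trans (if_neg hx)⟩

/-- the part on the large blocks -/
def big (blk : B → Finset ι) (m : ℝ) (τ : Kt M → ℝ) : Kt M → ℝ :=
  fun x => if m ≤ (blk x.1).card then τ x else 0

omit [DecidableEq ι] [Fintype ι] [DecidableEq B] in
lemma ipBig_eq (m : ℝ) (τ : Kt M → ℝ) (j : ι) :
    ipBig blk s m τ j = ∑ x, (tc s j x : ℝ) * big blk m τ x := by
  rw [ipBig, sum_filter, Fintype.sum_sigma]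
  refine sum_congr rfl fun J _ => ?_
  split_ifs with h <;> simp [big, h, ip, tc, res]

omit [DecidableEq ι] [Fintype ι] [DecidableEq B] in
lemma big_le (m : ℝ) (τ : Kt M → ℝ) : m * ∑ x, big blk m τ x ^ 2 ≤ en blk τ := by
  rw [Fintype.sum_sigma, mul_sum, en]
  refine sum_le_sum fun J _ => ?_
  have h0 : 0 ≤ nsq (res τ J) := sum_nonneg fun _ _ => sq_nonneg _
  by_cases h : m ≤ (blk J).card
  · simp only [big, h, if_true]
    exact mul_le_mul_of_nonneg_right h h0
  · simp only [big, h, if_false]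
    simpa using mul_nonneg (Nat.cast_nonneg _) h0

/-- the solutions for the unit vectors -/
def sol (P : (ι → ℝ) → (Kt M → ℝ) → Prop) (l : ι) : Kt M → ℝ :=
  Classical.epsilon (P (Pi.single l 1))

lemma det (hne : ∀ J, (blk J).Nonempty) (hE : 0 ≤ E) {m : ℝ} (hm : 0 < m)
    (H : ∀ y τ, Sol s L I I2 y τ → en blk τ ≤ E * ∑ j ∈ I2, y j ^ 2) :
    R.OpLe (fun l => big blk m (sol (Sol s L I I2) l)) I2 √(E / m) ∧
    ∀ (I1 : Finset ι) (K : ℝ), R.CrossLe (fun i x => (tc s i x : ℝ))
      (fun l => big blk m (sol (Sol s L I I2) l)) I1 I2 K →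
      ∀ (v y : ι → ℝ) τ, Sol s L I I2 y τ →
      (∑ j ∈ I1, v j * ipBig blk s m τ j) ^ 2 ≤ K ^ 2 * (∑ j ∈ I1, v j ^ 2) * ∑ j ∈ I2, y j ^ 2 := by
  have h1 := sol_comb (T := sol (Sol s L I I2)) fun l _ => Classical.epsilon_spec (sol_ex hne H _)
  have e : ∀ (q : ι → ℝ) x, big blk m (fun x => ∑ l ∈ I2, q l * sol (Sol s L I I2) l x) x =
      ∑ l ∈ I2, q l * big blk m (sol (Sol s L I I2) l) x := fun q x => by
    unfold big
    split_ifs <;> simp
  refine ⟨fun q y => ?_, fun I1 K hK v y τ hτ => ?_⟩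
  · have h2 := (big_le m _).trans (H q _ (h1 q))
    have h3 := R.abs_dot_le (big blk m fun x => ∑ l ∈ I2, q l * sol (Sol s L I I2) l x) y
    refine (le_of_eq ?_).trans (h3.trans (mul_le_mul_of_nonneg_right ?_ (R.nr_nonneg _)))
    · simp only [e, mul_sum, sum_mul, mul_assoc]
      rw [sum_comm]
    · rw [← Real.sqrt_mul (by positivity)]
      refine Real.sqrt_le_sqrt ?_
      rwa [div_mul_eq_mul_div, le_div_iff₀' hm]
  · have h2 := hK v y
    have h3 : ∑ j ∈ I1, v j * ipBig blk s m τ j = ∑ i ∈ I1, ∑ l ∈ I2, v i * y l *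
        ∑ x, (tc s i x : ℝ) * big blk m (sol (Sol s L I I2) l) x := sum_congr rfl fun i _ => by
      rw [sol_uniq hne H hτ (h1 y), ipBig_eq]
      simp only [e, mul_sum]
      rw [sum_comm]
      exact sum_congr rfl fun _ _ => sum_congr rfl fun _ _ => by ring
    rw [h3, ← sq_abs]
    refine (pow_le_pow_left₀ (abs_nonneg _) h2 2).trans (le_of_eq ?_)
    rw [mul_pow, mul_pow, Real.sq_sqrt (by positivity), Real.sq_sqrt (by positivity)]

end Det

lemma av_eq {α : Type} [Fintype α] (f : α → ℝ) : av f = 𝔼 x, f x := by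
  rw [av, Fintype.expect_eq_sum_div_card]

variable {ι A : Type} [Fintype ι] [DecidableEq ι] [Fintype A] [DecidableEq A] {m Mf : A → ℕ}
  {Ω : A → Type} [∀ a, Fintype (Ω a)] {a0 : A}
  {ρ : ι → ((a : A) → Ω a) → (a : A) → Fin (Mf a) → ℤ}
  {Γ : (a : A) → AddSubgroup (Fin (Mf a) → ℝ)} {τ0 : ℝ}

omit [DecidableEq ι] in
lemma sg_step (hL : Law a0 ρ Γ τ0) (j : ι) (v : (a : A) → Fin (Mf a) → ℝ) {S : Finset A}
    (hS : a0 ∉ S) {a : A} (ha : a ∉ S) :
    𝔼 u, Real.exp (∑ b ∈ insert a S, ip (ρ j u b) (v b)) ≤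
      (1 + τ0) * Real.exp (nsq (v a)) * 𝔼 u, Real.exp (∑ b ∈ S, ip (ρ j u b) (v b)) := by
  have := hL.ne
  rw [C1q.expect_upd a, mul_expect]
  refine expect_le_expect fun u _ => ?_
  have e : ∀ t, ∑ b ∈ S, ip (ρ j (Function.update u a t) b) (v b) = ∑ b ∈ S, ip (ρ j u b) (v b) :=
    fun t => sum_congr rfl fun b hb => by
      rw [hL.dep j _ u b (ne_of_mem_of_not_mem hb hS)
        (Function.update_of_ne (ne_of_mem_of_not_mem hb ha) _ _)]
  simp only [sum_insert ha, e, Real.exp_add]
  rw [← expect_mul, ← av_eq]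
  exact mul_le_mul_of_nonneg_right (hL.sg j u a (v a)) (Real.exp_pos _).le

omit [DecidableEq ι] in
lemma sg_row (hL : Law a0 ρ Γ τ0) (π : (a : A) → ι → Fin (m a)) (j : ι) :
    R.SG (fun u (x : Kt fun J : Bk m => Mf J.1) =>
      (tc (M := fun J : Bk m => Mf J.1) (sb π fun a i => ρ i u a) j x : ℝ)) 2 := by
  have := hL.ne
  have t0 := hL.tau_nonneg
  intro V
  let v : (a : A) → Fin (Mf a) → ℝ := fun a => res (M := fun J : Bk m => Mf J.1) V ⟨a, π a j⟩
  have h1 : ∀ S : Finset A, a0 ∉ S → 𝔼 u, Real.exp (∑ b ∈ S, ip (ρ j u b) (v b)) ≤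
      (1 + τ0) ^ S.card * Real.exp (∑ b ∈ S, nsq (v b)) := fun S => by
    induction S using Finset.induction_on with
    | empty => intro _; simp
    | insert a S ha ih =>
      intro hS
      have h2 : a0 ∉ S := fun h => hS (mem_insert_of_mem h)
      refine (sg_step hL j v h2 ha).trans ((mul_le_mul_of_nonneg_left (ih h2)
        (by positivity)).trans (le_of_eq ?_))
      rw [card_insert_of_notMem ha, sum_insert ha, Real.exp_add]
      ring
  have h2 := (sg_step hL j v (notMem_erase a0 univ) (notMem_erase a0 univ)).trans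
    (mul_le_mul_of_nonneg_left (h1 _ (notMem_erase a0 univ)) (by positivity))
  rw [insert_erase (mem_univ a0), mul_mul_mul_comm, ← Real.exp_add, ← pow_succ',
    card_erase_add_one (mem_univ a0), add_sum_erase _ (fun b => nsq (v b)) (mem_univ a0)] at h2
  refine (le_of_eq (expect_congr rfl fun u _ => ?_)).trans (h2.trans (mul_le_mul ?_
    (Real.exp_le_exp.2 ?_) (Real.exp_pos _).le zero_le_two))
  · rw [← lin_sb π (fun a i => ρ i u a) V j]
    simp only [lin, ip, mul_comm]
  · have h3 := hL.tau_le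
    have h4 : (0 : ℝ) ≤ cd ι := Nat.cast_nonneg _
    have h5 : (0 : ℝ) ≤ cd A := Nat.cast_nonneg _
    have h6 : Real.exp (1 / 2) ≤ 2 := by
      rw [← neg_neg (1 / 2 : ℝ), Real.exp_neg, inv_le_comm₀ (Real.exp_pos _) (by norm_num)]
      linarith [Real.add_one_le_exp (-(1 / 2 : ℝ))]
    refine (pow_le_pow_left₀ (by positivity) ((add_comm _ _).trans_le (Real.add_one_le_exp τ0))
      _).trans (le_trans ?_ h6)
    rw [← Real.exp_nat_mul]
    refine Real.exp_le_exp.2 ?_
    change cd A * τ0 ≤ _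
    nlinarith [mul_nonneg (mul_nonneg t0 h5) h4]
  · rw [Fintype.sum_sigma, Fintype.sum_sigma]
    exact sum_le_sum fun a _ => single_le_sum (f := fun w => ∑ k, V ⟨⟨a, w⟩, k⟩ ^ 2)
      (fun _ _ => by positivity) (mem_univ (π a j))

omit [DecidableEq A] in
lemma card_sub (π : (a : A) → ι → Fin (m a)) (a0 : A) (h : ∀ J : Bk m, cd A ≤ (bk π J).card)
    (I : Finset ι) : (univ.filter fun J : Bk m => bk π J ⊆ I).card ≤ I.card := by
  have h0 : 0 < Fintype.card A := Fintype.card_pos_iff.2 ⟨a0⟩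
  refine Nat.le_of_mul_le_mul_right ?_ h0
  calc _ ≤ ∑ J ∈ univ.filter fun J : Bk m => bk π J ⊆ I, (I.filter fun i => π J.1 i = J.2).card := by
        rw [← smul_eq_mul]
        refine card_nsmul_le_sum _ _ _ fun J hJ =>
          le_trans (Nat.cast_le.1 (h J)) (card_le_card ?_)
        exact fun i hi => mem_filter.2 ⟨(mem_filter.1 hJ).2 hi, (mem_filter.1 hi).2⟩
    _ ≤ ∑ J : Bk m, (I.filter fun i => π J.1 i = J.2).card :=
        sum_le_sum_of_subset (filter_subset _ _)
    _ = _ := by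
        rw [Fintype.sum_sigma, mul_comm, ← smul_eq_mul, ← card_univ, ← sum_const]
        exact sum_congr rfl fun a _ => 
          (card_eq_sum_card_fiberwise (f := π a) (t := univ) fun _ _ => mem_univ _).symm

end Lv

open Lv in
theorem leave_proof : LeaveStmt := by
  refine ⟨7840, by norm_num, ?_⟩
  intro ι A _ _ _ _ a0 m Mf Ω _ π ρ Γ τ0 E KX hL hE hn hA hne hK
  have := hL.ne
  have hl : 1 / 2 ≤ Real.log (cd ι) :=
    le_trans (by linarith [Real.log_two_gt_d9]) (Real.log_le_log two_pos hn)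
  set x := 8 * Real.exp (8 - KX / 196) with hx
  have x0 : 0 < x := by positivity
  let bad : Finset ι → Finset ι → Finset (Bk m) → (ι → (a : A) → Ω a) → Prop := fun I I1 L w =>
    R.OpLe (fun l => big (M := fun J : Bk m => Mf J.1) (bk π) √(I.card * cd ι)
      (sol (Sol (smp π ρ w) L I (I \ I1)) l)) (I \ I1) √(E / √(I.card * cd ι)) ∧
    ¬ R.CrossLe (fun i x => (tc (M := fun J : Bk m => Mf J.1) (smp π ρ w) i x : ℝ))
      (fun l => big (M := fun J : Bk m => Mf J.1) (bk π) √(I.card * cd ι)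
        (sol (Sol (smp π ρ w) L I (I \ I1)) l)) I1 (I \ I1) √(KX * E * √(I.card / cd ι))
  rw [av_ind]
  refine (R.pr_mono (F := fun w => ∃ I ∈ (univ : Finset ι).powerset.erase ∅, ∃ I1 ∈ I.powerset,
    ∃ L ∈ (univ.filter fun J : Bk m => bk π J ⊆ I).powerset, bad I I1 L w) fun w hw => ?_).trans
    (((R.pr_exists_mem_le _ _).trans (sum_le_sum (g := fun I => 2 * x ^ I.card) fun I hI => ?_)).trans
      ?_)
  · by_contra hc
    refine hw fun I I1 L h1 h2 H v y τ hτ => ?_
    rcases I.eq_empty_or_nonempty with rfl | hI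
    · simp [subset_empty.1 h1]
    have hI0 : (0 : ℝ) < I.card := Nat.cast_pos.2 hI.card_pos
    obtain ⟨d1, d2⟩ := det hne hE.le (m := √(I.card * cd ι)) (by positivity) H
    have h3 := d2 I1 √(KX * E * √(I.card / cd ι)) (by
      by_contra h4
      exact hc ⟨I, mem_erase.2 ⟨hI.ne_empty, mem_powerset.2 (subset_univ _)⟩, I1,
        mem_powerset.2 h1, L, mem_powerset.2 fun J hJ => mem_filter.2 ⟨mem_univ _,
          (subset_biUnion_of_mem _ hJ).trans h2⟩, d1, h4⟩) v y τ hτ
    rwa [Real.sq_sqrt (by have : 0 ≤ KX := by linarith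
                          positivity)] at h3
  · have hI0 : (0 : ℝ) < I.card :=
      Nat.cast_pos.2 (nonempty_iff_ne_empty.2 (mem_erase.1 hI).1).card_pos
    have hn0 : 0 < cd ι := by linarith
    have hK0 : 0 ≤ KX := by linarith
    refine (R.pr_exists_mem_le_card_mul _ _
      (δ := 2 ^ I.card * (2 * 2 ^ I.card * Real.exp (8 - KX / 196) ^ I.card))
      fun I1 h1 => ?_).trans (le_of_eq ?_)
    · refine (R.pr_exists_mem_le_card_mul _ _
        (δ := 2 * 2 ^ I.card * Real.exp (8 - KX / 196) ^ I.card) fun L _ => ?_).trans ?_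
      · have h2 := R.pr_cross_freeze (S := I1) (T := I \ I1) one_le_two
          (fun j _ => sg_row hL π j) (fun w l => big (M := fun J : Bk m => Mf J.1) (bk π)
            √(I.card * cd ι) (sol (Sol (smp π ρ w) L I (I \ I1)) l))
          (fun w w0 l _ => by
            have e : ∀ i, i ∉ I1 → tc (M := fun J : Bk m => Mf J.1)
                (smp π ρ (I1.piecewise w w0)) i = tc (smp π ρ w0) i := fun i hi => by
              funext z
              simp only [tc, smp, sb, piecewise_eq_of_notMem _ _ _ hi]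
            congr 2
            funext y τ
            unfold Sol
            congr 1
            refine propext (forall₂_congr fun z _ => Eq.congr
              (sum_congr rfl fun i hi => ?_) (sum_congr rfl fun i hi => ?_))
            · simp only [lin, e i fun h => mem_compl.1 hi (mem_powerset.1 h1 h)]
            · rw [e i (mem_sdiff.1 hi).2])
          (K := √(KX * E * √(I.card / cd ι))) (K0 := √(E / √(I.card * cd ι)))
          (Real.sqrt_nonneg _) (by positivity)
        refine h2.trans ?_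
        have c1 := card_le_card (mem_powerset.1 h1)
        have c2 : (I1.card : ℝ) + (I \ I1).card = I.card := by
          rw [add_comm]
          exact_mod_cast card_sdiff_add_card_eq_card (mem_powerset.1 h1)
        have c3 : √(I.card / cd ι) * √(I.card * cd ι) = I.card := by
          rw [← Real.sqrt_mul (by positivity), ← Real.sqrt_mul_self hI0.le]
          congr 1
          rw [Real.sqrt_mul_self hI0.le]
          field_simp
        rw [← Real.exp_nat_mul, Real.sq_sqrt (by positivity), Real.sq_sqrt (by positivity),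
          show KX * E * √(I.card / cd ι) / (196 * (E / √(I.card * cd ι))) =
            KX * (√(I.card / cd ι) * √(I.card * cd ι)) / 196 by field_simp, c3]
        gcongr
        · exact one_le_two
        · linarith
      · rw [card_powerset]
        push_cast
        gcongr
        · exact one_le_two
        · exact card_sub π a0 hA I
    · rw [card_powerset, hx, mul_pow, show (8 : ℝ) = 2 * 2 * 2 by norm_num, mul_pow, mul_pow]
      push_cast
      ring
  · have h2 : ∑ T ∈ (univ : Finset ι).powerset, x ^ T.card = (x + 1) ^ (univ : Finset ι).card := by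
      have := prod_add (fun _ : ι => x) (fun _ => 1) univ
      simp only [prod_const, one_pow, mul_one] at this
      exact this.symm
    have h3 : (x + 1) ^ (univ : Finset ι).card ≤ Real.exp (cd ι * x) :=
      (pow_le_pow_left₀ (by positivity) (Real.add_one_le_exp x) _).trans_eq
        (Real.exp_nat_mul _ _).symm
    have h4 : cd ι * x ≤ 1 / 40 := by
      have h5 : Real.exp (8 - KX / 196) ≤ Real.exp (-(Real.log (cd ι) + 11)) :=
        Real.exp_le_exp.2 (by linarith)
      have h6 : (2 : ℝ) ^ 11 ≤ Real.exp 11 := by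
        rw [show (11 : ℝ) = (11 : ℕ) * 1 by norm_num, Real.exp_nat_mul]
        exact pow_le_pow_left₀ zero_le_two (by linarith [Real.add_one_le_exp (1 : ℝ)]) _
      rw [Real.exp_neg, Real.exp_add, Real.exp_log (by linarith), ← one_div,
        le_div_iff₀ (by positivity)] at h5
      have h7 : 0 ≤ cd ι * Real.exp (8 - KX / 196) := by positivity
      rw [hx]
      nlinarith [mul_le_mul_of_nonneg_left h6 h7]
    have h5 : Real.exp (1 / 40) ≤ 40 / 39 := by
      rw [← neg_neg (1 / 40 : ℝ), Real.exp_neg, inv_le_comm₀ (Real.exp_pos _) (by norm_num)]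
      linarith [Real.add_one_le_exp (-(1 / 40 : ℝ))]
    have h6 := add_sum_erase _ (fun T : Finset ι => x ^ T.card) (empty_mem_powerset univ)
    rw [← mul_sum]
    simp only [card_empty, pow_zero] at h6
    linarith [Real.exp_le_exp.2 h4]

end

end Vale.Agent.P318.C
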