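import Vale.Agent.P318.C.EStmt
import Vale.Agent.P318.B.C1
import Vale.Agent.P318.RKhin

/-! Track C, existence: the lower bound for the Gram matrix of the system. -/

namespace Vale.Agent.P318.C

open Finset
open M (ind ip nsq lin)
open B (nd cd av Op Kt tc res Bk bk sb)
open R (ballZ)
open scoped BigOperators

namespace LowGp

section Det

variable {ι κ : Type} [Fintype κ]

lemma nsq_nonneg (v : κ → ℝ) : 0 ≤ nsq v := sum_nonneg fun _ _ => sq_nonneg _

lemma nsq_le (u v : κ → ℝ) : nsq u ≤ 2 * nsq v + 2 * nsq (u - v) := by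
  simp only [nsq, mul_sum, ← sum_add_distrib, Pi.sub_apply]
  exact sum_le_sum fun k _ => by nlinarith [sq_nonneg (u k - 2 * v k)]

lemma nsq_comm (u v : κ → ℝ) : nsq (u - v) = nsq (v - u) :=
  sum_congr rfl fun k _ => by simp only [Pi.sub_apply]; ring

lemma nsq_smul (c : ℝ) (v : κ → ℝ) : nsq (c • v) = c ^ 2 * nsq v := by
  simp only [nsq, mul_sum, Pi.smul_apply, smul_eq_mul, mul_pow]

lemma ip_smul (r : κ → ℤ) (c : ℝ) (v : κ → ℝ) : ip r (c • v) = c * ip r v := by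
  simp only [ip, mul_sum, Pi.smul_apply, smul_eq_mul]
  exact sum_congr rfl fun _ _ => by ring

lemma ip_sub (r : κ → ℤ) (u v : κ → ℝ) : ip r (u - v) = ip r u - ip r v := by
  simp only [ip, ← sum_sub_distrib, Pi.sub_apply, mul_sub]

/-- the points of the net -/
noncomputable def np (Q : ℝ) (k : κ → ℤ) : κ → ℝ := (√Q)⁻¹ • fun i => (k i : ℝ)

lemma low_of_net [DecidableEq κ] (J : Finset ι) (r : ι → κ → ℤ) {P : ℝ} (hM : 1 ≤ cd κ)
    (hP : 1 ≤ P) (hop : Op J r (2 * P * J.card))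
    (h : ∀ k ∈ ballZ κ ⌈10 ^ 6 * P * cd κ⌉₊, 1 / 25 ≤ nsq (np (10 ^ 6 * P * cd κ) k) →
      nsq (np (10 ^ 6 * P * cd κ) k) ≤ 3 / 10 → (J.card : ℝ) / 40 ≤
        (J.filter fun j => 1 / 50 ≤ |ip (r j) (np (10 ^ 6 * P * cd κ) k)|).card) (v : κ → ℝ) :
    J.card / 50000 * nsq v ≤ ∑ j ∈ J, ip (r j) v ^ 2 := by
  have key : ∀ v : κ → ℝ, nsq v = 1 / 8 → (J.card : ℝ) / 400000 ≤ ∑ j ∈ J, ip (r j) v ^ 2 := by
    intro v hv
    set Q : ℝ := 10 ^ 6 * P * cd κ with hQ
    have hQ0 : 0 < Q := by positivity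
    have hq : 0 < √Q := Real.sqrt_pos.2 hQ0
    let k : κ → ℤ := fun i => round (√Q * v i)
    have h1 : P * nsq (v - np Q k) ≤ 1 / (4 * 10 ^ 6) := by
      have e : v - np Q k = (√Q)⁻¹ • fun i => √Q * v i - k i := funext fun i => by
        simp only [np, Pi.sub_apply, Pi.smul_apply, smul_eq_mul]
        field_simp
      have h2 : nsq (fun i => √Q * v i - k i) ≤ cd κ / 4 := by
        refine (sum_le_card_nsmul _ _ (1 / 4) fun i _ => ?_).trans (le_of_eq ?_)
        · have := abs_le.1 (abs_sub_round (√Q * v i))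
          nlinarith [this.1, this.2]
        · rw [card_univ, nsmul_eq_mul, cd]; ring
      rw [e, nsq_smul, inv_pow, Real.sq_sqrt hQ0.le]
      calc _ ≤ P * (Q⁻¹ * (cd κ / 4)) := by gcongr
        _ = _ := by rw [hQ]; field_simp
    have h0 := nsq_nonneg (v - np Q k)
    have h2 : nsq (v - np Q k) ≤ 1 / (4 * 10 ^ 6) := by nlinarith
    have h3 := nsq_le v (np Q k)
    have h4 := nsq_le (np Q k) v
    rw [nsq_comm] at h4
    have h5 : k ∈ ballZ κ ⌈Q⌉₊ := by
      have h6 : nsq (np Q k) ≤ 1 := by linarith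
      rw [np, nsq_smul, inv_pow, Real.sq_sqrt hQ0.le, inv_mul_le_iff₀ hQ0, mul_one] at h6
      have h7 : ((∑ i, k i ^ 2 : ℤ) : ℝ) ≤ ((⌈Q⌉₊ : ℕ) : ℝ) := by
        push_cast
        exact h6.trans (Nat.le_ceil Q)
      exact R.mem_ballZ.2 (by exact_mod_cast h7)
    have h6 := h k h5 (by linarith) (by linarith)
    have h7 : ((J.filter fun j => 1 / 50 ≤ |ip (r j) (np Q k)|).card : ℝ) * (1 / 2500) ≤
        ∑ j ∈ J, ip (r j) (np Q k) ^ 2 := by
      rw [← nsmul_eq_mul]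
      refine (card_nsmul_le_sum _ _ _ fun j hj => ?_).trans
        (sum_le_sum_of_subset_of_nonneg (filter_subset _ _) fun _ _ _ => sq_nonneg _)
      have := (mem_filter.1 hj).2
      rw [← sq_abs]
      nlinarith
    have h8 : ∑ j ∈ J, ip (r j) (np Q k) ^ 2 ≤
        2 * ∑ j ∈ J, ip (r j) v ^ 2 + 2 * ∑ j ∈ J, ip (r j) (v - np Q k) ^ 2 := by
      simp only [mul_sum, ← sum_add_distrib, ip_sub]
      exact sum_le_sum fun j _ => by nlinarith [sq_nonneg (2 * ip (r j) v - ip (r j) (np Q k))]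
    have h9 := hop (v - np Q k)
    have h10 := mul_le_mul_of_nonneg_left h1 (Nat.cast_nonneg (α := ℝ) J.card)
    have h11 := Nat.cast_nonneg (α := ℝ) J.card
    linarith
  rcases (nsq_nonneg v).eq_or_lt with h0 | h0
  · rw [← h0, mul_zero]
    exact sum_nonneg fun _ _ => sq_nonneg _
  have h1 : ((√(8 * nsq v))⁻¹) ^ 2 = (8 * nsq v)⁻¹ := by
    rw [inv_pow, Real.sq_sqrt (by positivity)]
  have h2 := key ((√(8 * nsq v))⁻¹ • v) (by rw [nsq_smul, h1]; field_simp)
  simp only [ip_smul, mul_pow, h1, ← mul_sum] at h2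
  rw [le_inv_mul_iff₀ (by positivity)] at h2
  linarith

end Det

variable {ι A : Type} [Fintype ι] [DecidableEq ι] [Fintype A] [DecidableEq A] {m Mf : A → ℕ}
  {Ω : A → Type} [∀ a, Fintype (Ω a)] {a0 : A}
  {ρ : ι → ((a : A) → Ω a) → (a : A) → Fin (Mf a) → ℤ}
  {Γ : (a : A) → AddSubgroup (Fin (Mf a) → ℝ)} {τ0 : ℝ}

lemma pr_block (L : Law a0 ρ Γ τ0) (a : A) (J : Finset ι) {Δ : Fin (Mf a) → ℝ}
    (h1 : 1 / 25 ≤ nsq Δ) (h2 : nsq Δ ≤ 3 / 10) :
    R.pr (fun x : ι → (a : A) → Ω a =>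
      ((J.filter fun j => 1 / 50 ≤ |ip (ρ j (x j) a) Δ|).card : ℝ) ≤ J.card / 40) ≤
      Real.exp (-((J.card : ℝ) / 160)) := by
  have := L.ne
  have h := R.pr_card_le_le (Ω := fun _ : ι => (a : A) → Ω a) J
    (fun j ω => 1 / 50 ≤ |ip (ρ j ω a) Δ|) (q := 1 / 20) fun j _ => by
      refine B.C1p.le_pr_of_update a _ fun ω => ?_
      have h3 := L.sb j ω a Δ 0 (1 / 5) (by norm_num) (by norm_num) fun γ hγ => by
        rcases eq_or_ne γ 0 with rfl | h0
        · rw [sub_zero]; linarith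
        · have h4 := L.min a γ hγ h0
          have h5 := nsq_le γ Δ
          rw [nsq_comm] at h5
          linarith
      rw [B.C1p.av_ind] at h3
      refine h3.trans (R.pr_mono fun t ht => ?_)
      have h4 := round_le (ip (ρ j (Function.update ω a t) a) Δ) 0
      rw [add_zero, nd] at ht
      rw [Int.cast_zero, sub_zero] at h4
      linarith
  refine le_trans (R.pr_mono fun x hx => by linarith) (h.trans (le_of_eq ?_))
  congr 1
  ring

lemma pr_low (L : Law a0 ρ Γ τ0) (a : A) (J : Finset ι) {P : ℝ} (hP : 1 ≤ P) (hM : 1 ≤ Mf a)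
    (hJ : 10 ^ 9 * P * Mf a ≤ J.card) :
    R.pr (fun x : ι → (a : A) → Ω a => Op J (fun j => ρ j (x j) a) (2 * P * J.card) ∧
      ¬∀ v, J.card / 50000 * nsq v ≤ ∑ j ∈ J, ip (ρ j (x j) a) v ^ 2) ≤
      Real.exp (-(Mf a : ℝ)) := by
  have hc : cd (Fin (Mf a)) = Mf a := by simp [cd]
  have hM' : (1 : ℝ) ≤ Mf a := by exact_mod_cast hM
  set Q : ℝ := 10 ^ 6 * P * cd (Fin (Mf a)) with hQ
  refine le_trans (R.pr_mono (F := fun x => ∃ k ∈ ballZ (Fin (Mf a)) ⌈Q⌉₊,
    1 / 25 ≤ nsq (np Q k) ∧ nsq (np Q k) ≤ 3 / 10 ∧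
      ((J.filter fun j => 1 / 50 ≤ |ip (ρ j (x j) a) (np Q k)|).card : ℝ) ≤ J.card / 40)
    fun x hx => ?_) ((R.pr_exists_mem_le_card_mul _ _ (δ := Real.exp (-((J.card : ℝ) / 160)))
      fun k _ => ?_).trans ?_)
  · by_contra h
    push Not at h
    exact hx.2 (low_of_net J _ (hc ▸ hM') hP hx.1 fun k hk h1 h2 => (h k hk h1 h2).le)
  · by_cases h : 1 / 25 ≤ nsq (np Q k) ∧ nsq (np Q k) ≤ 3 / 10
    · exact (R.pr_mono fun x hx => hx.2.2).trans (pr_block L a J h.1 h.2)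
    · refine (R.pr_mono (F := fun _ => False) fun x hx => h ⟨hx.1, hx.2.1⟩).trans ?_
      simp [R.pr, (Real.exp_pos _).le]
  · refine (mul_le_mul_of_nonneg_right (R.card_ballZ_le_exp _ _) (Real.exp_pos _).le).trans ?_
    rw [← Real.exp_add, Real.exp_le_exp, Fintype.card_fin]
    have h1 := (Nat.ceil_lt_add_one (show 0 ≤ Q by rw [hQ, hc]; positivity)).le
    rw [hQ, hc] at h1 ⊢
    have h2 : (Mf a : ℝ) ≤ P * Mf a := le_mul_of_one_le_left (by positivity) hP
    generalize (⌈10 ^ 6 * P * (Mf a : ℝ)⌉₊ : ℝ) = z at h1 ⊢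
    rw [mul_assoc] at h1 hJ
    generalize P * (Mf a : ℝ) = w at h1 h2 hJ
    linarith

lemma pr_freeze [∀ a, Nonempty (Ω a)] (a : A) (E : (ι → (a : A) → Ω a) → Prop) {δ : ℝ}
    (hδ : 0 ≤ δ)
    (h : ∀ x : ι → (a : A) → Ω a,
      R.pr (fun t : ι → Ω a => E fun j => Function.update (x j) a (t j)) ≤ δ) : R.pr E ≤ δ := by
  let e : (ι → (a : A) → Ω a) × (ι → Ω a) ≃ (ι → (a : A) → Ω a) × (ι → Ω a) :=
    { toFun := fun p => (fun j => Function.update (p.1 j) a (p.2 j), fun j => p.1 j a)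
      invFun := fun p => (fun j => Function.update (p.1 j) a (p.2 j), fun j => p.1 j a)
      left_inv := fun p => by simp
      right_inv := fun p => by simp }
  have h1 := R.pr_equiv e fun p => E p.1
  have h2 : R.pr (fun p : (ι → (a : A) → Ω a) × (ι → Ω a) => E p.1) = R.pr E := by
    rw [R.pr_prod]
    unfold R.pr
    exact expect_congr rfl fun u _ => by
      by_cases hu : E u <;> simp [hu, expect_const (univ_nonempty (α := ι → Ω a))]
  rw [← h2, ← h1]
  exact R.pr_prod_le _ hδ h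

variable (π : (a : A) → ι → Fin (m a))

/-- the part of the drift which comes from one partition -/
def th (a : A) (r : ι → Fin (Mf a) → ℤ) (y : Fin (m a) × Fin (Mf a) → ℝ) (j : ι) : ℝ :=
  ip (r j) fun k => y (π a j, k)

omit [DecidableEq ι] [Fintype A] [DecidableEq A] in
lemma cross_net (a a' : A) (r : ι → Fin (Mf a) → ℤ) (r' : ι → Fin (Mf a') → ℤ) {t : ℝ}
    (ht : 0 ≤ t)
    (h : ∀ k ∈ ballZ _ (7 * Fintype.card (Fin (m a) × Fin (Mf a))),
      ∀ l ∈ ballZ _ (7 * Fintype.card (Fin (m a') × Fin (Mf a'))),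
      |∑ j, th π a r (fun p => k p) j * th π a' r' (fun p => l p) j| ≤
        √t * √(Fintype.card (Fin (m a) × Fin (Mf a)) : ℝ) *
          √(Fintype.card (Fin (m a') × Fin (Mf a')) : ℝ)) (y y') :
    (∑ j, th π a r y j * th π a' r' y' j) ^ 2 ≤ t * nsq y * nsq y' := by
  have e1 : ∀ (a : A) (r : ι → Fin (Mf a) → ℤ) y j, th π a r y j =
      ∑ p, y p * if π a j = p.1 then (r j p.2 : ℝ) else 0 := fun a r y j => by
    rw [Fintype.sum_prod_type, sum_comm]
    simp [th, ip, mul_comm]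
  have e2 : ∀ y y', R.bil (fun p p' => ∑ j, (if π a j = p.1 then (r j p.2 : ℝ) else 0) *
      if π a' j = p'.1 then (r' j p'.2 : ℝ) else 0) y y' =
      ∑ j, th π a r y j * th π a' r' y' j := fun y y' => by
    simp only [e1, sum_mul_sum]
    rw [sum_comm]
    refine sum_congr rfl fun p _ => ?_
    rw [sum_comm]
    refine sum_congr rfl fun p' _ => ?_
    rw [mul_sum, sum_mul]
    exact sum_congr rfl fun j _ => by ring
  have h1 := R.bil_le_of_net _ (Real.sqrt_nonneg t) (fun k hk l hl => (e2 _ _).symm ▸ h k hk l hl)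
    y y'
  rw [e2] at h1
  have h2 := pow_le_pow_left₀ (abs_nonneg _) h1 2
  rwa [sq_abs, mul_pow, mul_pow, Real.sq_sqrt ht, R.nr_sq, R.nr_sq] at h2

omit [DecidableEq ι] [Fintype A] [DecidableEq A] in
lemma var_le (a a' : A) (r' : ι → Fin (Mf a') → ℤ) {W : ℝ}
    (h : ∀ u u', Op (univ.filter fun j => (π a j, π a' j) = (u, u')) r' W)
    (y : Fin (m a) × Fin (Mf a) → ℝ) (y') :
    ∑ j, th π a' r' y' j ^ 2 * nsq (fun k => y (π a j, k)) ≤ W * nsq y * nsq y' := by
  rw [← sum_fiberwise univ fun j => (π a j, π a' j), nsq, nsq, Fintype.sum_prod_type,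
    Fintype.sum_prod_type, Fintype.sum_prod_type, mul_assoc, sum_mul_sum, mul_sum]
  refine sum_le_sum fun u _ => ?_
  rw [mul_sum]
  refine sum_le_sum fun u' _ => ?_
  have h1 := mul_le_mul_of_nonneg_right (h u u' fun k => y' (u', k)) (nsq_nonneg fun k => y (u, k))
  rw [sum_mul] at h1
  refine le_trans (le_of_eq (sum_congr rfl fun j hj => ?_)) (h1.trans (le_of_eq ?_))
  · obtain ⟨e, e'⟩ := Prod.mk.inj (mem_filter.1 hj).2
    rw [th, e, e']
  · simp only [nsq]; ring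

lemma pr_cross (L : Law a0 ρ Γ τ0) (hτ : (1 + τ0) ^ Fintype.card ι ≤ 2) {a a' : A} (h : a ≠ a')
    (h' : a' ≠ a0) {W : ℝ} (hW : 0 < W) (hd : 1 ≤ m a * Mf a) (hd' : 1 ≤ m a' * Mf a') :
    R.pr (fun x : ι → (a : A) → Ω a =>
      (∀ u u', Op (univ.filter fun j => (π a j, π a' j) = (u, u')) (fun j => ρ j (x j) a') W) ∧
      ¬∀ y y', (∑ j, th π a (fun j => ρ j (x j) a) y j * th π a' (fun j => ρ j (x j) a') y' j) ^ 2 ≤
        1764 * W * (m a * Mf a + m a' * Mf a') * nsq y * nsq y') ≤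
      4 * Real.exp (-((m a : ℝ) * Mf a + m a' * Mf a')) := by
  have := L.ne
  refine pr_freeze a _ (by positivity) fun x => ?_
  have e : ∀ t : ι → Ω a, (fun j => ρ j (Function.update (x j) a (t j)) a') =
      fun j => ρ j (x j) a' := fun t => funext fun j =>
    L.dep j _ _ a' h' (Function.update_of_ne h.symm _ _)
  simp only [e]
  by_cases h0 : ∀ u u', Op (univ.filter fun j => (π a j, π a' j) = (u, u'))
    (fun j => ρ j (x j) a') W
  swap
  · refine (R.pr_mono (F := fun _ => False) fun x hx => h0 hx.1).trans ?_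
    simp [R.pr, (Real.exp_pos _).le]
  have c1 : (Fintype.card (Fin (m a) × Fin (Mf a)) : ℝ) = m a * Mf a := by simp
  have c2 : (Fintype.card (Fin (m a') × Fin (Mf a')) : ℝ) = m a' * Mf a' := by simp
  have d1 : (1 : ℝ) ≤ m a * Mf a := by exact_mod_cast hd
  have d2 : (1 : ℝ) ≤ m a' * Mf a' := by exact_mod_cast hd'
  set d : ℝ := m a * Mf a
  set d' : ℝ := m a' * Mf a'
  refine le_trans (R.pr_mono (F := fun t => ∃ p ∈
      ballZ _ (7 * Fintype.card (Fin (m a) × Fin (Mf a))) ×ˢ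
        ballZ _ (7 * Fintype.card (Fin (m a') × Fin (Mf a'))),
      √(1764 * W * (d + d')) * √d * √d' ≤
        |∑ j, th π a (fun j => ρ j (Function.update (x j) a (t j)) a) (fun q => p.1 q) j *
          th π a' (fun j => ρ j (x j) a') (fun q => p.2 q) j|) fun t ht => ?_)
    ((R.pr_exists_mem_le_card_mul _ _ (δ := 2 * (2 * Real.exp (-(9 * (d + d')))))
      fun p hp => ?_).trans ?_)
  · by_contra h1
    push Not at h1
    refine ht.2 (cross_net π a a' _ _ (by positivity) fun k hk l hl => ?_)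
    rw [c1, c2]
    exact (h1 (k, l) (mem_product.2 ⟨hk, hl⟩)).le
  · have n1 : nsq (fun q => (p.1 q : ℝ)) ≤ 7 * d := by
      have := R.mem_ballZ.1 (mem_product.1 hp).1
      rw [← c1, nsq]
      exact_mod_cast this
    have n2 : nsq (fun q => (p.2 q : ℝ)) ≤ 7 * d' := by
      have := R.mem_ballZ.1 (mem_product.1 hp).2
      rw [← c2, nsq]
      exact_mod_cast this
    refine (R.pr_abs_ge_le_of_mgf _ (A := 2) (V := W * (7 * d) * (7 * d')) (by positivity)
      (by positivity) fun s => ?_).trans (le_of_eq ?_)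
    · simp only [mul_sum]
      refine (R.expect_exp_sum_le (Ω := fun _ : ι => Ω a) univ (fun j u => s *
        (ip (ρ j (Function.update (x j) a u) a) (fun k => (p.1 (π a j, k) : ℝ)) *
          th π a' (fun j => ρ j (x j) a') (fun q => p.2 q) j))
        (fun j => (1 + τ0) * Real.exp (s ^ 2 * (th π a' (fun j => ρ j (x j) a')
          (fun q => p.2 q) j ^ 2 * nsq fun k => (p.1 (π a j, k) : ℝ)))) fun j _ => ?_).trans ?_
      · have h2 := L.sg j (x j) a ((s * th π a' (fun j => ρ j (x j) a') (fun q => p.2 q) j) •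
          fun k => (p.1 (π a j, k) : ℝ))
        rw [av, ← Fintype.expect_eq_sum_div_card, nsq_smul, mul_pow, mul_assoc] at h2
        simpa only [ip_smul, mul_assoc, mul_comm (ip _ _)] using h2
      · rw [prod_mul_distrib, prod_const, ← Real.exp_sum, ← mul_sum, card_univ]
        have h2 := (var_le π a a' _ h0 (fun q => p.1 q) fun q => p.2 q).trans
          (mul_le_mul (mul_le_mul_of_nonneg_left n1 hW.le) n2 (nsq_nonneg _) (by positivity))
        gcongr
    · rw [mul_pow, mul_pow, Real.sq_sqrt (by positivity), Real.sq_sqrt (by positivity),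
        Real.sq_sqrt (by positivity)]
      congr 4
      field_simp
      ring
  · rw [card_product, Nat.cast_mul]
    have b1 := R.card_ballZ_le_exp (Fin (m a) × Fin (Mf a))
      (7 * Fintype.card (Fin (m a) × Fin (Mf a)))
    have b2 := R.card_ballZ_le_exp (Fin (m a') × Fin (Mf a'))
      (7 * Fintype.card (Fin (m a') × Fin (Mf a')))
    rw [Nat.cast_mul, c1] at b1
    rw [Nat.cast_mul, c2] at b2
    refine (mul_le_mul_of_nonneg_right (mul_le_mul b1 b2 (Nat.cast_nonneg _) (Real.exp_pos _).le)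
      (by positivity)).trans (le_of_eq ?_)
    rw [← Real.exp_add, mul_left_comm, mul_left_comm (Real.exp _), ← Real.exp_add, ← mul_assoc]
    congr 2
    · norm_num
    · push_cast; ring

lemma numer {K Lg a n m m' M M' s b : ℝ} (hK : 1 ≤ K) (hL : 1 ≤ Lg) (ha : 1 ≤ a) (hn : 0 < n)
    (hm : 1 ≤ m) (hm' : 1 ≤ m') (hM : 0 ≤ M) (hM' : 0 ≤ M') (hs : s ^ 2 = m) (hs1 : 1 ≤ s)
    (h1 : s * (m * M) ≤ b * n) (h2 : s * (m' * M') ≤ b * n) (hb0 : 0 ≤ b)
    (hb : 10 ^ 16 * K * Lg * a ^ 2 * b ≤ 1) :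
    1764 * (K * (M' + Lg * (8 * n / (m * m')))) * (m * M + m' * M') * (4 * m * m') ≤
      (1 / (10 ^ 5 * a)) ^ 2 * n ^ 2 := by
  have e : 1764 * (K * (M' + Lg * (8 * n / (m * m')))) * (m * M + m' * M') * (4 * m * m') =
      7056 * K * (s * (m' * M') * (s * (m * M) + s * (m' * M')) +
        8 * Lg * (n * (m * M + m' * M'))) := by
    rw [← hs]
    field_simp
    ring
  have h3 : m * M ≤ b * n := (le_mul_of_one_le_left (by positivity) hs1).trans h1
  have h4 : m' * M' ≤ b * n := (le_mul_of_one_le_left (by positivity) hs1).trans h2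
  have h5 : 1 ≤ K * Lg * a ^ 2 := one_le_mul_of_one_le_of_one_le
    (one_le_mul_of_one_le_of_one_le hK hL) (one_le_pow₀ ha)
  have h6 : b ≤ 1 := by nlinarith
  have h7 : b * n ≤ Lg * n := by gcongr; linarith
  rw [e, div_pow, one_pow, div_mul_eq_mul_div, one_mul, le_div_iff₀ (by positivity)]
  calc _ ≤ 7056 * K * (Lg * n * (b * n + b * n) + 8 * Lg * (n * (b * n + b * n))) *
        (10 ^ 5 * a) ^ 2 := by
        have h8 := h2.trans h7
        gcongr 7056 * K * (?_ * (?_ + ?_) + 8 * Lg * (n * (?_ + ?_))) * _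
    _ = 127008 / 10 ^ 6 * (10 ^ 16 * K * Lg * a ^ 2 * b) * n ^ 2 := by ring
    _ ≤ 1 * 1 * n ^ 2 := by gcongr; norm_num
    _ = _ := by ring

omit [DecidableEq ι] in
/-- the deterministic part -/
lemma low_det (r : (a : A) → ι → Fin (Mf a) → ℤ) (hA : 1 ≤ cd A)
    (h1 : ∀ (J : Bk m) v, (bk π J).card / 50000 * nsq v ≤ ∑ j ∈ bk π J, ip (r J.1 j) v ^ 2)
    (h2 : ∀ a a', a ≠ a' → ∀ y y' (e e' : ℝ), cd ι * nsq y ≤ 2 * m a * e →
      cd ι * nsq y' ≤ 2 * m a' * e' → (∑ j, th π a (r a) y j * th π a' (r a') y' j) ^ 2 ≤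
        (1 / (10 ^ 5 * cd A)) ^ 2 * e * e')
    (h3 : ∀ J : Bk m, cd ι ≤ 2 * m J.1 * (bk π J).card) (τ : Kt (fun J : Bk m => Mf J.1) → ℝ) :
    1 / 10 ^ 5 * ∑ J : Bk m, ((bk π J).card : ℝ) * nsq (res τ J) ≤
      ∑ j, lin (tc (M := fun J : Bk m => Mf J.1) (sb π r)) τ j ^ 2 := by
  let y : (a : A) → Fin (m a) × Fin (Mf a) → ℝ := fun a p => τ ⟨⟨a, p.1⟩, p.2⟩
  let e : A → ℝ := fun a => ∑ u, ((bk π ⟨a, u⟩).card : ℝ) *
    nsq (res (M := fun J : Bk m => Mf J.1) τ ⟨a, u⟩)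
  have e0 : ∀ a, 0 ≤ e a := fun a =>
    sum_nonneg fun _ _ => mul_nonneg (Nat.cast_nonneg _) (nsq_nonneg _)
  have e1 : ∀ a, cd ι * nsq (y a) ≤ 2 * m a * e a := fun a => by
    rw [nsq, Fintype.sum_prod_type, mul_sum, mul_sum]
    refine sum_le_sum fun u _ => ?_
    rw [← mul_assoc]
    exact mul_le_mul_of_nonneg_right (h3 ⟨a, u⟩) (nsq_nonneg _)
  have e2 : ∀ a, e a / 50000 ≤ ∑ j, th π a (r a) (y a) j ^ 2 := fun a => by
    rw [← sum_fiberwise univ (π a), sum_div]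
    refine sum_le_sum fun u _ => le_trans (le_of_eq (by ring)) ((h1 ⟨a, u⟩ _).trans
      (le_of_eq (sum_congr rfl fun j hj => ?_)))
    rw [th, (mem_filter.1 hj).2]
    rfl
  have e3 : ∀ a a', a ≠ a' → |∑ j, th π a (r a) (y a) j * th π a' (r a') (y a') j| ≤
      1 / (10 ^ 5 * cd A) * √(e a) * √(e a') := fun a a' h => by
    refine abs_le_of_sq_le_sq ?_ (mul_nonneg (mul_nonneg (by positivity) (Real.sqrt_nonneg _))
      (Real.sqrt_nonneg _))
    rw [mul_pow, mul_pow, Real.sq_sqrt (e0 a), Real.sq_sqrt (e0 a')]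
    exact h2 a a' h _ _ _ _ (e1 a) (e1 a')
  have e4 : ∑ _a : A, ∑ _a : A, (1 / (10 ^ 5 * cd A)) ^ 2 = (1 / 10 ^ 5 : ℝ) ^ 2 := by
    rw [sum_const, sum_const, card_univ, nsmul_eq_mul, nsmul_eq_mul,
      show (Fintype.card A : ℝ) = cd A from rfl]
    field_simp
  have h4 := R.cross_sum_le (fun a => th π a (r a) (y a)) (fun a => √(e a))
    (fun _ _ => 1 / (10 ^ 5 * cd A)) (by norm_num) e3 e4.le
  simp only [Real.sq_sqrt (e0 _)] at h4
  have h5 := sum_le_sum fun a (_ : a ∈ univ) => e2 a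
  rw [← sum_div] at h5
  simp only [B.C1p.lin_sb]
  rw [Fintype.sum_sigma]
  have h6 := (abs_le.1 h4).1
  change 1 / 10 ^ 5 * ∑ a, e a ≤ ∑ j, (∑ a, th π a (r a) (y a) j) ^ 2
  linarith

end LowGp

open LowGp in
theorem lowG_proof : LowGStmt := by
  refine ⟨10 ^ 16, by norm_num, ?_⟩
  intro ι A _ _ _ _ a0 m Mf Ω _ π ρ Γ τ0 K Lg Lam L Pa hK hLg hM h1 h2 h3
  have hA : 1 ≤ cd A := by
    have : Nonempty A := ⟨a0⟩
    exact Nat.one_le_cast.2 Fintype.card_pos
  have hM' : ∀ a, (1 : ℝ) ≤ Mf a := fun a => by exact_mod_cast hM a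
  have hm : ∀ a, (1 : ℝ) ≤ m a := fun a => by exact_mod_cast Pa.pos a
  have hP : 1 ≤ K * Lg := one_le_mul_of_one_le_of_one_le hK hLg
  have hL : 0 < Lam := lt_of_lt_of_le (by positivity) h3
  have hn : 0 < cd ι := by
    have h4 : 0 < cd A * cd ι := lt_of_lt_of_le (by have := hM' a0; positivity) h2
    exact (pos_iff_pos_of_mul_pos h4).1 (by linarith)
  have hs : ∀ a, 1 ≤ √(m a : ℝ) := fun a => Real.one_le_sqrt.2 (hm a)
  have hb : 10 ^ 16 * K * Lg * cd A ^ 2 * (cd A / Lam) ≤ 1 := by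
    rw [← mul_div_assoc, div_le_one hL]
    linarith
  have hD : ∀ a, √(m a : ℝ) * (m a * Mf a) ≤ cd A / Lam * cd ι := fun a => by
    rw [div_mul_eq_mul_div, le_div_iff₀ hL]
    rcases eq_or_ne a a0 with rfl | h
    · rw [Pa.top]; simpa [mul_comm] using h2
    · have := h1 a h
      nlinarith
  have hJ : ∀ J : Bk m, 10 ^ 9 * (K * Lg) * Mf J.1 ≤ (bk π J).card := fun J => by
    have a1 : (m J.1 : ℝ) * Mf J.1 ≤ cd A / Lam * (2 * m J.1 * (bk π J).card) :=
      (le_mul_of_one_le_left (by positivity) (hs J.1)).trans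
        ((hD J.1).trans (mul_le_mul_of_nonneg_left (Pa.lo J) (by positivity)))
    have a2 : (Mf J.1 : ℝ) ≤ 2 * (cd A / Lam) * (bk π J).card :=
      le_of_mul_le_mul_left (a1.trans (le_of_eq (by ring))) (show (0 : ℝ) < m J.1 by linarith [hm J.1])
    have a3 : K * Lg * (cd A / Lam) ≤ K * Lg * cd A ^ 2 * (cd A / Lam) := by
      rw [mul_assoc _ (cd A ^ 2)]
      gcongr
      exact le_mul_of_one_le_left (by positivity) (one_le_pow₀ hA)
    calc _ ≤ 10 ^ 9 * (K * Lg) * (2 * (cd A / Lam) * (bk π J).card) := by gcongr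
      _ = 2 * 10 ^ 9 * (K * Lg * (cd A / Lam)) * (bk π J).card := by ring
      _ ≤ 1 * (bk π J).card := by gcongr; linarith
      _ = _ := one_mul _
  have hτ : (1 + τ0) ^ Fintype.card ι ≤ 2 := by
    have a1 : (1 + τ0) ^ Fintype.card ι ≤ Real.exp τ0 ^ Fintype.card ι :=
      pow_le_pow_left₀ (by linarith [L.tau_nonneg]) (by linarith [Real.add_one_le_exp τ0]) _
    have a2 : cd ι * τ0 ≤ 1 / 2 := by
      have := L.tau_le
      have := mul_nonneg L.tau_nonneg (mul_nonneg (sub_nonneg.2 hA) hn.le)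
      have := mul_nonneg L.tau_nonneg (zero_le_one.trans hA)
      nlinarith
    rw [← Real.exp_nat_mul] at a1
    refine a1.trans ((Real.exp_le_exp.2 a2).trans ?_)
    have a3 := Real.exp_one_lt_d9
    have a4 : Real.exp (1 / 2) * Real.exp (1 / 2) = Real.exp 1 := by rw [← Real.exp_add]; norm_num
    nlinarith [Real.exp_pos (1 / 2)]
  let W : A → A → ℝ := fun a a' => K * (Mf a' + Lg * (8 * cd ι / (m a * m a')))
  let E1 : Bk m → (ι → (a : A) → Ω a) → Prop := fun J x =>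
    Op (bk π J) (fun j => ρ j (x j) J.1) (2 * (K * Lg) * (bk π J).card) ∧
      ¬∀ v, (bk π J).card / 50000 * nsq v ≤ ∑ j ∈ bk π J, ip (ρ j (x j) J.1) v ^ 2
  let E2 : A × A → (ι → (a : A) → Ω a) → Prop := fun p x => (p.1 ≠ p.2 ∧ p.2 ≠ a0) ∧
    (∀ u u', Op (univ.filter fun j => (π p.1 j, π p.2 j) = (u, u')) (fun j => ρ j (x j) p.2)
      (W p.1 p.2)) ∧ ¬∀ y y', (∑ j, th π p.1 (fun j => ρ j (x j) p.1) y j *
        th π p.2 (fun j => ρ j (x j) p.2) y' j) ^ 2 ≤
          1764 * W p.1 p.2 * (m p.1 * Mf p.1 + m p.2 * Mf p.2) * nsq y * nsq y'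
  rw [B.C1p.av_ind]
  refine le_trans (R.pr_mono (F := fun x => (∃ J, E1 J x) ∨ ∃ p, E2 p x) fun x hx => ?_)
    ((R.pr_or_le _ _).trans ?_)
  · by_contra h
    push Not at h
    have hop : ∀ J : Bk m, ∀ T ⊆ bk π J, ∀ B : ℝ, K * (Mf J.1 + Lg * T.card) ≤ B →
        Op T (fun j => ρ j (x j) J.1) B := fun J T hT B hB V => by
      have := hx.1 J T hT V
      rw [zero_mul, add_zero] at this
      refine le_trans (le_of_eq (sum_congr rfl fun j hj => ?_))
        (this.trans (mul_le_mul_of_nonneg_right hB (nsq_nonneg V)))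
      simp only [ip, smp, sb, if_pos (mem_filter.1 (hT hj)).2]
    have key : ∀ a a', a ≠ a' → a' ≠ a0 → m a ≤ m a' → ∀ y y' (e e' : ℝ),
        cd ι * nsq y ≤ 2 * m a * e → cd ι * nsq y' ≤ 2 * m a' * e' →
        (∑ j, th π a (fun j => ρ j (x j) a) y j * th π a' (fun j => ρ j (x j) a') y' j) ^ 2 ≤
          (1 / (10 ^ 5 * cd A)) ^ 2 * e * e' := by
      intro a a' a1 a2 a3 y y' e e' a4 a5
      have m1 := hm a
      have m2 := hm a'
      have a6 : ∀ u u', Op (univ.filter fun j => (π a j, π a' j) = (u, u'))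
          (fun j => ρ j (x j) a') (W a a') := fun u u' => by
        have b1 : (univ.filter fun j => (π a j, π a' j) = (u, u')) =
            bk π ⟨a, u⟩ ∩ bk π ⟨a', u'⟩ := by ext j; simp [bk]
        rw [b1]
        refine hop ⟨a', u'⟩ _ inter_subset_right _ ?_
        have b2 := Pa.cross ⟨a, u⟩ ⟨a', u'⟩ fun h => a1 (congrArg Sigma.fst h)
        have b3 := mul_le_mul (Pa.hi ⟨a, u⟩) (Pa.hi ⟨a', u'⟩) (by positivity) (by positivity)
        have b4 : ((bk π ⟨a, u⟩ ∩ bk π ⟨a', u'⟩).card : ℝ) ≤ 8 * cd ι / (m a * m a') := by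
          rw [le_div_iff₀ (by positivity)]
          refine le_of_mul_le_mul_right ?_ hn
          have := mul_le_mul_of_nonneg_right b2 (show (0 : ℝ) ≤ m a * m a' by positivity)
          simp only at b3
          nlinarith
        simp only [W]
        gcongr
      have a7 := not_not.1 (fun h' => h.2 (a, a') ⟨⟨a1, a2⟩, a6, h'⟩) y y'
      have a8 := numer (M := Mf a) (M' := Mf a') hK hLg hA hn m1 m2 (by positivity) (by positivity)
        (Real.sq_sqrt (by positivity)) (hs a) (hD a)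
        (le_trans (by gcongr) (hD a')) (by positivity) hb
      have e0 : 0 ≤ e := nonneg_of_mul_nonneg_right
        ((mul_nonneg hn.le (nsq_nonneg y)).trans a4) (by positivity)
      have e0' : 0 ≤ e' := nonneg_of_mul_nonneg_right
        ((mul_nonneg hn.le (nsq_nonneg y')).trans a5) (by positivity)
      refine a7.trans (le_of_mul_le_mul_right ?_ (pow_pos hn 2))
      have a9 := mul_le_mul a4 a5 (mul_nonneg hn.le (nsq_nonneg y')) (by positivity)
      calc _ = 1764 * W a a' * (m a * Mf a + m a' * Mf a') * (cd ι * nsq y * (cd ι * nsq y')) := by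
            ring
        _ ≤ 1764 * W a a' * (m a * Mf a + m a' * Mf a') * (2 * m a * e * (2 * m a' * e')) := by
            simp only [W]
            gcongr
        _ = 1764 * W a a' * (m a * Mf a + m a' * Mf a') * (4 * m a * m a') * (e * e') := by ring
        _ ≤ (1 / (10 ^ 5 * cd A)) ^ 2 * cd ι ^ 2 * (e * e') :=
            mul_le_mul_of_nonneg_right a8 (by positivity)
        _ = _ := by ring
    refine hx.2 fun τ => le_trans ?_ (low_det π (fun a j => ρ j (x j) a) hA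
      (fun J => not_not.1 fun h' => h.1 J ⟨hop J _ Subset.rfl _ ?_, h'⟩)
      (fun a a' a1 y y' e e' a2 a3 => ?_) Pa.lo τ)
    · exact mul_le_mul_of_nonneg_right (by norm_num)
        (sum_nonneg fun _ _ => mul_nonneg (Nat.cast_nonneg _) (nsq_nonneg _))
    · have b1 := hJ J
      have b2 := hM' J.1
      have b3 : (Mf J.1 : ℝ) ≤ Lg * (bk π J).card := by nlinarith
      nlinarith
    · by_cases b : a' ≠ a0 ∧ m a ≤ m a'
      · exact key a a' a1 b.1 b.2 y y' e e' a2 a3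
      have b1 : a ≠ a0 ∧ m a' ≤ m a := by
        rcases eq_or_ne a' a0 with rfl | b2
        · exact ⟨a1, Pa.top ▸ Pa.pos a⟩
        · have b3 : m a' < m a := not_le.1 fun b3 => b ⟨b2, b3⟩
          exact ⟨fun b4 => by have := Pa.pos a'; have := Pa.top; subst b4; omega, b3.le⟩
      have := key a' a a1.symm b1.1 b1.2 y' y e' e a3 a2
      simp only [mul_comm (th π a' _ _ _)] at this
      linarith
  have p1 : R.pr (fun x => ∃ J, E1 J x) ≤ ∑ J : Bk m, Real.exp (-(Mf J.1 : ℝ)) :=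
    (R.pr_exists_le _).trans (sum_le_sum fun J _ => pr_low L J.1 _ hP (hM _) (hJ J))
  have p2 : R.pr (fun x => ∃ p, E2 p x) ≤ ∑ p : A × A, 4 * Real.exp (-(Mf p.2 : ℝ)) := by
    refine (R.pr_exists_le _).trans (sum_le_sum fun p _ => ?_)
    by_cases h : p.1 ≠ p.2 ∧ p.2 ≠ a0
    · have m1 := hm p.1
      have m2 := hm p.2
      have m3 := hM' p.2
      refine (R.pr_mono fun x hx => hx.2).trans ((pr_cross π L hτ h.1 h.2
        (by simp only [W]; positivity) (Nat.mul_pos (Pa.pos _) (hM _))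
        (Nat.mul_pos (Pa.pos _) (hM _))).trans ?_)
      gcongr
      have : (0 : ℝ) ≤ m p.1 * Mf p.1 := by positivity
      nlinarith
    · refine (R.pr_mono (F := fun _ => False) fun x hx => h hx.1).trans ?_
      simp [R.pr, (Real.exp_pos _).le]
  have p3 : ∑ a, Real.exp (-(Mf a : ℝ)) ≤ ∑ J : Bk m, Real.exp (-(Mf J.1 : ℝ)) := by
    rw [Fintype.sum_sigma]
    refine sum_le_sum fun a _ => ?_
    simp only [sum_const, card_univ, Fintype.card_fin, nsmul_eq_mul]
    exact le_mul_of_one_le_left (Real.exp_pos _).le (hm a)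
  rw [Fintype.sum_prod_type] at p2
  dsimp only at p2
  rw [sum_const, card_univ, nsmul_eq_mul, ← mul_sum] at p2
  rw [← mul_sum]
  have p4 : 0 ≤ ∑ J : Bk m, Real.exp (-(Mf J.1 : ℝ)) := sum_nonneg fun _ _ => (Real.exp_pos _).le
  have p5 := mul_le_mul_of_nonneg_left p3 (zero_le_one.trans hA)
  have p6 := le_mul_of_one_le_left p4 hA
  rw [show (Fintype.card A : ℝ) = cd A from rfl] at p2
  linarith

end Vale.Agent.P318.C
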