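import Vale.Agent.P318.C.ParStmt

/-!
Track C, part (E): the numerical parameters exist.
-/

namespace Vale.Agent.P318.C

open Finset
open B (cd)

namespace ParP

/-- The facts on `n`, `l = log n`, `t = l ^ (1/100)` which are used. -/
structure Big (n : ℕ) (l t C : ℝ) : Prop where
  l_eq : l = Real.log n
  n_eq : (n : ℝ) = Real.exp l
  t_eq : t = l ^ (1 / 100 : ℝ)
  pw : t ^ 100 = l
  t_ge : 10 ^ 7 ≤ t
  C_ge : 1 ≤ C
  C_le : 10 ^ 7 * C ^ 2 ≤ t
  big : t ^ 2000 ≤ Real.exp (l / 4)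

theorem exists_big (C : ℝ) (hC : 1 ≤ C) : ∃ n0 : ℕ, ∀ n : ℕ, n0 ≤ n →
    Big n (Real.log n) (Real.log n ^ (1 / 100 : ℝ)) C := by
  have h0 : Filter.Tendsto (fun n : ℕ => Real.log n) Filter.atTop Filter.atTop :=
    Real.tendsto_log_atTop.comp tendsto_natCast_atTop_atTop
  have h1 : Filter.Tendsto (fun n : ℕ => Real.log n ^ (1 / 100 : ℝ)) Filter.atTop Filter.atTop :=
    (tendsto_rpow_atTop (by norm_num)).comp h0
  have h2 : ∀ᶠ x : ℝ in Filter.atTop, x ^ 20 ≤ Real.exp (x / 4) := by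
    have h := (Real.tendsto_pow_mul_exp_neg_atTop_nhds_zero 20).comp
      (Filter.Tendsto.atTop_div_const (by norm_num : (0 : ℝ) < 4) Filter.tendsto_id)
    filter_upwards [h.eventually (gt_mem_nhds (show (0 : ℝ) < 1 / 4 ^ 20 by positivity))]
      with x hx
    simp only [Function.comp, id] at hx
    rw [Real.exp_neg, ← div_eq_mul_inv, div_lt_iff₀ (Real.exp_pos _), div_pow,
      div_mul_eq_mul_div, div_lt_div_iff_of_pos_right (by positivity), one_mul] at hx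
    exact hx.le
  obtain ⟨n0, hn0⟩ := Filter.eventually_atTop.1 ((h1.eventually_ge_atTop (10 ^ 7 * C ^ 2)).and
    ((h0.eventually h2).and ((h0.eventually_ge_atTop 1).and (Filter.eventually_ge_atTop 1))))
  refine ⟨n0, fun n hn => ?_⟩
  obtain ⟨a, b, c, d⟩ := hn0 n hn
  have hp : (Real.log n ^ (1 / 100 : ℝ)) ^ 100 = Real.log n := by
    rw [← Real.rpow_natCast, ← Real.rpow_mul (by linarith)]
    norm_num
  refine ⟨rfl, (Real.exp_log (by exact_mod_cast d)).symm, rfl, hp, ?_, hC, a, ?_⟩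
  · nlinarith
  · calc (Real.log n ^ (1 / 100 : ℝ)) ^ 2000 = ((Real.log n ^ (1 / 100 : ℝ)) ^ 100) ^ 20 := by
          rw [← pow_mul]
      _ ≤ _ := by rw [hp]; exact b

variable {n : ℕ} {l t C : ℝ}

theorem Big.t1 (h : Big n l t C) : 1 ≤ t := by linarith [h.t_ge]

theorem Big.t0 (h : Big n l t C) : 0 < t := by linarith [h.t_ge]

theorem Big.mono (h : Big n l t C) {a b : ℕ} (hab : a ≤ b) : t ^ a ≤ t ^ b :=
  pow_le_pow_right₀ h.t1 hab

/-- `c * t ^ a ≤ t ^ b` for `a < b` and a moderate constant. -/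
theorem Big.cm (h : Big n l t C) {a b : ℕ} (hab : a < b) {c : ℝ} (hc : c ≤ 10 ^ 7 * C ^ 2) :
    c * t ^ a ≤ t ^ b := by
  have h1 : c * t ^ a ≤ t * t ^ a :=
    mul_le_mul_of_nonneg_right (hc.trans h.C_le) (pow_pos h.t0 _).le
  calc c * t ^ a ≤ t ^ (a + 1) := by rw [pow_succ]; linarith
    _ ≤ _ := h.mono hab

theorem Big.rp (h : Big n l t C) (k : ℕ) {r : ℝ} (hr : r = k / 100) : l ^ r = t ^ k := by
  have hl : 0 ≤ l := by rw [← h.pw]; exact (pow_pos h.t0 _).le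
  rw [h.t_eq, ← Real.rpow_natCast, ← Real.rpow_mul hl, hr]
  congr 1
  ring

theorem Big.l_ge (h : Big n l t C) : t ≤ l := by
  rw [← h.pw]
  simpa using h.mono (a := 1) (b := 100) (by norm_num)

theorem Big.C2 (h : Big n l t C) : C ≤ C ^ 2 := by nlinarith [h.C_ge]

theorem Big.log_le (h : Big n l t C) : 600 * Real.log t ≤ t := by
  have h1 : Real.log t ≤ 2 * Real.sqrt t := by
    have h2 := Real.log_le_sub_one_of_pos (Real.sqrt_pos.2 h.t0)
    rw [Real.log_sqrt h.t0.le] at h2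
    linarith
  have h3 : Real.sqrt t * Real.sqrt t = t := Real.mul_self_sqrt h.t0.le
  have h4 : (1200 : ℝ) ≤ Real.sqrt t := Real.le_sqrt_of_sq_le (by linarith [h.t_ge])
  nlinarith

theorem Big.log_l (h : Big n l t C) : Real.log l = 100 * Real.log t := by
  rw [← h.pw, Real.log_pow]
  norm_num

theorem Big.log_ge (h : Big n l t C) : 1 ≤ Real.log t := by
  rw [Real.le_log_iff_exp_le h.t0]
  linarith [Real.exp_one_lt_d9, h.t_ge]

theorem Big.n_pos (h : Big n l t C) : (0 : ℝ) < n := by rw [h.n_eq]; exact Real.exp_pos _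

theorem Big.q4 (h : Big n l t C) : Real.exp (l / 4) ^ 4 = n := by
  rw [h.n_eq, ← Real.exp_nat_mul]
  congr 1
  ring

theorem Big.sq (h : Big n l t C) : Real.sqrt n = Real.exp (l / 4) ^ 2 := by
  rw [← h.q4, show Real.exp (l / 4) ^ 4 = (Real.exp (l / 4) ^ 2) ^ 2 by ring,
    Real.sqrt_sq (by positivity)]

theorem Big.fail1 (h : Big n l t C) : (n : ℝ) ^ 2 * (10 * Real.exp (-l ^ 2)) ≤ 1 / 100 := by
  have hl : 10 ^ 7 ≤ l := h.t_ge.trans h.l_ge
  have h1 : Real.exp l ^ 2 * Real.exp (-l ^ 2) ≤ Real.exp (-l) := by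
    rw [← Real.exp_nat_mul, ← Real.exp_add]
    exact Real.exp_le_exp.2 (by push_cast; nlinarith)
  have h2 : Real.exp (-l) ≤ 1 / 1000 := by
    rw [Real.exp_neg, inv_eq_one_div]
    exact one_div_le_one_div_of_le (by norm_num) (by linarith [Real.add_one_le_exp l])
  rw [h.n_eq]
  nlinarith

theorem Big.fail2 (h : Big n l t C) :
    (n : ℝ) * (C * (n + 1) ^ 2 * Real.exp (-(l ^ 2 / C))) ≤ 1 / 100 := by
  have hl : 10 ^ 7 ≤ l := h.t_ge.trans h.l_ge
  have hC : 10 ^ 7 * C ≤ l := by nlinarith [h.C_le, h.l_ge, h.C2]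
  have hC0 : 0 < C := by linarith [h.C_ge]
  have h0 : 10 * l ≤ l ^ 2 / C := by
    rw [le_div_iff₀ hC0]
    nlinarith
  have he : 1 ≤ Real.exp l := Real.one_le_exp (by linarith)
  have h1 : Real.exp l ^ 3 * Real.exp (-(l ^ 2 / C)) ≤ Real.exp (-l) := by
    rw [← Real.exp_nat_mul, ← Real.exp_add]
    exact Real.exp_le_exp.2 (by push_cast; nlinarith)
  have h2 : Real.exp (-l) * l ≤ 1 := by
    rw [Real.exp_neg, inv_mul_le_iff₀ (Real.exp_pos _)]
    linarith [Real.add_one_le_exp l]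
  have h3 : (Real.exp l + 1) ^ 2 ≤ 4 * Real.exp l ^ 2 := by nlinarith
  rw [h.n_eq]
  calc Real.exp l * (C * (Real.exp l + 1) ^ 2 * Real.exp (-(l ^ 2 / C)))
      ≤ Real.exp l * (C * (4 * Real.exp l ^ 2) * Real.exp (-(l ^ 2 / C))) := by gcongr
    _ = 4 * C * (Real.exp l ^ 3 * Real.exp (-(l ^ 2 / C))) := by ring
    _ ≤ 4 * C * Real.exp (-l) := by gcongr
    _ ≤ 1 / 100 := by nlinarith [Real.exp_pos (-l)]

theorem Big.fail3 (h : Big n l t C) :
    Real.exp (n * (2 * Real.exp (-l ^ 2))) - 1 ≤ 1 / 100 := by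
  have h1 := h.fail1
  have hn : (1 : ℝ) ≤ n := by
    rw [h.n_eq]; exact Real.one_le_exp (by linarith [h.l_ge, h.t0])
  have he := Real.exp_pos (-l ^ 2)
  have h2 : (n : ℝ) * (2 * Real.exp (-l ^ 2)) ≤ 1 / 500 := by nlinarith [mul_pos h.n_pos he]
  have h3 : (0 : ℝ) ≤ n * (2 * Real.exp (-l ^ 2)) := by positivity
  have h4 := Real.abs_exp_sub_one_le (x := n * (2 * Real.exp (-l ^ 2)))
    (by rw [abs_of_nonneg h3]; linarith)
  rw [abs_of_nonneg h3] at h4
  linarith [le_abs_self (Real.exp (n * (2 * Real.exp (-l ^ 2))) - 1)]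

theorem Big.c1 (h : Big n l t C) :
    Real.log (2 * ((n ^ 8 : ℕ) : ℝ) + 1) + 1 ≤ t ^ 440 / (160 * t ^ 330) := by
  have hl : 10 ^ 7 ≤ l := h.t_ge.trans h.l_ge
  have hn : (3 : ℝ) ≤ n := by rw [h.n_eq]; linarith [Real.add_one_le_exp l]
  have h1 : Real.log (2 * ((n ^ 8 : ℕ) : ℝ) + 1) ≤ 9 * l := by
    rw [h.l_eq, show (9 : ℝ) = (9 : ℕ) by norm_num, ← Real.log_pow]
    refine Real.log_le_log (by positivity) ?_
    have : (1 : ℝ) ≤ n ^ 8 := one_le_pow₀ (by linarith)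
    push_cast
    nlinarith
  have ht := h.t0
  have h2 : t ^ 440 / (160 * t ^ 330) = t ^ 110 / 160 := by field_simp
  have h3 := h.cm (a := 100) (b := 110) (by norm_num) (c := 1600) (by nlinarith [h.C_ge])
  rw [h.pw] at h3
  rw [h2]
  linarith

/-- The sum of the errors over the scales. -/
theorem geo_sum (K : ℕ) : ∑ k ∈ Icc 1 K, Real.exp (-(1 / 25) * k) ≤ 25 := by
  have hr : Real.exp (-(1 / 25)) ≤ 25 / 26 := by
    rw [Real.exp_neg, inv_le_comm₀ (Real.exp_pos _) (by norm_num)]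
    linarith [Real.add_one_le_exp (1 / 25 : ℝ)]
  have h : ∑ k ∈ Icc 1 K, Real.exp (-(1 / 25) * k) ≤ 25 - 25 * (25 / 26 : ℝ) ^ K := by
    induction K with
    | zero => simp
    | succ K ih =>
      rw [Finset.sum_Icc_succ_top (by omega)]
      have : Real.exp (-(1 / 25) * ((K + 1 : ℕ) : ℝ)) ≤ (25 / 26 : ℝ) ^ (K + 1) := by
        rw [mul_comm, Real.exp_nat_mul]
        exact pow_le_pow_left₀ (Real.exp_pos _).le hr _
      rw [pow_succ] at this ⊢
      linarith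
  have : (0 : ℝ) ≤ (25 / 26 : ℝ) ^ K := by positivity
  linarith

/-- One class of partitions with `μ = U * 2 ^ κ` blocks. -/
theorem cls1 (h : Big n l t C) {U κ : ℕ} (hU : 8 * t ^ 2 ≤ U) (hU' : (U : ℝ) ≤ 9 * t ^ 2)
    (hκ : (2 : ℝ) ^ κ ≤ 4 * Real.sqrt n / t ^ 225) {μ : ℝ} (hμ' : μ = U * 2 ^ κ) :
    1 ≤ μ ∧ μ * t ^ 222 ≤ Real.sqrt n ∧ (κ : ℝ) ≤ t ^ 100 ∧
      t ^ 1000 ≤ n / (3 * t ^ 440 * μ * Real.sqrt μ) := by
  have ht := h.t0
  have ht1 := h.t1
  have hC := h.C_ge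
  have h2κ : (1 : ℝ) ≤ 2 ^ κ := one_le_pow₀ (by norm_num)
  have ht2 : (1 : ℝ) ≤ t ^ 2 := one_le_pow₀ ht1
  have hU1 : (1 : ℝ) ≤ U := by linarith
  have hμ1 : 1 ≤ μ := by rw [hμ']; exact one_le_mul_of_one_le_of_one_le hU1 h2κ
  have hμs : μ * t ^ 222 ≤ Real.sqrt n := by
    rw [le_div_iff₀ (by positivity)] at hκ
    have e : μ * t ^ 222 * t ≤ 9 * t ^ 2 * 2 ^ κ * t ^ 222 * t := by rw [hμ']; gcongr
    have e2 : 9 * t ^ 2 * 2 ^ κ * t ^ 222 * t = 9 * (2 ^ κ * t ^ 225) := by ring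
    have e3 : μ * t ^ 222 * 36 ≤ μ * t ^ 222 * t := by gcongr; linarith [h.t_ge]
    linarith
  obtain ⟨q, hq⟩ : ∃ q, q = Real.exp (l / 4) := ⟨_, rfl⟩
  have hq0 : 0 < q := hq ▸ Real.exp_pos _
  have hμq : μ ≤ q ^ 2 := by
    rw [hq, ← h.sq]
    refine le_trans ?_ hμs
    exact le_mul_of_one_le_right (by linarith) (one_le_pow₀ ht1)
  have hsμ : Real.sqrt μ ≤ q := Real.sqrt_le_iff.2 ⟨hq0.le, hμq⟩
  have hsμ1 : 1 ≤ Real.sqrt μ := Real.one_le_sqrt.2 hμ1
  refine ⟨hμ1, hμs, ?_, ?_⟩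
  · have e1 : (2 : ℝ) ^ κ ≤ q ^ 2 := by
      refine le_trans ?_ hμq
      rw [hμ']
      exact le_mul_of_one_le_left (by positivity) hU1
    have e2 := Real.log_le_log (by positivity) e1
    rw [Real.log_pow, Real.log_pow, hq, Real.log_exp] at e2
    have e3 : (κ : ℝ) * (1 / 2) ≤ κ * Real.log 2 := by
      gcongr
      linarith [Real.log_two_gt_d9]
    rw [h.pw]
    push_cast at e2
    linarith
  · rw [le_div_iff₀ (by positivity), ← h.q4, ← hq]
    have e1 := h.cm (a := 1440) (b := 2000) (by norm_num) (c := 3) (by nlinarith)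
    have e2 : 3 * t ^ 1440 ≤ q := by rw [hq]; exact e1.trans h.big
    calc t ^ 1000 * (3 * t ^ 440 * μ * Real.sqrt μ) ≤ t ^ 1000 * (3 * t ^ 440 * q ^ 2 * q) := by
          gcongr
      _ = 3 * t ^ 1440 * q ^ 3 := by ring
      _ ≤ q * q ^ 3 := by gcongr
      _ = q ^ 4 := by ring

theorem cls2 (h : Big n l t C) {U κ : ℕ} (hU' : (U : ℝ) ≤ 9 * t ^ 2) {μ : ℝ}
    (hμ' : μ = U * 2 ^ κ) (hμ1 : 1 ≤ μ) :
    1 ≤ Real.log (24 * C * t ^ 440 * Real.sqrt μ) ∧
      Real.log (24 * C * t ^ 440 * Real.sqrt μ) ≤ t * (1 + κ) := by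
  have ht := h.t0
  have hC := h.C_ge
  have hsμ1 : 1 ≤ Real.sqrt μ := Real.one_le_sqrt.2 hμ1
  have hsμ2 : Real.sqrt μ ≤ μ := by
    nlinarith [Real.mul_self_sqrt (show 0 ≤ μ by linarith)]
  have ht440 : (1 : ℝ) ≤ t ^ 440 := one_le_pow₀ h.t1
  have hin : 0 < 24 * C * t ^ 440 * Real.sqrt μ := by positivity
  constructor
  · rw [Real.le_log_iff_exp_le hin]
    have : (1 : ℝ) ≤ C * t ^ 440 * Real.sqrt μ :=
      one_le_mul_of_one_le_of_one_le (one_le_mul_of_one_le_of_one_le hC ht440) hsμ1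
    linarith [Real.exp_one_lt_d9]
  · have e1 := h.cm (a := 442) (b := 443) (by norm_num) (c := 216 * C) (by nlinarith)
    have e2 : 24 * C * t ^ 440 * Real.sqrt μ ≤ t ^ 443 * 2 ^ κ := by
      calc 24 * C * t ^ 440 * Real.sqrt μ ≤ 24 * C * t ^ 440 * (9 * t ^ 2 * 2 ^ κ) := by
            gcongr
            refine hsμ2.trans ?_
            rw [hμ']; gcongr
        _ = 216 * C * t ^ 442 * 2 ^ κ := by ring
        _ ≤ _ := by gcongr
    have e3 := Real.log_le_log hin e2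
    rw [Real.log_mul (x := t ^ 443) (by positivity) (by positivity), Real.log_pow,
      Real.log_pow] at e3
    have e4 := h.log_le
    have e5 := h.log_ge
    have e6 : (κ : ℝ) * Real.log 2 ≤ κ * t := by
      gcongr
      linarith [Real.log_two_lt_d9, h.t1]
    push_cast at e3
    linarith

theorem cls3 (h : Big n l t C) {κ x LG : ℝ} (hκl : κ ≤ t ^ 100) (hx1 : t ^ 1000 ≤ x)
    (hLG1 : 1 ≤ LG) (hLG2 : LG ≤ t * (1 + κ)) {M ns : ℕ} (hM : M = ⌊x⌋₊)
    (hns : ns = ⌊M / (2 * C * LG)⌋₊) :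
    x / 2 ≤ M ∧ (M : ℝ) ≤ x ∧ x / (8 * C * LG) ≤ ns ∧ 34 * C ≤ ns ∧ C * (ns * LG) ≤ M / 2 := by
  have ht := h.t0
  have ht1 := h.t1
  have hC := h.C_ge
  have ht1000 : t ≤ t ^ 1000 := by simpa using h.mono (a := 1) (b := 1000) (by norm_num)
  have hx2 : 2 ≤ x := by linarith [h.t_ge]
  have hM1 : x / 2 ≤ M := by
    have := Nat.lt_floor_add_one x
    rw [hM]; linarith
  have hM2 : (M : ℝ) ≤ x := by rw [hM]; exact Nat.floor_le (by linarith)
  have hLG3 : LG ≤ t ^ 102 := by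
    have e1 := h.cm (a := 101) (b := 102) (by norm_num) (c := 2) (by nlinarith)
    have e2 : (1 : ℝ) ≤ t ^ 100 := one_le_pow₀ ht1
    calc LG ≤ t * (1 + κ) := hLG2
      _ ≤ t * (t ^ 100 + t ^ 100) := by gcongr
      _ = 2 * t ^ 101 := by ring
      _ ≤ _ := e1
  have hden : 0 < 2 * C * LG := by positivity
  have hbig : 68 * C ≤ x / (4 * C * LG) := by
    rw [le_div_iff₀ (by positivity)]
    have e1 := h.cm (a := 102) (b := 1000) (by norm_num) (c := 272 * C ^ 2) (by nlinarith)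
    calc 68 * C * (4 * C * LG) = 272 * C ^ 2 * LG := by ring
      _ ≤ 272 * C ^ 2 * t ^ 102 := by gcongr
      _ ≤ _ := e1.trans hx1
  have hns0 : x / (4 * C * LG) ≤ M / (2 * C * LG) := by
    rw [show x / (4 * C * LG) = x / 2 / (2 * C * LG) by field_simp; ring]
    gcongr
  have hns1 : x / (4 * C * LG) - 1 ≤ ns := by
    have := Nat.lt_floor_add_one ((M : ℝ) / (2 * C * LG))
    rw [hns]; linarith
  have e8 : x / (8 * C * LG) = x / (4 * C * LG) / 2 := by field_simp; ring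
  refine ⟨hM1, hM2, by rw [e8]; linarith, by linarith, ?_⟩
  have e1 : (ns : ℝ) * (2 * C * LG) ≤ M := by
    rw [← le_div_iff₀ hden, hns]
    exact Nat.floor_le (by positivity)
  linarith

/-- The error at the dyadic scale `k`. -/
theorem err (h : Big n l t C) {U κ k : ℕ} (hU' : (U : ℝ) ≤ 9 * t ^ 2) (hk : 1 ≤ k)
    (hκ : (κ : ℝ) ≤ 6 / 5 * k + 1) {μ x LG ns : ℝ} (hμ : μ = (U * 2 ^ κ : ℕ)) (hμ1 : 1 ≤ μ)
    (hx : x = n / (3 * t ^ 440 * μ * Real.sqrt μ)) (hLG1 : 1 ≤ LG) (hLG : LG ≤ t * (1 + κ))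
    (hns : x / (8 * C * LG) ≤ ns) :
    (1 / 2 : ℝ) ^ k * Real.sqrt ((33 * C + 1) / ns) ≤
      t ^ 224 / Real.sqrt n * Real.exp (-(1 / 25) * k) := by
  have ht := h.t0
  have hC := h.C_ge
  have hn := h.n_pos
  have hk1 : (1 : ℝ) ≤ k := by exact_mod_cast hk
  have hx0 : 0 < x := by rw [hx]; positivity
  have hns0 : 0 < x / (8 * C * LG) := by positivity
  have hl2 := Real.log_two_gt_d9
  have hl2' := Real.log_two_lt_d9
  have e2 : ∀ j : ℕ, (2 : ℝ) ^ j = Real.exp (j * Real.log 2) := fun j => by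
    rw [Real.exp_nat_mul, Real.exp_log (by norm_num)]
  have hE : μ ≤ (3 * t * Real.exp (κ * Real.log 2 / 2)) ^ 2 := by
    rw [mul_pow, ← Real.exp_nat_mul, hμ]
    push_cast
    rw [e2 κ, show (2 : ℝ) * (κ * Real.log 2 / 2) = κ * Real.log 2 by ring]
    gcongr
    linarith
  have hs : Real.sqrt μ ≤ 3 * t * Real.exp (κ * Real.log 2 / 2) :=
    Real.sqrt_le_iff.2 ⟨by positivity, hE⟩
  have hμs : μ * Real.sqrt μ ≤ 27 * t ^ 3 * Real.exp (3 * (κ * Real.log 2 / 2)) := by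
    calc μ * Real.sqrt μ ≤ (3 * t * Real.exp (κ * Real.log 2 / 2)) ^ 2 *
          (3 * t * Real.exp (κ * Real.log 2 / 2)) := by gcongr
      _ = 27 * t ^ 3 * Real.exp (κ * Real.log 2 / 2) ^ 3 := by ring
      _ = _ := by rw [← Real.exp_nat_mul]; norm_num
  have h3 : Real.exp (3 * (κ * Real.log 2 / 2)) ≤ 8 * Real.exp (5 / 4 * k) := by
    have : Real.exp (3 * (κ * Real.log 2 / 2)) ≤ Real.exp ((3 : ℕ) * Real.log 2 + 5 / 4 * k) :=
      Real.exp_le_exp.2 (by push_cast; nlinarith)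
    rw [Real.exp_add, ← e2 3] at this
    linarith
  have h4 : LG ≤ t * (200 * Real.exp (1 / 50 * k)) := by
    refine hLG.trans ?_
    gcongr
    linarith [Real.add_one_le_exp (1 / 50 * (k : ℝ))]
  have h5 : (33 * C + 1) / ns ≤ (t ^ 224 / Real.sqrt n * Real.exp (16 / 25 * k)) ^ 2 := by
    have e1 := h.cm (a := 444) (b := 445) (by norm_num) (c := 10 ^ 7 * C ^ 2) le_rfl
    have e1' := h.cm (a := 445) (b := 448) (by norm_num) (c := 4) (by nlinarith)
    have e3 : Real.exp (1 / 50 * k) * Real.exp (5 / 4 * k) ≤ Real.exp (16 / 25 * k) ^ 2 := by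
      rw [← Real.exp_add, ← Real.exp_nat_mul]
      exact Real.exp_le_exp.2 (by push_cast; nlinarith)
    calc (33 * C + 1) / ns ≤ (34 * C) / (x / (8 * C * LG)) := by gcongr; linarith
      _ = 34 * C * (8 * C * LG) * (3 * t ^ 440 * (μ * Real.sqrt μ)) / n := by
          rw [hx]; field_simp
      _ ≤ 34 * C * (8 * C * (t * (200 * Real.exp (1 / 50 * k)))) *
          (3 * t ^ 440 * (27 * t ^ 3 * (8 * Real.exp (5 / 4 * k)))) / n := by
          have e4 : μ * Real.sqrt μ ≤ 27 * t ^ 3 * (8 * Real.exp (5 / 4 * k)) :=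
            hμs.trans (by gcongr)
          gcongr 34 * C * (8 * C * ?_) * (3 * t ^ 440 * ?_) / n
      _ = 35251200 * C ^ 2 * t ^ 444 * (Real.exp (1 / 50 * k) * Real.exp (5 / 4 * k)) / n := by
          ring
      _ ≤ t ^ 448 * Real.exp (16 / 25 * k) ^ 2 / n := by
          gcongr
          have : 0 ≤ C ^ 2 * t ^ 444 := by positivity
          nlinarith
      _ = _ := by rw [mul_pow, div_pow, Real.sq_sqrt hn.le]; ring
  have h6 := Real.sqrt_le_iff.2 ⟨by positivity, h5⟩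
  have h7 : (1 / 2 : ℝ) ^ k * Real.exp (16 / 25 * k) ≤ Real.exp (-(1 / 25) * k) := by
    rw [one_div_pow, e2 k, one_div, ← Real.exp_neg, ← Real.exp_add]
    exact Real.exp_le_exp.2 (by nlinarith)
  calc (1 / 2 : ℝ) ^ k * Real.sqrt ((33 * C + 1) / ns)
      ≤ (1 / 2 : ℝ) ^ k * (t ^ 224 / Real.sqrt n * Real.exp (16 / 25 * k)) := by gcongr
    _ = t ^ 224 / Real.sqrt n * ((1 / 2 : ℝ) ^ k * Real.exp (16 / 25 * k)) := by ring
    _ ≤ _ := by gcongr

/-- The class used at the dyadic scale `k`. -/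
noncomputable def cf (k : ℕ) : ℕ := ⌈Real.log k / Real.log (6 / 5)⌉₊

theorem log_ge : 1 / 6 ≤ Real.log (6 / 5 : ℝ) := by
  have := Real.one_sub_inv_le_log_of_pos (show (0 : ℝ) < 6 / 5 by norm_num)
  linarith

theorem cf_spec {k : ℕ} (hk : 1 ≤ k) : (k : ℝ) ≤ (6 / 5) ^ cf k ∧ (6 / 5 : ℝ) ^ cf k ≤ 6 / 5 * k := by
  have hk1 : (1 : ℝ) ≤ k := by exact_mod_cast hk
  have ha := log_ge
  have h0 : 0 ≤ Real.log k / Real.log (6 / 5) := div_nonneg (Real.log_nonneg hk1) (by linarith)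
  have e : (6 / 5 : ℝ) ^ cf k = Real.exp (cf k * Real.log (6 / 5)) := by
    rw [Real.exp_nat_mul, Real.exp_log (by norm_num)]
  have h1 := Nat.le_ceil (Real.log k / Real.log (6 / 5))
  have h2 := (Nat.ceil_lt_add_one h0).le
  rw [div_le_iff₀ (by linarith)] at h1
  rw [div_add_one (by linarith), le_div_iff₀ (by linarith)] at h2
  rw [e]
  constructor
  · rw [← Real.log_le_iff_le_exp (by linarith)]
    exact h1
  · rw [← Real.le_log_iff_exp_le (by linarith), Real.log_mul (by norm_num) (by linarith)]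
    unfold cf
    linarith

theorem cf_le (h : Big n l t C) {k : ℕ} (hk : 1 ≤ k) (hkl : (k : ℝ) ≤ t ^ 100) :
    cf k ≤ ⌈t⌉₊ := by
  refine Nat.ceil_mono ?_
  have hk1 : (1 : ℝ) ≤ k := by exact_mod_cast hk
  have ha := log_ge
  rw [div_le_iff₀ (by linarith)]
  have h1 := Real.log_le_log (by linarith) hkl
  rw [Real.log_pow] at h1
  have h2 := h.log_le
  push_cast at h1
  nlinarith [h.t0]

end ParP

set_option maxHeartbeats 1600000 in
set_option maxRecDepth 4000 in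
open ParP in
theorem par_proof : ParStmt := by
  intro C hC
  obtain ⟨n0, hn0⟩ := exists_big C hC
  refine ⟨n0, fun n hn => ?_⟩
  obtain ⟨l, hl⟩ : ∃ l, l = Real.log n := ⟨_, rfl⟩
  obtain ⟨t, htd⟩ : ∃ t, t = l ^ (1 / 100 : ℝ) := ⟨_, rfl⟩
  have h : Big n l t C := by rw [htd, hl]; exact hn0 n hn
  rw [← hl]
  have ht := h.t0
  have ht1 := h.t1
  have ht7 := h.t_ge
  have hn0' := h.n_pos
  have hs : 0 < Real.sqrt n := Real.sqrt_pos.2 hn0'
  have hss : Real.sqrt n * Real.sqrt n = n := Real.mul_self_sqrt hn0'.le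
  have hbs : t ^ 2000 ≤ Real.sqrt n := by
    rw [h.sq]
    have h1 : 1 ≤ Real.exp (l / 4) := (one_le_pow₀ ht1).trans h.big
    nlinarith [h.big]
  have hs1 : 1 ≤ Real.sqrt n := (one_le_pow₀ ht1).trans hbs
  have hsn : Real.sqrt n ≤ n := by nlinarith
  have hC7 : ∀ c : ℝ, c ≤ 10 ^ 7 → c ≤ 10 ^ 7 * C ^ 2 := fun c hc => by nlinarith
  -- the number of dyadic scales
  obtain ⟨K0, hK1, hK2⟩ := exists_nat_pow_near (x := 2 * Real.sqrt n / t ^ 225) (y := 2)
    (by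
      rw [le_div_iff₀ (by positivity)]
      linarith [h.mono (a := 225) (b := 2000) (by norm_num)]) (by norm_num)
  obtain ⟨Kn, hKn⟩ : ∃ Kn, Kn = K0 + 1 := ⟨_, rfl⟩
  have hKle : (2 : ℝ) ^ Kn ≤ 4 * Real.sqrt n / t ^ 225 := by
    rw [hKn, pow_succ, show 4 * Real.sqrt n / t ^ 225 = 2 * Real.sqrt n / t ^ 225 * 2 by ring]
    linarith
  rw [← hKn] at hK2
  obtain ⟨U, hUd⟩ : ∃ U, U = ⌈8 * t ^ 2⌉₊ := ⟨_, rfl⟩
  have ht2 : (1 : ℝ) ≤ t ^ 2 := one_le_pow₀ ht1
  have hU : 8 * t ^ 2 ≤ U := hUd ▸ Nat.le_ceil _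
  have hU' : (U : ℝ) ≤ 9 * t ^ 2 := by
    have := Nat.ceil_lt_add_one (show 0 ≤ 8 * t ^ 2 by positivity)
    rw [hUd]; linarith
  obtain ⟨D, hDd⟩ : ∃ D, D = ⌈100 * t ^ 101⌉₊ := ⟨_, rfl⟩
  have ht101 : (1 : ℝ) ≤ t ^ 101 := one_le_pow₀ ht1
  have hD : 100 * t ^ 101 ≤ D := hDd ▸ Nat.le_ceil _
  have hD' : (D : ℝ) ≤ 101 * t ^ 101 := by
    have := Nat.ceil_lt_add_one (show 0 ≤ 100 * t ^ 101 by positivity)
    rw [hDd]; linarith
  obtain ⟨R, hRd⟩ : ∃ R, R = ⌈t⌉₊ := ⟨_, rfl⟩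
  have hR' : (R : ℝ) + 1 ≤ 2 * t := by
    have := Nat.ceil_lt_add_one ht.le
    rw [hRd]; linarith
  obtain ⟨κ, hκd⟩ : ∃ κ : ℕ → ℕ, κ = fun c => min Kn ⌈(6 / 5 : ℝ) ^ c⌉₊ := ⟨_, rfl⟩
  have hκ : ∀ c, (2 : ℝ) ^ κ c ≤ 4 * Real.sqrt n / t ^ 225 := fun c =>
    (pow_le_pow_right₀ (by norm_num) (by rw [hκd]; exact min_le_left _ _)).trans hKle
  obtain ⟨μ, hμd⟩ : ∃ μ : ℕ → ℕ, μ = fun c => U * 2 ^ κ c := ⟨_, rfl⟩
  have hμ : ∀ c, (μ c : ℝ) = U * 2 ^ κ c := fun c => by rw [hμd]; push_cast; ring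
  obtain ⟨x, hxd⟩ : ∃ x : ℕ → ℝ, x = fun c => n / (3 * t ^ 440 * μ c * Real.sqrt (μ c)) :=
    ⟨_, rfl⟩
  obtain ⟨Mc, hMd⟩ : ∃ Mc : ℕ → ℕ, Mc = fun c => ⌊x c⌋₊ := ⟨_, rfl⟩
  obtain ⟨LG, hLd⟩ : ∃ LG : ℕ → ℝ, LG = fun c => Real.log (24 * C * t ^ 440 * Real.sqrt (μ c)) :=
    ⟨_, rfl⟩
  obtain ⟨ns, hnd⟩ : ∃ ns : ℕ → ℕ, ns = fun c => ⌊Mc c / (2 * C * LG c)⌋₊ := ⟨_, rfl⟩
  have H1 := fun c => cls1 h hU hU' (hκ c) (hμ c)
  have H2 : ∀ c, 1 ≤ LG c ∧ LG c ≤ t * (1 + κ c) := fun c => by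
    rw [hLd]; exact cls2 h hU' (hμ c) (H1 c).1
  have Hx : ∀ c, t ^ 1000 ≤ x c := fun c => by rw [hxd]; exact (H1 c).2.2.2
  have H3 := fun c => cls3 h (H1 c).2.2.1 (Hx c) (H2 c).1 (H2 c).2 (M := Mc c) (ns := ns c)
    (by rw [hMd]) (by rw [hnd])
  have hKt : (Kn : ℝ) ≤ t ^ 100 := (cls1 h hU hU' hKle rfl).2.2.1
  have hμM : ∀ c, 3 * t ^ 440 * Mc c * μ c * Real.sqrt (μ c) ≤ n := fun c => by
    have e := (H3 c).2.1
    have e1 := (H1 c).1
    rw [hxd] at e
    simp only at e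
    rw [le_div_iff₀ (by positivity)] at e
    linarith
  have hμM' : ∀ c, t ^ 440 * (μ c * Mc c) ≤ n := fun c => by
    have e1 : 1 ≤ Real.sqrt (μ c) := Real.one_le_sqrt.2 (H1 c).1
    have e2 : (0 : ℝ) ≤ t ^ 440 * (μ c * Mc c) := by positivity
    nlinarith [hμM c]
  obtain ⟨M0, hM0⟩ : ∃ M0 : ℕ, M0 = ∑ p : Fin (R + 1) × Fin D, μ p.1 * Mc p.1 := ⟨_, rfl⟩
  have hcA : cd (Option (Fin (R + 1) × Fin D)) = (R + 1) * D + 1 := by simp [cd]
  have hcA' : cd (Option (Fin (R + 1) × Fin D)) ≤ t ^ 103 := by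
    rw [hcA]
    have e1 := h.cm (a := 102) (b := 103) (by norm_num) (c := 203) (hC7 _ (by norm_num))
    have e2 : ((R : ℝ) + 1) * D ≤ 2 * t * (101 * t ^ 101) := by gcongr
    have e3 : (1 : ℝ) ≤ t ^ 102 := one_le_pow₀ ht1
    nlinarith
  have hcA0 : 0 ≤ cd (Option (Fin (R + 1) × Fin D)) := by rw [hcA]; positivity
  have hM0le : t ^ 440 * M0 ≤ cd (Option (Fin (R + 1) × Fin D)) * n := by
    rw [hM0, hcA]
    push_cast
    rw [Finset.mul_sum]
    refine (Finset.sum_le_card_nsmul _ _ _ fun p _ => hμM' p.1).trans ?_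
    simp only [card_univ, Fintype.card_prod, Fintype.card_fin, nsmul_eq_mul]
    push_cast
    nlinarith
  have hM0ge : (n : ℝ) ≤ t ^ 340 * M0 := by
    have e0 : (D : ℝ) * (μ 0 * Mc 0) ≤ M0 := by
      rw [hM0, Fintype.sum_prod_type]
      push_cast
      refine le_trans (le_of_eq ?_) (Finset.single_le_sum
        (f := fun c : Fin (R + 1) => ∑ _i : Fin D, (μ c : ℝ) * Mc c)
        (fun c _ => by positivity) (mem_univ 0))
      simp
    have e1 : (μ 0 : ℝ) ≤ (5 * t) ^ 2 := by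
      have : (2 : ℝ) ^ κ 0 ≤ 2 ^ 1 :=
        pow_le_pow_right₀ (by norm_num) (by rw [hκd]; simp)
      rw [hμ]
      nlinarith
    have e2 : Real.sqrt (μ 0) ≤ 5 * t := Real.sqrt_le_iff.2 ⟨by positivity, e1⟩
    have e3 := (H3 0).1
    have e4 := (H1 0).1
    rw [hxd] at e3
    simp only at e3
    rw [div_div, div_le_iff₀ (by positivity)] at e3
    calc (n : ℝ) ≤ Mc 0 * (3 * t ^ 440 * μ 0 * Real.sqrt (μ 0) * 2) := e3
      _ ≤ Mc 0 * (3 * t ^ 440 * μ 0 * (5 * t) * 2) := by gcongr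
      _ = t ^ 340 * (30 * t ^ 101 * (μ 0 * Mc 0)) := by ring
      _ ≤ t ^ 340 * (D * (μ 0 * Mc 0)) := by gcongr; linarith
      _ ≤ _ := by gcongr
  obtain ⟨nt, hnt⟩ : ∃ nt, nt = ⌈(n : ℝ) / t ^ 460⌉₊ := ⟨_, rfl⟩
  have hnt1 : (1 : ℝ) ≤ n / t ^ 460 := by
    rw [le_div_iff₀ (by positivity)]
    linarith [h.mono (a := 460) (b := 2000) (by norm_num)]
  have hnt2 : (n : ℝ) / t ^ 460 ≤ nt := hnt ▸ Nat.le_ceil _
  have hnt3 : (nt : ℝ) ≤ 2 * (n / t ^ 460) := by
    have := Nat.ceil_lt_add_one (show 0 ≤ (n : ℝ) / t ^ 460 by positivity)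
    rw [hnt]; linarith
  have hcf : ∀ k ∈ Icc 1 Kn, cf k < R + 1 := fun k hk => by
    obtain ⟨h1, h2⟩ := mem_Icc.1 hk
    have := cf_le h h1 ((Nat.cast_le.2 h2).trans hKt)
    omega
  have hlog5 : 5 * Real.log l ≤ t := by rw [h.log_l]; linarith [h.log_le, h.log_ge]
  have hl2 : l ^ 2 = t ^ 200 := by rw [← h.pw]; ring
  have hl5 : l ^ 5 = t ^ 500 := by rw [← h.pw]; ring
  have r1 : l ^ (1 / 100 : ℝ) = t := htd.symm
  have hfil : ∀ c : Fin (R + 1), ∀ f : Option (Fin (R + 1) × Fin D) → ℝ,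
      ∑ a ∈ univ.filter fun a : Option (Fin (R + 1) × Fin D) =>
        a.elim (R + 1) (fun p => (p.1 : ℕ)) = c, f a = ∑ i : Fin D, f (some (c, i)) := by
    intro c f
    rw [Finset.sum_filter, Fintype.sum_option, Fintype.sum_prod_type]
    have : ¬ (R + 1 = (c : ℕ)) := by omega
    simp only [Option.elim, this, if_false, zero_add, Fin.val_inj]
    rw [Finset.sum_comm]
    simp
  refine ⟨Option (Fin (R + 1) × Fin D), Fin (Kn + 1) × Fin D, inferInstance, inferInstance,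
    inferInstance, inferInstance, none, fun a => a.elim 1 fun p => μ p.1,
    fun a => a.elim M0 fun p => Mc p.1, fun a => a.elim (R + 1) fun p => p.1,
    fun p => some (⟨min (cf p.1) R, by omega⟩, p.2), fun p => p.1, Kn, cf,
    fun a => a.elim 1 fun p => ns p.1, fun a => a.elim 1 fun p => LG p.1,
    fun k => Real.sqrt ((33 * C + 1) / ns (min (cf k) R)), nt, ?_⟩
  constructor
  · exact h.l_eq
  · have : (16 : ℝ) ≤ n := by
      linarith [h.mono (a := 1) (b := 2000) (by norm_num), pow_one t]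
    exact_mod_cast this
  · linarith [h.l_ge]
  · rfl
  · rintro (_ | p)
    · exact le_rfl
    · exact_mod_cast (H1 p.1).1
  · rw [h.rp 105 (by norm_num)]
    linarith [h.cm (a := 103) (b := 105) (by norm_num) (c := 2) (hC7 _ (by norm_num))]
  · linarith [h.mono (a := 103) (b := 2000) (by norm_num)]
  · have e1 := h.cm (a := 100) (b := 444) (by norm_num) (c := 10000) (hC7 _ (by norm_num))
    rw [h.pw] at e1
    rintro (_ | p)
    · simp only [Option.elim, Nat.cast_one]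
      linarith [h.mono (a := 444) (b := 2000) (by norm_num)]
    · simp only [Option.elim]
      have e2 := (H1 p.1).2.1
      calc 10000 * (μ p.1 : ℝ) ^ 2 * l = (μ p.1 : ℝ) ^ 2 * (10000 * l) := by ring
        _ ≤ (μ p.1 : ℝ) ^ 2 * t ^ 444 := by gcongr
        _ = (μ p.1 * t ^ 222) * (μ p.1 * t ^ 222) := by ring
        _ ≤ Real.sqrt n * Real.sqrt n := by gcongr
        _ = n := hss
  · have e1 := h.cm (a := 103) (b := 222) (by norm_num) (c := 2) (hC7 _ (by norm_num))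
    rintro (_ | p)
    · simp only [Option.elim, Nat.cast_one]
      linarith [h.mono (a := 222) (b := 2000) (by norm_num)]
    · simp only [Option.elim]
      have e2 := (H1 p.1).2.1
      have e3 : 2 * cd (Option (Fin (R + 1) × Fin D)) * μ p.1 ≤ t ^ 222 * μ p.1 := by
        gcongr; linarith
      linarith
  · rw [hl2]
    rintro (_ | p)
    · simp only [Option.elim]
      have e1 : t ^ 340 * t ^ 200 ≤ t ^ 340 * M0 := by
        rw [← pow_add]
        linarith [h.mono (a := 340 + 200) (b := 2000) (by norm_num)]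
      exact le_of_mul_le_mul_left e1 (by positivity)
    · simp only [Option.elim]
      linarith [h.cm (a := 200) (b := 1000) (by norm_num) (c := 2) (hC7 _ (by norm_num)),
        (H3 p.1).1, Hx p.1]
  · have e0 : (1 : ℝ) ≤ t ^ 440 := one_le_pow₀ ht1
    rintro (_ | p)
    · simp only [Option.elim]
      have e1 : t ^ 440 * M0 ≤ t ^ 440 * n := hM0le.trans (by
        gcongr; exact hcA'.trans (h.mono (by norm_num)))
      exact le_of_mul_le_mul_left e1 (by positivity)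
    · simp only [Option.elim]
      have e1 := hμM' p.1
      have e2 := (H1 p.1).1
      have e3 : (Mc p.1 : ℝ) ≤ μ p.1 * Mc p.1 := le_mul_of_one_le_left (by positivity) e2
      have e4 : (μ p.1 : ℝ) * Mc p.1 ≤ t ^ 440 * (μ p.1 * Mc p.1) :=
        le_mul_of_one_le_left (by positivity) e0
      linarith
  · have e := Finset.add_sum_erase (univ : Finset (Option (Fin (R + 1) × Fin D)))
      (fun a => (a.elim 1 fun p => μ p.1) * a.elim M0 fun p => Mc p.1) (mem_univ none)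
    rw [Fintype.sum_option] at e
    simp only [Option.elim] at e ⊢
    rw [← hM0] at e
    omega
  · rintro (_ | p) ha
    · exact absurd rfl ha
    · rw [h.rp 440 (by norm_num)]
      exact hμM p.1
  · rw [h.rp 440 (by norm_num)]
    exact hM0le
  · rw [h.rp 5 (by norm_num)]
    simpa using h.cm (a := 0) (b := 5) (by norm_num) (c := C) (by nlinarith)
  · rw [hl2, ← h.pw]
    exact h.cm (by norm_num) (by nlinarith)
  · rw [h.rp 440 (by norm_num), ← h.pw]
    have e1 := h.cm (a := 409) (b := 440) (by norm_num) (c := 2 * C ^ 2) (by nlinarith)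
    have e2 : (1 : ℝ) ≤ t ^ 100 := one_le_pow₀ ht1
    calc C * C * (t ^ 100 + 1) * cd (Option (Fin (R + 1) × Fin D)) ^ 3
        ≤ C * C * (t ^ 100 + t ^ 100) * (t ^ 103) ^ 3 := by gcongr
      _ = 2 * C ^ 2 * t ^ 409 := by ring
      _ ≤ _ := e1
  · rw [h.rp 440 (by norm_num), h.rp 330 (by norm_num), div_le_div_iff₀ (by positivity)
      (by positivity)]
    have e1 := h.cm (a := 433) (b := 440) (by norm_num) (c := 2) (hC7 _ (by norm_num))
    calc 2 * cd (Option (Fin (R + 1) × Fin D)) * t ^ 330 ≤ 2 * t ^ 103 * t ^ 330 := by gcongr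
      _ = 2 * t ^ 433 := by ring
      _ ≤ _ := by linarith
  · rw [h.log_l]; linarith [h.log_ge]
  · rw [h.rp 5 (by norm_num)]
    linarith [h.mono (a := 1) (b := 5) (by norm_num), pow_one t]
  · have hl0 : 0 < l := by linarith [h.l_ge]
    rw [Real.exp_neg, show (5 : ℝ) = (5 : ℕ) by norm_num, Real.exp_nat_mul, Real.exp_log hl0,
      one_div]
  · exact h.fail1
  · exact h.fail2
  · exact h.fail3
  · rw [h.rp 440 (by norm_num), h.rp 330 (by norm_num)]
    exact h.c1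
  · omega
  · exact fun _ => Option.some_ne_none _
  · intro k hk f
    have hk' := hcf k hk
    obtain ⟨-, h2⟩ := mem_Icc.1 hk
    rw [show cf k = ((⟨cf k, hk'⟩ : Fin (R + 1)) : ℕ) from rfl, hfil, Finset.sum_filter,
      Fintype.sum_prod_type, Finset.sum_eq_single (⟨k, by omega⟩ : Fin (Kn + 1))]
    · simp only [if_true]
      refine Finset.sum_congr rfl fun i _ => ?_
      congr 3
      exact Fin.ext (min_eq_left (by omega))
    · intro b _ hb
      refine Finset.sum_eq_zero fun i _ => if_neg fun hh => hb (Fin.ext hh)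
    · simp
  · intro k hk
    have e := hfil ⟨cf k, hcf k hk⟩ fun _ => 1
    simp only [sum_const, nsmul_eq_mul, mul_one, card_univ, Fintype.card_fin] at e
    rw [e, r1, ← h.pw, one_div, inv_mul_eq_div, le_div_iff₀ ht]
    calc 100 * t ^ 100 * t = 100 * t ^ 101 := by ring
      _ ≤ _ := hD
  · rintro k hk (_ | p) ha
    · have := hcf k hk
      simp only [Option.elim] at ha
      omega
    · simp only [Option.elim] at ha ⊢
      obtain ⟨h1, h2⟩ := mem_Icc.1 hk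
      have e1 : k ≤ κ p.1 := by
        rw [hκd, ha]
        refine le_min h2 ?_
        exact_mod_cast (cf_spec h1).1.trans (Nat.le_ceil _)
      have e2 : (2 : ℝ) ^ k ≤ 2 ^ κ p.1 := pow_le_pow_right₀ (by norm_num) e1
      rw [r1, hμ, one_div, inv_mul_eq_div, le_div_iff₀ ht]
      calc 8 * (t * 2 ^ k) * t = 8 * t ^ 2 * 2 ^ k := by ring
        _ ≤ _ := by gcongr
  · rintro (_ | p)
    · exact le_rfl
    · have : (1 : ℝ) ≤ ns p.1 := by linarith [(H3 p.1).2.2.2.1]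
      exact_mod_cast this
  · rintro (_ | p)
    · exact le_rfl
    · exact (H2 p.1).1
  · rintro (_ | p) ha
    · exact absurd rfl ha
    · simp only [Option.elim]
      have e1 := (H1 p.1).1
      have e2 : C * (Real.exp (-LG p.1) * (2 * n / μ p.1)) = x p.1 / 4 := by
        rw [hLd, hxd]
        simp only
        rw [Real.exp_neg, Real.exp_log (by positivity)]
        field_simp
        ring
      linarith [(H3 p.1).1, (H3 p.1).2.2.2.2]
  · intro k
    refine ⟨Real.sqrt_nonneg _, Real.sqrt_le_one.2 ?_⟩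
    have e := (H3 (min (cf k) R)).2.2.2.1
    rw [div_le_one (by linarith)]
    linarith
  · intro p _
    simp only [Option.elim]
    rw [Real.sq_sqrt (by positivity)]
  · rw [h.rp 225 (by norm_num)]
    have e1 : ∑ k ∈ Icc 1 Kn, (1 / 2 : ℝ) ^ k * Real.sqrt ((33 * C + 1) / ns (min (cf k) R)) ≤
        t ^ 224 / Real.sqrt n * 25 := by
      refine le_trans ?_ (mul_le_mul_of_nonneg_left (geo_sum Kn) (by positivity))
      rw [Finset.mul_sum]
      refine Finset.sum_le_sum fun k hk => ?_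
      have hk' := hcf k hk
      obtain ⟨h1, -⟩ := mem_Icc.1 hk
      rw [min_eq_left (by omega)]
      refine err h (κ := κ (cf k)) hU' h1 ?_ (by rw [hμd]) (H1 _).1 (by rw [hxd]) (H2 _).1 (H2 _).2
        (H3 _).2.2.1
      have e2 := Nat.ceil_lt_add_one (show (0 : ℝ) ≤ (6 / 5) ^ cf k by positivity)
      have e3 : (κ (cf k) : ℝ) ≤ ⌈(6 / 5 : ℝ) ^ cf k⌉₊ := by
        rw [hκd]; exact_mod_cast min_le_right _ _
      linarith [(cf_spec h1).2]
    have e2 : (1 : ℝ) / 2 ^ Kn ≤ t ^ 225 / Real.sqrt n / 2 := by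
      rw [div_lt_iff₀ (by positivity)] at hK2
      rw [div_div, div_le_div_iff₀ (by positivity) (by positivity)]
      linarith
    have e3 : t ^ 224 / Real.sqrt n * 25 ≤ t ^ 225 / Real.sqrt n / 2 := by
      have := h.cm (a := 224) (b := 225) (by norm_num) (c := 50) (hC7 _ (by norm_num))
      rw [div_mul_eq_mul_div, div_right_comm]
      gcongr
      linarith
    linarith
  · have : (1 : ℝ) ≤ nt := hnt1.trans hnt2
    exact_mod_cast this
  · simp only [Option.elim]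
    have e1 := h.cm (a := 444) (b := 460) (by norm_num) (c := 2) (hC7 _ (by norm_num))
    have e0 : 0 ≤ 5 * Real.log l := by rw [h.log_l]; linarith [h.log_ge]
    refine le_of_mul_le_mul_left (le_trans ?_ hM0ge) (pow_pos ht 340)
    calc t ^ 340 * (cd (Option (Fin (R + 1) × Fin D)) * (5 * Real.log l) * nt)
        ≤ t ^ 340 * (t ^ 103 * t * (2 * (n / t ^ 460))) := by gcongr
      _ = 2 * t ^ 444 / t ^ 460 * n := by ring
      _ ≤ 1 * n := by gcongr; rw [div_le_one (by positivity)]; exact e1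
      _ = n := one_mul _
  · simp only [Option.elim]
    rw [hl5]
    refine le_of_mul_le_mul_left (le_trans ?_ hM0ge) (pow_pos ht 340)
    calc t ^ 340 * (cd (Option (Fin (R + 1) × Fin D)) * (1 / t ^ 500 * n))
        ≤ t ^ 340 * (t ^ 103 * (1 / t ^ 500 * n)) := by gcongr
      _ = t ^ 443 / t ^ 500 * n := by ring
      _ ≤ 1 * n := by
          gcongr; rw [div_le_one (by positivity)]; exact h.mono (by norm_num)
      _ = n := one_mul _
  · rw [h.rp 2 (by norm_num)]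
    simpa using h.cm (a := 0) (b := 2) (by norm_num) (c := 40000 * C) (by nlinarith)
  · rw [hl5]
    have e1 := h.cm (a := 0) (b := 40) (by norm_num) (c := 40000 * C) (by nlinarith)
    rw [div_le_iff₀ (by positivity)] at hnt2
    calc 40000 * C * n ≤ t ^ 40 * (nt * t ^ 460) := by gcongr; simpa using e1
      _ = _ := by ring

end Vale.Agent.P318.C
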