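import Vale.Agent.P318.C.EStmt
import Vale.Agent.P318.RHash

/-!
Track C, existence: random partitions.
-/

namespace Vale.Agent.P318.C

open Finset
open scoped BigOperators
open B (cd Bk bk)
open R (pr_mono pr_or_le pr_exists_le pr_equiv pr_false_le)

namespace PartP

/-- Multiplicative Chernoff bound, lower tail. -/
lemma pr_card_le {ι : Type*} [Fintype ι] [DecidableEq ι] {Ω : ι → Type*}
    [∀ i, Fintype (Ω i)] [∀ i, Nonempty (Ω i)] (s : Finset ι) (E : ∀ i, Ω i → Prop)
    [∀ i, DecidablePred (E i)] {q : ℝ} (hq : ∀ i ∈ s, q ≤ R.pr (E i)) (u : ℝ) {t : ℝ}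
    (ht : 0 ≤ t) :
    R.pr (fun x : (∀ i, Ω i) => ((s.filter fun i => E i (x i)).card : ℝ) ≤ u) ≤
      Real.exp (t * u - q * s.card * (1 - Real.exp (-t))) := by
  have h1 := R.pr_ge_le_exp (fun x : (∀ i, Ω i) => -((s.filter fun i => E i (x i)).card : ℝ))
    (-u) t ht
  refine (pr_mono fun x hx => neg_le_neg hx).trans (h1.trans ?_)
  have e : ∀ x : (∀ i, Ω i), t * -((s.filter fun i => E i (x i)).card : ℝ) =
      ∑ i ∈ s, -t * (if E i (x i) then (1 : ℝ) else 0) := by
    intro x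
    rw [← mul_sum, card_filter]
    push_cast
    ring
  have het : 0 ≤ 1 - Real.exp (-t) := by
    linarith [Real.exp_le_one_iff.2 (neg_nonpos.2 ht)]
  have h3 : 𝔼 x : (∀ i, Ω i), Real.exp (t * -((s.filter fun i => E i (x i)).card : ℝ)) ≤
      ∏ _i ∈ s, Real.exp (-(q * (1 - Real.exp (-t)))) := by
    simp only [e]
    refine R.expect_exp_sum_le s (fun i u => -t * (if E i u then (1 : ℝ) else 0)) _
      fun i hi => ?_
    have hk : ∀ u, Real.exp (-t * (if E i u then (1 : ℝ) else 0)) =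
        1 - (1 - Real.exp (-t)) * (if E i u then (1 : ℝ) else 0) := by
      intro u
      by_cases hu : E i u <;> simp [hu]
    simp only [hk]
    rw [expect_sub_distrib, Fintype.expect_const, ← mul_expect]
    have := hq i hi
    rw [R.pr_eq_expect] at this
    have h4 := Real.add_one_le_exp (-(q * (1 - Real.exp (-t))))
    nlinarith
  refine (mul_le_mul_of_nonneg_left h3 (Real.exp_pos _).le).trans (le_of_eq ?_)
  rw [prod_const, ← Real.exp_nat_mul, ← Real.exp_add]
  congr 1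
  ring

/-- Two-sided Chernoff bound. -/
lemma pr_two {ι Ω : Type*} [Fintype ι] [DecidableEq ι] [Fintype Ω] [Nonempty Ω] (E : Ω → Prop)
    [DecidablePred E] {q L : ℝ} (hq : R.pr E = q) (hL : 2000 * L ≤ q * Fintype.card ι) :
    R.pr (fun x : ι → Ω =>
      ((univ.filter fun i => E (x i)).card : ℝ) ≤ 9 / 10 * (q * Fintype.card ι) ∨
        8 / 5 * (q * Fintype.card ι) ≤ ((univ.filter fun i => E (x i)).card : ℝ)) ≤
      2 * Real.exp (-L) := by
  have h0 : 0 ≤ q * Fintype.card ι := mul_nonneg (hq ▸ R.pr_nonneg E) (Nat.cast_nonneg _)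
  have h1 := pr_card_le (Ω := fun _ : ι => Ω) univ (fun _ => E) (fun _ _ => hq.ge)
    (9 / 10 * (q * Fintype.card ι)) (t := 1 / 10) (by norm_num)
  have h2 := R.pr_card_ge_le (Ω := fun _ : ι => Ω) univ (fun _ => E) (fun _ _ => hq.le)
    (8 / 5 * (q * Fintype.card ι)) (t := 1 / 10) (by norm_num)
  rw [card_univ] at h1 h2
  have e1 := Real.add_one_le_exp (1 / 10 : ℝ)
  have e2 := Real.add_one_le_exp (-(1 / 10) : ℝ)
  have e3 : Real.exp (1 / 10) * Real.exp (-(1 / 10)) = 1 := by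
    rw [← Real.exp_add]; norm_num
  have e4 : Real.exp (-(1 / 10)) ≤ 10 / 11 := by nlinarith [Real.exp_pos (-(1 / 10) : ℝ)]
  have e5 : Real.exp (1 / 10) ≤ 10 / 9 := by nlinarith [Real.exp_pos (1 / 10 : ℝ)]
  refine (pr_or_le _ _).trans ?_
  rw [two_mul (Real.exp _)]
  refine add_le_add (h1.trans (Real.exp_le_exp.2 ?_)) (h2.trans (Real.exp_le_exp.2 ?_))
  · nlinarith [mul_le_mul_of_nonneg_left e4 h0]
  · nlinarith [mul_le_mul_of_nonneg_left e5 h0]

lemma exp_sub_one_le {x : ℝ} (h0 : 0 ≤ x) (h1 : x ≤ 1 / 2) : Real.exp x - 1 ≤ 2 * x := by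
  have e2 := Real.add_one_le_exp (-x)
  have e3 : Real.exp x * Real.exp (-x) = 1 := by
    rw [← Real.exp_add]; norm_num
  have e4 := Real.exp_pos x
  have e5 : Real.exp x * (1 - x) ≤ 1 := by nlinarith
  have e6 : Real.exp x ≤ 2 := by nlinarith
  nlinarith

end PartP

open PartP

theorem part_proof : PartStmt := by
  intro ι A _ _ _ _ a0 m cl θ h0 hm hn hA hs hθ hθ1
  have : ∀ a, Nonempty (Fin (m a)) := fun a => ⟨⟨0, hm a⟩⟩
  unfold cd at hn hA hs
  set n : ℝ := ((Fintype.card ι : ℕ) : ℝ) with hndef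
  have hn0 : 0 < n := by linarith
  set l := Real.log n with hl
  have hel : Real.exp l = n := Real.exp_log hn0
  have hl1 : 1 ≤ l := by
    rw [hl, Real.le_log_iff_exp_le hn0]
    linarith [Real.exp_one_lt_d9]
  have hm1 : ∀ a, (1 : ℝ) ≤ m a := fun a => by exact_mod_cast hm a
  set δ := Real.exp (-(5 * l)) with hδ
  have hδ0 : 0 < δ := Real.exp_pos _
  have hδn : δ * n ^ 5 = 1 := by
    rw [hδ, ← hel, ← Real.exp_nat_mul, ← Real.exp_add]
    simp
  have hmm : ∀ a b, 10000 * (m a * m b : ℝ) * l ≤ n := fun a b => by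
    nlinarith [hs a, hs b, mul_nonneg (sq_nonneg ((m a : ℝ) - m b)) (by linarith : 0 ≤ l)]
  -- the three families of bad events
  let E1 : Bk m → ((a : A) → ι → Fin (m a)) → Prop := fun J π =>
    ((bk π J).card : ℝ) ≤ 9 / 10 * ((m J.1 : ℝ)⁻¹ * n) ∨
      8 / 5 * ((m J.1 : ℝ)⁻¹ * n) ≤ (bk π J).card
  let E2 : Bk m × Bk m → ((a : A) → ι → Fin (m a)) → Prop := fun J π => J.1.1 ≠ J.2.1 ∧
    8 / 5 * ((m J.1.1 : ℝ)⁻¹ * (m J.2.1 : ℝ)⁻¹ * n) ≤ (bk π J.1 ∩ bk π J.2).card
  let E3 : A → ((a : A) → ι → Fin (m a)) → Prop := fun b π =>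
    (100 * l ≤ θ * (univ.filter fun a => cl a = cl b).card ∧ ∀ a, cl a = cl b → m b ≤ m a) ∧
      ∃ T : Finset ι, (T.card : ℝ) ≤ θ * m b / 8 ∧
        θ * T.card * (univ.filter fun a => cl a = cl b).card <
          ∑ a ∈ univ.filter fun a => cl a = cl b, (R.collR (π a) T : ℝ)
  have p1 : ∀ J, R.pr (E1 J) ≤ 2 * δ := by
    intro J
    have hq : R.pr (fun u : (a : A) → Fin (m a) => u J.1 = J.2) = (m J.1 : ℝ)⁻¹ := by
      rw [R.pr_eval_dep (V := fun a => Fin (m a)) J.1 fun u => u = J.2,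
        R.pr_eq_point (V := fun a => Fin (m a)), Fintype.card_fin]
    have h := pr_two (ι := ι) _ hq (L := 5 * l) (by
      rw [← div_eq_inv_mul, le_div_iff₀ (by linarith [hm1 J.1])]
      nlinarith [hs J.1, mul_nonneg (mul_nonneg (by linarith [hm1 J.1] : (0 : ℝ) ≤ m J.1)
        (by linarith [hm1 J.1] : (0 : ℝ) ≤ m J.1 - 1)) (by linarith : 0 ≤ l)])
    rw [← pr_equiv (Equiv.piComm fun (a : A) (_ : ι) => Fin (m a))] at h
    exact h
  have p2 : ∀ J, R.pr (E2 J) ≤ 2 * δ := by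
    intro J
    by_cases hJ : J.1.1 = J.2.1
    · exact pr_false_le (by positivity) fun π h => h.1 hJ
    have hq : R.pr (fun u : (a : A) → Fin (m a) => u J.1.1 = J.1.2 ∧ u J.2.1 = J.2.2) =
        (m J.1.1 : ℝ)⁻¹ * (m J.2.1 : ℝ)⁻¹ := by
      rw [R.pr_eval_two (V := fun a => Fin (m a)) hJ (fun u => u = J.1.2) fun u => u = J.2.2,
        R.pr_eq_point (V := fun a => Fin (m a)), R.pr_eq_point (V := fun a => Fin (m a)),
        Fintype.card_fin, Fintype.card_fin]
    have h := pr_two (ι := ι) _ hq (L := 5 * l) (by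
      rw [← mul_inv, ← div_eq_inv_mul,
        le_div_iff₀ (mul_pos (by linarith [hm1 J.1.1]) (by linarith [hm1 J.2.1]))]
      linarith [hmm J.1.1 J.2.1])
    rw [← pr_equiv (Equiv.piComm fun (a : A) (_ : ι) => Fin (m a))] at h
    refine (pr_mono fun π hπ => Or.inr ?_).trans h
    have := hπ.2
    unfold bk at this
    rw [← filter_and] at this
    exact this
  have hδ2 : δ ≤ 1 / 2 := by
    have : (16 : ℝ) ^ 5 ≤ n ^ 5 := pow_le_pow_left₀ (by norm_num) hn 5
    nlinarith
  have p3 : ∀ b, R.pr (E3 b) ≤ 2 * δ := by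
    intro b
    by_cases hb : 100 * l ≤ θ * (univ.filter fun a => cl a = cl b).card ∧
      ∀ a, cl a = cl b → m b ≤ m a
    swap
    · exact pr_false_le (by positivity) fun π h => hb h.1
    have h := R.pr_coll (ι := ι) (V := fun a => Fin (m a)) (univ.filter fun a => cl a = cl b)
      (θ := θ) (t := θ * m b / 8) fun a ha => by
        have h1 : (m b : ℝ) ≤ m a := by exact_mod_cast hb.2 a (mem_filter.1 ha).2
        rw [Fintype.card_fin]
        nlinarith
    refine ((pr_mono fun π hπ => hπ.2).trans h).trans ?_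
    have h2 : n * Real.exp (-(θ * (univ.filter fun a => cl a = cl b).card / 4)) ≤ δ := by
      rw [← hel, ← Real.exp_add]
      exact Real.exp_le_exp.2 (by linarith [hb.1])
    have h3 := exp_sub_one_le hδ0.le hδ2
    linarith [Real.exp_le_exp.2 h2]
  have hB : (Fintype.card (Bk m) : ℝ) ≤ n ^ 2 := by
    rw [Fintype.card_sigma]
    push_cast
    simp only [Fintype.card_fin]
    have h1 : ∀ a, (m a : ℝ) ≤ n := fun a => by
      nlinarith [hs a, hm1 a, mul_nonneg (sq_nonneg (m a : ℝ)) (by linarith : 0 ≤ l - 1)]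
    have := sum_le_card_nsmul univ (fun a => (m a : ℝ)) n fun a _ => h1 a
    rw [card_univ, nsmul_eq_mul] at this
    nlinarith
  have tot : R.pr (fun π => (∃ J, E1 J π) ∨ (∃ J, E2 J π) ∨ ∃ b, E3 b π) < 1 := by
    have q1 := (pr_exists_le E1).trans (sum_le_card_nsmul _ _ _ fun J _ => p1 J)
    have q2 := (pr_exists_le E2).trans (sum_le_card_nsmul _ _ _ fun J _ => p2 J)
    have q3 := (pr_exists_le E3).trans (sum_le_card_nsmul _ _ _ fun J _ => p3 J)
    rw [card_univ, nsmul_eq_mul] at q1 q2 q3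
    rw [Fintype.card_prod, Nat.cast_mul] at q2
    have q4 := pr_or_le (fun π => ∃ J, E1 J π) fun π => (∃ J, E2 J π) ∨ ∃ b, E3 b π
    have q5 := pr_or_le (fun π => ∃ J, E2 J π) fun π => ∃ b, E3 b π
    have b0 : (0 : ℝ) ≤ Fintype.card (Bk m) := Nat.cast_nonneg _
    have b2 : (Fintype.card (Bk m) : ℝ) * Fintype.card (Bk m) ≤ n ^ 4 := by nlinarith
    have n2 : n ≤ n ^ 4 := le_self_pow₀ (by linarith) (by norm_num)
    have n3 : n ^ 2 ≤ n ^ 4 := pow_le_pow_right₀ (by linarith) (by norm_num)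
    have n4 : 16 * n ^ 4 ≤ n ^ 5 := by nlinarith [pow_pos hn0 4]
    have k1 := mul_le_mul_of_nonneg_right (hB.trans n3) hδ0.le
    have k2 := mul_le_mul_of_nonneg_right b2 hδ0.le
    have k3 := mul_le_mul_of_nonneg_right (hA.trans n2) hδ0.le
    have k4 := mul_le_mul_of_nonneg_right n4 hδ0.le
    linarith
  obtain ⟨π, hπ⟩ := R.exists_not_of_pr_lt_one tot
  simp only [not_or, not_exists] at hπ
  obtain ⟨g1, g2, g3⟩ := hπ
  have lo : ∀ J : Bk m, 9 / 10 * n ≤ m J.1 * (bk π J).card := fun J => by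
    have h := (not_le.1 (not_or.1 (g1 J)).1).le
    have h1 : (0 : ℝ) < m J.1 := by linarith [hm1 J.1]
    have := mul_le_mul_of_nonneg_left h h1.le
    rwa [mul_left_comm, mul_inv_cancel_left₀ h1.ne'] at this
  have hi : ∀ J : Bk m, (m J.1 : ℝ) * (bk π J).card ≤ 8 / 5 * n := fun J => by
    have h := (not_le.1 (not_or.1 (g1 J)).2).le
    have h1 : (0 : ℝ) < m J.1 := by linarith [hm1 J.1]
    have := mul_le_mul_of_nonneg_left h h1.le
    rwa [mul_left_comm, mul_inv_cancel_left₀ h1.ne'] at this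
  refine ⟨π, ⟨h0, hm, fun J => ?_, fun J => ?_, fun J J' hJ => ?_⟩, fun c t hc ht T hT => ?_⟩
  · have := lo J
    unfold cd
    linarith
  · have := hi J
    unfold cd
    linarith
  · unfold cd
    by_cases h : J.1 = J'.1
    · have : bk π J ∩ bk π J' = ∅ := by
        obtain ⟨a, v⟩ := J
        obtain ⟨b, v'⟩ := J'
        obtain rfl : a = b := h
        refine eq_empty_of_forall_notMem fun i hi => hJ ?_
        have h1 := (mem_filter.1 (mem_inter.1 hi).1).2
        have h2 := (mem_filter.1 (mem_inter.1 hi).2).2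
        simp only at h1 h2
        rw [← h1, ← h2]
      rw [this, card_empty, Nat.cast_zero, zero_mul]
      positivity
    · have h1 := (not_le.1 (not_and.1 (g2 (J, J')) h)).le
      have a1 : (0 : ℝ) < m J.1 := by linarith [hm1 J.1]
      have a2 : (0 : ℝ) < m J'.1 := by linarith [hm1 J'.1]
      have h2 : (m J.1 * m J'.1 : ℝ) * (bk π J ∩ bk π J').card ≤ 8 / 5 * n := by
        refine (mul_le_mul_of_nonneg_left h1 (mul_pos a1 a2).le).trans (le_of_eq ?_)
        field_simp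
      have h3 := mul_le_mul (lo J) (lo J') (by positivity) (by positivity)
      refine le_of_mul_le_mul_left ?_ (mul_pos a1 a2)
      have h4 := mul_le_mul_of_nonneg_right h2 hn0.le
      nlinarith
  · unfold cd at hc
    have hne : (univ.filter fun a => cl a = c).Nonempty := by
      rw [← card_pos]
      by_contra h
      rw [not_lt, Nat.le_zero] at h
      rw [h] at hc
      simp only [Nat.cast_zero, mul_zero] at hc
      linarith
    obtain ⟨b, hb, hmin⟩ := exists_min_image _ m hne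
    obtain rfl := (mem_filter.1 hb).2
    have h := not_and.1 (g3 b) ⟨hc, fun a ha => hmin a (mem_filter.2 ⟨mem_univ _, ha⟩)⟩
    refine not_lt.1 fun h' => h ⟨T, ?_, h'⟩
    linarith [ht b rfl]

end Vale.Agent.P318.C
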