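import Vale.Agent.P318.C.GDefs

/-!
Track C, part (G): statements of the geometry for the linear window.
Every part is a `Prop`; a part is proved as `theorem x_proof (h1 : AStmt) ... : XStmt`.
-/

namespace Vale.Agent.P318.C

open Finset MeasureTheory
open M (ind Eb pt zz tm BM ip nsq Dual lin Inv CND perp vv)
open B (cf nd cd av Op IsProj rr Nice Red Kt tc res Pat pS pJ pD pw zone)

/-! ### Probability -/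

/-- The law of `z`. -/
def LawStmt : Prop :=
  ∀ w : Wn, w.Ok →
    (∀ φ : ℝ → ℝ, Measurable φ → (∃ C, ∀ t, |t| ≤ 1 → |φ t| ≤ C) →
      zmean w φ = ∫ t in (-1 : ℝ)..1,
        φ t * (ramp w (t + 1 / 2 + w.om) - ramp w (t - 1 / 2 + w.om)) ∧
      zmean w (fun t => φ (-t)) = zmean w φ) ∧
    ∀ (ι : Type) [Fintype ι] [DecidableEq ι],
      (∀ Φ : (ι → ℝ) → ℝ, Continuous Φ → LB Φ) ∧
      (∀ Φ : (ι → ℝ) → ℝ, LB Φ →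
        BM (fun y : ι → ℝ => Eb (py w y) fun b => Φ (zz y b)) ∧
        (∀ t : ι → ℝ, tm (fun c => Eb (py w (c + t)) fun b => Φ (zz (c + t) b)) = zE w Φ) ∧
        (∀ j, LB (fun z => zmean w fun t => Φ (Function.update z j t)) ∧
          zE w Φ = zE w fun z => zmean w fun t => Φ (Function.update z j t)) ∧
        (∀ a : ℝ, zE w (fun z => a * Φ z) = a * zE w Φ) ∧
        ∀ Ψ : (ι → ℝ) → ℝ, LB Ψ → zE w (fun z => Φ z + Ψ z) = zE w Φ + zE w Ψ ∧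
          ((∀ z, (∀ i, |z i| ≤ 1 / 2 + w.om) → Φ z ≤ Ψ z) → zE w Φ ≤ zE w Ψ)) ∧
      (∀ a : ℝ, zE w (fun _ : ι → ℝ => a) = a) ∧
      ∀ a : ι → ℝ, zE w (fun z => ∑ i, a i * z i) = 0

/-- Concentration of convex Lipschitz functions. -/
def ConcStmt : Prop :=
  ∀ (ι : Type) [Fintype ι] [DecidableEq ι] (w : Wn) (F : (ι → ℝ) → ℝ) (L s : ℝ), w.Ok → 0 < L →
    0 ≤ s → ConvexOn ℝ Set.univ F →
    (∀ z z', |F z - F z'| ≤ L * Real.sqrt (∑ i, (z i - z' i) ^ 2)) →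
    zE w (fun z => ind (s < |F z - zE w F|)) ≤ 2 * Real.exp (-s ^ 2 / (16 * L ^ 2))

/-- The mean of the ramp test in one coordinate (first item), and the sum. -/
def MeanStmt : Prop :=
  (∀ (w : Wn) (η p ζ m m' : ℝ), w.Ok → 0 < η → η ≤ 1 / 8 → w.et ≤ η → 0 ≤ p → p ≤ η ^ 2 →
    |ζ| ≤ η → 0 ≤ m → m ≤ 1 / 2 → m ≤ m' → m' ≤ m + 1 / 2 →
    m * (m' - 4 * η / w.om) ≤ zmean w fun t =>
      rp (-(1 / 2 + w.om) + m' - 3 * η) η ((1 - p) * t - ζ) -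
        rp (-(1 / 2 + w.om) + m' - 3 * η) η ((1 - p) * t - ζ + m)) ∧
  ∀ (ι B : Type) [Fintype ι] [DecidableEq ι] [Fintype B] [DecidableEq B] (M : B → ℕ)
    (s : (J : B) → ι → Fin (M J) → ℤ) (Sp : (ι → ℝ) →ₗ[ℝ] (Kt M → ℝ)) (w : Wn) (η Pm : ℝ),
    w.Ok → 0 < η → η ≤ 1 / 8 → w.et ≤ η → IsProj (tc s) Sp → 0 < Pm → Pm ≤ η ^ 2 →
    (∀ i, ∑ j, lin (tc s) (Sp (Pi.single j 1)) i ^ 2 ≤ Pm) →
    2 * Real.exp (-η ^ 2 / (16 * Pm)) ≤ η → MeanOK w η s Sp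

/-- There is an offset for which almost all samples are nice. -/
def TypCStmt : Prop :=
  ∀ (ι B : Type) [Fintype ι] [DecidableEq ι] [Fintype B] [DecidableEq B] (M : B → ℕ)
    (blk : B → Finset ι) (s : (J : B) → ι → Fin (M J) → ℤ) (Sp : (ι → ℝ) →ₗ[ℝ] (Kt M → ℝ))
    (w : Wn) (η Le Pm x : ℝ) (g : ℕ),
    w.Ok → 0 < η → η ≤ 1 / 160 → 0 < Pm → 0 ≤ Le → IsProj (tc s) Sp →
    (∀ J j, j ∉ blk J → s J j = 0) → (∀ J, (blk J).Nonempty) →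
    (∀ i, ∑ j, lin (tc s) (Sp (Pi.single j 1)) i ^ 2 ≤ Pm) →
    ∑ J, 2 * (2 * g + 1 : ℝ) ^ M J * Real.exp (-(Le * M J)) ≤ x → x ≤ 1 / 2 →
    BM (fun y : ι → ℝ => Eb (py w y) fun b =>
      ind (¬ Nice (tc s) Sp (GoodC w η Le blk s Sp g) (zz y b))) ∧
    ∃ c : ι → ℝ, tm (fun β => Eb (py w (c + lin (tc s) β)) fun b =>
        ind (¬ Nice (tc s) Sp (GoodC w η Le blk s Sp g) (zz (c + lin (tc s) β) b))) ≤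
      2 * cd ι * Real.exp (-η ^ 2 / (16 * Pm)) + 100 * x

/-! ### Linear algebra -/

/-- Block decomposition, duality bounds, leverage. -/
def LevStmt : Prop :=
  ∀ (ι B : Type) [Fintype ι] [DecidableEq ι] [Fintype B] [DecidableEq B] (M : B → ℕ)
    (blk : B → Finset ι) (s : (J : B) → ι → Fin (M J) → ℤ)
    (Γ : (J : B) → AddSubgroup (Fin (M J) → ℝ)) (J0 : B) (wt : B → ℝ) (F Lm Cn φ : ℝ),
    CSys blk s Γ J0 wt F Lm Cn φ →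
    (∀ (τ : Kt M → ℝ) i, lin (tc s) τ i = ∑ J, ip (s J i) (res τ J)) ∧
    (∀ (τ : Kt M → ℝ) (e : ℝ), 0 ≤ e → (∀ x, |τ x| ≤ e) → ∀ i, |lin (tc s) τ i| ≤ Cn * e) ∧
    (∀ (τ : Kt M → ℝ) (S : Finset B) i, i ∉ zone blk S → ∑ J ∈ S, ip (s J i) (res τ J) = 0) ∧
    (∀ S : Finset B, ((zone blk S).card : ℝ) ≤ ∑ J ∈ S, ((blk J).card : ℝ)) ∧
    (∀ T : Finset ι, ∑ J, ((blk J ∩ T).card : ℝ) ≤ F * T.card) ∧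
    (∀ (τ : Kt M → ℝ) (S : Finset B) (T : Finset ι) (a : B → ℝ) (A : ℝ), (∀ J, 0 ≤ a J) →
      (∀ J ∈ S, Op (blk J ∩ T) (s J) (a J * (blk J).card)) →
      (∀ i, ∑ J ∈ S.filter fun J => i ∈ blk J, a J ≤ A) →
      ∑ j ∈ T, (∑ J ∈ S, ip (s J j) (res τ J)) ^ 2 ≤
        A * ∑ J ∈ S, ((blk J).card : ℝ) * nsq (res τ J)) ∧
    (∀ (τ : Kt M → ℝ) (S : Finset B) (T : Finset ι) (K LG εR θ2 : ℝ), 0 ≤ K → 0 ≤ LG → 0 ≤ εR →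
      0 ≤ θ2 → RipS blk s K LG εR → (∀ J ∈ S, nsq (res τ J) ≤ θ2) →
      ∑ j ∈ T, (∑ J ∈ S, ip (s J j) (res τ J)) ^ 2 ≤
        F * K * (1 / Lm + εR) * ∑ J ∈ S, wt J * nsq (res τ J) + F ^ 2 * K * LG * θ2 * T.card) ∧
    ∀ (Sp : (ι → ℝ) →ₗ[ℝ] (Kt M → ℝ)) (cG : ℝ), IsProj (tc s) Sp → 0 < cG → LowG blk s cG →
      ∀ i, ∑ j, lin (tc s) (Sp (Pi.single j 1)) i ^ 2 ≤ φ / cG

/-- Decoding. -/
def DecStmt : Prop :=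
  ∀ (ι B : Type) [Fintype ι] [DecidableEq ι] [Fintype B] [DecidableEq B] (M : B → ℕ)
    (blk : B → Finset ι) (s : (J : B) → ι → Fin (M J) → ℤ)
    (Γ : (J : B) → AddSubgroup (Fin (M J) → ℝ)) (J0 : B) (wt : B → ℝ)
    (F Lm Cn φ K LG εR Υ δ1 : ℝ) (g k0 : ℕ),
    CSys blk s Γ J0 wt F Lm Cn φ → RipS blk s K LG εR → C1c blk s Γ J0 wt g Υ →
    1 ≤ K → 1 ≤ LG → 0 ≤ εR → 0 < δ1 → δ1 ≤ 1 / 4 → 1 ≤ k0 → F * cd ι ≤ 2 ^ k0 →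
    256000 * F ^ 3 * K * LG ≤ Υ → 320 * Cn ^ 2 * 2 ^ k0 ≤ g →
    3000000 * k0 * F ^ 2 * K * (1 / Lm + εR) ≤ δ1 →
    Dec s wt (512000 * F ^ 3 * K * LG / δ1) δ1

/-- The projection is almost diagonal on sparse sets. -/
def RPStmt : Prop :=
  ∀ (ι B : Type) [Fintype ι] [DecidableEq ι] [Fintype B] [DecidableEq B] (M : B → ℕ)
    (blk : B → Finset ι) (s : (J : B) → ι → Fin (M J) → ℤ)
    (Γ : (J : B) → AddSubgroup (Fin (M J) → ℝ)) (J0 : B) (wt : B → ℝ)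
    (F Lm Cn φ K Lg cG KX ϱ0 : ℝ),
    CSys blk s Γ J0 wt F Lm Cn φ → RipS blk s K Lg 0 → LowG blk s cG →
    LeaveOut blk s (2 / cG) KX → 1 ≤ K → 1 ≤ Lg → 0 < cG → 0 ≤ KX → 0 ≤ ϱ0 →
    4 * K * φ ≤ cG → 4 * K * F * Lg * ϱ0 ≤ cG →
    RP blk s ϱ0 (4 * φ / cG) (16 / cG * (16 * KX + K * F * Lg))

/-! ### The near triangle inequalities -/

/-- The inequalities in one coordinate. -/
def CoreStmt : Prop :=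
  (∀ (ω η y y' y'' ϑ e : ℝ) (k : ℤ), 0 < ω → ω ≤ 1 / 16 → 0 ≤ η → η ≤ ω / 2 →
    |y| ≤ 1 / 2 + ω + η → |y'| ≤ 1 / 2 + ω + η → |y''| ≤ 1 / 2 + ω + η → |ϑ| ≤ 1 / 2 →
    y - y' = k - ϑ - e →
    (hg ω η ϑ y' + ϑ * y') - (hg ω η ϑ y'' + ϑ * y'') - 8 * ω * |(k : ℝ)| -
        (if k ≠ 0 ∨ 4 * ω < |ϑ| then 7 * e ^ 2 / ω ^ 2 else 0) ≤ (k - ϑ) * (y'' - y')) ∧
  ∀ (ω η y y' y'' ϑ ϑ' d e e' : ℝ) (k k' : ℤ), 0 < ω → ω ≤ 1 / 16 → 0 < η → η ≤ ω / 8 →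
    |y| ≤ 1 / 2 + ω + η → |y'| ≤ 1 / 2 + ω + η → |y''| ≤ 1 / 2 + ω + η → |ϑ| ≤ 1 / 2 →
    |ϑ' - ϑ| ≤ 1 / 2 → |d| ≤ η ^ 2 →
    y - y' = (1 - d) * (k - ϑ) - e → y'' - y' = (1 - d) * (k' - ϑ') - e' →
    (R1 ω η ϑ ϑ' y' - R2 ω η ϑ ϑ' y - R3 ω η ϑ ϑ' y'' - mu ω η ϑ ϑ' - ϑ * (y'' - y') -
        ϑ' * (y - y') + 14 * η / ω * (sg ϑ * (y - y')) - 84 * η / ω * (k - ϑ) ^ 2 -
        3 / η * (|e| + |e'|) - |k - ϑ| * |e'| - 20 * (e ^ 2 + e' ^ 2) / η ^ 2 ≤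
      (k - ϑ) * (y'' - y')) ∧
    (ϑ = 0 → ϑ' = 0 →
      -(|(k : ℝ)| * |e'|) - 20 * (e ^ 2 + e' ^ 2) / η ^ 2 ≤ k * (y'' - y'))

/-- First estimate: a defect `O(ω)` at all scales. -/
def G1Stmt : Prop :=
  ∀ (ι B : Type) [Fintype ι] [DecidableEq ι] [Fintype B] [DecidableEq B] (M : B → ℕ)
    (blk : B → Finset ι) (s : (J : B) → ι → Fin (M J) → ℤ)
    (Γ : (J : B) → AddSubgroup (Fin (M J) → ℝ)) (J0 : B) (wt : B → ℝ)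
    (Sp : (ι → ℝ) →ₗ[ℝ] (Kt M → ℝ)) (c : ι → ℝ) (w : Wn) (F Lm Cn φ η Le Υ1 δ1 : ℝ) (g : ℕ),
    CSys blk s Γ J0 wt F Lm Cn φ → Dec s wt Υ1 δ1 → IsProj (tc s) Sp →
    0 < w.om → w.om ≤ 1 / 16 → 0 < η → η ≤ w.om / 2 → 0 ≤ Le → 0 < δ1 → δ1 ≤ w.om ^ 5 →
    1 ≤ g → cd ι * (Cn / g) ^ 2 ≤ δ1 → 144 * Le * Υ1 ≤ w.om ^ 4 * Lm →
    ∀ x x' x'' : ι → ℤ, GoodC w η Le blk s Sp g (vv (tc s) Sp c x) →
      GoodC w η Le blk s Sp g (vv (tc s) Sp c x') → GoodC w η Le blk s Sp g (vv (tc s) Sp c x'') →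
      rr (tc s) Sp c x x'' ≤ rr (tc s) Sp c x x' + rr (tc s) Sp c x' x'' +
        160 * w.om * (rr (tc s) Sp c x x' + 1)

/-- Second estimate, summation over the coordinates. -/
def SumStmt : Prop :=
  ∀ (ι : Type) [Fintype ι] [DecidableEq ι] (ω η E : ℝ) (u u' u'' ϑ ϑ' d e e' : ι → ℝ)
    (k k' : ι → ℤ) (I W : Finset ι) (m : Fin 6 → ℝ),
    0 < ω → ω ≤ 1 / 16 → 0 < η → η ≤ ω / 8 → W ⊆ I →
    (∀ j, |u j| ≤ 1 / 2 + ω + η ∧ |u' j| ≤ 1 / 2 + ω + η ∧ |u'' j| ≤ 1 / 2 + ω + η) →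
    (∀ j, |ϑ j| ≤ 1 / 2 ∧ |ϑ' j - ϑ j| ≤ 1 / 2 ∧ |d j| ≤ η ^ 2) →
    (∀ j, j ∉ W → ϑ j = 0 ∧ ϑ' j = 0) → (∀ j, j ∉ I → k j = 0) →
    (∀ j ∈ I, u j - u' j = (1 - d j) * (k j - ϑ j) - e j ∧
      u'' j - u' j = (1 - d j) * (k' j - ϑ' j) - e' j) →
    (∀ i, |T2 ω η ϑ ϑ' u i - m i| ≤ E ∧ |T2 ω η ϑ ϑ' u' i - m i| ≤ E ∧
      |T2 ω η ϑ ϑ' u'' i - m i| ≤ E) →
    ∑ j, mu ω η (ϑ j) (ϑ' j) ≤ m 0 - m 1 - m 2 →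
    -(∑ j, (k j - ϑ j) * (u'' j - u' j)) ≤
      84 * η / ω * ∑ j, (k j - ϑ j) ^ 2 + 11 * E +
        3 / η * Real.sqrt W.card * (Real.sqrt (∑ j ∈ W, e j ^ 2) + Real.sqrt (∑ j ∈ W, e' j ^ 2)) +
        Real.sqrt (∑ j, (k j - ϑ j) ^ 2) * Real.sqrt (∑ j ∈ I, e' j ^ 2) +
        20 * (∑ j ∈ I, e j ^ 2 + ∑ j ∈ I, e' j ^ 2) / η ^ 2

/-- Second estimate: a defect `O(η / ω)` up to an error which is small at small scales. -/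
def G2Stmt : Prop :=
  ∀ (ι B : Type) [Fintype ι] [DecidableEq ι] [Fintype B] [DecidableEq B] (M : B → ℕ)
    (blk : B → Finset ι) (s : (J : B) → ι → Fin (M J) → ℤ)
    (Γ : (J : B) → AddSubgroup (Fin (M J) → ℝ)) (J0 : B) (wt : B → ℝ)
    (Sp : (ι → ℝ) →ₗ[ℝ] (Kt M → ℝ)) (c : ι → ℝ) (w : Wn) (F Lm Cn φ η Le Υ1 δ1 Y : ℝ) (g : ℕ),
    CSys blk s Γ J0 wt F Lm Cn φ → Dec s wt Υ1 δ1 → RP blk s (1 / Y ^ 15) (η ^ 2) (Y ^ 5) →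
    IsProj (tc s) Sp → MeanOK w η s Sp →
    0 < w.om → w.om ≤ 1 / 16 → 0 < η → η ≤ w.om / 8 → 0 ≤ Le → 0 ≤ δ1 → δ1 ≤ 1 / 4 →
    1 ≤ g → cd ι * Cn ≤ g → 1000 ≤ Y → F ≤ Y → Υ1 + 6 ≤ Y → Le ≤ Y → 1 / η ≤ Y →
    ∀ x x' x'' : ι → ℤ, GoodC w η Le blk s Sp g (vv (tc s) Sp c x) →
      GoodC w η Le blk s Sp g (vv (tc s) Sp c x') → GoodC w η Le blk s Sp g (vv (tc s) Sp c x'') →
      rr (tc s) Sp c x x' ≤ rr (tc s) Sp c x' x'' →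
      Y ^ 128 * (rr (tc s) Sp c x' x'' + 1) ≤ cd ι →
      rr (tc s) Sp c x x'' ≤ rr (tc s) Sp c x x' + rr (tc s) Sp c x' x'' +
        4000 * η / w.om * (rr (tc s) Sp c x x' + 1) +
        Y ^ 10 * (rr (tc s) Sp c x' x'' + 1) *
          ((rr (tc s) Sp c x' x'' + 1) / cd ι) ^ (1 / 32 : ℝ)

/-! ### The metric -/

/-- The concave profile. -/
def ProfStmt : Prop :=
  ∃ C : ℝ, 1 ≤ C ∧ ∀ n K ε Z : ℝ, 16 ≤ n → 0 ≤ K → C * K ≤ 1 → 0 < ε → C * ε ≤ 1 → 2 ≤ Z →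
    1 / ε ≤ Z →
    ∃ (ψ : ℝ → ℝ) (Λ : ℝ), Bern ψ ∧ (∀ v, 0 ≤ v → v ≤ ψ v ∧ ψ v ≤ Λ * v) ∧
      Λ ≤ Real.exp (C * (K * (Real.log Z + Real.log (Real.log n)) + ε * Real.log n)) ∧
      ∀ a b c : ℝ, 0 ≤ a → a ≤ b → b ≤ 4 * n → 0 ≤ c → c ≤ a + b + K * (a + 1) →
        (Z * (b + 1) ≤ n → c ≤ a + b + ε * (a + 1) + Z * (b + 1) * ((b + 1) / n) ^ (1 / 32 : ℝ)) →
        ψ c ≤ ψ a + ψ b + Λ

/-- Collapse of the bad vertices. -/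
def MetricCStmt : Prop :=
  ∀ (ι κ : Type) [Fintype ι] [DecidableEq ι] [Nonempty ι] [Fintype κ]
    (S : ι → κ → ℤ) (Sp : (ι → ℝ) →ₗ[ℝ] (κ → ℝ)) (c : ι → ℝ)
    (G : (ι → ℝ) → Prop) (w : Wn) (ψ : ℝ → ℝ) (Λ pb : ℝ),
    IsProj S Sp → (∀ j, ∃ k, S j k = 1 ∨ S j k = -1) → w.Ok →
    (∀ u, G u → ∀ i, |u i| ≤ 1) → Bern ψ → (∀ v, 0 ≤ v → v ≤ ψ v ∧ ψ v ≤ Λ * v) →
    (∀ x x' x'', G (vv S Sp c x) → G (vv S Sp c x') → G (vv S Sp c x'') →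
      ψ (rr S Sp c x x'') ≤ ψ (rr S Sp c x x') + ψ (rr S Sp c x' x'') + Λ) →
    0 ≤ pb → pb ≤ 1 / 20 →
    BM (fun y : ι → ℝ => Eb (py w y) fun b => ind (¬ Nice S Sp G (zz y b))) →
    tm (fun β => Eb (py w (c + lin S β)) fun b => ind (¬ Nice S Sp G (zz (c + lin S β) b))) ≤ pb →
    ∃ dd, MetricAt w (Λ * (2 * cd ι + 40 * cd ι ^ 2 * Real.sqrt (pb / (w.om * w.et))))
      (cd ι / 51200) S c dd

/-- All hypotheses of the geometry; `l` plays the role of `log (card ι)`. -/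
structure GAll {ι B : Type} [Fintype ι] [DecidableEq ι] [Fintype B] [DecidableEq B] {M : B → ℕ}
    (blk : B → Finset ι) (s : (J : B) → ι → Fin (M J) → ℤ)
    (Γ : (J : B) → AddSubgroup (Fin (M J) → ℝ)) (J0 : B) (wt : B → ℝ)
    (l F K LG cG φ : ℝ) : Prop where
  sys : CSys blk s Γ J0 wt F (l ^ (22 / 5 : ℝ)) (cd ι ^ 2) φ
  l_eq : l = Real.log (cd ι)
  cardB : cd B ≤ cd ι ^ 2
  rip1 : RipS blk s K (l + 1) 0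
  rip2 : RipS blk s K LG (1 / l ^ 5)
  low : LowG blk s cG
  c1 : C1c blk s Γ J0 wt (Fintype.card ι ^ 8) (l ^ (33 / 10 : ℝ))
  lo : LeaveOut blk s (2 / cG) (l ^ 2)
  one_le_K : 1 ≤ K
  one_le_LG : 1 ≤ LG
  cG_pos : 0 < cG
  F_le : F ≤ l ^ (21 / 20 : ℝ)
  K_le : K ≤ l ^ (1 / 20 : ℝ)
  LG_le : LG ≤ l ^ (1 / 20 : ℝ)
  cG_ge : 1 / cG ≤ l ^ (1 / 20 : ℝ)
  phi_pos : 0 < φ
  phi_le : φ ≤ 1 / l ^ (33 / 10 : ℝ)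

/-- The geometry: for a small constant `ω`, ends rounded at depth `1 / l`. -/
def GeoCStmt : Prop :=
  ∀ p : ℝ, 0 < p → ∃ ω0 : ℝ, 0 < ω0 ∧ ∀ ω : ℝ, 0 < ω → ω ≤ ω0 → ∃ l0 : ℝ,
    ∀ (ι B : Type) [Fintype ι] [DecidableEq ι] [Fintype B] [DecidableEq B] (M : B → ℕ)
      (blk : B → Finset ι) (s : (J : B) → ι → Fin (M J) → ℤ)
      (Γ : (J : B) → AddSubgroup (Fin (M J) → ℝ)) (J0 : B) (wt : B → ℝ) (l F K LG cG φ : ℝ),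
      l0 ≤ l → GAll blk s Γ J0 wt l F K LG cG φ →
      ∃ (c : ι → ℝ) (dd : (ι → ℤ) → (ι → ℤ) → ℝ),
        MetricAt ⟨ω, 1 / l ^ (11 / 10 : ℝ)⟩ (l ^ p * cd ι) (cd ι / 51200) (tc s) c dd

end Vale.Agent.P318.C
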