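import Mathlib.NumberTheory.Harmonic.Bounds
import Vale.Agent.P318.C.GStmt
import Vale.Agent.P318.NegKerPow

/-!
Track C, part (G): the concave profile.
-/

namespace Vale.Agent.P318.C

open Finset
open M (CND)

noncomputable section

namespace Prof

/-- The elementary Bernstein function `t v / (t + v)`. -/
def ph (t v : ℝ) : ℝ := t * v / (t + v)

/-- The product of the factors `1 + β i`, `k ≤ i < N`. -/
def gg (β : ℕ → ℝ) (N k : ℕ) : ℝ := ∏ i ∈ Ico k N, (1 + β i)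

/-- The weights. -/
def ww (β : ℕ → ℝ) (N k : ℕ) : ℝ := β k * gg β N (k + 1)

/-- The profile. -/
def prf (β : ℕ → ℝ) (N : ℕ) (v : ℝ) : ℝ := v + ∑ k ∈ range N, ww β N k * ph (2 ^ k) v

theorem ph_nonneg {t v : ℝ} (ht : 0 < t) (hv : 0 ≤ v) : 0 ≤ ph t v := by
  unfold ph; positivity

theorem ph_step {t v x : ℝ} (ht : 0 < t) (hv : 0 ≤ v) (hx : 0 ≤ x) :
    ph t (v + x) = ph t v + x * (t / (t + v) * (t / (t + v + x))) := by
  unfold ph
  field_simp
  ring

theorem ph_mono {t v x : ℝ} (ht : 0 < t) (hv : 0 ≤ v) (hx : 0 ≤ x) : ph t v ≤ ph t (v + x) := by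
  rw [ph_step ht hv hx]
  have : 0 ≤ x * (t / (t + v) * (t / (t + v + x))) := by positivity
  linarith

theorem ph_le_one {t v x : ℝ} (ht : 0 < t) (hv : 0 ≤ v) (hx : 0 ≤ x) :
    ph t (v + x) ≤ ph t v + x := by
  rw [ph_step ht hv hx]
  have h1 : t / (t + v) ≤ 1 := (div_le_one (by positivity)).2 (by linarith)
  have h2 : t / (t + v + x) ≤ 1 := (div_le_one (by positivity)).2 (by linarith)
  have h3 : t / (t + v) * (t / (t + v + x)) ≤ 1 := mul_le_one₀ h1 (by positivity) h2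
  nlinarith

theorem ph_le_sq {t v x b : ℝ} (ht : 0 < t) (hb : 0 < b) (hv : b ≤ v) (hx : 0 ≤ x) :
    ph t (v + x) ≤ ph t v + x * (t ^ 2 / b ^ 2) := by
  rw [ph_step ht (hb.le.trans hv) hx]
  have h1 : t / (t + v) ≤ t / b := div_le_div_of_nonneg_left ht.le hb (by linarith)
  have h2 : t / (t + v + x) ≤ t / b := div_le_div_of_nonneg_left ht.le hb (by linarith)
  have hv0 : 0 ≤ v := hb.le.trans hv
  have h3 : t / (t + v) * (t / (t + v + x)) ≤ t / b * (t / b) :=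
    mul_le_mul h1 h2 (by positivity) (by positivity)
  have h4 : t / b * (t / b) = t ^ 2 / b ^ 2 := by field_simp
  rw [← h4]
  nlinarith

theorem ph_add {t a b : ℝ} (ht : 0 < t) (ha : 0 ≤ a) (hb : 0 ≤ b) :
    ph t a + ph t b = ph t (a + b) +
      a * (t / (t + a) * (b / (t + b)) * ((2 * t + a + b) / (t + a + b))) := by
  unfold ph
  field_simp
  ring

theorem ph_sub {t a b : ℝ} (ht : 0 < t) (ha : 0 ≤ a) (hb : 0 ≤ b) :
    ph t (a + b) ≤ ph t a + ph t b := by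
  rw [ph_add ht ha hb]
  have : 0 ≤ a * (t / (t + a) * (b / (t + b)) * ((2 * t + a + b) / (t + a + b))) := by positivity
  linarith

theorem ph_gain {t a b : ℝ} (ha : 0 < a) (hb : 0 < b) (h1 : a ≤ t) (h2 : t ≤ 2 * b) :
    ph t (a + b) + a / 6 ≤ ph t a + ph t b := by
  have ht : 0 < t := ha.trans_le h1
  rw [ph_add ht ha.le hb.le]
  have e1 : 1 / 2 ≤ t / (t + a) := by rw [le_div_iff₀ (by positivity)]; linarith
  have e2 : 1 / 3 ≤ b / (t + b) := by rw [le_div_iff₀ (by positivity)]; linarith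
  have e3 : 1 ≤ (2 * t + a + b) / (t + a + b) := by rw [le_div_iff₀ (by positivity)]; linarith
  have e4 : 1 / 2 * (1 / 3) * 1 ≤
      t / (t + a) * (b / (t + b)) * ((2 * t + a + b) / (t + a + b)) :=
    mul_le_mul (mul_le_mul e1 e2 (by norm_num) (by positivity)) e3 (by norm_num) (by positivity)
  nlinarith

section

variable {β : ℕ → ℝ} {N : ℕ}

theorem gg_succ {k : ℕ} (hk : k < N) : gg β N k = (1 + β k) * gg β N (k + 1) :=
  prod_eq_prod_Ico_succ_bot hk _

theorem gg_top : gg β N N = 1 := by simp [gg]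

theorem gg_pos (h0 : ∀ k, 0 ≤ β k) (k : ℕ) : 0 < gg β N k :=
  prod_pos fun i _ => by have := h0 i; positivity

theorem ww_nonneg (h0 : ∀ k, 0 ≤ β k) (k : ℕ) : 0 ≤ ww β N k :=
  mul_nonneg (h0 k) (gg_pos h0 _).le

theorem gg_anti (h0 : ∀ k, 0 ≤ β k) {k j : ℕ} (h : k ≤ j) : gg β N j ≤ gg β N k :=
  prod_le_prod_of_subset_of_one_le (Ico_subset_Ico_left h)
    (fun i _ => by have := h0 i; positivity) fun i _ _ => by have := h0 i; linarith

theorem sum_ww {k : ℕ} (hk : k ≤ N) : 1 + ∑ i ∈ Ico k N, ww β N i = gg β N k := by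
  induction hk using Nat.decreasingInduction with
  | self => simp [gg]
  | of_succ k hk ih =>
    rw [sum_eq_sum_Ico_succ_bot hk, gg_succ hk, ww, ← ih]
    ring

theorem sum_low (h0 : ∀ k, 0 ≤ β k) (h1 : ∀ k, β k ≤ 1 / 2) {m : ℕ} (hm : m ≤ N) :
    ∑ k ∈ range m, ww β N k * (2 ^ k) ^ 2 ≤ 1 / 5 * (2 ^ m) ^ 2 * gg β N m := by
  induction m with
  | zero => have := gg_pos (N := N) h0 0; simp; positivity
  | succ m ih =>
    have h2 := ih (by omega)
    have h3 := gg_pos (N := N) h0 (m + 1)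
    rw [gg_succ (by omega)] at h2
    rw [sum_range_succ, ww, pow_succ (2 : ℝ) m]
    have h4 : (0 : ℝ) < (2 ^ m) ^ 2 * gg β N (m + 1) := by positivity
    have h5 := mul_le_mul_of_nonneg_right (h1 m) h4.le
    nlinarith

theorem bern (h0 : ∀ k, 0 ≤ β k) : Bern (prf β N) := by
  intro X ρ h _
  refine ⟨fun x => by simp [prf, ph, h.1], fun x y => by simp only [h.2.1 x y],
    fun n x a ha => ?_⟩
  have hd : NegKer fun i j : Fin n => ρ (x i) (x j) :=
    ⟨fun i j => h.2.1 _ _, fun i => h.1 _, fun a ha => h.2.2 n x a ha⟩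
  have h2 := hd.add (NegKer.sum (range N)
    (d := fun k i j => ww β N k * (2 ^ k * (ρ (x i) (x j) / (2 ^ k + ρ (x i) (x j)))))
    fun k _ => ((hd.div_add (t := 2 ^ k) (by positivity)).const_mul (t := 2 ^ k)
      (by positivity)).const_mul (ww_nonneg h0 k))
  have h3 := h2.2.2 a ha
  simpa only [prf, ph, mul_div_assoc] using h3

theorem prf_mono (h0 : ∀ k, 0 ≤ β k) {v v' : ℝ} (hv : 0 ≤ v) (h : v ≤ v') :
    prf β N v ≤ prf β N v' := by
  obtain ⟨x, hx, rfl⟩ : ∃ x, 0 ≤ x ∧ v' = v + x := ⟨v' - v, by linarith, by ring⟩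
  unfold prf
  refine add_le_add h (sum_le_sum fun k _ => ?_)
  exact mul_le_mul_of_nonneg_left (ph_mono (by positivity) hv hx) (ww_nonneg h0 k)

theorem prf_step (h0 : ∀ k, 0 ≤ β k) {v x : ℝ} (hv : 0 ≤ v) (hx : 0 ≤ x) :
    prf β N (v + x) ≤ prf β N v + gg β N 0 * x := by
  rw [← sum_ww (Nat.zero_le N), ← range_eq_Ico]
  unfold prf
  have : ∑ k ∈ range N, ww β N k * ph (2 ^ k) (v + x) ≤
      ∑ k ∈ range N, (ww β N k * ph (2 ^ k) v + ww β N k * x) := sum_le_sum fun k _ => by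
    rw [← mul_add]
    exact mul_le_mul_of_nonneg_left (ph_le_one (by positivity) hv hx) (ww_nonneg h0 k)
  rw [sum_add_distrib, ← sum_mul] at this
  linarith

theorem prf_zero : prf β N 0 = 0 := by simp [prf, ph]

theorem le_prf (h0 : ∀ k, 0 ≤ β k) {v : ℝ} (hv : 0 ≤ v) : v ≤ prf β N v :=
  le_add_of_nonneg_right (sum_nonneg fun k _ =>
    mul_nonneg (ww_nonneg h0 k) (ph_nonneg (by positivity) hv))

theorem prf_sub (h0 : ∀ k, 0 ≤ β k) {a b : ℝ} (ha : 0 ≤ a) (hb : 0 ≤ b) :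
    prf β N (a + b) ≤ prf β N a + prf β N b := by
  unfold prf
  have : ∑ k ∈ range N, ww β N k * ph (2 ^ k) (a + b) ≤
      ∑ k ∈ range N, (ww β N k * ph (2 ^ k) a + ww β N k * ph (2 ^ k) b) := sum_le_sum fun k _ => by
    rw [← mul_add]
    exact mul_le_mul_of_nonneg_left (ph_sub (by positivity) ha hb) (ww_nonneg h0 k)
  rw [sum_add_distrib] at this
  linarith

/-- The gain of concavity pays for a defect. -/
theorem key (h0 : ∀ k, 0 ≤ β k) (h1 : ∀ k, β k ≤ 1 / 2) {a b x : ℝ} (ha : 0 < a) (hab : a ≤ b)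
    {m : ℕ} (hm : m + 1 ≤ N) (hmb : (2 : ℝ) ^ m ≤ 2 * b) (S : Finset ℕ)
    (hS : ∀ k ∈ S, k ≤ m ∧ a ≤ 2 ^ k) (hx0 : 0 ≤ x) (hx : 26 * x ≤ a * ∑ k ∈ S, β k) :
    prf β N (a + b + x) ≤ prf β N a + prf β N b := by
  classical
  have hb : 0 < b := ha.trans_le hab
  have hg := gg_pos (N := N) h0 (m + 1)
  have hSN : S ⊆ range N := fun k hk => mem_range.2 (by have := (hS k hk).1; omega)
  -- the slope
  have s1 : ∑ k ∈ range N, ww β N k * ph (2 ^ k) (a + b + x) ≤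
      ∑ k ∈ range N, ww β N k * ph (2 ^ k) (a + b) +
        x * ((∑ k ∈ range (m + 1), ww β N k * (2 ^ k) ^ 2) / b ^ 2 +
          ∑ k ∈ Ico (m + 1) N, ww β N k) := by
    rw [← sum_range_add_sum_Ico _ hm, ← sum_range_add_sum_Ico _ hm]
    have e1 : ∑ k ∈ range (m + 1), ww β N k * ph (2 ^ k) (a + b + x) ≤
        ∑ k ∈ range (m + 1), (ww β N k * ph (2 ^ k) (a + b) +
          x * (ww β N k * (2 ^ k) ^ 2 / b ^ 2)) := sum_le_sum fun k _ => by
      have := mul_le_mul_of_nonneg_left (ph_le_sq (t := 2 ^ k) (v := a + b) (by positivity) hb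
        (by linarith) hx0) (ww_nonneg (N := N) h0 k)
      refine this.trans_eq ?_
      ring
    have e2 : ∑ k ∈ Ico (m + 1) N, ww β N k * ph (2 ^ k) (a + b + x) ≤
        ∑ k ∈ Ico (m + 1) N, (ww β N k * ph (2 ^ k) (a + b) + x * ww β N k) :=
      sum_le_sum fun k _ => by
        have := mul_le_mul_of_nonneg_left (ph_le_one (t := 2 ^ k) (v := a + b) (by positivity)
          (by linarith) hx0) (ww_nonneg (N := N) h0 k)
        refine this.trans_eq ?_
        ring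
    rw [sum_add_distrib, ← mul_sum, ← sum_div] at e1
    rw [sum_add_distrib, ← mul_sum] at e2
    linarith
  have s2 : (∑ k ∈ range (m + 1), ww β N k * (2 ^ k) ^ 2) / b ^ 2 ≤ 16 / 5 * gg β N (m + 1) := by
    rw [div_le_iff₀ (by positivity)]
    refine (sum_low h0 h1 hm).trans ?_
    have e : ((2 : ℝ) ^ (m + 1)) ^ 2 ≤ (4 * b) ^ 2 := by
      refine pow_le_pow_left₀ (by positivity) ?_ 2
      rw [pow_succ]; linarith
    have := mul_le_mul_of_nonneg_right e hg.le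
    nlinarith
  have s3 := sum_ww (β := β) hm
  -- the gain
  have s4 : ∑ k ∈ range N, ww β N k * ph (2 ^ k) (a + b) +
      a / 6 * (gg β N (m + 1) * ∑ k ∈ S, β k) ≤
      ∑ k ∈ range N, ww β N k * ph (2 ^ k) a + ∑ k ∈ range N, ww β N k * ph (2 ^ k) b := by
    have e1 : a / 6 * (gg β N (m + 1) * ∑ k ∈ S, β k) =
        ∑ k ∈ range N, if k ∈ S then a / 6 * (gg β N (m + 1) * β k) else 0 := by
      rw [sum_ite_mem, inter_eq_right.2 hSN, mul_sum, mul_sum]
    rw [e1, ← sum_add_distrib, ← sum_add_distrib]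
    refine sum_le_sum fun k _ => ?_
    split_ifs with hk
    · obtain ⟨hk1, hk2⟩ := hS k hk
      have e2 := ph_gain ha hb hk2 ((pow_le_pow_right₀ one_le_two hk1).trans hmb)
      have e3 := mul_le_mul_of_nonneg_left e2 (ww_nonneg (N := N) h0 k)
      have e4 : gg β N (m + 1) * β k ≤ ww β N k := by
        rw [ww, mul_comm]
        exact mul_le_mul_of_nonneg_left (gg_anti h0 (by omega)) (h0 k)
      have e5 := mul_le_mul_of_nonneg_left e4 (show 0 ≤ a / 6 by positivity)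
      nlinarith
    · rw [add_zero, ← mul_add]
      exact mul_le_mul_of_nonneg_left (ph_sub (by positivity) ha.le hb.le) (ww_nonneg h0 k)
  unfold prf
  have s5 := mul_le_mul_of_nonneg_left hx hg.le
  have s6 := mul_le_mul_of_nonneg_left s2 hx0
  have s7 : x * ∑ k ∈ Ico (m + 1) N, ww β N k = x * gg β N (m + 1) - x := by rw [← s3]; ring
  have s8 : 0 ≤ x * gg β N (m + 1) := by positivity
  nlinarith

end

/-- The weight of the level at distance `j` from the top. -/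
def tau (L j : ℕ) : ℝ := (if j ≤ L then 1 else 0) + 133 / ((j : ℝ) + 1)

theorem tau_nonneg (L j : ℕ) : 0 ≤ tau L j := by
  unfold tau
  split_ifs <;> positivity

theorem tau_le (L j : ℕ) : tau L j ≤ 134 := by
  have h : (133 : ℝ) / ((j : ℝ) + 1) ≤ 133 :=
    div_le_self (by norm_num) (by have : (0 : ℝ) ≤ j := Nat.cast_nonneg j; linarith)
  unfold tau
  split_ifs <;> linarith

theorem sum_tau (L N : ℕ) :
    ∑ k ∈ range N, tau L (N - 1 - k) ≤ (L + 1 : ℝ) + 133 * (1 + Real.log N) := by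
  rw [sum_range_reflect (tau L) N]
  unfold tau
  rw [sum_add_distrib]
  refine add_le_add ?_ ?_
  · rw [sum_boole]
    have : ((range N).filter fun j => j ≤ L).card ≤ (range (L + 1)).card :=
      card_le_card fun j hj => mem_range.2 (Nat.lt_succ_of_le (mem_filter.1 hj).2)
    rw [card_range] at this
    exact_mod_cast this
  · have h := harmonic_le_one_add_log N
    have e : ∑ j ∈ range N, (133 : ℝ) / ((j : ℝ) + 1) = 133 * (harmonic N : ℝ) := by
      rw [harmonic]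
      push_cast
      rw [mul_sum]
      exact sum_congr rfl fun j _ => div_eq_mul_inv _ _
    rw [e]
    linarith

/-- The relative weights of the levels `0, …, N`. -/
def bt (ε K : ℝ) (L N k : ℕ) : ℝ := 104 * ε + 52 * K * tau L (N + 1 - 1 - k)

theorem bt_nonneg {ε K : ℝ} (hε : 0 < ε) (hK : 0 ≤ K) (L N k : ℕ) : 0 ≤ bt ε K L N k := by
  have := tau_nonneg L (N + 1 - 1 - k)
  unfold bt; positivity

theorem bt_le {ε K : ℝ} (hK : 0 ≤ K) (hK1 : 60000 * K ≤ 1) (hε1 : 60000 * ε ≤ 1) (L N k : ℕ) :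
    bt ε K L N k ≤ 1 / 2 := by
  have := mul_le_mul_of_nonneg_left (tau_le L (N + 1 - 1 - k)) hK
  unfold bt; linarith

theorem sum_bt {n K ε Z : ℝ} (hn : 16 ≤ n) (hK : 0 ≤ K) (hε : 0 < ε) (hZ : 2 ≤ Z) {N p : ℕ}
    (hN1 : 2 ^ N ≤ 16 * n) (hp1 : 2 ^ p ≤ Z ^ 2) :
    ∑ k ∈ range (N + 1), bt ε K (64 * (p + 1) + 5) N k ≤
      60000 * (K * (Real.log Z + Real.log (Real.log n)) + ε * Real.log n) := by
  have l2 := Real.log_two_gt_d9
  have l2' := Real.log_two_lt_d9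
  have lZ : Real.log 2 ≤ Real.log Z := Real.log_le_log two_pos hZ
  have l16 : Real.log 16 = 4 * Real.log 2 := by
    rw [show (16 : ℝ) = 2 ^ 4 by norm_num, Real.log_pow]; norm_num
  have ln : Real.log 16 ≤ Real.log n := Real.log_le_log (by norm_num) hn
  have lN : (N : ℝ) * Real.log 2 ≤ Real.log 16 + Real.log n := by
    rw [← Real.log_pow, ← Real.log_mul (by norm_num) (by linarith)]
    exact Real.log_le_log (by positivity) hN1
  have l3 : (2 / 3 : ℝ) ≤ Real.log 2 := by linarith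
  have lN' : (N : ℝ) + 1 ≤ 4 * Real.log n := by
    have := mul_le_mul_of_nonneg_left l3 (Nat.cast_nonneg (α := ℝ) N)
    linarith
  have lp : (p : ℝ) * Real.log 2 ≤ 2 * Real.log Z := by
    have : Real.log (Z ^ 2) = 2 * Real.log Z := by rw [Real.log_pow]; norm_num
    rw [← Real.log_pow, ← this]
    exact Real.log_le_log (by positivity) hp1
  have lp' : (p : ℝ) ≤ 3 * Real.log Z := by
    have := mul_le_mul_of_nonneg_left l3 (Nat.cast_nonneg (α := ℝ) p)
    linarith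
  have ll : 0 ≤ Real.log (Real.log n) := Real.log_nonneg (by linarith)
  have lN2 : Real.log ((N + 1 : ℕ) : ℝ) ≤ 2 * Real.log 2 + Real.log (Real.log n) := by
    have e : Real.log 4 = 2 * Real.log 2 := by
      rw [show (4 : ℝ) = 2 ^ 2 by norm_num, Real.log_pow]; norm_num
    rw [← e, ← Real.log_mul (by norm_num) (by linarith)]
    push_cast
    exact Real.log_le_log (by positivity) lN'
  have hs := sum_tau (64 * (p + 1) + 5) (N + 1)
  have e : ∑ k ∈ range (N + 1), bt ε K (64 * (p + 1) + 5) N k = 104 * ε * (N + 1) +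
      52 * K * ∑ k ∈ range (N + 1), tau (64 * (p + 1) + 5) (N + 1 - 1 - k) := by
    unfold bt
    rw [sum_add_distrib, sum_const, card_range, nsmul_eq_mul, ← mul_sum]
    push_cast
    ring
  have hL' : ((64 * (p + 1) + 5 : ℕ) : ℝ) = 64 * (p + 1) + 5 := by push_cast; ring
  have hs2 : ∑ k ∈ range (N + 1), tau (64 * (p + 1) + 5) (N + 1 - 1 - k) ≤
      1100 * (Real.log Z + Real.log (Real.log n)) := by
    rw [hL'] at hs
    linarith
  have e1 := mul_le_mul_of_nonneg_left hs2 hK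
  have e2 := mul_le_mul_of_nonneg_left lN' hε.le
  have e3 : 0 ≤ K * (Real.log Z + Real.log (Real.log n)) := mul_nonneg hK (by linarith)
  have e4 : 0 ≤ ε * Real.log n := mul_nonneg hε.le (by linarith)
  rw [e]
  linarith

theorem small {n ε Z Q a b : ℝ} (hn : 0 < n) (hε : 0 < ε) (hZ : 2 ≤ Z) (hZε : 1 / ε ≤ Z)
    (hb : 0 ≤ b) (hQZ : Z ^ 2 ≤ Q) (hr : (b + 1) * Q ^ 64 ≤ n) (hq : b + 1 ≤ (a + 1) * Q) :
    Z * (b + 1) ≤ n ∧ Z * (b + 1) * ((b + 1) / n) ^ (1 / 32 : ℝ) ≤ ε * (a + 1) := by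
  have hZ0 : 0 < Z := by linarith
  have hZZ : Z ≤ Z ^ 2 := le_self_pow₀ (by linarith) (by norm_num)
  have hQ1 : 1 ≤ Q := by linarith
  have hQ0 : 0 < Q := by linarith
  have hb1 : 0 ≤ b + 1 := by linarith
  have hZQ : Z / Q ≤ ε := by
    rw [div_le_iff₀ hQ0]
    rw [div_le_iff₀ hε] at hZε
    have e1 := mul_le_mul_of_nonneg_left hZε hZ0.le
    have e2 := mul_le_mul_of_nonneg_left hQZ hε.le
    linarith
  constructor
  · have e2 : Q ≤ Q ^ 64 := le_self_pow₀ hQ1 (by norm_num)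
    have e3 : Z ≤ Q ^ 64 := by linarith
    have e4 := mul_le_mul_of_nonneg_left e3 hb1
    linarith
  · have e2 : ((b + 1) / n) ^ (1 / 32 : ℝ) ≤ (Q ^ 2)⁻¹ := by
      have e3 : (b + 1) / n ≤ ((Q ^ 2)⁻¹) ^ 32 := by
        rw [inv_pow, ← pow_mul, div_le_iff₀ hn, ← div_eq_inv_mul, le_div_iff₀ (by positivity)]
        exact hr
      refine (Real.rpow_le_rpow (by positivity) e3 (by norm_num)).trans_eq ?_
      have e4 : (1 / 32 : ℝ) = ((32 : ℕ) : ℝ)⁻¹ := by norm_num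
      rw [e4]
      exact Real.pow_rpow_inv_natCast (by positivity) (by norm_num)
    refine (mul_le_mul_of_nonneg_left e2 (by positivity)).trans ?_
    have e4 : Z * (b + 1) * (Q ^ 2)⁻¹ = Z / Q * ((b + 1) / Q) := by field_simp
    have e5 : (b + 1) / Q ≤ a + 1 := (div_le_iff₀ hQ0).2 hq
    rw [e4]
    exact mul_le_mul hZQ e5 (by positivity) hε.le

theorem many {ε K : ℝ} (hε : 0 < ε) (hK : 0 ≤ K) (L : ℕ) {N m J : ℕ} (hJ : 0 < J)
    (hJm : J ≤ m + 1) (hJ2 : N - m ≤ 64 * J + 68) :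
    52 * K ≤ ∑ k ∈ Ico (m + 1 - J) (m + 1), bt ε K L N k := by
  have hJ0 : (0 : ℝ) < J := by exact_mod_cast hJ
  have e1 : ∀ k ∈ Ico (m + 1 - J) (m + 1), 52 * K * (1 / (J : ℝ)) ≤ bt ε K L N k := fun k hk => by
    obtain ⟨hk1, hk2⟩ := mem_Ico.1 hk
    have e2 : ((N + 1 - 1 - k : ℕ) : ℝ) + 1 ≤ 133 * J := by
      exact_mod_cast (show N + 1 - 1 - k + 1 ≤ 133 * J by omega)
    have e3 : 1 / (J : ℝ) ≤ tau L (N + 1 - 1 - k) := by
      have e4 : 1 / (J : ℝ) ≤ 133 / (((N + 1 - 1 - k : ℕ) : ℝ) + 1) := by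
        rw [div_le_div_iff₀ hJ0 (by positivity)]
        linarith
      unfold tau
      split_ifs <;> linarith
    have e5 := mul_le_mul_of_nonneg_left e3 hK
    unfold bt
    linarith
  have e2 := card_nsmul_le_sum _ _ _ e1
  rw [Nat.card_Ico, show m + 1 - (m + 1 - J) = J by omega, nsmul_eq_mul] at e2
  have e3 : (J : ℝ) * (52 * K * (1 / (J : ℝ))) = 52 * K := by field_simp
  rwa [e3] at e2

/-- The defect is small with respect to the weights of the levels between `a` and `2 b`. -/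
theorem defect {n K ε Z : ℝ} (hn : 16 ≤ n) (hK : 0 ≤ K) (hε : 0 < ε) (hZ : 2 ≤ Z)
    (hZε : 1 / ε ≤ Z) {N p m : ℕ} (hN1 : 2 ^ N ≤ 16 * n) (hp2 : Z ^ 2 < 2 ^ (p + 1))
    {a b c : ℝ} (ha1 : 1 ≤ a) (hab : a ≤ b) (hm2 : 2 * b < 2 ^ (m + 1))
    (hc1 : c ≤ a + b + K * (a + 1))
    (hc2 : Z * (b + 1) ≤ n →
      c ≤ a + b + ε * (a + 1) + Z * (b + 1) * ((b + 1) / n) ^ (1 / 32 : ℝ)) :
    ∃ (S : Finset ℕ) (x : ℝ), (∀ k ∈ S, k ≤ m ∧ a ≤ 2 ^ k) ∧ 0 ≤ x ∧
      26 * x ≤ a * ∑ k ∈ S, bt ε K (64 * (p + 1) + 5) N k ∧ c ≤ a + b + x := by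
  have ha : 0 ≤ a := by linarith
  rw [pow_succ (2 : ℝ)] at hm2
  have hSm : ∀ k ∈ ({m} : Finset ℕ), k ≤ m ∧ a ≤ 2 ^ k := fun k hk => by
    rw [mem_singleton.1 hk]
    exact ⟨le_rfl, by linarith⟩
  have hKa : 0 ≤ K * a := mul_nonneg hK ha
  have hKa' : K ≤ K * a := le_mul_of_one_le_right hK ha1
  rcases le_or_gt (N - m) (64 * (p + 1) + 5) with hj | hj
  · refine ⟨{m}, K * (a + 1), hSm, by positivity, ?_, hc1⟩
    rw [sum_singleton]
    have e1 : 1 ≤ tau (64 * (p + 1) + 5) (N + 1 - 1 - m) := by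
      rw [tau, if_pos (by omega)]
      exact le_add_of_nonneg_right (by positivity)
    have e2 := mul_le_mul_of_nonneg_left e1 hKa
    have e4 : 0 ≤ a * ε := by positivity
    unfold bt
    linarith
  obtain ⟨J, hJ1, hJ2⟩ : ∃ J : ℕ, 64 * J + 5 ≤ N - m ∧ N - m ≤ 64 * J + 68 :=
    ⟨(N - m - 5) / 64, by omega, by omega⟩
  have hJp : p + 1 ≤ J := by omega
  have hQ0 : (0 : ℝ) < 2 ^ J := by positivity
  have hQZ : Z ^ 2 ≤ 2 ^ J := hp2.le.trans (pow_le_pow_right₀ one_le_two hJp)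
  have hr : (b + 1) * (2 ^ J) ^ 64 ≤ n := by
    have e1 : (2 : ℝ) ^ (m + (64 * J + 5)) ≤ 2 ^ N := pow_le_pow_right₀ one_le_two (by omega)
    have e2 : (2 : ℝ) ^ (m + (64 * J + 5)) = 2 ^ m * 32 * (2 ^ J) ^ 64 := by
      rw [← pow_mul, pow_add, pow_add, mul_comm J 64]; ring
    have e3 : (0 : ℝ) < (2 ^ J) ^ 64 := by positivity
    have e4 : (b + 1) * 16 ≤ 2 ^ m * 32 := by linarith
    have e5 := mul_le_mul_of_nonneg_right e4 e3.le
    generalize ((2 : ℝ) ^ J) ^ 64 = Y at *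
    linarith
  rcases le_or_gt (b + 1) ((a + 1) * 2 ^ J) with hq | hq
  · obtain ⟨e1, e3⟩ := small (by linarith) hε hZ hZε (ha.trans hab) hQZ hr hq
    refine ⟨{m}, 2 * ε * (a + 1), hSm, by positivity, ?_, by linarith [hc2 e1]⟩
    rw [sum_singleton]
    have e4 := mul_nonneg hKa (tau_nonneg (64 * (p + 1) + 5) (N + 1 - 1 - m))
    have e5 : ε ≤ ε * a := le_mul_of_one_le_right hε.le ha1
    unfold bt
    linarith
  · have haQ : 0 ≤ a * 2 ^ J := by positivity
    have hJm : J ≤ m + 1 := by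
      refine (pow_le_pow_iff_right₀ (a := (2 : ℝ)) one_lt_two).1 ?_
      rw [pow_succ]
      linarith
    refine ⟨Ico (m + 1 - J) (m + 1), K * (a + 1), fun k hk => ?_, by positivity, ?_, hc1⟩
    · obtain ⟨hk1, hk2⟩ := mem_Ico.1 hk
      refine ⟨by omega, ?_⟩
      have e1 : (2 : ℝ) ^ (m + 1) ≤ 2 ^ (k + J) := pow_le_pow_right₀ one_le_two (by omega)
      rw [pow_succ, pow_add] at e1
      have e2 : a * 2 ^ J ≤ 2 ^ k * 2 ^ J := by linarith
      exact le_of_mul_le_mul_right e2 hQ0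
    · have e4 := mul_le_mul_of_nonneg_left
        (many hε hK (64 * (p + 1) + 5) (N := N) (by omega) hJm hJ2) ha
      linarith

end Prof

open Prof in
theorem prof_proof : ProfStmt := by
  refine ⟨60000, by norm_num, fun n K ε Z hn hK hK1 hε hε1 hZ hZε => ?_⟩
  obtain ⟨N, hN1, hN2⟩ := exists_nat_pow_near (x := 16 * n) (y := 2) (by linarith) one_lt_two
  obtain ⟨p, hp1, hp2⟩ := exists_nat_pow_near (x := Z ^ 2) (y := 2)
    (one_le_pow₀ (by linarith)) one_lt_two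
  have h0 := bt_nonneg hε hK (64 * (p + 1) + 5) N
  have h1 := bt_le hK hK1 hε1 (64 * (p + 1) + 5) N
  have hΛ := gg_pos (N := N + 1) h0 0
  refine ⟨prf (bt ε K (64 * (p + 1) + 5) N) (N + 1), gg (bt ε K (64 * (p + 1) + 5) N) (N + 1) 0,
    bern h0, fun v hv => ⟨le_prf h0 hv, ?_⟩, ?_, ?_⟩
  · have := prf_step (N := N + 1) h0 le_rfl hv
    rwa [zero_add, prf_zero, zero_add] at this
  · refine (Real.prod_one_add_le_exp_sum _ h0).trans (Real.exp_le_exp.2 ?_)
    rw [← range_eq_Ico]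
    exact sum_bt hn hK hε hZ hN1 hp1
  · intro a b c ha hab hb hc hc1 hc2
    rcases lt_or_ge a 1 with ha1 | ha1
    · have e0 := mul_le_mul_of_nonneg_left ha1.le hK
      have e1 : c ≤ a + b + 1 := by linarith
      have e2 := prf_mono (N := N + 1) h0 hc e1
      have e3 := prf_step (N := N + 1) h0 (v := a + b) (by linarith) zero_le_one
      have e4 := prf_sub (N := N + 1) h0 ha (ha.trans hab)
      linarith
    obtain ⟨m, hm1, hm2⟩ := exists_nat_pow_near (x := 2 * b) (y := 2) (by linarith) one_lt_two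
    have hmN : m < N := by
      refine (pow_lt_pow_iff_right₀ (a := (2 : ℝ)) one_lt_two).1 ?_
      rw [pow_succ] at hN2
      linarith
    obtain ⟨S, x, hS, hx0, hx, hcx⟩ := defect hn hK hε hZ hZε hN1 hp2 ha1 hab hm2 hc1 hc2
    have e1 := key (N := N + 1) h0 h1 (by linarith) hab (by omega) hm1 S hS hx0 hx
    have e2 := prf_mono (N := N + 1) h0 hc hcx
    linarith

end

end Vale.Agent.P318.C
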