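import Vale.Agent.P318.C.EStmt
import Vale.Agent.P318.RSparse

/-!
Track C, existence: restricted operator norms, norms, zero patterns and restricted isometry of the
random rows.
-/

namespace Vale.Agent.P318.C

open Finset
open M (ind ip nsq)
open B (cd av Op Bk bk sb rw)
open scoped BigOperators

namespace RipP

lemma av_eq {α : Type} [Fintype α] (f : α → ℝ) : av f = 𝔼 x, f x := by
  unfold av
  rw [Fintype.expect_eq_sum_div_card]

lemma av_ind {α : Type} [Fintype α] (E : α → Prop) : av (fun x => ind (E x)) = R.pr E := by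
  rw [av_eq]
  rfl

/-- Resampling of one coordinate. -/
lemma resample {A : Type} [Fintype A] [DecidableEq A] {Ω : A → Type} [∀ a, Fintype (Ω a)] (a : A)
    [Nonempty (Ω a)] (f : ((a : A) → Ω a) → ℝ) :
    𝔼 x, f x = 𝔼 x, 𝔼 u : Ω a, f (Function.update x a u) := by
  let e : ((a : A) → Ω a) × Ω a ≃ ((a : A) → Ω a) × Ω a :=
    Function.Involutive.toPerm (fun p => (Function.update p.1 a p.2, p.1 a)) fun p => by simp
  have := Fintype.expect_equiv e (fun p => f (Function.update p.1 a p.2)) (fun p => f p.1)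
    fun p => rfl
  rw [← univ_product_univ, expect_product, expect_product] at this
  simpa only [Fintype.expect_const] using this.symm

lemma le_of_resample {A : Type} [Fintype A] [DecidableEq A] {Ω : A → Type} [∀ a, Fintype (Ω a)]
    [∀ a, Nonempty (Ω a)] (a : A) (f : ((a : A) → Ω a) → ℝ) {δ : ℝ}
    (h : ∀ x, 𝔼 u : Ω a, f (Function.update x a u) ≤ δ) : 𝔼 x, f x ≤ δ := by
  rw [resample a]
  exact expect_le univ_nonempty fun x _ => h x

lemma pr_zero : (1 : ℝ) / 2 ≤ R.pr fun s : Bool × Bool =>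
    (if s.1 then (1 : ℤ) else 0) - (if s.2 then 1 else 0) = 0 := by
  rw [R.pr_eq_card]
  have : (univ.filter fun s : Bool × Bool =>
      (if s.1 then (1 : ℤ) else 0) - (if s.2 then 1 else 0) = 0).card = 2 := by decide
  rw [this]
  norm_num

lemma pr_ne : (1 : ℝ) / 2 ≤ R.pr fun s : Bool × Bool =>
    (if s.1 then (1 : ℤ) else 0) - (if s.2 then 1 else 0) ≠ 0 := by
  rw [R.pr_eq_card]
  have : (univ.filter fun s : Bool × Bool =>
      (if s.1 then (1 : ℤ) else 0) - (if s.2 then 1 else 0) ≠ 0).card = 2 := by decide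
  rw [this]
  norm_num

/-- Few nonzero entries are unlikely. -/
lemma pr_few (M : ℕ) : R.pr (fun e : Fin M → Bool × Bool =>
    ((univ.filter fun k => rw e k ≠ 0).card : ℝ) < M / 4) ≤ Real.exp (-(M / 16 : ℝ)) := by
  have h := R.pr_card_le_le (Ω := fun _ : Fin M => Bool × Bool) univ
    (fun _ s => (if s.1 then (1 : ℤ) else 0) - (if s.2 then 1 else 0) ≠ 0) (q := 1 / 2)
    fun _ _ => pr_ne
  rw [card_univ, Fintype.card_fin] at h
  refine le_trans (R.pr_mono fun e he => ?_) (h.trans (le_of_eq ?_))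
  · exact he.le.trans (le_of_eq (by ring))
  · congr 1
    ring

/-- Few zeros in a large set are unlikely. -/
lemma pr_few_zero (M : ℕ) (r : Fin M → ℤ)
    (hr : (M : ℝ) / 4 ≤ (univ.filter fun k => r k ≠ 0).card) :
    R.pr (fun e : Fin M → Bool × Bool =>
      ((univ.filter fun k => rw e k = 0 ∧ r k ≠ 0).card : ℝ) < M / 16) ≤
      Real.exp (-(M / 64 : ℝ)) := by
  have h := R.pr_card_le_le (Ω := fun _ : Fin M => Bool × Bool) (univ.filter fun k => r k ≠ 0)
    (fun _ s => (if s.1 then (1 : ℤ) else 0) - (if s.2 then 1 else 0) = 0) (q := 1 / 2)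
    fun _ _ => pr_zero
  refine le_trans (R.pr_mono fun e he => ?_) (h.trans (Real.exp_le_exp.2 (by linarith)))
  have e1 : ((univ.filter fun k => r k ≠ 0).filter fun k =>
      (if (e k).1 then (1 : ℤ) else 0) - (if (e k).2 then 1 else 0) = 0) =
      univ.filter fun k => rw e k = 0 ∧ r k ≠ 0 := by
    rw [filter_filter]
    exact filter_congr fun k _ => and_comm
  rw [e1]
  linarith

lemma sum_sq_T3 {κ : Type} [Fintype κ] {s : κ → ℤ} (h : T3 s) :
    ∑ k, (s k : ℝ) ^ 2 = (univ.filter fun k => s k ≠ 0).card := by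
  rw [card_filter]
  push_cast
  refine sum_congr rfl fun k _ => ?_
  rcases h k with h | h | h <;> simp [h]

lemma sum_powerset_le {ι : Type} [DecidableEq ι] (J : Finset ι) {x : ℝ} (hx : 0 ≤ x) :
    ∑ T ∈ J.powerset, x ^ T.card ≤ Real.exp (x * J.card) := by
  have h2 : ∑ T ∈ J.powerset, x ^ T.card = (x + 1) ^ J.card := by
    have := prod_add (fun _ : ι => x) (fun _ => 1) J
    simp only [prod_const, one_pow, mul_one] at this
    exact this.symm
  rw [h2, mul_comm, Real.exp_nat_mul]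
  exact pow_le_pow_left₀ (by positivity) (Real.add_one_le_exp x) _

section Law

variable {ι A : Type} [Fintype ι] [DecidableEq ι] [Fintype A] [DecidableEq A] {m Mf : A → ℕ}
  {Ω : A → Type} [∀ a, Fintype (Ω a)] {a0 : A}
  {ρ : ι → ((a : A) → Ω a) → (a : A) → Fin (Mf a) → ℤ}
  {Γ : (a : A) → AddSubgroup (Fin (Mf a) → ℝ)} {τ0 : ℝ}

omit [DecidableEq ι] in
lemma tau_le_one (h : Law a0 ρ Γ τ0) : τ0 ≤ 1 := by
  have h1 : (1 : ℝ) ≤ cd A := by
    have : Nonempty A := ⟨a0⟩
    unfold cd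
    exact_mod_cast Fintype.card_pos
  have h2 : (0 : ℝ) ≤ cd ι := by
    unfold cd
    positivity
  have h3 := h.tau_le
  have h4 := h.tau_nonneg
  have h5 : 1 ≤ cd A * (cd ι + 1) := by nlinarith
  nlinarith

omit [DecidableEq ι] in
lemma sg_marg (h : Law a0 ρ Γ τ0) (j : ι) (a : A) :
    R.SG (fun u k => (ρ j u a k : ℝ)) 2 := fun v => by
  have := h.ne
  refine le_of_resample a _ fun x => ?_
  have h1 := h.sg j x a v
  rw [av_eq] at h1
  unfold ip nsq at h1
  simp only [mul_comm (v _)]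
  refine h1.trans (mul_le_mul_of_nonneg_right ?_ (Real.exp_pos _).le)
  linarith [tau_le_one h]

omit [DecidableEq ι] in
lemma den_marg (h : Law a0 ρ Γ τ0) (j : ι) (a : A) (E : (Fin (Mf a) → ℤ) → Prop) :
    R.pr (fun u => E (ρ j u a)) ≤
      2 * Real.exp (Mf a / 100) * R.pr fun e : Fin (Mf a) → Bool × Bool => E (rw e) := by
  have := h.ne
  rw [← av_ind, av_eq]
  refine le_of_resample a _ fun x => ?_
  have h1 := h.den j x a E
  rwa [av_eq, av_ind] at h1

omit [DecidableEq ι] [Fintype A] [DecidableEq A] [∀ a, Fintype (Ω a)] in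
lemma smp_eq (π : (a : A) → ι → Fin (m a)) (ρ : ι → ((a : A) → Ω a) → (a : A) → Fin (Mf a) → ℤ)
    (x : ι → (a : A) → Ω a) (J : Bk m) {j : ι} (hj : j ∈ bk π J) :
    smp π ρ x J j = ρ j (x j) J.1 := by
  funext k
  exact if_pos (mem_filter.1 hj).2

lemma pr_op (h : Law a0 ρ Γ τ0) (π : (a : A) → ι → Fin (m a)) {LG εR : ℝ} (hL : 1 ≤ LG)
    (hε : 0 ≤ εR) (J : Bk m) {T : Finset ι} (hT : T ⊆ bk π J) :
    R.pr (fun x : ι → (a : A) → Ω a => ¬ Op T (smp π ρ x J)
      (2000 * (Mf J.1 + LG * T.card + εR * (bk π J).card))) ≤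
      2 * Real.exp (-(Mf J.1 : ℝ) - εR * (bk π J).card) * Real.exp (-LG) ^ T.card := by
  have := h.ne
  have hQ : 0 ≤ 2000 * (Mf J.1 + LG * T.card + εR * (bk π J).card) := by positivity
  have h1 := R.pr_not_opLe' (ρ := fun i (u : (a : A) → Ω a) k => (ρ i u J.1 k : ℝ)) (A := 2)
    (by norm_num) (T := T) (fun i _ => sg_marg h i J.1) (Real.sqrt_nonneg
      (2000 * (Mf J.1 + LG * T.card + εR * (bk π J).card)))
  rw [Real.sq_sqrt hQ, Fintype.card_fin] at h1
  refine le_trans (R.pr_mono fun x hx => ?_) (h1.trans ?_)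
  · refine fun hop => hx fun V => ?_
    have h2 := hop.sum_sq_dot (Real.sqrt_nonneg _) V
    rw [Real.sq_sqrt hQ] at h2
    refine le_trans (le_of_eq (sum_congr rfl fun j hj => ?_)) h2
    rw [smp_eq π ρ x J (hT hj)]
    rfl
  · have h3 : (2 : ℝ) ^ T.card ≤ Real.exp T.card := by
      rw [← mul_one (T.card : ℝ), Real.exp_nat_mul]
      exact pow_le_pow_left₀ (by norm_num) (by linarith [Real.add_one_le_exp (1 : ℝ)]) _
    rw [mul_assoc, mul_assoc, ← Real.exp_nat_mul, ← Real.exp_add]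
    refine mul_le_mul_of_nonneg_left ((mul_le_mul_of_nonneg_right h3 (by positivity)).trans ?_)
      (by norm_num)
    rw [← Real.exp_add]
    refine Real.exp_le_exp.2 ?_
    have k1 : (0 : ℝ) ≤ T.card := by positivity
    have k2 : (0 : ℝ) ≤ Mf J.1 := by positivity
    have k3 : (0 : ℝ) ≤ εR * (bk π J).card := by positivity
    have k4 : (T.card : ℝ) ≤ LG * T.card := by nlinarith
    linarith

lemma pr_norm (h : Law a0 ρ Γ τ0) (a : A) (j : ι) :
    R.pr (fun x : ι → (a : A) → Ω a =>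
      ((univ.filter fun k => ρ j (x j) a k ≠ 0).card : ℝ) < Mf a / 4) ≤
      2 * Real.exp (-(Mf a / 200 : ℝ)) := by
  have := h.ne
  rw [R.pr_eval j fun u : (a : A) → Ω a =>
    ((univ.filter fun k => ρ j u a k ≠ 0).card : ℝ) < Mf a / 4]
  refine (den_marg h j a fun r => ((univ.filter fun k => r k ≠ 0).card : ℝ) < Mf a / 4).trans ?_
  refine (mul_le_mul_of_nonneg_left (pr_few _) (by positivity)).trans ?_
  rw [mul_assoc, ← Real.exp_add]
  refine mul_le_mul_of_nonneg_left (Real.exp_le_exp.2 ?_) (by norm_num)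
  have k2 : (0 : ℝ) ≤ Mf a := by positivity
  linarith

lemma pr_pat (h : Law a0 ρ Γ τ0) (a : A) {j j' : ι} (hj : j ≠ j') :
    R.pr (fun x : ι → (a : A) → Ω a =>
      (Mf a : ℝ) / 4 ≤ (univ.filter fun k => ρ j' (x j') a k ≠ 0).card ∧
      ((univ.filter fun k => ρ j (x j) a k = 0 ∧ ρ j' (x j') a k ≠ 0).card : ℝ) < Mf a / 16) ≤
      2 * Real.exp (-(Mf a / 200 : ℝ)) := by
  have := h.ne
  rw [← av_ind, av_eq]
  refine le_of_resample (Ω := fun _ : ι => (a : A) → Ω a) j _ fun x => ?_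
  simp only [Function.update_self, Function.update_of_ne hj.symm]
  rw [← av_eq, av_ind]
  by_cases hr : (Mf a : ℝ) / 4 ≤ (univ.filter fun k => ρ j' (x j') a k ≠ 0).card
  swap
  · exact R.pr_false_le (by positivity) fun u hu => hr hu.1
  refine (R.pr_mono fun u hu => hu.2).trans ((den_marg h j a fun r =>
    ((univ.filter fun k => r k = 0 ∧ ρ j' (x j') a k ≠ 0).card : ℝ) < Mf a / 16).trans ?_)
  refine (mul_le_mul_of_nonneg_left (pr_few_zero _ _ hr) (by positivity)).trans ?_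
  rw [mul_assoc, ← Real.exp_add]
  refine mul_le_mul_of_nonneg_left (Real.exp_le_exp.2 ?_) (by norm_num)
  have k2 : (0 : ℝ) ≤ Mf a := by positivity
  linarith

end Law

end RipP

open RipP

theorem ripS_proof : RipSStmt := by
  refine ⟨2000, by norm_num, fun ι A _ _ _ _ a0 m Mf Ω _ π ρ Γ τ0 LG εR h hL hε => ?_⟩
  have hε0 : 0 ≤ εR := by
    rcases hε with h1 | h1
    · exact (Real.exp_pos _).le.trans h1
    · exact h1.1.ge
  rw [av_ind]
  refine le_trans (R.pr_mono (F := fun x : ι → (a : A) → Ω a => ∃ J : Bk m,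
    ∃ T ∈ (bk π J).powerset, ¬ Op T (smp π ρ x J)
      (2000 * (Mf J.1 + LG * T.card + εR * (bk π J).card))) fun x hx => ?_) ?_
  · by_contra hc
    push Not at hc
    exact hx fun J T hT => hc J T (mem_powerset.2 hT)
  refine (R.pr_exists_le _).trans (sum_le_sum fun J _ => ?_)
  refine (R.pr_exists_mem_le _ _).trans ((sum_le_sum fun T hT =>
    pr_op h π hL hε0 J (mem_powerset.1 hT)).trans ?_)
  rw [← mul_sum]
  refine (mul_le_mul_of_nonneg_left (sum_powerset_le _ (Real.exp_pos _).le)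
    (by positivity)).trans ?_
  rw [mul_assoc, ← Real.exp_add]
  have hJ : (0 : ℝ) ≤ (bk π J).card := by positivity
  have k : -(Mf J.1 : ℝ) - εR * (bk π J).card + Real.exp (-LG) * (bk π J).card ≤
      1 + -(Mf J.1 : ℝ) := by
    rcases hε with h1 | ⟨h1, h2⟩
    · nlinarith
    · have h3 : ((bk π J).card : ℝ) ≤ Real.exp LG := by
        refine le_trans ?_ h2
        unfold cd
        exact_mod_cast card_le_univ _
      have h4 : Real.exp (-LG) * (bk π J).card ≤ 1 := by
        refine (mul_le_mul_of_nonneg_left h3 (Real.exp_pos _).le).trans (le_of_eq ?_)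
        rw [← Real.exp_add, neg_add_cancel, Real.exp_zero]
      rw [h1]
      linarith
  refine (mul_le_mul_of_nonneg_left (Real.exp_le_exp.2 k) (by norm_num)).trans ?_
  rw [Real.exp_add, ← mul_assoc]
  refine mul_le_mul_of_nonneg_right ?_ (Real.exp_pos _).le
  linarith [Real.exp_one_lt_d9]

theorem rowI_proof : RowIStmt := by
  refine ⟨10 ^ 11, by norm_num, fun ι A _ _ _ _ a0 m Mf Ω _ π ρ Γ τ0 LG J n h _ hL hM => ?_⟩
  have := h.ne
  rw [av_ind]
  have hn : (0 : ℝ) ≤ n := by positivity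
  have hJ : (0 : ℝ) ≤ (bk π J).card := by positivity
  have hM0 : (0 : ℝ) ≤ Mf J.1 := by positivity
  have hN : ((bk π J).card : ℝ) ≤ cd ι := by
    unfold cd
    exact_mod_cast card_le_univ _
  have e1 := R.pr_exists_mem_le_card_mul (bk π J) (fun j (x : ι → (a : A) → Ω a) =>
    ((univ.filter fun k => ρ j (x j) J.1 k ≠ 0).card : ℝ) < Mf J.1 / 4)
    fun j _ => pr_norm h J.1 j
  have e2 := R.pr_exists_mem_le_card_mul (bk π J).offDiag (fun p (x : ι → (a : A) → Ω a) =>
      (Mf J.1 : ℝ) / 4 ≤ (univ.filter fun k => ρ p.2 (x p.2) J.1 k ≠ 0).card ∧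
      ((univ.filter fun k => ρ p.1 (x p.1) J.1 k = 0 ∧ ρ p.2 (x p.2) J.1 k ≠ 0).card : ℝ) <
        Mf J.1 / 16) fun p hp => pr_pat h J.1 (mem_offDiag.1 hp).2.2
  have e3 := R.pr_not_rip (ρ := fun i (u : (a : A) → Ω a) k => (ρ i u J.1 k : ℝ)) (J := bk π J)
    (fun i _ => sg_marg h i J.1) n (x := Real.exp (-LG)) (Real.exp_pos _)
    (Real.exp_le_one_iff.2 (by linarith)) (by
      rw [Real.log_exp, Fintype.card_fin]
      have k1 : (n : ℝ) ≤ n * LG := by nlinarith
      have k2 : 0 ≤ Real.exp (-LG) * (bk π J).card := by positivity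
      linarith)
  rw [Fintype.card_fin] at e3
  refine le_trans (R.pr_mono fun x hx => ?_) ((R.pr_or_le _ _).trans
    ((add_le_add e1 ((R.pr_or_le _ _).trans (add_le_add e2 e3))).trans ?_))
  · by_contra hc
    rw [not_or, not_or] at hc
    obtain ⟨c1, c2, c3⟩ := hc
    push Not at c1 c2 c3
    have d1 : ∀ j ∈ bk π J, (Mf J.1 : ℝ) / 4 ≤ ∑ k, (ρ j (x j) J.1 k : ℝ) ^ 2 := fun j hj => by
      rw [sum_sq_T3 (h.t3 j (x j) J.1)]
      exact c1 j hj
    refine hx ⟨fun j hj => ?_, fun j hj j' hj' hne => ?_, fun T hT hTn v => ?_⟩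
    · rw [smp_eq π ρ x J hj]
      exact d1 j hj
    · rw [smp_eq π ρ x J hj, smp_eq π ρ x J hj', Fintype.card_fin]
      exact c2 (j, j') (mem_offDiag.2 ⟨hj, hj', hne⟩) (c1 j' hj')
    · have d2 : ∑ k, (∑ j ∈ T, v j * (smp π ρ x J j k : ℝ)) ^ 2 =
          ∑ k, (∑ j ∈ T, v j * (ρ j (x j) J.1 k : ℝ)) ^ 2 :=
        sum_congr rfl fun k _ => by
          rw [sum_congr rfl fun j hj => by rw [smp_eq π ρ x J (hT hj)]]
      rw [d2]
      obtain ⟨u1, u2⟩ := c3 T hT hTn v
      refine ⟨u1.trans (mul_le_mul_of_nonneg_right (by linarith)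
        (sum_nonneg fun _ _ => sq_nonneg _)), u2 fun j hj => d1 j (hT hj)⟩
  · have k1 : ((bk π J).offDiag.card : ℝ) ≤ cd ι ^ 2 := by
      have : (bk π J).offDiag.card ≤ (bk π J).card * (bk π J).card := by
        rw [offDiag_card]
        omega
      have k : ((bk π J).offDiag.card : ℝ) ≤ (bk π J).card * (bk π J).card := by exact_mod_cast this
      nlinarith
    have k2 : Real.exp (-(Mf J.1 / 200 : ℝ)) ≤ Real.exp (-(Mf J.1 / 10 ^ 11 : ℝ)) :=
      Real.exp_le_exp.2 (by linarith)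
    have k3 : Real.exp (-(Mf J.1 / 10 ^ 9 : ℝ)) ≤ Real.exp (-(Mf J.1 / 10 ^ 11 : ℝ)) :=
      Real.exp_le_exp.2 (by linarith)
    have k4 := Real.exp_pos (-(Mf J.1 / 200 : ℝ))
    have k5 : 0 ≤ cd ι := hJ.trans hN
    set E := Real.exp (-(Mf J.1 / 10 ^ 11 : ℝ))
    have k6 : ((bk π J).card : ℝ) * (2 * Real.exp (-(Mf J.1 / 200 : ℝ))) ≤ cd ι * (2 * E) := by
      gcongr
    have k7 : ((bk π J).offDiag.card : ℝ) * (2 * Real.exp (-(Mf J.1 / 200 : ℝ))) ≤
        cd ι ^ 2 * (2 * E) := by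
      gcongr
    have k8 : 0 < E := Real.exp_pos _
    have k9 : (2 * cd ι + 2 * cd ι ^ 2 + 4) * E ≤ 10 ^ 11 * (cd ι + 1) ^ 2 * E :=
      mul_le_mul_of_nonneg_right (by nlinarith) k8.le
    nlinarith

end Vale.Agent.P318.C
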