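import Vale.Agent.P318.C.All0
import Vale.Agent.P318.C.Block2
import Vale.Agent.P318.C.C1c
import Vale.Agent.P318.C.Det
import Vale.Agent.P318.C.ExistC
import Vale.Agent.P318.C.LawEx
import Vale.Agent.P318.C.Leave
import Vale.Agent.P318.C.LowG
import Vale.Agent.P318.C.Param
import Vale.Agent.P318.C.Part
import Vale.Agent.P318.C.Prof
import Vale.Agent.P318.C.RipS

/-! Assembly of track C. -/

namespace Vale.Agent.P318.C

theorem exist_all : ExistCStmt :=
  existC_proof par_proof (det_proof rip_proof) part_proof lawEx_proof ripS_proof rowI_proof
    lowG_proof (c1c_proof B.pat_proof) leave_proof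

theorem block_all : BlockStmt :=
  block_proof2 win_proof line_proof (deriv_proof win_proof) near_all

theorem finalC : FinalCStmt := final_of block_all prof_proof exist_all

end Vale.Agent.P318.C
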