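import Vale.Agent.P318.C.GStmt

/-!
Track C, part (G): concentration of convex Lipschitz functions (Maurey's convex property `τ`).
-/

namespace Vale.Agent.P318.C

open Finset MeasureTheory Function
open M (ind)

noncomputable section

namespace Cvx

/-- a continuous probability density on `[-1, 1]` -/
structure Den (q : ℝ → ℝ) : Prop where
  cont : Continuous q
  nn : ∀ t, 0 ≤ q t
  one : ∫ t in (-1 : ℝ)..1, q t = 1

def mq (q φ : ℝ → ℝ) : ℝ := ∫ t in (-1 : ℝ)..1, φ t * q t

variable {q : ℝ → ℝ}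

theorem mq_mono (h : Den q) {φ ψ : ℝ → ℝ} (h1 : Continuous φ) (h2 : Continuous ψ)
    (hle : ∀ t ∈ Set.Icc (-1 : ℝ) 1, φ t ≤ ψ t) : mq q φ ≤ mq q ψ :=
  intervalIntegral.integral_mono_on (by norm_num) ((h1.mul h.cont).intervalIntegrable _ _)
    ((h2.mul h.cont).intervalIntegrable _ _) fun t ht =>
      mul_le_mul_of_nonneg_right (hle t ht) (h.nn t)

theorem mq_lin (h : Den q) {φ ψ : ℝ → ℝ} (h1 : Continuous φ) (h2 : Continuous ψ) (a b : ℝ) :
    mq q (fun t => a * φ t + b * ψ t) = a * mq q φ + b * mq q ψ := by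
  unfold mq
  have := h.cont
  rw [← intervalIntegral.integral_const_mul, ← intervalIntegral.integral_const_mul,
    ← intervalIntegral.integral_add (Continuous.intervalIntegrable (by fun_prop) _ _)
      (Continuous.intervalIntegrable (by fun_prop) _ _)]
  congr 1
  ext t
  ring

theorem mq_const (h : Den q) (a : ℝ) : mq q (fun _ => a) = a := by
  rw [mq, intervalIntegral.integral_const_mul, h.one, mul_one]

theorem mq_pos (h : Den q) {φ : ℝ → ℝ} (h1 : Continuous φ) (hp : ∀ t, 0 < φ t) : 0 < mq q φ := by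
  obtain ⟨t, -, ht⟩ := (isCompact_Icc (a := (-1 : ℝ)) (b := 1)).exists_isMinOn
    ⟨0, by norm_num⟩ h1.continuousOn
  exact (hp t).trans_le ((mq_const h _).ge.trans (mq_mono h continuous_const h1 fun s hs => ht hs))

variable {ι : Type} [Fintype ι] [DecidableEq ι]

/-- the mean over the coordinates of a list -/
def avl (q : ℝ → ℝ) : List ι → ((ι → ℝ) → ℝ) → (ι → ℝ) → ℝ
  | [], Φ => Φ
  | j :: l, Φ => fun z => mq q fun t => avl q l Φ (update z j t)

omit [Fintype ι] in
theorem cont_upd {Φ : (ι → ℝ) → ℝ} (h : Continuous Φ) (z : ι → ℝ) (j : ι) :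
    Continuous fun t => Φ (update z j t) := h.comp (continuous_const.update j continuous_id)

omit [Fintype ι] in
theorem avl_cont (h : Den q) {Φ : (ι → ℝ) → ℝ} (h1 : Continuous Φ) :
    ∀ l : List ι, Continuous (avl q l Φ)
  | [] => h1
  | j :: l => intervalIntegral.continuous_parametric_intervalIntegral_of_continuous'
      (f := fun z t => avl q l Φ (update z j t) * q t)
      (((avl_cont h h1 l).comp (continuous_fst.update j continuous_snd)).mul
        (h.cont.comp continuous_snd)) _ _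

omit [Fintype ι] in
theorem avl_mono (h : Den q) {Φ Ψ : (ι → ℝ) → ℝ} (h1 : Continuous Φ) (h2 : Continuous Ψ)
    (hle : ∀ z, Φ z ≤ Ψ z) : ∀ (l : List ι) z, avl q l Φ z ≤ avl q l Ψ z
  | [], z => hle z
  | j :: l, z => mq_mono h (cont_upd (avl_cont h h1 l) z j) (cont_upd (avl_cont h h2 l) z j)
      fun _ _ => avl_mono h h1 h2 hle l _

omit [Fintype ι] in
theorem avl_lin (h : Den q) {Φ Ψ : (ι → ℝ) → ℝ} (h1 : Continuous Φ) (h2 : Continuous Ψ) (a b : ℝ) :
    ∀ (l : List ι) z, avl q l (fun x => a * Φ x + b * Ψ x) z = a * avl q l Φ z + b * avl q l Ψ z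
  | [], _ => rfl
  | j :: l, z => by
    simp only [avl, avl_lin h h1 h2 a b l]
    exact mq_lin h (cont_upd (avl_cont h h1 l) z j) (cont_upd (avl_cont h h2 l) z j) a b

omit [Fintype ι] in
theorem avl_pos (h : Den q) {Φ : (ι → ℝ) → ℝ} (h1 : Continuous Φ) (hp : ∀ z, 0 < Φ z) :
    ∀ (l : List ι) z, 0 < avl q l Φ z
  | [], z => hp z
  | j :: l, z => mq_pos h (cont_upd (avl_cont h h1 l) z j) fun _ => avl_pos h h1 hp l _

omit [Fintype ι] in
theorem avl_upd (Φ : (ι → ℝ) → ℝ) (j : ι) (t : ℝ) : ∀ (l : List ι), j ∉ l → ∀ z,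
    avl q l (fun x => Φ (update x j t)) z = avl q l Φ (update z j t)
  | [], _, _ => rfl
  | i :: l, h, z => by
    rw [List.mem_cons, not_or] at h
    simp only [avl, avl_upd Φ j t l h.2, update_comm h.1]

omit [Fintype ι] in
theorem avl_ind (Φ : (ι → ℝ) → ℝ) : ∀ (l : List ι) (z z' : ι → ℝ), (∀ i, i ∉ l → z i = z' i) →
    avl q l Φ z = avl q l Φ z'
  | [], z, z', h => by rw [funext fun i => h i List.not_mem_nil]
  | j :: l, z, z', h => by
    simp only [avl]
    congr 1
    ext t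
    refine avl_ind Φ l _ _ fun i hi => ?_
    rcases eq_or_ne i j with rfl | e
    · simp
    · rw [update_of_ne e, update_of_ne e, h i (by simp [e, hi])]

/-- Lipschitz for the Euclidean distance -/
def Lip (g : (ι → ℝ) → ℝ) (L : ℝ) : Prop :=
  ∀ z z', |g z - g z'| ≤ L * Real.sqrt (∑ i, (z i - z' i) ^ 2)

omit [DecidableEq ι] in
theorem Lip.cont {g : (ι → ℝ) → ℝ} {L : ℝ} (h : Lip g L) : Continuous g := by
  refine continuous_iff_continuousAt.2 fun z => tendsto_iff_dist_tendsto_zero.2 ?_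
  refine squeeze_zero (fun _ => dist_nonneg) (fun x => h x z) ?_
  have : Continuous fun x : ι → ℝ => L * Real.sqrt (∑ i, (x i - z i) ^ 2) := by fun_prop
  simpa using this.tendsto z

/-- the inf-convolution in the coordinates of a list -/
def Qf (l : List ι) (g : (ι → ℝ) → ℝ) (x : ι → ℝ) : ℝ :=
  ⨅ u : {u : ι → ℝ // ∀ i, i ∉ l → u i = 0}, (g (x + u.1) + (∑ i, u.1 i ^ 2) / 16)

instance (l : List ι) : Nonempty {u : ι → ℝ // ∀ i, i ∉ l → u i = 0} := ⟨⟨0, fun _ _ => rfl⟩⟩

variable {g : (ι → ℝ) → ℝ} {L : ℝ}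

omit [DecidableEq ι] in
theorem low (h : Lip g L) (x u : ι → ℝ) : g x - 4 * L ^ 2 ≤ g (x + u) + (∑ i, u i ^ 2) / 16 := by
  have h1 := (abs_le.1 (h (x + u) x)).1
  simp only [Pi.add_apply, add_sub_cancel_left] at h1
  have h2 := Real.sq_sqrt (show 0 ≤ ∑ i, u i ^ 2 by positivity)
  nlinarith [sq_nonneg (Real.sqrt (∑ i, u i ^ 2) - 8 * L)]

omit [DecidableEq ι] in
theorem le_Qf (h : Lip g L) (l : List ι) (x : ι → ℝ) : g x - 4 * L ^ 2 ≤ Qf l g x :=
  le_ciInf fun u => low h x u.1

omit [DecidableEq ι] in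
theorem Qf_le (h : Lip g L) (l : List ι) (x u : ι → ℝ) (hu : ∀ i, i ∉ l → u i = 0) :
    Qf l g x ≤ g (x + u) + (∑ i, u i ^ 2) / 16 :=
  ciInf_le (f := fun u : {u : ι → ℝ // ∀ i, i ∉ l → u i = 0} =>
    g (x + u.1) + (∑ i, u.1 i ^ 2) / 16) ⟨_, Set.forall_mem_range.2 fun u => low h x u.1⟩ ⟨u, hu⟩

omit [DecidableEq ι] in
theorem Qf_lip (h : Lip g L) (l : List ι) : Lip (Qf l g) L := by
  have k : ∀ x x' : ι → ℝ, Qf l g x - L * Real.sqrt (∑ i, (x i - x' i) ^ 2) ≤ Qf l g x' :=
    fun x x' => le_ciInf fun u => by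
      have h1 := (abs_le.1 (h (x + u.1) (x' + u.1))).2
      simp only [Pi.add_apply, add_sub_add_right_eq_sub] at h1
      linarith [Qf_le h l x u.1 u.2]
  intro x x'
  have h1 := k x' x
  simp only [sub_sq_comm (x' _)] at h1
  rw [abs_le]
  constructor <;> linarith [k x x']

theorem Qf_step (h : Lip g L) (hc : ConvexOn ℝ Set.univ g) {j : ι} {l : List ι} (hj : j ∉ l)
    {θ : ℝ} (h0 : 0 ≤ θ) (h1 : θ ≤ 1) (x : ι → ℝ) (t t0 : ℝ) :
    Qf (j :: l) g (update x j t) ≤ (1 - θ) * Qf l g (update x j t) + θ * Qf l g (update x j t0) +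
      θ ^ 2 * (t0 - t) ^ 2 / 16 := by
  refine le_of_forall_pos_le_add fun ε hε => ?_
  obtain ⟨u, hu⟩ := exists_lt_of_ciInf_lt (lt_add_of_pos_right (Qf l g (update x j t)) hε)
  obtain ⟨v, hv⟩ := exists_lt_of_ciInf_lt (lt_add_of_pos_right (Qf l g (update x j t0)) hε)
  have h2 := Qf_le h (j :: l) (update x j t)
    ((1 - θ) • u.1 + θ • (v.1 + Pi.single j (t0 - t))) fun i hi => by
      rw [List.mem_cons, not_or] at hi
      simp [u.2 i hi.2, v.2 i hi.2, Pi.single_eq_of_ne hi.1]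
  have e : update x j t + ((1 - θ) • u.1 + θ • (v.1 + Pi.single j (t0 - t))) =
      (1 - θ) • (update x j t + u.1) + θ • (update x j t0 + v.1) := by
    ext i
    rcases eq_or_ne i j with rfl | e
    · simp; ring
    · simp [update_of_ne e, Pi.single_eq_of_ne e]; ring
  have h3 := hc.2 (Set.mem_univ (update x j t + u.1)) (Set.mem_univ (update x j t0 + v.1))
    (sub_nonneg.2 h1) h0 (by ring)
  have h4 : ∑ i, ((1 - θ) • u.1 + θ • (v.1 + Pi.single j (t0 - t)) : ι → ℝ) i ^ 2 ≤
      ∑ i, ((1 - θ) * u.1 i ^ 2 + θ * v.1 i ^ 2 +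
        (Pi.single j (θ ^ 2 * (t0 - t) ^ 2) : ι → ℝ) i) := sum_le_sum fun i _ => by
    rcases eq_or_ne i j with rfl | e
    · simp [u.2 i hj, v.2 i hj, mul_pow]
    · simp only [Pi.add_apply, Pi.smul_apply, smul_eq_mul, Pi.single_eq_of_ne e, add_zero]
      nlinarith [mul_nonneg (mul_nonneg h0 (sub_nonneg.2 h1)) (sq_nonneg (u.1 i - v.1 i))]
  rw [sum_add_distrib, sum_add_distrib, ← mul_sum, ← mul_sum, sum_pi_single'] at h4
  simp only [mem_univ, if_true, smul_eq_mul] at h3 h4
  rw [e] at h2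
  nlinarith [mul_le_mul_of_nonneg_left hu.le (sub_nonneg.2 h1), mul_le_mul_of_nonneg_left hv.le h0]

theorem one_dim {τ : ℝ} (h : 0 ≤ τ) : ∃ θ, 0 ≤ θ ∧ θ ≤ 1 ∧
    Real.exp (θ ^ 2 / 4 + (1 - θ) * τ) ≤ 2 - Real.exp (-τ) := by
  rcases le_total τ (1 / 2) with h1 | h1
  · refine ⟨2 * τ, by linarith, by linarith, ?_⟩
    have h2 := Real.cosh_le_exp_half_sq (τ - τ ^ 2 / 2)
    have h3 : Real.exp (-(τ ^ 2 / 2)) * Real.exp ((τ - τ ^ 2 / 2) ^ 2 / 2) ≤ 1 := by
      rw [← Real.exp_add, Real.exp_le_one_iff]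
      nlinarith [mul_nonneg (mul_nonneg h h) (mul_nonneg h (show 0 ≤ 4 - τ by linarith))]
    have e1 : Real.exp ((2 * τ) ^ 2 / 4 + (1 - 2 * τ) * τ) =
        Real.exp (-(τ ^ 2 / 2)) * Real.exp (τ - τ ^ 2 / 2) := by
      rw [← Real.exp_add]; congr 1; ring
    have e2 : Real.exp (-τ) = Real.exp (-(τ ^ 2 / 2)) * Real.exp (-(τ - τ ^ 2 / 2)) := by
      rw [← Real.exp_add]; congr 1; ring
    rw [Real.cosh_eq] at h2
    rw [e1, e2]
    nlinarith [mul_le_mul_of_nonneg_left h2 (Real.exp_pos (-(τ ^ 2 / 2))).le]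
  · refine ⟨1, zero_le_one, le_rfl, ?_⟩
    have h2 : Real.exp (-τ) ≤ 2 / 3 := by
      rw [Real.exp_neg, inv_le_comm₀ (Real.exp_pos _) (by norm_num)]
      linarith [Real.add_one_le_exp τ]
    have h3 : Real.exp (1 / 4) ≤ 4 / 3 := by
      rw [← neg_neg (1 / 4 : ℝ), Real.exp_neg, inv_le_comm₀ (Real.exp_pos _) (by norm_num)]
      linarith [Real.add_one_le_exp (-(1 / 4 : ℝ))]
    rw [show (1 : ℝ) ^ 2 / 4 + (1 - 1) * τ = 1 / 4 by ring]
    linarith

theorem tau (hq : Den q) (h : Lip g L) (hc : ConvexOn ℝ Set.univ g) : ∀ l : List ι, l.Nodup →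
    ∀ z, avl q l (fun x => Real.exp (Qf l g x)) z * avl q l (fun x => Real.exp (-g x)) z ≤ 1
  | [], _, z => by
    have := Qf_le h [] z 0 fun _ _ => rfl
    simp only [avl]
    rw [← Real.exp_add, Real.exp_le_one_iff]
    simpa using this
  | j :: l, hl, z => by
    rw [List.nodup_cons] at hl
    have cQ : ∀ l : List ι, Continuous fun x => Real.exp (Qf l g x) := fun l =>
      Real.continuous_exp.comp (Qf_lip h l).cont
    have cU : ∀ (l : List ι) (t : ℝ), Continuous fun x => Real.exp (Qf l g (update x j t)) :=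
      fun l t => (cQ l).comp (continuous_id.update j continuous_const)
    have cg : Continuous fun x => Real.exp (-g x) := Real.continuous_exp.comp h.cont.neg
    set b : ℝ → ℝ := fun t => avl q l (fun x => Real.exp (-g x)) (update z j t) with hb
    have cb : Continuous b := cont_upd (avl_cont hq cg l) z j
    have b0 : ∀ t, 0 < b t := fun t => avl_pos hq cg (fun _ => Real.exp_pos _) l _
    obtain ⟨t0, ht0, hm⟩ := (isCompact_Icc (a := (-1 : ℝ)) (b := 1)).exists_isMaxOn
      ⟨0, by norm_num⟩ cb.continuousOn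
    have key : ∀ t ∈ Set.Icc (-1 : ℝ) 1,
        avl q l (fun x => Real.exp (Qf (j :: l) g x)) (update z j t) ≤
          2 / b t0 * 1 + -(1 / b t0 ^ 2) * b t := fun t ht => by
      obtain ⟨θ, h0, h1, h2⟩ := one_dim (sub_nonneg.2 (Real.log_le_log (b0 t) (hm ht)))
      set K := Real.exp (θ ^ 2 / 4 + (1 - θ) * (Real.log (b t0) - Real.log (b t)) -
        Real.log (b t0)) with hK
      have hK0 : 0 < K := Real.exp_pos _
      have i1 := tau hq h hc l hl.2 (update z j t)
      have i2 := tau hq h hc l hl.2 (update z j t0)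
      rw [← avl_upd _ j t l hl.1]
      refine (avl_mono hq (cU _ t) (Ψ := fun x =>
        K * ((1 - θ) * b t) * Real.exp (Qf l g (update x j t)) +
          K * (θ * b t0) * Real.exp (Qf l g (update x j t0)))
        ((continuous_const.mul (cU l t)).add (continuous_const.mul (cU l t0)))
        (fun x => ?_) l z).trans ?_
      · have s := Qf_step h hc hl.1 h0 h1 x t t0
        have s1 : θ ^ 2 * (t0 - t) ^ 2 ≤ θ ^ 2 * 4 := mul_le_mul_of_nonneg_left
          (by nlinarith [ht.1, ht.2, ht0.1, ht0.2]) (sq_nonneg _)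
        have s2 := convexOn_exp.2 (Set.mem_univ (Qf l g (update x j t) + Real.log (b t)))
          (Set.mem_univ (Qf l g (update x j t0) + Real.log (b t0))) (sub_nonneg.2 h1) h0 (by ring)
        simp only [smul_eq_mul, Real.exp_add _ (Real.log _), Real.exp_log (b0 _)] at s2
        calc _ ≤ K * Real.exp ((1 - θ) * (Qf l g (update x j t) + Real.log (b t)) +
              θ * (Qf l g (update x j t0) + Real.log (b t0))) := by
              rw [hK, ← Real.exp_add]
              exact Real.exp_le_exp.2 (by nlinarith)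
          _ ≤ _ := by nlinarith [mul_le_mul_of_nonneg_left s2 hK0.le]
      · rw [avl_lin hq (cU l t) (cU l t0), avl_upd (fun x => Real.exp (Qf l g x)) j t l hl.1,
          avl_upd (fun x => Real.exp (Qf l g x)) j t0 l hl.1]
        have k1 : K ≤ 2 / b t0 * 1 + -(1 / b t0 ^ 2) * b t := by
          rw [neg_sub, Real.exp_sub, Real.exp_log (b0 _), Real.exp_log (b0 _)] at h2
          rw [hK, Real.exp_sub, Real.exp_log (b0 _), div_le_iff₀ (b0 _)]
          refine h2.trans_eq ?_
          have := (b0 t0).ne'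
          field_simp
          ring
        have k2 := mul_le_mul_of_nonneg_left i1 (mul_nonneg hK0.le (sub_nonneg.2 h1))
        have k3 := mul_le_mul_of_nonneg_left i2 (mul_nonneg hK0.le h0)
        simp only [hb] at k1 ⊢
        nlinarith
    have h2 := mq_mono hq (cont_upd (avl_cont hq (cQ (j :: l)) l) z j) (by fun_prop) key
    rw [mq_lin hq continuous_const cb, mq_const hq] at h2
    have h3 := mq_pos hq cb b0
    refine (mul_le_mul_of_nonneg_right h2 h3.le).trans ?_
    have := (b0 t0).ne'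
    rw [show (2 / b t0 * 1 + -(1 / b t0 ^ 2) * mq q b) * mq q b =
      1 - (1 - mq q b / b t0) ^ 2 by field_simp; ring]
    linarith [sq_nonneg (1 - mq q b / b t0)]

end Cvx

open Cvx

theorem conc_proof (hW : WinStmt) (hL : LawStmt) : ConcStmt := by
  intro ι _ _ w F L s hw hL0 hs hc hF
  obtain ⟨l1, l2⟩ := hL w hw
  obtain ⟨lb, l3, lc, -⟩ := l2 ι
  have cr : Continuous (ramp w) :=
    continuous_iff_continuousAt.2 fun x => ((hW w hw).deriv x).continuousAt
  set q : ℝ → ℝ := fun t => ramp w (t + 1 / 2 + w.om) - ramp w (t - 1 / 2 + w.om) with hq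
  have zm : ∀ φ : ℝ → ℝ, Continuous φ → zmean w φ = mq q φ := fun φ hφ => by
    obtain ⟨C, hC⟩ := (isCompact_Icc (a := (-1 : ℝ)) (b := 1)).exists_bound_of_continuousOn
      hφ.continuousOn
    exact (l1 φ hφ.measurable ⟨C, fun t ht => hC t (abs_le.1 ht)⟩).1
  have dq : Den q := ⟨by fun_prop, fun t => sub_nonneg.2 ((hW w hw).ramp_mono (by linarith)), by
    have := zm (fun _ => 1) continuous_const
    simpa [zmean, mq] using this.symm⟩
  have zl : ∀ Φ : (ι → ℝ) → ℝ, Continuous Φ → ∀ l : List ι, zE w Φ = zE w (avl q l Φ) := by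
    intro Φ hΦ l
    induction l with
    | nil => rfl
    | cons j l ih =>
      rw [ih, ((l3 _ (lb _ (avl_cont dq hΦ l))).2.2.1 j).2]
      congr 1
      ext z
      exact zm _ (cont_upd (avl_cont dq hΦ l) z j)
  have zu : ∀ Φ : (ι → ℝ) → ℝ, Continuous Φ → zE w Φ = avl q univ.toList Φ 0 := fun Φ hΦ => by
    rw [zl Φ hΦ univ.toList, ← lc (avl q univ.toList Φ 0)]
    congr 1
    ext z
    exact avl_ind Φ _ _ _ fun i hi => absurd (mem_toList.2 (mem_univ i)) hi
  have cF : Continuous F := Lip.cont hF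
  set μ := zE w F with hμ
  set a := s / (8 * L ^ 2) with ha
  have a0 : 0 ≤ a := by positivity
  have hg : Lip (fun z => a * (F z - μ)) (a * L) := fun z z' => by
    rw [← mul_sub, sub_sub_sub_cancel_right, abs_mul, abs_of_nonneg a0, mul_assoc]
    exact mul_le_mul_of_nonneg_left (hF z z') a0
  have cg : ConvexOn ℝ Set.univ fun z => a * (F z - μ) := (hc.add_const (-μ)).smul a0
  have c1 : Continuous fun z => Real.exp (a * (F z - μ)) := by fun_prop
  have c2 : Continuous fun z => Real.exp (-(a * (F z - μ))) := by fun_prop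
  have t := tau dq hg cg _ (nodup_toList univ) 0
  have c3 : Continuous fun x => Real.exp (Qf univ.toList (fun z => a * (F z - μ)) x) :=
    Real.continuous_exp.comp (Qf_lip hg _).cont
  rw [← zu _ c2, ← zu _ c3] at t
  have mono := fun Φ Ψ h1 h2 (h : ∀ z, Φ z ≤ Ψ z) => ((l3 Φ h1).2.2.2.2 Ψ h2).2 fun z _ => h z
  have J : ∀ b : ℝ, 1 ≤ zE w fun z => Real.exp (b * (F z - μ)) := fun b => by
    refine le_trans (le_of_eq ?_) (mono (fun z => b * F z + (1 - b * μ)) _ (lb _ (by fun_prop))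
      (lb _ (by fun_prop)) fun z => by linarith [Real.add_one_le_exp (b * (F z - μ))])
    rw [((l3 _ (lb _ (by fun_prop))).2.2.2.2 _ (lb _ continuous_const)).1, lc,
      (l3 _ (lb _ cF)).2.2.2.1]
    ring
  have J2 := J (-a)
  simp only [neg_mul] at J2
  have t1 := mono (fun z => Real.exp (-(4 * (a * L) ^ 2)) * Real.exp (a * (F z - μ))) _
    (lb _ (by fun_prop)) (lb _ c3) fun z => by
      rw [← Real.exp_add]
      exact Real.exp_le_exp.2 (by linarith [le_Qf hg univ.toList z])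
  rw [(l3 _ (lb _ c1)).2.2.2.1] at t1
  have t2 := (mul_le_mul_of_nonneg_right t1 (zero_le_one.trans J2)).trans t
  rw [mul_assoc, Real.exp_neg, inv_mul_le_iff₀ (Real.exp_pos _), mul_one] at t2
  have t3 := mono (fun z => ind (s < |F z - μ|)) (fun z => Real.exp (-(a * s)) *
    (Real.exp (a * (F z - μ)) + Real.exp (-(a * (F z - μ)))))
    ⟨@Measurable.ite _ _ _ _ _ _ _ (fun _ => Classical.propDecidable _)
      (measurableSet_lt measurable_const (by fun_prop)) measurable_const measurable_const,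
      1, fun z _ => by simp only [ind]; split_ifs <;> simp⟩ (lb _ (by fun_prop)) fun z => by
    unfold ind
    split_ifs with h
    · rw [mul_add, ← Real.exp_add, ← Real.exp_add]
      rcases lt_abs.1 h with h | h
      · linarith [Real.add_one_le_exp (-(a * s) + a * (F z - μ)), mul_le_mul_of_nonneg_left h.le a0,
          Real.exp_pos (-(a * s) + -(a * (F z - μ)))]
      · linarith [Real.add_one_le_exp (-(a * s) + -(a * (F z - μ))),
          mul_le_mul_of_nonneg_left h.le a0, Real.exp_pos (-(a * s) + a * (F z - μ))]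
    · positivity
  rw [(l3 (fun z => Real.exp (a * (F z - μ)) + Real.exp (-(a * (F z - μ))))
    (lb _ (c1.add c2))).2.2.2.1, ((l3 _ (lb _ c1)).2.2.2.2 _ (lb _ c2)).1] at t3
  have e : Real.exp (-s ^ 2 / (16 * L ^ 2)) = Real.exp (-(a * s)) * Real.exp (4 * (a * L) ^ 2) := by
    rw [← Real.exp_add, ha]
    congr 1
    field_simp
    ring
  rw [e]
  have J1 := J a
  refine t3.trans ?_
  rw [mul_left_comm]
  exact mul_le_mul_of_nonneg_left (by nlinarith) (Real.exp_pos _).le

end

end Vale.Agent.P318.C
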