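import Vale.Agent.P318.C.GStmt

/-! The inequalities in one coordinate. -/

namespace Vale.Agent.P318.C

namespace CoreP

theorem sg_pos {x : ℝ} (h : 0 < x) : sg x = 1 := if_pos h

theorem sg_neg {x : ℝ} (h : x < 0) : sg x = -1 := by rw [sg, if_neg h.not_gt, if_pos h]

theorem sg_mul_self (x : ℝ) : sg x * x = |x| := by
  rcases lt_trichotomy x 0 with h | rfl | h
  · rw [sg_neg h, abs_of_neg h, neg_one_mul]
  · simp
  · rw [sg_pos h, abs_of_pos h, one_mul]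

theorem sg_mul_le (x t : ℝ) : sg x * t ≤ |t| := by
  unfold sg
  split_ifs <;> linarith [le_abs_self t, neg_abs_le t, abs_nonneg t]

theorem rp_nonneg (c ρ x : ℝ) : 0 ≤ rp c ρ x := le_max_right _ _

theorem rp_le (c ρ x : ℝ) : rp c ρ x ≤ 1 := max_le (min_le_right _ _) zero_le_one

theorem rp_zero {c ρ x : ℝ} (hρ : 0 < ρ) (h : c ≤ x) : rp c ρ x = 0 :=
  max_eq_right ((min_le_left _ _).trans (div_nonpos_of_nonpos_of_nonneg (by linarith) hρ.le))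

theorem rp_lip {ρ : ℝ} (hρ : 0 < ρ) (c x x' : ℝ) : rp c ρ x - rp c ρ x' ≤ |x' - x| / ρ := by
  have h1 : (c - x) / ρ - (c - x') / ρ ≤ |x' - x| / ρ := by
    rw [← sub_div]
    exact div_le_div_of_nonneg_right (by linarith [le_abs_self (x' - x)]) hρ.le
  have h2 : 0 ≤ |x' - x| / ρ := by positivity
  unfold rp
  simp only [max_def, min_def]
  split_ifs <;> linarith

theorem int_le {k : ℤ} {n : ℤ} (h : (k : ℝ) < n + 1) : k ≤ n :=
  Int.lt_add_one_iff.1 (by exact_mod_cast h)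

theorem le_int {k : ℤ} {n : ℤ} (h : (n : ℝ) - 1 < k) : n ≤ k := int_le (by linarith)

theorem hinge {ω η y y' y'' ϑ e : ℝ} {k : ℤ} (h2 : 0 ≤ η) (h3 : η ≤ ω / 2)
    (hy : |y| ≤ 1 / 2 + ω + η) (hy' : |y'| ≤ 1 / 2 + ω + η) (h4 : 4 * ω < ϑ) (h5 : ϑ ≤ 1 / 2)
    (he : |e| ≤ ω) (hk : y - y' = k - ϑ - e) :
    max (-(1 / 2 + ω + η) + ϑ - ω - y') 0 - max (-(1 / 2 + ω + η) + ϑ - ω - y'') 0 -
      8 * ω * |(k : ℝ)| ≤ k * (y'' - y') := by
  rw [abs_le] at hy hy' he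
  have k0 : 0 ≤ k := le_int (by push_cast; linarith)
  have k1 : k ≤ 1 := int_le (by push_cast; linarith)
  have m1 := le_max_left (-(1 / 2 + ω + η) + ϑ - ω - y'') 0
  have m2 := le_max_right (-(1 / 2 + ω + η) + ϑ - ω - y'') 0
  obtain rfl | rfl : k = 0 ∨ k = 1 := by omega
  · rw [max_eq_right (by push_cast at hk; linarith)]
    simp only [Int.cast_zero, abs_zero, mul_zero, zero_mul]
    linarith
  · have : max (-(1 / 2 + ω + η) + ϑ - ω - y') 0 ≤ -(1 / 2 + ω + η) + ϑ - ω - y' + 5 * ω :=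
      max_le (by linarith) (by push_cast at hk; linarith)
    simp only [Int.cast_one, abs_one, mul_one, one_mul]
    linarith

theorem hg_nonneg (ω η ϑ t : ℝ) : 0 ≤ hg ω η ϑ t := by
  unfold hg
  split_ifs
  exacts [le_max_right _ _, le_rfl]

theorem one {ω η y y' y'' ϑ e : ℝ} {k : ℤ} (h0 : 0 < ω) (h1 : ω ≤ 1 / 16) (h2 : 0 ≤ η)
    (h3 : η ≤ ω / 2) (hy : |y| ≤ 1 / 2 + ω + η) (hy' : |y'| ≤ 1 / 2 + ω + η)
    (hy'' : |y''| ≤ 1 / 2 + ω + η) (h5 : |ϑ| ≤ 1 / 2) (hk : y - y' = k - ϑ - e) :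
    hg ω η ϑ y' - hg ω η ϑ y'' - 8 * ω * |(k : ℝ)| -
      (if k ≠ 0 ∨ 4 * ω < |ϑ| then 7 * e ^ 2 / ω ^ 2 else 0) ≤ k * (y'' - y') := by
  split_ifs with hact
  swap
  · rw [not_or, not_not] at hact
    simp [hg, hact.1, hact.2]
  have hQ : 0 ≤ 7 * e ^ 2 / ω ^ 2 := by positivity
  by_cases he : |e| ≤ ω
  · by_cases h4 : 4 * ω < |ϑ|
    · rw [hg, hg, if_pos h4, if_pos h4]
      rcases le_or_gt 0 ϑ with h | h
      · rw [abs_of_nonneg h] at h4 h5 ⊢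
        have := hinge (y'' := y'') h2 h3 hy hy' h4 h5 he hk
        rw [sg_pos (by linarith), one_mul, one_mul]
        linarith
      · rw [abs_of_neg h] at h4 h5 ⊢
        have := hinge (y := -y) (y' := -y') (y'' := -y'') (e := -e) (k := -k) h2 h3
          (by rwa [abs_neg]) (by rwa [abs_neg]) h4 h5 (by rwa [abs_neg]) (by push_cast; linarith)
        rw [Int.cast_neg, abs_neg] at this
        rw [sg_neg h, neg_one_mul, neg_one_mul]
        linarith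
    · rw [hg, hg, if_neg h4, if_neg h4]
      rw [not_lt, abs_le] at h4
      rw [abs_le] at hy hy' hy'' he
      have k0 : -1 ≤ k := le_int (by push_cast; linarith)
      have k1 : k ≤ 1 := int_le (by push_cast; linarith)
      obtain rfl | rfl | rfl : k = -1 ∨ k = 0 ∨ k = 1 := by omega
      all_goals
        push_cast at hk ⊢
        simp only [abs_neg, abs_one, abs_zero]
        linarith
  · rw [not_le] at he
    have q1 : 1 ≤ |e| / ω := (one_le_div h0).2 he.le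
    have q2 : 16 * |e| ≤ |e| / ω := by
      rw [le_div_iff₀ h0]
      nlinarith [abs_nonneg e]
    have q3 : 7 * e ^ 2 / ω ^ 2 = 7 * (|e| / ω) ^ 2 := by rw [div_pow, sq_abs, mul_div_assoc]
    have q4 : hg ω η ϑ y' ≤ 1 / 2 := by
      unfold hg
      split_ifs
      · refine max_le ?_ (by norm_num)
        linarith [sg_mul_le ϑ (-y'), abs_neg y']
      · norm_num
    have q5 : |(k : ℝ)| ≤ 2 + |e| := by
      rw [abs_le] at hy hy' h5 ⊢
      constructor <;> linarith [le_abs_self e, neg_abs_le e]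
    have q6 : |y'' - y'| ≤ 6 / 5 := by
      rw [abs_le] at hy' hy'' ⊢
      constructor <;> linarith
    have q7 : |k * (y'' - y')| ≤ (2 + |e|) * (6 / 5) := by
      rw [abs_mul]
      exact mul_le_mul q5 q6 (abs_nonneg _) (by positivity)
    have q8 : 0 ≤ 8 * ω * |(k : ℝ)| := by positivity
    nlinarith [hg_nonneg ω η ϑ y'', neg_abs_le (k * (y'' - y'))]

theorem ramp {ω η c y' ym yM m M d em eM : ℝ} {km kM : ℤ} (h2 : 0 < η) (h3 : η ≤ 1 / 128)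
    (hc : c = -(1 / 2 + ω) + M - 3 * η) (m0 : 0 < m) (M0 : 0 < M) (M1 : M ≤ 1)
    (hy : -(1 / 2 + ω + η) ≤ yM) (hd : |d| ≤ η ^ 2) (he : |eM| ≤ η)
    (e1 : ym - y' = (1 - d) * (km - m) - em) (e2 : yM - y' = (1 - d) * (kM - M) - eM)
    (k1 : kM ≤ km + 1) (k2 : 0 ≤ km * kM) :
    rp c η y' - rp c η (ym + m) - (η * m + |em| / η) ≤ km * kM := by
  have p1 : 0 ≤ η * m + |em| / η := by positivity
  have p2 := rp_nonneg c η (ym + m)
  have p3 : (0 : ℝ) ≤ km * kM := by exact_mod_cast k2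
  rcases le_or_gt c y' with h | h
  · rw [rp_zero h2 h]
    linarith
  rw [abs_le] at he
  have hd' := abs_le.1 hd
  have k3 : 1 ≤ kM := by
    by_contra h'
    have h4 : (kM : ℝ) ≤ 0 := by exact_mod_cast (by omega : kM ≤ 0)
    have h5 : (1 - d) * kM ≤ 0 := mul_nonpos_of_nonneg_of_nonpos (by nlinarith) h4
    have h6 : d * M ≤ η ^ 2 := by nlinarith [sq_nonneg η]
    nlinarith
  rcases (by omega : km = 0 ∨ 1 ≤ km) with rfl | h'
  · have h4 := rp_lip h2 c y' (ym + m)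
    have h5 : |ym + m - y'| ≤ η * (η * m) + |em| := by
      rw [show ym + m - y' = d * m - em by push_cast at e1; linarith]
      refine (abs_sub _ _).trans (add_le_add_left ?_ _)
      rw [abs_mul, abs_of_pos m0]
      nlinarith
    have h6 : |ym + m - y'| / η ≤ η * m + |em| / η := by
      rw [div_le_iff₀ h2, add_mul, div_mul_cancel₀ _ h2.ne']
      linarith
    linarith
  · have h4 : (1 : ℝ) ≤ km * kM := by exact_mod_cast one_le_mul_of_one_le_of_one_le h' k3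
    linarith [rp_le c η y']

theorem abs_k {k : ℤ} {ϑ : ℝ} (h : |ϑ| ≤ 1 / 2) : |(k : ℝ)| ≤ 4 * (k - ϑ) ^ 2 := by
  rw [abs_le] at h
  rcases lt_trichotomy k 0 with h' | rfl | h'
  · have : (k : ℝ) ≤ -1 := by exact_mod_cast (by omega : k ≤ -1)
    rw [abs_of_neg (by linarith)]
    nlinarith
  · simp only [Int.cast_zero, abs_zero]
    positivity
  · have : (1 : ℝ) ≤ k := by exact_mod_cast h'
    rw [abs_of_pos (by linarith)]
    nlinarith

theorem abs_f {η d f D e : ℝ} (h3 : η ≤ 1 / 128) (h2 : 0 < η) (hd : |d| ≤ η ^ 2)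
    (h : D = (1 - d) * f - e) : |f| ≤ 1001 / 1000 * (|D| + |e|) := by
  have h1 : |(1 - d) * f| ≤ |D| + |e| := by
    rw [show (1 - d) * f = D + e by linarith]
    exact abs_add_le _ _
  have h4 : 1000 / 1001 ≤ 1 - d := by nlinarith [abs_le.1 hd]
  rw [abs_mul, abs_of_nonneg (by linarith)] at h1
  nlinarith [abs_nonneg f]

theorem crude {η d f D D' e e' : ℝ} (h3 : η ≤ 1 / 128) (h2 : 0 < η) (hd : |d| ≤ η ^ 2)
    (h : D = (1 - d) * f - e) (hD : |D| ≤ 6 / 5) (hD' : |D'| ≤ 6 / 5)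
    (he : ¬(|e| ≤ η ∧ |e'| ≤ η)) : 6 - 20 * (e ^ 2 + e' ^ 2) / η ^ 2 ≤ f * D' := by
  have h1 := abs_f h3 h2 hd h
  have h4 : |f * D'| ≤ 1001 / 1000 * (6 / 5 + |e|) * (6 / 5) := by
    rw [abs_mul]
    exact mul_le_mul (by linarith) hD' (abs_nonneg _) (by positivity)
  have h5 : η ^ 2 ≤ e ^ 2 + e' ^ 2 := by
    rw [← sq_abs e, ← sq_abs e']
    rcases not_and_or.1 he with h' | h' <;>
      nlinarith [not_le.1 h', sq_nonneg |e|, sq_nonneg |e'|]
  have h6 : 1 ≤ (e ^ 2 + e' ^ 2) / η ^ 2 := (one_le_div (by positivity)).2 h5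
  have h7 : |e| ^ 2 ≤ (e ^ 2 + e' ^ 2) / η ^ 2 := by
    rw [sq_abs, le_div_iff₀ (by positivity)]
    have : η ^ 2 ≤ 1 := by nlinarith
    nlinarith [sq_nonneg e, sq_nonneg e']
  rw [mul_div_assoc]
  nlinarith [neg_abs_le (f * D'), sq_nonneg (|e| - 1)]

section two

variable {ω η y y' y'' ϑ ϑ' d e e' : ℝ} {k k' : ℤ} (h0 : 0 < ω) (h1 : ω ≤ 1 / 16) (h2 : 0 < η)
  (h3 : η ≤ ω / 8) (hy : |y| ≤ 1 / 2 + ω + η) (hy' : |y'| ≤ 1 / 2 + ω + η)
  (hy'' : |y''| ≤ 1 / 2 + ω + η) (h5 : |ϑ| ≤ 1 / 2) (h6 : |ϑ' - ϑ| ≤ 1 / 2) (hd : |d| ≤ η ^ 2)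
  (e1 : y - y' = (1 - d) * (k - ϑ) - e) (e2 : y'' - y' = (1 - d) * (k' - ϑ') - e')
  (he : |e| ≤ η) (he' : |e'| ≤ η)

include h1 h2 h3 hy hy'' h6 hd e1 e2 he he'

theorem close : k ≤ k' + 1 ∧ k' ≤ k + 1 ∧ 0 ≤ k * k' := by
  have h7 := abs_f (f := (k - ϑ) - (k' - ϑ')) (D := y - y'') (e := e - e') (by linarith) h2 hd
    (by linarith)
  have h8 := abs_sub y y''
  have h9 := abs_sub e e'
  have h10 : |(k - ϑ) - (k' - ϑ')| ≤ 6 / 5 := by linarith
  rw [abs_le] at h10 h6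
  have k1 : k ≤ k' + 1 := int_le (by push_cast; linarith)
  have k2 : k' ≤ k + 1 := int_le (by push_cast; linarith)
  refine ⟨k1, k2, ?_⟩
  rcases lt_trichotomy k 0 with h | rfl | h
  · exact mul_nonneg_iff.2 (Or.inr ⟨h.le, by omega⟩)
  · simp
  · exact mul_nonneg h.le (by omega)

include h5

theorem ramps : R1 ω η ϑ ϑ' y' - R2 ω η ϑ ϑ' y - R3 ω η ϑ ϑ' y'' - mu ω η ϑ ϑ' -
    (η + 5 * (η / ω)) * |ϑ| - (|e| + |e'|) / η ≤ k * k' - ϑ * ϑ' := by
  obtain ⟨k1, k2, k3⟩ := close h1 h2 h3 hy hy'' h6 hd e1 e2 he he'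
  have h0 : 0 < ω := by linarith
  have p0 : (0 : ℝ) ≤ k * k' := by exact_mod_cast k3
  have p1 : 0 ≤ |e| / η := by positivity
  have p2 : 0 ≤ |e'| / η := by positivity
  have p3 : 0 ≤ η / ω := by positivity
  have p4 : |ϑ'| ≤ 1 := by linarith [abs_sub_abs_le_abs_sub ϑ' ϑ]
  rw [add_div]
  by_cases h : 0 < ϑ * ϑ'
  swap
  · simp only [R1, R2, R3, mu, h, false_and, if_false]
    have : 0 ≤ (η + 5 * (η / ω)) * |ϑ| := by positivity
    linarith [not_lt.1 h]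
  have a1 : 0 < |ϑ| := abs_pos.2 (left_ne_zero_of_mul h.ne')
  have a2 : 0 < |ϑ'| := abs_pos.2 (right_ne_zero_of_mul h.ne')
  have a3 : ϑ * ϑ' = |ϑ| * |ϑ'| := by rw [← abs_mul, abs_of_pos h]
  obtain ⟨s, s1, s2, s3, s4⟩ : ∃ s : ℤ, sg ϑ = s ∧ s * ϑ = |ϑ| ∧ s * ϑ' = |ϑ'| ∧
      (s = 1 ∨ s = -1) := by
    rcases pos_and_pos_or_neg_and_neg_of_mul_pos h with ⟨b1, b2⟩ | ⟨b1, b2⟩
    · exact ⟨1, by simp [sg_pos b1], by simp [abs_of_pos b1], by simp [abs_of_pos b2], Or.inl rfl⟩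
    · exact ⟨-1, by simp [sg_neg b1], by simp [abs_of_neg b1], by simp [abs_of_neg b2], Or.inr rfl⟩
  have s5 : ∀ t : ℝ, |s * t| = |t| := fun t => by rcases s4 with rfl | rfl <;> simp
  have s6 : ((s * k : ℤ) : ℝ) * (s * k' : ℤ) = k * k' := by rcases s4 with rfl | rfl <;> simp
  have s7 : 0 ≤ s * k * (s * k') := by rcases s4 with rfl | rfl <;> simpa using k3
  have f1 : s * y - s * y' = (1 - d) * ((s * k : ℤ) - |ϑ|) - s * e := by
    rw [← s2]; push_cast; linear_combination s * e1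
  have f2 : s * y'' - s * y' = (1 - d) * ((s * k' : ℤ) - |ϑ'|) - s * e' := by
    rw [← s3]; push_cast; linear_combination s * e2
  rw [a3]
  rcases le_or_gt |ϑ| |ϑ'| with hm | hm
  · have := ramp (c := cc ω η ϑ ϑ') h2 (by linarith) (by rw [cc, max_eq_right hm]) a1 a2 p4
      (abs_le.1 ((s5 y'').trans_le hy'')).1 hd ((s5 e').trans_le he') f1 f2
      (by rcases s4 with rfl | rfl <;> omega) s7
    simp only [R1, R2, R3, mu, h, hm, hm.not_gt, true_and, if_true, if_false, s1, min_eq_left hm,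
      max_eq_right hm, mul_div_assoc]
    rw [s5, s6] at this
    linarith
  · have := ramp (c := cc ω η ϑ ϑ') h2 (by linarith) (by rw [cc, max_eq_left hm.le]) a2 a1
      (by linarith) (abs_le.1 ((s5 y).trans_le hy)).1 hd ((s5 e).trans_le he) f2 f1
      (by rcases s4 with rfl | rfl <;> omega) (mul_comm (s * k) _ ▸ s7)
    simp only [R1, R2, R3, mu, h, hm, hm.not_ge, true_and, if_true, if_false, s1,
      min_eq_right hm.le, max_eq_left hm.le, mul_div_assoc]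
    rw [s5, mul_comm ((s * k' : ℤ) : ℝ), s6] at this
    have : (η + 5 * (η / ω)) * |ϑ'| ≤ (η + 5 * (η / ω)) * |ϑ| :=
      mul_le_mul_of_nonneg_left hm.le (by positivity)
    linarith

include hy'

theorem main : R1 ω η ϑ ϑ' y' - R2 ω η ϑ ϑ' y - R3 ω η ϑ ϑ' y'' - mu ω η ϑ ϑ' - ϑ * (y'' - y') -
    ϑ' * (y - y') + 14 * η / ω * (sg ϑ * (y - y')) - 84 * η / ω * (k - ϑ) ^ 2 -
    3 / η * (|e| + |e'|) - |k - ϑ| * |e'| ≤ (k - ϑ) * (y'' - y') := by
  have q1 := ramps h1 h2 h3 hy hy'' h5 h6 hd e1 e2 he he'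
  have h0 : 0 < ω := by linarith
  have p4 : |ϑ'| ≤ 1 := by linarith [abs_sub_abs_le_abs_sub ϑ' ϑ]
  have q2 := abs_k (k := k) h5
  have q3 : |k' - ϑ'| ≤ 2 := by
    have := abs_f (by linarith) h2 hd e2
    linarith [abs_sub y'' y']
  have q4 : |k - ϑ| ≤ 4 * (k - ϑ) ^ 2 + |ϑ| := by linarith [abs_sub (k : ℝ) ϑ]
  obtain ⟨f, hf⟩ : ∃ f, f = k - ϑ := ⟨_, rfl⟩
  obtain ⟨f', hf'⟩ : ∃ f', f' = k' - ϑ' := ⟨_, rfl⟩
  obtain ⟨D, hD⟩ : ∃ D, D = y - y' := ⟨_, rfl⟩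
  obtain ⟨D', hD'⟩ : ∃ D', D' = y'' - y' := ⟨_, rfl⟩
  rw [← hf, ← hD] at e1
  rw [← hf', ← hD'] at e2
  rw [← hf] at q2 q4
  rw [← hf'] at q3
  rw [← hf, ← hD, ← hD', mul_div_assoc, mul_div_assoc, div_mul_eq_mul_div 3, mul_div_assoc]
  have r1 : 16 * η ≤ η / ω := by
    rw [le_div_iff₀ h0]
    nlinarith
  have r2 : η / ω ≤ 1 / 8 := by
    rw [div_le_iff₀ h0]
    linarith
  have r3 : 128 * (|e| + |e'|) ≤ (|e| + |e'|) / η := by
    rw [le_div_iff₀ h2]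
    nlinarith [abs_nonneg e, abs_nonneg e']
  generalize η / ω = r at *
  generalize (|e| + |e'|) / η = E at *
  have η2 : η ^ 2 ≤ η / 128 := by nlinarith
  have ab : ∀ {a b A B : ℝ}, |a| ≤ A → |b| ≤ B → a * b ≤ A * B := fun ha hb =>
    (le_abs_self _).trans ((abs_mul _ _).trans_le
      (mul_le_mul ha hb (abs_nonneg _) ((abs_nonneg _).trans ha)))
  have df : |d * f| ≤ η ^ 2 * |f| := by
    rw [abs_mul]
    exact mul_le_mul_of_nonneg_right hd (abs_nonneg _)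
  have df' : |d * f'| ≤ η ^ 2 * 2 := by
    rw [abs_mul]
    exact mul_le_mul hd q3 (abs_nonneg _) (sq_nonneg _)
  have t1 := ab (le_refl |ϑ|) df'
  have t2 := ab h5 (le_refl |e'|)
  have t3 := ab p4 df
  have t4 := ab p4 (le_refl |e|)
  have t5 := ab df q3
  have t6 := ab (le_refl |f|) (le_refl |e'|)
  have t7 : η ^ 2 * |f| ≤ η ^ 2 * (4 * f ^ 2 + |ϑ|) := mul_le_mul_of_nonneg_left q4 (sq_nonneg _)
  have t8 : η ^ 2 * f ^ 2 ≤ η / 128 * f ^ 2 := mul_le_mul_of_nonneg_right η2 (sq_nonneg _)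
  have t9 : η ^ 2 * |ϑ| ≤ η / 128 * |ϑ| := mul_le_mul_of_nonneg_right η2 (abs_nonneg _)
  have t10 : 16 * η * f ^ 2 ≤ r * f ^ 2 := mul_le_mul_of_nonneg_right r1 (sq_nonneg _)
  have t11 : 16 * η * |ϑ| ≤ r * |ϑ| := mul_le_mul_of_nonneg_right r1 (abs_nonneg _)
  have t12 : η * f ^ 2 ≤ 1 / 128 * f ^ 2 := mul_le_mul_of_nonneg_right (by linarith) (sq_nonneg _)
  have t13 : η * |ϑ| ≤ 1 / 128 * |ϑ| := mul_le_mul_of_nonneg_right (by linarith) (abs_nonneg _)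
  have u1 : |ϑ| ≤ 2 * (5 * f ^ 2 - sg ϑ * D + |e|) := by
    have v1 := sg_mul_self ϑ
    have v2 := sg_mul_le ϑ k
    have v3 := sg_mul_le ϑ (-(d * f))
    have v4 := sg_mul_le ϑ (-e)
    rw [abs_neg] at v3 v4
    have v5 : sg ϑ * ϑ = sg ϑ * k - sg ϑ * D + sg ϑ * -(d * f) + sg ϑ * -e := by
      linear_combination sg ϑ * hf + sg ϑ * e1
    linarith [sq_nonneg f, abs_nonneg ϑ]
  have u2 : r * |ϑ| ≤ r * (2 * (5 * f ^ 2 - sg ϑ * D + |e|)) :=
    mul_le_mul_of_nonneg_left u1 (by linarith)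
  have u3 : r * |e| ≤ 1 / 8 * |e| := mul_le_mul_of_nonneg_right r2 (abs_nonneg _)
  have u4 : f * D' = k * k' - ϑ * ϑ' - ϑ * D' - ϑ' * D - ϑ * (d * f') - ϑ * e' - ϑ' * (d * f) -
      ϑ' * e - d * f * f' - f * e' := by
    rw [e1, e2, hf, hf']
    ring
  have u5 : 0 ≤ η * |ϑ| := by positivity
  have u6 : 0 ≤ η * f ^ 2 := by positivity
  linarith [abs_nonneg e, abs_nonneg e']

end two

end CoreP

open CoreP

theorem core_proof : CoreStmt := by
  refine ⟨fun ω η y y' y'' ϑ e k h0 h1 h2 h3 hy hy' hy'' h5 hk => ?_,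
    fun ω η y y' y'' ϑ ϑ' d e e' k k' h0 h1 h2 h3 hy hy' hy'' h5 h6 hd e1 e2 => ?_⟩
  · linarith [one h0 h1 h2 h3 hy hy' hy'' h5 hk]
  have hQ : 0 ≤ 20 * (e ^ 2 + e' ^ 2) / η ^ 2 := by positivity
  by_cases he : |e| ≤ η ∧ |e'| ≤ η
  · refine ⟨by linarith [main h1 h2 h3 hy hy' hy'' h5 h6 hd e1 e2 he.1 he.2], ?_⟩
    rintro rfl rfl
    have k3 : (0 : ℝ) ≤ k * k' := by
      exact_mod_cast (close h1 h2 h3 hy hy'' h6 hd e1 e2 he.1 he.2).2.2
    have k4 : 0 ≤ (1 - d) * (k * k') := mul_nonneg (by nlinarith [abs_le.1 hd]) k3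
    have k5 := le_abs_self (k * e')
    rw [abs_mul] at k5
    rw [e2]
    linarith
  have hD : |y - y'| ≤ 23 / 20 := by linarith [abs_sub y y']
  have hD' : |y'' - y'| ≤ 23 / 20 := by linarith [abs_sub y'' y']
  have hc := crude (D' := y'' - y') (by linarith) h2 hd e1 (by linarith) (by linarith) he
  refine ⟨?_, ?_⟩
  · have p4 : |ϑ'| ≤ 1 := by linarith [abs_sub_abs_le_abs_sub ϑ' ϑ]
    have r0 : 0 ≤ η / ω := by positivity
    have r2 : η / ω ≤ 1 / 8 := by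
      rw [div_le_iff₀ h0]
      linarith
    have a1 : R1 ω η ϑ ϑ' y' ≤ 1 := by
      unfold R1
      split_ifs
      exacts [rp_le _ _ _, zero_le_one]
    have a2 : 0 ≤ R2 ω η ϑ ϑ' y := by
      unfold R2
      split_ifs
      exacts [rp_nonneg _ _ _, le_rfl]
    have a3 : 0 ≤ R3 ω η ϑ ϑ' y'' := by
      unfold R3
      split_ifs
      exacts [rp_nonneg _ _ _, le_rfl]
    have a4 : -(1 / 2) ≤ mu ω η ϑ ϑ' := by
      unfold mu
      split_ifs
      · have b1 : 0 ≤ min |ϑ| |ϑ'| := le_min (abs_nonneg _) (abs_nonneg _)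
        have b2 : min |ϑ| |ϑ'| ≤ 1 / 2 := (min_le_left _ _).trans h5
        have b3 : 0 ≤ max |ϑ| |ϑ'| := (abs_nonneg _).trans (le_max_left _ _)
        rw [mul_div_assoc]
        nlinarith
      · norm_num
    have a5 : |ϑ * (y'' - y')| ≤ 1 / 2 * (23 / 20) :=
      (abs_mul _ _).trans_le (mul_le_mul h5 hD' (abs_nonneg _) (by norm_num))
    have a6 : |ϑ' * (y - y')| ≤ 1 * (23 / 20) :=
      (abs_mul _ _).trans_le (mul_le_mul p4 hD (abs_nonneg _) (by norm_num))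
    have a7 : 14 * η / ω * (sg ϑ * (y - y')) ≤ 14 * (1 / 8 * (23 / 20)) := by
      rw [mul_div_assoc]
      nlinarith [sg_mul_le ϑ (y - y')]
    have a8 : 0 ≤ 84 * η / ω * (k - ϑ) ^ 2 := by positivity
    have a9 : 0 ≤ 3 / η * (|e| + |e'|) := by positivity
    have a10 : 0 ≤ |k - ϑ| * |e'| := by positivity
    linarith [abs_le.1 a5, abs_le.1 a6]
  · rintro rfl rfl
    have a10 : 0 ≤ |(k : ℝ)| * |e'| := by positivity
    rw [sub_zero] at hc
    linarith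

end Vale.Agent.P318.C
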