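import Vale.Agent.P318.C.GStmt
import Vale.Agent.P318.B.Gamma
import Vale.Agent.P318.B.PatBasic

/-!
Track C, geometry: decoding of the drift.
-/

namespace Vale.Agent.P318.C

open Finset
open M (ip nsq Dual lin)
open B (nd cd Red Kt tc res Pat pS pJ pD pw zone)

namespace Dec

variable {ι B : Type} [Fintype ι] [DecidableEq ι] [Fintype B] [DecidableEq B] {M : B → ℕ}
  {blk : B → Finset ι} {s : (J : B) → ι → Fin (M J) → ℤ}
  {Γ : (J : B) → AddSubgroup (Fin (M J) → ℝ)} {J0 : B} {wt : B → ℝ} {F Lm Cn φ Υ : ℝ} {g : ℕ}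

theorem dec (hL : LevStmt) (hG : CSys blk s Γ J0 wt F Lm Cn φ) (Δ : Kt M → ℝ) (SS : Finset B)
    (π : Pat M g) (hπ1 : ∀ x : Kt M, x.1 ∈ SS → |pD π x - Δ x| ≤ 1 / g)
    (hπ2 : ∀ x : Kt M, x.1 ∉ SS → pD π x = 0) (i : ι) :
    |lin (tc s) Δ i - ∑ J ∈ SSᶜ, ip (s J i) (res Δ J) - pw s π i| ≤ Cn / g := by
  obtain ⟨hb1, hb3, -⟩ := hL ι B M blk s Γ J0 wt F Lm Cn φ hG
  have h1 := hb3 ((fun y => if y.1 ∈ SS then Δ y else 0) - pD π) (1 / g) (by positivity) (fun y => by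
    by_cases hy : y.1 ∈ SS
    · simp only [Pi.sub_apply, if_pos hy]
      rw [abs_sub_comm]
      exact hπ1 y hy
    · simp only [Pi.sub_apply, if_neg hy, hπ2 y hy, sub_self, abs_zero]
      positivity) i
  rw [P318.B.Gamma.lin_sub, hb1 (fun y => if y.1 ∈ SS then Δ y else 0)] at h1
  have h2 : ∑ J, ip (s J i) (res (fun y : Kt M => if y.1 ∈ SS then Δ y else 0) J) =
      lin (tc s) Δ i - ∑ J ∈ SSᶜ, ip (s J i) (res Δ J) := by
    rw [hb1 Δ, ← sum_add_sum_compl SS, ← sum_add_sum_compl SS (fun J => ip (s J i) (res Δ J))]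
    have h3 : ∑ J ∈ SSᶜ, ip (s J i) (res (fun y : Kt M => if y.1 ∈ SS then Δ y else 0) J) = 0 :=
      sum_eq_zero fun J hJ => by
        have : J ∉ SS := mem_compl.mp hJ
        simp [ip, res, this]
    rw [h3, add_zero, add_sub_cancel_right]
    refine sum_congr rfl fun J hJ => ?_
    simp [ip, res, hJ]
  rw [h2] at h1
  have h3 : Cn * (1 / g) = Cn / g := by ring
  exact h1.trans h3.le

theorem core (hL : LevStmt) (hP : P318.B.PatStmt) (hG : CSys blk s Γ J0 wt F Lm Cn φ)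
    (hC : C1c blk s Γ J0 wt g Υ) (Δ : Kt M → ℝ) (hΔ : ∀ y, |Δ y| ≤ 1 / 2)
    {η : ℝ} (hη0 : 0 < η) (hη1 : η ≤ 1 / 2) (hg0 : (320 : ℝ) ≤ g) (hgrid : Cn / g ≤ η / 80)
    (SS JJ : Finset B) (hsub : JJ ⊆ SS) (hw : ∑ J ∈ SS, wt J ≤ Υ * (zone blk JJ).card)
    (hJJ : ∀ J ∈ JJ, ∀ γ ∈ Γ J, η ^ 2 ≤ nsq (res Δ J - γ))
    (h0 : J0 ∈ JJ ∨ nsq (res Δ J0) ≤ η ^ 2) (x : ι → ℤ) :
    9 * η ^ 2 * (zone blk JJ).card / 256000 ≤ 2 * ∑ i, ((x i : ℝ) - lin (tc s) Δ i) ^ 2 +
      2 * ∑ i ∈ zone blk JJ, (∑ J ∈ SSᶜ, ip (s J i) (res Δ J)) ^ 2 := by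
  obtain ⟨-, hp2, -⟩ := hP B M g
  have hCn := hG.one_le_Cn
  have hg1 : 1 ≤ g := by
    have : (1 : ℝ) ≤ g := by linarith
    exact_mod_cast this
  obtain ⟨π, hπS, hπJ, hπ1, hπ2⟩ :=
    hp2 Δ SS JJ hg1 (fun y => (hΔ y).trans (by norm_num)) hsub
  have hnear : ∀ J ∈ SS, nsq (res (pD π) J - res Δ J) ≤ Cn * (1 / g) ^ 2 := by
    intro J hJ
    have := sum_le_card_nsmul univ (fun k => (res (pD π) J - res Δ J) k ^ 2) ((1 / g : ℝ) ^ 2)
      (fun k _ => by
        have := hπ1 ⟨J, k⟩ hJ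
        exact sq_le_sq' (abs_le.mp this).1 (abs_le.mp this).2)
    rw [card_univ, Fintype.card_fin, nsmul_eq_mul] at this
    exact this.trans (mul_le_mul_of_nonneg_right (hG.dim_le J) (sq_nonneg _))
  have hfar : ∀ J ∈ pJ π, ∀ γ ∈ Γ J, (η / 2) ^ 2 ≤ nsq (res (pD π) J - γ) := by
    intro J hJ γ hγ
    rw [hπJ] at hJ
    exact P318.B.Gamma.far_num hCn (by linarith) hgrid (hJJ J hJ γ hγ)
      (P318.B.Gamma.nsq_le' (res Δ J) (res (pD π) J) γ) (hnear J (hsub hJ))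
  have htop : J0 ∈ pJ π ∨ nsq (res (pD π) J0) ≤ 16 * (η / 2) ^ 2 := by
    rcases h0 with h | h
    · left; rwa [hπJ]
    · right
      by_cases hS : J0 ∈ SS
      · have h1 := P318.B.Gamma.nsq_le (res (pD π) J0) (res Δ J0)
        have h2 := hnear J0 hS
        have h3 : nsq (res Δ J0 - res (pD π) J0) = nsq (res (pD π) J0 - res Δ J0) :=
          sum_congr rfl fun k _ => by simp only [Pi.sub_apply]; ring
        have h4 : Cn * (1 / g) ^ 2 ≤ (Cn / g) ^ 2 := by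
          have : (Cn / g) ^ 2 = Cn ^ 2 * (1 / g) ^ 2 := by ring
          rw [this]
          exact mul_le_mul_of_nonneg_right (by nlinarith) (sq_nonneg _)
        have h5 : (Cn / g) ^ 2 ≤ (η / 80) ^ 2 := pow_le_pow_left₀ (by positivity) hgrid 2
        nlinarith [sq_nonneg η]
      · have : nsq (res (pD π) J0) = 0 := sum_eq_zero fun k _ => by
          have := hπ2 ⟨J0, k⟩ hS
          simp [res, this]
        rw [this]
        positivity
  have hc1 := hC π (η / 2) (by positivity) (by linarith) (by rw [hπS, hπJ]; exact hw) hfar htop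
  rw [hπJ] at hc1
  have h1 := card_nsmul_le_sum ((zone blk JJ).filter fun i => η / 2 / 10 ≤ nd (pw s π i)) _ _
    fun i hi => P318.B.Gamma.pt_num hη0.le ((mem_filter.mp hi).2.trans (round_le _ (x i)))
      ((dec hL hG Δ SS π hπ1 hπ2 i).trans hgrid)
  rw [nsmul_eq_mul, sum_add_distrib, ← mul_sum, ← mul_sum] at h1
  have h2 := sum_le_univ_sum_of_nonneg
    (s := (zone blk JJ).filter fun i => η / 2 / 10 ≤ nd (pw s π i))
    fun i => sq_nonneg ((x i : ℝ) - lin (tc s) Δ i)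
  have h3 := sum_le_sum_of_subset_of_nonneg
    (filter_subset (fun i => η / 2 / 10 ≤ nd (pw s π i)) (zone blk JJ))
    fun i _ _ => sq_nonneg (∑ J ∈ SSᶜ, ip (s J i) (res Δ J))
  have h7 := mul_le_mul_of_nonneg_right hc1 (by positivity : 0 ≤ 9 * η ^ 2 / 6400)
  linarith

omit [DecidableEq B] in
/-- The maximum of `t * W t` is attained at one of the values. -/
theorem peak (w e : B → ℝ) (hw : ∀ J, 0 ≤ w J) (he : ∀ J, 0 ≤ e J) (J0 : B) :
    ∃ J1, ∀ t, 0 ≤ t → t * ∑ J ∈ univ.filter (fun J => t ≤ e J), w J ≤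
      e J1 * ∑ J ∈ univ.filter (fun J => e J1 ≤ e J), w J := by
  obtain ⟨J1, -, h1⟩ := exists_max_image univ
    (fun J1 => e J1 * ∑ J ∈ univ.filter (fun J => e J1 ≤ e J), w J) ⟨J0, mem_univ _⟩
  refine ⟨J1, fun t _ => ?_⟩
  rcases (univ.filter fun J => t ≤ e J).eq_empty_or_nonempty with h | h
  · rw [h, sum_empty, mul_zero]
    exact mul_nonneg (he _) (sum_nonneg fun J _ => hw J)
  · obtain ⟨J2, h2, h3⟩ := exists_min_image _ e h
    refine le_trans ?_ (h1 J2 (mem_univ _))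
    have h4 : (univ.filter fun J => t ≤ e J) = univ.filter fun J => e J2 ≤ e J := by
      ext J
      simp only [mem_filter, mem_univ, true_and]
      exact ⟨fun h => h3 J (by simpa using h), fun h => (mem_filter.1 h2).2.trans h⟩
    rw [h4]
    exact mul_le_mul_of_nonneg_right (mem_filter.1 h2).2 (sum_nonneg fun J _ => hw J)

theorem min_lt {a t : ℝ} (h : min (1 / 4) a < t) (ht : t ≤ 1 / 4) : min (1 / 4) a = a := by
  rcases min_cases (1 / 4 : ℝ) a with h1 | h1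
  · exfalso
    linarith [h1.1]
  · exact h1.1

theorem num1 {Φ t F Z a : ℝ} (hF : 0 ≤ F) (h1 : Φ ≤ t * (F * Z)) (h2 : t * Z ≤ 80000 * a) :
    Φ ≤ 80000 * F * (a + 1) := by
  have := mul_le_mul_of_nonneg_left h2 hF
  linarith

theorem num2 {Φ F C a : ℝ} (hF : 1 ≤ F) (hC : 1 ≤ C) (ha : 0 ≤ a) (h : Φ ≤ 1 / (16 * C ^ 2)) :
    Φ ≤ 80000 * F * (a + 1) := by
  have h3 : 1 / (16 * C ^ 2) ≤ 1 := by
    rw [div_le_one (by positivity)]
    nlinarith
  nlinarith

/-- The reduced case. -/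
theorem red (hL : LevStmt) (hP : P318.B.PatStmt) {K LG εR δ1 : ℝ} {k0 : ℕ}
    (hG : CSys blk s Γ J0 wt F Lm Cn φ) (hR : RipS blk s K LG εR) (hC : C1c blk s Γ J0 wt g Υ)
    (hK : 1 ≤ K) (hLG : 1 ≤ LG) (hε : 0 ≤ εR) (hδ0 : 0 < δ1) (hδ1 : δ1 ≤ 1 / 4) (hk0 : 1 ≤ k0)
    (hk : F * cd ι ≤ 2 ^ k0) (hU : 256000 * F ^ 3 * K * LG ≤ Υ)
    (hg : 320 * Cn ^ 2 * 2 ^ k0 ≤ g) (hδ : 3000000 * k0 * F ^ 2 * K * (1 / Lm + εR) ≤ δ1)
    (τ : Kt M → ℝ) (hτ : ∀ J, Red (Γ J) (res τ J)) (x : ι → ℤ) :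
    ∃ H : Finset B, ∑ J ∈ H, wt J ≤ 512000 * F ^ 3 * K * LG / δ1 *
        (∑ j, ((x j : ℝ) - lin (tc s) τ j) ^ 2 + 1) ∧
      ∀ T : Finset ι, ∑ j ∈ T, (∑ J ∈ Hᶜ, ip (s J j) (res τ J)) ^ 2 ≤
        δ1 * (∑ j, ((x j : ℝ) - lin (tc s) τ j) ^ 2 + 1) + δ1 * T.card := by
  obtain ⟨-, -, -, -, -, -, h7, -⟩ := hL ι B M blk s Γ J0 wt F Lm Cn φ hG
  have hF := hG.one_le_F
  have hLm := hG.one_le_Lm
  have hCn := hG.one_le_Cn
  set a := ∑ j, ((x j : ℝ) - lin (tc s) τ j) ^ 2 with ha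
  have ha0 : 0 ≤ a := sum_nonneg fun _ _ => sq_nonneg _
  set e : B → ℝ := fun J => min (1 / 4) (nsq (res τ J)) with he
  have he0 : ∀ J, 0 ≤ e J := fun J => le_min (by norm_num) (P318.B.Gamma.nsq_nonneg _)
  have he4 : ∀ J, e J ≤ 1 / 4 := fun J => min_le_left _ _
  have hw1 : ∀ J, 1 ≤ wt J := fun J => le_trans (by exact_mod_cast (hG.ne J).card_pos) (hG.wt_ge J)
  have hw0 : ∀ J, 0 ≤ wt J := fun J => zero_le_one.trans (hw1 J)
  have hsum : ∑ J, wt J ≤ 2 ^ k0 := by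
    refine le_trans ?_ hk
    refine (hG.wt_sum univ).trans (mul_le_mul_of_nonneg_left ?_ (by linarith))
    unfold cd
    exact_mod_cast card_le_univ _
  obtain ⟨J1, hJ1⟩ := peak wt e hw0 he0 J0
  set Φ := e J1 * ∑ J ∈ univ.filter (fun J => e J1 ≤ e J), wt J with hΦ
  have hΦ0 : 0 ≤ Φ := mul_nonneg (he0 _) (sum_nonneg fun J _ => hw0 J)
  have hk1 : (1 : ℝ) ≤ k0 := by exact_mod_cast hk0
  have hE : ∑ J, wt J * e J ≤ 6 * k0 * Φ := by
    obtain ⟨Jm, -, hm⟩ := exists_max_image univ e ⟨J0, mem_univ _⟩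
    obtain ⟨k, -, hb⟩ := P318.B.Gamma.best wt e Jm k0 hw1 he0 (fun J => hm J (mem_univ _)) hsum
    have h1 := hJ1 (e Jm / 2 ^ k) (div_nonneg (he0 _) (by positivity))
    have h2 : 2 * ((k0 : ℝ) + 2) * Φ ≤ 6 * k0 * Φ := mul_le_mul_of_nonneg_right (by linarith) hΦ0
    exact hb.trans ((mul_le_mul_of_nonneg_left h1 (by positivity)).trans h2)
  have hFK : 1 ≤ F ^ 2 * K * LG :=
    one_le_mul_of_one_le_of_one_le (one_le_mul_of_one_le_of_one_le (one_le_pow₀ hF) hK) hLG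
  have hc0 : 0 ≤ 1 / Lm + εR := by positivity
  -- the light blocks
  have light : ∀ θ : ℝ, 0 < θ → θ ≤ 1 / 4 → ∀ T : Finset ι,
      ∑ j ∈ T, (∑ J ∈ (univ.filter fun J => θ ≤ e J)ᶜ, ip (s J j) (res τ J)) ^ 2 ≤
        δ1 / (500000 * F) * Φ + F ^ 2 * K * LG * θ * T.card := by
    intro θ hθ0 hθ1 T
    have hsm : ∀ J ∈ (univ.filter fun J => θ ≤ e J)ᶜ, e J < θ := fun J hJ => by
      simpa using hJ
    have h1 := h7 τ (univ.filter fun J => θ ≤ e J)ᶜ T K LG εR θ (by linarith) (by linarith) hε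
      hθ0.le hR (fun J hJ => by
        rw [← min_lt (hsm J hJ) hθ1]
        exact (hsm J hJ).le)
    have h2 : ∑ J ∈ (univ.filter fun J => θ ≤ e J)ᶜ, wt J * nsq (res τ J) ≤ 6 * k0 * Φ := by
      refine le_trans ?_ hE
      refine le_trans (sum_le_sum fun J hJ => ?_)
        (sum_le_univ_sum_of_nonneg fun J => mul_nonneg (hw0 J) (he0 J))
      rw [← min_lt (hsm J hJ) hθ1]
    have h3 : F * K * (1 / Lm + εR) * (6 * k0 * Φ) ≤ δ1 / (500000 * F) * Φ := by
      rw [← mul_assoc]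
      refine mul_le_mul_of_nonneg_right ?_ hΦ0
      rw [le_div_iff₀ (by positivity)]
      exact le_trans (le_of_eq (by ring)) hδ
    have h4 := mul_le_mul_of_nonneg_left h2 (by positivity : 0 ≤ F * K * (1 / Lm + εR))
    linarith
  have hΦa : Φ ≤ 80000 * F * (a + 1) := by
    have h2k0 : (1 : ℝ) ≤ 2 ^ k0 := one_le_pow₀ (by norm_num)
    by_cases hlow : 1 / (16 * Cn ^ 2 * 2 ^ k0) ≤ e J1
    · obtain ⟨hg0, hgrid⟩ := P318.B.Gamma.grid_le hCn hg hlow
      have ht0 : 0 < e J1 := lt_of_lt_of_le (by positivity) hlow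
      have hη2 : Real.sqrt (e J1) ^ 2 = e J1 := Real.sq_sqrt ht0.le
      have hη1 : Real.sqrt (e J1) ≤ 1 / 2 :=
        Real.sqrt_le_iff.mpr ⟨by norm_num, by linarith [he4 J1]⟩
      obtain ⟨θ, hθ⟩ : ∃ θ, θ = e J1 / (256000 * (F ^ 2 * K * LG)) := ⟨_, rfl⟩
      have hθ0 : 0 < θ := by rw [hθ]; positivity
      have hθt : θ ≤ e J1 := by rw [hθ]; exact div_le_self ht0.le (by linarith)
      set Z := zone blk (univ.filter fun J => e J1 ≤ e J) with hZ
      have hZ0 : (0 : ℝ) ≤ Z.card := Nat.cast_nonneg _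
      have hΦZ : Φ ≤ e J1 * (F * Z.card) := mul_le_mul_of_nonneg_left (hG.wt_sum _) ht0.le
      have hw : ∑ J ∈ univ.filter (fun J => θ ≤ e J), wt J ≤ Υ * Z.card := by
        have h1 := (hJ1 θ hθ0.le).trans hΦZ
        have h2 : e J1 * (F * Z.card) = θ * (256000 * F ^ 3 * K * LG * Z.card) := by
          rw [hθ]; field_simp
        exact (le_of_mul_le_mul_left (h1.trans h2.le) hθ0).trans
          (mul_le_mul_of_nonneg_right hU hZ0)
      have hc := core hL hP hG hC τ (fun y => (hτ y.1).1 y.2) (Real.sqrt_pos.mpr ht0) hη1 hg0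
        hgrid (univ.filter fun J => θ ≤ e J) (univ.filter fun J => e J1 ≤ e J)
        (fun J hJ => by
          simp only [mem_filter, mem_univ, true_and] at hJ ⊢
          exact hθt.trans hJ) hw
        (fun J hJ γ hγ => by
          rw [hη2]
          exact (mem_filter.1 hJ).2.trans ((hτ J).2 γ hγ))
        (by
          by_cases h : e J1 ≤ e J0
          · left; simpa using h
          · right
            rw [hη2, ← min_lt (not_le.1 h) (he4 J1)]
            exact (not_le.1 h).le) x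
      rw [hη2] at hc
      have hl := light θ hθ0 (hθt.trans (he4 J1)) Z
      have h3 : F ^ 2 * K * LG * θ * Z.card = e J1 * Z.card / 256000 := by
        rw [hθ]; field_simp
      have h4 : δ1 / (500000 * F) * Φ ≤ e J1 * Z.card / 2000000 := by
        have h5 : δ1 / (500000 * F) ≤ 1 / (2000000 * F) := by
          rw [div_le_div_iff₀ (by positivity) (by positivity)]
          have := mul_le_mul_of_nonneg_right hδ1 (by linarith : 0 ≤ 2000000 * F)
          linarith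
        refine (mul_le_mul h5 hΦZ hΦ0 (by positivity)).trans (le_of_eq ?_)
        field_simp
      have h5 : e J1 * Z.card ≤ 80000 * a := by
        have := mul_nonneg ht0.le hZ0
        rw [← ha] at hc
        linarith
      exact num1 (by linarith) hΦZ h5
    · have h1 : Φ ≤ 1 / (16 * Cn ^ 2 * 2 ^ k0) * 2 ^ k0 :=
        mul_le_mul (not_le.1 hlow).le
          ((sum_le_univ_sum_of_nonneg hw0).trans hsum) (sum_nonneg fun J _ => hw0 J)
          (by positivity)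
      have h2 : 1 / (16 * Cn ^ 2 * 2 ^ k0) * 2 ^ k0 = 1 / (16 * Cn ^ 2) := by field_simp
      exact num2 hF hCn ha0 (h1.trans h2.le)
  obtain ⟨t1, ht1⟩ : ∃ t1, t1 = δ1 / (F ^ 2 * K * LG) := ⟨_, rfl⟩
  have ht0 : 0 < t1 := by rw [ht1]; positivity
  have ht4 : t1 ≤ 1 / 4 := by
    rw [ht1]
    exact (div_le_self hδ0.le hFK).trans hδ1
  refine ⟨univ.filter fun J => t1 ≤ e J, ?_, fun T => ?_⟩
  · have h1 := (hJ1 t1 ht0.le).trans hΦa
    have h2 : 80000 * F * (a + 1) ≤ t1 * (512000 * F ^ 3 * K * LG / δ1 * (a + 1)) := by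
      have h3 : t1 * (512000 * F ^ 3 * K * LG / δ1 * (a + 1)) = 512000 * F * (a + 1) := by
        rw [ht1]; field_simp
      rw [h3]
      have := mul_nonneg (by linarith : 0 ≤ F) (by linarith : 0 ≤ a + 1)
      linarith
    exact le_of_mul_le_mul_left (h1.trans h2) ht0
  · refine (light t1 ht0 ht4 T).trans (add_le_add ?_ (le_of_eq ?_))
    · refine (mul_le_mul_of_nonneg_left hΦa (by positivity)).trans ?_
      have h3 : δ1 / (500000 * F) * (80000 * F * (a + 1)) = 4 / 25 * (δ1 * (a + 1)) := by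
        field_simp; norm_num
      rw [h3]
      have := mul_nonneg hδ0.le (by linarith : 0 ≤ a + 1)
      linarith
    · rw [ht1]; field_simp

end Dec

theorem dec_proof (hL : LevStmt) (hPat : P318.B.PatStmt) : DecStmt := by
  intro ι B _ _ _ _ M blk s Γ J0 wt F Lm Cn φ K LG εR Υ δ1 g k0 hG hR hC hK hLG hε hδ0 hδ1 hk0 hk
    hU hg hδ x τ0
  obtain ⟨hb1, -⟩ := hL ι B M blk s Γ J0 wt F Lm Cn φ hG
  have hF := hG.one_le_F
  have hCn := hG.one_le_Cn
  by_cases hA : ∃ γ0 ∈ Γ J0, nsq (res τ0 J0 - γ0) < 1 / 4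
  · obtain ⟨γ0, hγ0, h4⟩ := hA
    obtain ⟨γ, hγ, hint⟩ := hG.glue γ0 hγ0
    choose n0 hn0 using hint
    have hex : ∀ J, ∃ γ' ∈ Γ J, Red (Γ J) (res (τ0 - γ) J - γ') ∧
        ∀ j, ∃ n : ℤ, ip (s J j) γ' = n := by
      intro J
      by_cases hJ : J = J0
      · subst hJ
        have e1 : res (τ0 - γ) J - 0 = res τ0 J - γ0 := by
          rw [sub_zero, ← hγ]; rfl
        refine ⟨0, (Γ J).zero_mem, ?_, fun j => ⟨0, by simp [ip]⟩⟩
        rw [e1]
        refine ⟨fun k => ?_, fun γ' hγ' => ?_⟩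
        · have h1 := P318.B.Gamma.sq_le_nsq (res τ0 J - γ0) k
          exact abs_le_of_sq_le_sq' (by nlinarith) (by norm_num) |> abs_le.2
        · by_cases h0 : γ' = 0
          · rw [h0, sub_zero]
            exact min_le_right _ _
          · have h1 := hG.min J γ' hγ' h0
            have h2 := P318.B.PatBasic.nsq_le_two (res τ0 J - γ0) γ'
            exact (min_le_left _ _).trans (by linarith)
      · obtain ⟨γ', h1, h2⟩ := P318.B.PatBasic.red_ex (Γ J) (hG.int J) (hG.min J) (res (τ0 - γ) J)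
        exact ⟨γ', h1, h2, fun j => hG.dual J hJ j γ' h1⟩
    choose γ' _ hr hn using hex
    choose n hn using hn
    set τ : Kt M → ℝ := fun y => (τ0 - γ) y - γ' y.1 y.2 with hτ
    set k : ι → ℤ := fun j => x j - n0 j - ∑ J, n J j with hkdef
    have heq : ∀ j, (x j : ℝ) - lin (tc s) τ0 j = k j - lin (tc s) τ j := by
      intro j
      have h1 : lin (tc s) τ j = lin (tc s) (τ0 - γ) j - ∑ J, (n J j : ℝ) := by
        rw [hb1, hb1, ← sum_sub_distrib]
        refine sum_congr rfl fun J _ => ?_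
        have h2 : res τ J = res (τ0 - γ) J - γ' J := rfl
        rw [h2, P318.B.PatBasic.ip_sub, hn]
      rw [h1, P318.B.Gamma.lin_sub, hn0, hkdef]
      push_cast
      ring
    obtain ⟨H, h1, h2⟩ := Dec.red hL hPat hG hR hC hK hLG hε hδ0 hδ1 hk0 hk hU hg hδ τ hr k
    simp only [← heq] at h1 h2
    exact ⟨k, τ, H, heq, fun y => (hr y.1).1 y.2, h1, h2⟩
  · push Not at hA
    set τ : Kt M → ℝ := fun y => τ0 y - round (τ0 y) with hτ
    set k : ι → ℤ := fun j => x j - ∑ y, tc s j y * round (τ0 y) with hkdef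
    have heq : ∀ j, (x j : ℝ) - lin (tc s) τ0 j = k j - lin (tc s) τ j := by
      intro j
      simp only [hkdef, hτ, lin, ip, mul_sub, sum_sub_distrib]
      push_cast
      ring
    have h2k0 : (1 : ℝ) ≤ 2 ^ k0 := one_le_pow₀ (by norm_num)
    have hC2 : Cn ≤ Cn ^ 2 := by nlinarith
    have hg0 : 320 * Cn ≤ g := by nlinarith
    have hgrid : Cn / g ≤ 1 / 2 / 80 := by
      rw [div_le_iff₀ (by linarith)]
      linarith
    have hZ : zone blk {J0} = univ := by simp [zone, hG.top]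
    have hKL : 1 ≤ F ^ 2 * K * LG :=
      one_le_mul_of_one_le_of_one_le (one_le_mul_of_one_le_of_one_le (one_le_pow₀ hF) hK) hLG
    have hwt : ∑ J, wt J ≤ F * (univ : Finset ι).card :=
      (hG.wt_sum univ).trans (mul_le_mul_of_nonneg_left
        (by exact_mod_cast card_le_univ _) (by linarith))
    have hn0 : (0 : ℝ) ≤ (univ : Finset ι).card := Nat.cast_nonneg _
    have hc := Dec.core hL hPat hG hC τ (fun y => abs_sub_round _) (η := 1 / 2) (by norm_num) le_rfl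
      (by linarith) hgrid univ {J0} (subset_univ _)
      (by
        rw [hZ]
        exact hwt.trans (mul_le_mul_of_nonneg_right (by nlinarith) hn0))
      (fun J hJ γ hγ => by
        obtain rfl := mem_singleton.1 hJ
        have h1 := hA ((fun k => (round (τ0 ⟨J, k⟩) : ℝ)) + γ) ((Γ J).add_mem (hG.int J _) hγ)
        have h2 : res τ J - γ = res τ0 J - ((fun k => (round (τ0 ⟨J, k⟩) : ℝ)) + γ) := by
          ext k
          simp only [res, hτ, Pi.sub_apply, Pi.add_apply]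
          ring
        rw [h2]
        linarith) (Or.inl (mem_singleton_self _)) k
    simp only [hZ, compl_univ, sum_empty, ← heq] at hc
    have ha0 : 0 ≤ ∑ j, ((x j : ℝ) - lin (tc s) τ0 j) ^ 2 := sum_nonneg fun _ _ => sq_nonneg _
    refine ⟨k, τ, univ, heq, fun y => abs_sub_round _, ?_, fun T => ?_⟩
    · have h1 : 512000 * F ≤ 512000 * F ^ 3 * K * LG / δ1 := by
        rw [le_div_iff₀ hδ0]
        nlinarith
      refine hwt.trans (le_trans ?_ (mul_le_mul_of_nonneg_right h1 (by linarith)))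
      have h2 : ((univ : Finset ι).card : ℝ) ≤
          512000 * (∑ j, ((x j : ℝ) - lin (tc s) τ0 j) ^ 2 + 1) := by
        simp only [ne_eq, OfNat.ofNat_ne_zero, not_false_eq_true, zero_pow, sum_const_zero] at hc
        linarith
      nlinarith
    · simp only [compl_univ, sum_empty, ne_eq, OfNat.ofNat_ne_zero, not_false_eq_true, zero_pow,
        sum_const_zero]
      positivity

end Vale.Agent.P318.C
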