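import Vale.Agent.P318.C.StmtI
import Vale.Agent.P318.M.Bit
import Vale.Agent.P318.M.Deriv

/-!
Track C: measurability, bounds, invariance and derivatives along segments of the fibre means.
-/

set_option linter.unusedSectionVars false

namespace Vale.Agent.P318.C

open Finset MeasureTheory Filter Topology
open M (wt1 wt Eb Dd pt U01 BM)
open M.Deriv (eb_mono eb_const eb_abs eb_le dd_le dd_dd pz eb_congr der_eb dd_pt pt_add)

namespace Deriv

variable {ι : Type} [Fintype ι] [DecidableEq ι] {w : Wn} {C : ℝ} {h : (ι → ℤ) → ℝ}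

theorem meas_eb (R : Measurable (pr w)) (H : (ι → ℤ) → (ι → Bool) → ℝ) :
    Measurable fun y : ι → ℝ => Eb (py w y) (H fun i => ⌊y i⌋) := by
  refine Finset.measurable_sum _ fun b _ => Measurable.mul ?_ ?_
  · refine Finset.measurable_prod _ fun i _ => ?_
    have : Measurable fun y : ι → ℝ => pr w (y i) := R.comp (measurable_pi_apply i)
    cases hb : b i
    · simpa [wt1, py] using this.const_sub 1
    · simpa [wt1, py] using this
  · exact (measurable_of_countable fun n : ι → ℤ => H n b).comp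
      (measurable_pi_lambda _ fun i => Int.measurable_floor.comp (measurable_pi_apply i))

theorem ey_loc (h8 : w.om ≤ 1 / 8) (R : WinAt w) (h : (ι → ℤ) → ℝ) (n : ι → ℤ)
    (y : ι → ℝ) (hy : ∀ i, (n i : ℝ) - 1 / 4 < y i ∧ y i < n i + 1) :
    Ey w h y = Eb (fun i => ramp w (y i - n i - 1 / 2 + w.om)) fun b => h (pz n b) := by
  have f1 : ∀ i, (n i : ℝ) ≤ y i → ⌊y i⌋ = n i := fun i k => Int.floor_eq_iff.2 ⟨k, (hy i).2⟩
  have f2 : ∀ i, ¬ (n i : ℝ) ≤ y i → ⌊y i⌋ = n i - 1 := fun i k => Int.floor_eq_iff.2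
    ⟨by push_cast; linarith [(hy i).1], by push_cast; linarith [not_le.1 k]⟩
  have p1 : ∀ i, ¬ (n i : ℝ) ≤ y i → pr w (y i) = 1 := fun i k => by
    by_contra e
    have := R.pr_ne_one _ e
    rw [Int.fract, f2 i k] at this
    push_cast at this
    linarith [(hy i).1]
  have p0 : ∀ i, ¬ (n i : ℝ) ≤ y i → ramp w (y i - n i - 1 / 2 + w.om) = 0 := fun i k =>
    R.ramp_zero _ (by linarith [not_le.1 k])
  refine eb_congr (x := fun i b => -⌊y i⌋ - if b then 1 else 0)
    (x' := fun i b => -n i - if b then 1 else 0)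
    (fun i => if (n i : ℝ) ≤ y i then Equiv.refl Bool else Equiv.boolNot) (fun i b => ?_)
    (fun i b => ?_) h
  · by_cases k : (n i : ℝ) ≤ y i
    · simp only [if_pos k, Equiv.refl_apply, py, pr, pos, Int.fract, f1 i k]
    · rw [p0 i k]
      cases b <;> simp [if_neg k, py, p1 i k, wt1]
  · by_cases k : (n i : ℝ) ≤ y i
    · simp [if_pos k, f1 i k]
    · cases b <;> simp [if_neg k, py, p1 i k, wt1, f2 i k]

theorem der_ey (h8 : w.om ≤ 1 / 8) (R : WinAt w) (h : (ι → ℤ) → ℝ) (y u : ι → ℝ)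
    (r : ℝ) : HasDerivAt (fun r => Ey w h (y + r • u))
      (∑ j, u j * dpr w (y j + r * u j) * c1 w h j (y + r • u)) r := by
  set n : ι → ℤ := fun i => ⌊y i + r * u i⌋ with hn
  have d := der_eb (q := fun r i => ramp w (y i + r * u i - n i - 1 / 2 + w.om))
    (q' := fun i => u i * dpr w (y i + r * u i)) (r := r) (fun i => by
      refine ((R.deriv _).comp r ((((((hasDerivAt_id r).mul_const (u i)).const_add (y i)).sub_const
        _).sub_const _).add_const w.om)).congr_deriv ?_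
      simp only [dpr, pos, Int.fract, hn, id]
      ring) fun b => h (pz n b)
  refine d.congr_of_eventuallyEq ?_
  have ev : ∀ᶠ s in 𝓝 r, ∀ i, (n i : ℝ) - 1 / 4 < y i + s * u i ∧ y i + s * u i < n i + 1 := by
    refine eventually_all.2 fun i => ?_
    have c : ContinuousAt (fun s => y i + s * u i) r := by fun_prop
    exact c.eventually (Ioo_mem_nhds (by linarith [Int.floor_le (y i + r * u i)])
      (Int.lt_floor_add_one _))
  filter_upwards [ev] with s hs
  exact ey_loc h8 R h n _ hs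

theorem meas_c1 (R : WinAt w) (h : (ι → ℤ) → ℝ) (j : ι) : Measurable (c1 w h j) :=
  meas_eb R.pr_meas fun n => Dd j fun b => h (pz n b)

theorem ftc (h0 : 0 < w.om) (h8 : w.om ≤ 1 / 8) (R : WinAt w) (hC : ∀ x, |h x| ≤ C)
    (y u : ι → ℝ) : Ey w h (y + u) - Ey w h y =
      ∫ r in (0 : ℝ)..1, ∑ j, u j * dpr w (y j + r * u j) * c1 w h j (y + r • u) := by
  rw [intervalIntegral.integral_eq_sub_of_hasDerivAt (fun r _ => der_ey h8 R h y u r)]
  · simp
  refine IntervalIntegrable.mono_fun' (g := fun _ => ∑ j, |u j| * (1 / w.om) * (2 * C))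
    intervalIntegrable_const (Measurable.aestronglyMeasurable ?_) (.of_forall fun r => ?_)
  · refine Finset.measurable_sum _ fun j _ => Measurable.mul (Measurable.const_mul
      (R.dpr_meas.comp (by fun_prop)) _) ((meas_c1 R h j).comp (by fun_prop))
  · refine (abs_sum_le_sum_abs _ _).trans (sum_le_sum fun j _ => ?_)
    obtain ⟨w0, w1, -⟩ := M.bit_proof ι (py w (y + r • u)) fun i => ⟨R.pr_nonneg _, R.pr_le _⟩
    rw [abs_mul, abs_mul, abs_of_nonneg (R.dpr_nonneg _)]
    exact mul_le_mul (mul_le_mul_of_nonneg_left (R.dpr_le _) (abs_nonneg _))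
      (eb_le w0 w1 (dd_le (fun b => hC _) j)) (abs_nonneg _) (by positivity)

end Deriv

open Deriv

theorem deriv_proof (hW : WinStmt) : DerivStmt := by
  intro ι _ _ w h hw hU
  have R := hW w hw
  have h0 := hw.1
  have h8 := hw.2.1
  have B := fun y : ι → ℝ => M.bit_proof ι (py w y) fun i => ⟨R.pr_nonneg _, R.pr_le _⟩
  have a1 : ∀ x, |h x| ≤ 1 := fun x => abs_le.2 ⟨by linarith [(hU x).1], (hU x).2⟩
  have a2 : ∀ x x', |h x - h x'| ≤ 1 := fun x x' =>
    abs_le.2 ⟨by linarith [(hU x).1, (hU x').2], by linarith [(hU x).2, (hU x').1]⟩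
  have m1 := meas_c1 R h
  have m2 : ∀ j, Measurable (inf1 w h j) := fun j =>
    meas_eb R.pr_meas fun n b => |Dd j (fun b => h (pz n b)) b|
  have m3 : ∀ j j', Measurable (c2 w h j j') := fun j j' =>
    meas_eb R.pr_meas fun n => Dd j' (Dd j fun b => h (pz n b))
  have b1 : ∀ j y, |c1 w h j y| ≤ inf1 w h j y := fun j y => eb_abs (B y).1
  have b2 : ∀ j y, inf1 w h j y ≤ 1 := fun j y =>
    (eb_mono (B y).1 fun b => a2 _ _).trans_eq (eb_const (B y).2.1 1)
  have b3 : ∀ j j' y, |c2 w h j j' y| ≤ 2 := fun j j' y =>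
    (eb_le (B y).1 (B y).2.1 (dd_le (C := 1) (fun b => a2 _ _) j')).trans_eq (mul_one 2)
  have mq : ∀ j : ι, Measurable fun y : ι → ℝ => pq w (y j) := fun j =>
    R.pq_meas.comp (measurable_pi_apply j)
  refine ⟨⟨meas_eb R.pr_meas fun n b => h (pz n b), fun y => ⟨?_, ?_⟩⟩,
    fun j => ⟨m1 j, m2 j, fun y => ⟨b1 j y, b2 j y⟩⟩, fun j j' => ⟨m3 j j', b3 j j'⟩, fun J => ?_,
    fun r hr y => ?_, ftc h0 h8 R a1, fun y u j hf => ?_⟩
  · exact (eb_const (B y).2.1 0).symm.trans_le (eb_mono (B y).1 fun b => (hU _).1)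
  · exact (eb_mono (B y).1 fun b => (hU _).2).trans_eq (eb_const (B y).2.1 1)
  · have n1 : ∀ y, 0 ≤ W1 w J h y := fun y =>
      sum_nonneg fun j _ => mul_nonneg (R.pq_nonneg _) (sq_nonneg _)
    have n1' : ∀ y, W1 w J h y ≤ 1 := fun y => by
      refine (sum_le_univ_sum_of_nonneg fun j => mul_nonneg (R.pq_nonneg _) (sq_nonneg _)).trans
        (((B y).2.2.2.1 fun b => h (pt y b)).trans ((eb_mono (G := fun _ => 1) (B y).1
          fun b => ?_).trans_eq (eb_const (B y).2.1 1)))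
      exact pow_le_one₀ (hU _).1 (hU _).2
    have n2 : ∀ y, 0 ≤ W2 w J h y := fun y => sum_nonneg fun j _ => sum_nonneg fun j' _ =>
      mul_nonneg (mul_nonneg (R.pq_nonneg _) (R.pq_nonneg _)) (sq_nonneg _)
    have n3 : ∀ y, 0 ≤ Inf w J h y := fun y => sum_nonneg fun j _ =>
      mul_nonneg (R.dpr_nonneg _) ((abs_nonneg _).trans (b1 j y))
    refine ⟨⟨Finset.measurable_sum _ fun j _ => (mq j).mul ((m1 j).pow_const 2), 1, fun y => ?_⟩,
      ⟨Finset.measurable_sum _ fun j _ => Finset.measurable_sum _ fun j' _ =>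
        ((mq j).mul (mq j')).mul ((m3 j j').pow_const 2),
        ∑ j ∈ J, ∑ _j' ∈ J.erase j, 1 / 4 * (1 / 4) * 2 ^ 2, fun y => ?_⟩,
      ⟨Finset.measurable_sum _ fun j _ => (R.dpr_meas.comp (measurable_pi_apply j)).mul (m2 j),
        ∑ _j ∈ J, 1 / w.om * 1, fun y => ?_⟩, fun y => ⟨n1 y, n1' y, n2 y, n3 y⟩⟩
    · rw [abs_of_nonneg (n1 y)]
      exact n1' y
    · rw [abs_of_nonneg (n2 y)]
      refine sum_le_sum fun j _ => sum_le_sum fun j' _ => mul_le_mul (mul_le_mul (R.pq_le _)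
        (R.pq_le _) (R.pq_nonneg _) (by norm_num)) ?_ (sq_nonneg _) (by norm_num)
      rw [← sq_abs]
      exact pow_le_pow_left₀ (abs_nonneg _) (b3 j j' y) 2
    · rw [abs_of_nonneg (n3 y)]
      exact sum_le_sum fun j _ => mul_le_mul (R.dpr_le _) (b2 j y)
        ((abs_nonneg _).trans (b1 j y)) (by positivity)
  · have e1 : py w (y + fun i => (r i : ℝ)) = py w y := funext fun i => R.pr_per _ _
    have e2 : (fun b => h (pt (y + fun i => (r i : ℝ)) b)) = fun b => h (pt y b) :=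
      funext fun b => by rw [← hr, pt_add]
    have k1 : ∀ j, c1 w h j (y + fun i => (r i : ℝ)) = c1 w h j y := fun j => by
      simp only [c1, e1, e2]
    have k2 : ∀ j, inf1 w h j (y + fun i => (r i : ℝ)) = inf1 w h j y := fun j => by
      simp only [inf1, e1, e2]
    have k3 : ∀ j j', c2 w h j j' (y + fun i => (r i : ℝ)) = c2 w h j j' y := fun j j' => by
      simp only [c2, e1, e2]
    refine ⟨by simp only [Ey, e1, e2], fun j => ⟨k1 j, k2 j⟩, k3, fun J => ⟨?_, ?_, ?_⟩⟩
    · simp only [W1, k1, Pi.add_apply, R.pq_per]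
    · simp only [W2, k3, Pi.add_apply, R.pq_per]
    · simp only [Inf, k2, Pi.add_apply, R.dpr_per]
  · set g : (ι → ℤ) → ℝ := fun x =>
      h (Function.update x j (-⌊y j⌋ - 1)) - h (Function.update x j (-⌊y j⌋)) with hg
    have e : ∀ r : ℝ, 0 ≤ r → r ≤ 1 →
        (Dd j fun b => h (pt (y + r • u) b)) = fun b => g (pt (y + r • u) b) :=
      fun r r0 r1 => dd_pt h j (hf r r0 r1)
    have e0 := e 0 le_rfl zero_le_one
    have e1 := e 1 zero_le_one le_rfl
    rw [zero_smul, add_zero] at e0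
    rw [one_smul] at e1
    have k := ftc h0 h8 R (h := g) (fun x => a2 _ _) y u
    rw [c1, c1, e0, e1]
    refine k.trans (intervalIntegral.integral_congr fun r hr => ?_)
    rw [Set.uIcc_of_le zero_le_one] at hr
    simp only [c1, c2, ← e r hr.1 hr.2]
    rw [← add_sum_erase _ _ (mem_univ j), dd_dd, eb_const (B _).2.1, mul_zero, zero_add]

end Vale.Agent.P318.C
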