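import Vale.Agent.P318.C.StmtI

/-!
Summation over blocks, partitions and dyadic scales.
-/

namespace Vale.Agent.P318.C

open Finset
open M (blk)

namespace Fibre

section Count

variable {ι A Vb : Type} [Fintype ι] [DecidableEq ι] [Fintype Vb] [DecidableEq Vb]

lemma count (π : A → ι → Vb) (a : A) (S : Finset ι) :
    (S.card : ℝ) - coll (π a) S ≤ ∑ v, (if (S ∩ blk π (a, v)).card = 1 then (1 : ℝ) else 0) ∧
    ∑ v, (if (S ∩ blk π (a, v)).card = 2 then (2 : ℝ) else 0) ≤ coll (π a) S ∧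
    (coll (π a) S : ℝ) ≤ S.card := by
  have e : ∀ v, S ∩ blk π (a, v) = S.filter fun i => π a i = v := fun v => by
    ext i
    simp [blk]
  have h1 : S.card = ∑ v, (S.filter fun i => π a i = v).card :=
    card_eq_sum_card_fiberwise fun _ _ => mem_univ _
  have h2 : coll (π a) S = ∑ v, ((S.filter fun i => ∃ j ∈ S, j ≠ i ∧ π a j = π a i).filter
      fun i => π a i = v).card := card_eq_sum_card_fiberwise fun _ _ => mem_univ _
  have h3 : ∀ v, 1 < (S.filter fun i => π a i = v).card → (S.filter fun i => π a i = v).card ≤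
      ((S.filter fun i => ∃ j ∈ S, j ≠ i ∧ π a j = π a i).filter fun i => π a i = v).card := by
    intro v h
    refine card_le_card fun i hi => ?_
    obtain ⟨j, hj, k⟩ := exists_mem_ne h i
    rw [mem_filter] at hi hj
    exact mem_filter.2 ⟨mem_filter.2 ⟨hi.1, j, hj.1, k, hj.2.trans hi.2.symm⟩, hi.2⟩
  simp only [e]
  refine ⟨?_, ?_, ?_⟩
  · rw [h1, h2]
    push_cast
    rw [← sum_sub_distrib]
    refine sum_le_sum fun v _ => ?_
    have k := h3 v
    generalize (S.filter fun i => π a i = v).card = n at k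
    generalize ((S.filter fun i => ∃ j ∈ S, j ≠ i ∧ π a j = π a i).filter
      fun i => π a i = v).card = m at k
    split_ifs with h
    · have : n ≤ 1 + m := by omega
      have : (n : ℝ) ≤ 1 + m := by exact_mod_cast this
      linarith
    · have : n ≤ m := by omega
      have : (n : ℝ) ≤ m := by exact_mod_cast this
      linarith
  · rw [h2]
    push_cast
    refine sum_le_sum fun v _ => ?_
    split_ifs with h
    · have k := h3 v (by omega)
      rw [h] at k
      exact_mod_cast k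
    · positivity
  · exact_mod_cast card_filter_le _ _

end Count

lemma g_le {k : ℕ} (h : 1 ≤ k) : (1 / 2 : ℝ) ^ k ≤ 1 / 2 := by
  simpa using pow_le_pow_of_le_one (by norm_num : (0 : ℝ) ≤ 1 / 2) (by norm_num) h

lemma pow_two_le {q : ℝ} (h : 1 / 2 ≤ q) (n : ℕ) : q ^ (n - 2) ≤ 2 * q ^ (n - 1) := by
  rcases n with _ | _ | n
  · norm_num
  · norm_num
  · have : 0 ≤ q ^ n := by positivity
    simp only [Nat.add_sub_cancel, show n + 1 + 1 - 2 = n from rfl, pow_succ]
    nlinarith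

lemma pow_four_le {g : ℝ} (h : g ≤ 1 / 2) (n : ℕ) :
    (1 - g) ^ (n - 2) ≤ 4 * Real.exp (-(g * n)) := by
  have h1 : (1 - g) ^ n ≤ Real.exp (-(g * n)) := by
    rw [show -(g * n) = n * -g by ring, Real.exp_nat_mul]
    exact pow_le_pow_left₀ (by linarith) (by linarith [Real.add_one_le_exp (-g)]) n
  refine le_trans ?_ (mul_le_mul_of_nonneg_left h1 (by norm_num))
  rcases n with _ | _ | n
  · norm_num
  · norm_num
    linarith
  · have : 0 ≤ (1 - g) ^ n := pow_nonneg (by linarith) n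
    have k : 1 ≤ 4 * ((1 - g) * (1 - g)) := by nlinarith
    simp only [show n + 1 + 1 - 2 = n from rfl, pow_succ]
    nlinarith

lemma third_le {g : ℝ} (h : g ≤ 1 / 2) {n : ℕ} (hn : 1 ≤ n) (h1 : g * n ≤ 1) :
    1 / 3 ≤ (1 - g) ^ (n - 1) := by
  have hq : 0 < 1 - g := by linarith
  have h2 : Real.exp (-(g / (1 - g))) ≤ 1 - g := by
    rw [Real.exp_neg, inv_le_comm₀ (Real.exp_pos _) hq]
    refine le_trans (le_of_eq ?_) (Real.add_one_le_exp _)
    field_simp
    ring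
  have h3 := pow_le_pow_left₀ (Real.exp_pos _).le h2 (n - 1)
  rw [← Real.exp_nat_mul, Nat.cast_sub hn, Nat.cast_one] at h3
  refine le_trans ?_ h3
  have h4 : -1 ≤ ((n : ℝ) - 1) * -(g / (1 - g)) := by
    rw [mul_neg, neg_le_neg_iff, ← mul_div_assoc, div_le_one hq]
    linarith
  refine le_trans ?_ (Real.exp_le_exp.2 h4)
  rw [Real.exp_neg, one_div]
  exact inv_anti₀ (Real.exp_pos _) (Real.exp_one_lt_d9.le.trans (by norm_num))

lemma anti {X u : ℝ} (hX : 1 ≤ X) (h : X ≤ u) : u * Real.exp (-u) ≤ X * Real.exp (-X) := by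
  have h1 := Real.add_one_le_exp (u - X)
  have h2 : Real.exp (-X) = Real.exp (u - X) * Real.exp (-u) := by
    rw [← Real.exp_add]
    congr 1
    ring
  rw [h2, ← mul_assoc]
  exact mul_le_mul_of_nonneg_right (by nlinarith) (Real.exp_pos _).le

lemma half {u : ℝ} (h : 2 ≤ u) : 2 * (2 * u * Real.exp (-(2 * u))) ≤ u * Real.exp (-u) := by
  have h1 := Real.add_one_le_exp (u / 2)
  have h2 : Real.exp (-u) = Real.exp (u / 2) * Real.exp (u / 2) * Real.exp (-(2 * u)) := by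
    rw [← Real.exp_add, ← Real.exp_add]
    congr 1
    ring
  have h3 : 4 ≤ Real.exp (u / 2) * Real.exp (u / 2) := by nlinarith
  have h4 : 0 ≤ u * Real.exp (-(2 * u)) := mul_nonneg (by linarith) (Real.exp_pos _).le
  rw [h2]
  nlinarith

lemma tail {X : ℝ} (hX : 2 ≤ X) (n : ℝ) (K : ℕ) :
    (∑ k ∈ Icc 1 K, if n ≤ X * 2 ^ k then 0 else
      (1 / 2) ^ k * n * Real.exp (-((1 / 2) ^ k * n))) ≤ 2 * (X * Real.exp (-X)) ∧
    (¬ n ≤ X * 2 ^ K → (∑ k ∈ Icc 1 K, if n ≤ X * 2 ^ k then 0 else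
      (1 / 2) ^ k * n * Real.exp (-((1 / 2) ^ k * n))) ≤
        2 * ((1 / 2) ^ K * n * Real.exp (-((1 / 2) ^ K * n)))) := by
  induction K with
  | zero =>
    simp only [zero_lt_one, Icc_eq_empty_of_lt, sum_empty, pow_zero, mul_one, one_mul]
    exact ⟨by positivity, fun h => mul_nonneg (by norm_num)
      (mul_nonneg (by linarith) (Real.exp_pos _).le)⟩
  | succ K ih =>
    rw [sum_Icc_succ_top (by omega)]
    by_cases h : n ≤ X * 2 ^ (K + 1)
    · rw [if_pos h, add_zero]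
      exact ⟨ih.1, fun k => absurd h k⟩
    · rw [if_neg h]
      have h2 : (0 : ℝ) < 2 ^ K := by positivity
      have h1 := ih.2 fun k => h (k.trans (by rw [pow_succ]; nlinarith))
      have h3 : X ≤ (1 / 2) ^ (K + 1) * n := by
        rw [one_div, inv_pow, inv_mul_eq_div, le_div_iff₀ (by positivity)]
        exact (lt_of_not_ge h).le
      have h4 := half (hX.trans h3)
      rw [show 2 * ((1 / 2) ^ (K + 1) * n) = (1 / 2) ^ K * n by ring] at h4
      have h5 := anti (by linarith) h3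
      exact ⟨by linarith, fun _ => by linarith⟩

lemma exists_scale {K : ℕ} (hK : 1 ≤ K) {n : ℕ} (h1 : 1 ≤ n) (h2 : n ≤ 2 ^ K) :
    ∃ k ∈ Icc 1 K, n ≤ 2 ^ k ∧ 2 ^ k ≤ 2 * n := by
  induction K, hK using Nat.le_induction with
  | base => exact ⟨1, by simp, h2, by omega⟩
  | succ K hK ih =>
    by_cases h : n ≤ 2 ^ K
    · obtain ⟨k, a, b⟩ := ih h
      rw [mem_Icc] at a
      exact ⟨k, mem_Icc.2 ⟨a.1, by omega⟩, b⟩
    · exact ⟨K + 1, mem_Icc.2 ⟨by omega, le_rfl⟩, h2, by rw [pow_succ]; omega⟩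

/-- The lower bound for the weight of a set with `n` elements at scale `k`. -/
noncomputable def bk (L X : ℝ) (k n : ℕ) : ℝ :=
  if (n : ℝ) ≤ X * 2 ^ k then n * (1 - (1 / 2 : ℝ) ^ k) ^ (n - 1) / 2
  else -(4 * L * n * Real.exp (-((1 / 2) ^ k * n)))

lemma num {L X : ℝ} (hL : 1 ≤ L) (hX : 2 ≤ X) (h : 200 * L * X * Real.exp (-X) ≤ 1) {K : ℕ}
    (hK : 1 ≤ K) (n : ℕ) : (if n = 0 then 0 else 1 : ℝ) ≤
      24 * ∑ k ∈ Icc 1 K, (1 / 2) ^ k * bk L X k n + 2 * n / 2 ^ K := by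
  have e : ∑ k ∈ Icc 1 K, (1 / 2 : ℝ) ^ k * bk L X k n =
      (∑ k ∈ Icc 1 K, if (n : ℝ) ≤ X * 2 ^ k then
        (1 / 2) ^ k * n * (1 - (1 / 2 : ℝ) ^ k) ^ (n - 1) / 2 else 0) -
      4 * L * ∑ k ∈ Icc 1 K, if (n : ℝ) ≤ X * 2 ^ k then 0 else
        (1 / 2) ^ k * n * Real.exp (-((1 / 2) ^ k * n)) := by
    rw [mul_sum, ← sum_sub_distrib]
    refine sum_congr rfl fun k _ => ?_
    unfold bk
    split_ifs <;> ring
  have hp : ∀ k ∈ Icc 1 K, 0 ≤ if (n : ℝ) ≤ X * 2 ^ k then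
      (1 / 2) ^ k * n * (1 - (1 / 2 : ℝ) ^ k) ^ (n - 1) / 2 else 0 := fun k hk => by
    have := g_le (mem_Icc.1 hk).1
    have : 0 ≤ 1 - (1 / 2 : ℝ) ^ k := by linarith
    split_ifs
    · positivity
    · exact le_rfl
  have h1 := mul_le_mul_of_nonneg_left (tail hX n K).1 (by linarith : 0 ≤ 4 * L)
  split_ifs with h0
  · subst h0
    simp only [bk, Nat.cast_zero, mul_zero, zero_mul, zero_div, neg_zero, ite_self, sum_const_zero,
      add_zero, le_refl]
  · rw [e]
    by_cases h2 : n ≤ 2 ^ K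
    · obtain ⟨k, a, b, c⟩ := exists_scale hK (by omega) h2
      have h3 := single_le_sum hp a
      have b' : (n : ℝ) ≤ 2 ^ k := by exact_mod_cast b
      have c' : (2 : ℝ) ^ k ≤ 2 * n := by exact_mod_cast c
      have h4 : (0 : ℝ) < 2 ^ k := by positivity
      rw [if_pos (by nlinarith)] at h3
      have h5 := third_le (g := (1 / 2) ^ k) (g_le (mem_Icc.1 a).1) (n := n)
        (by omega) (by rwa [one_div, inv_pow, inv_mul_eq_div, div_le_one h4])
      have h6 : 1 / 2 ≤ (1 / 2 : ℝ) ^ k * n := by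
        rw [one_div (2 : ℝ), inv_pow, inv_mul_eq_div, le_div_iff₀ h4]
        linarith
      have h7 := mul_le_mul h6 h5 (by norm_num) (by linarith)
      have h8 : (0 : ℝ) ≤ 2 * n / 2 ^ K := by positivity
      linarith
    · have h3 := sum_nonneg hp
      have h4 : (2 : ℝ) ≤ 2 * n / 2 ^ K := by
        rw [le_div_iff₀ (by positivity)]
        have : (2 : ℝ) ^ K ≤ n := by exact_mod_cast (lt_of_not_ge h2).le
        linarith
      linarith

/-- The average of the weights over the partitions of one scale. -/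
lemma avg {A : Type} (T : Finset A) (c : A → ℝ) {L θ X : ℝ} {k : ℕ} (n : ℕ) (hk : 1 ≤ k)
    (hL : 1 ≤ L) (hθ : θ * (1 + 2 * L) ≤ 1 / 2) (hc0 : ∀ a, 0 ≤ c a) (hc : ∀ a, c a ≤ n)
    (h : (n : ℝ) ≤ X * 2 ^ k → ∑ a ∈ T, c a ≤ θ * n * T.card) :
    T.card * bk L X k n ≤ ∑ a ∈ T, ((1 - (1 / 2 : ℝ) ^ k) ^ (n - 1) * (n - c a) -
      L * ((1 - (1 / 2 : ℝ) ^ k) ^ (n - 2) * c a)) := by
  have h1 := g_le hk
  have h2 : 0 ≤ (1 - (1 / 2 : ℝ) ^ k) ^ (n - 1) := pow_nonneg (by linarith) _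
  have h3 : 0 ≤ (1 - (1 / 2 : ℝ) ^ k) ^ (n - 2) := pow_nonneg (by linarith) _
  unfold bk
  split_ifs with h4
  · have h5 := pow_two_le (q := 1 - (1 / 2 : ℝ) ^ k) (by linarith) n
    have h6 := h h4
    have h7 : 0 ≤ ∑ a ∈ T, c a := sum_nonneg fun a _ => hc0 a
    rw [sum_sub_distrib, ← mul_sum, ← mul_sum, ← mul_sum, sum_sub_distrib, sum_const, nsmul_eq_mul]
    generalize (1 - (1 / 2 : ℝ) ^ k) ^ (n - 1) = p at *
    generalize (1 - (1 / 2 : ℝ) ^ k) ^ (n - 2) = p' at *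
    generalize ∑ a ∈ T, c a = s at *
    have k1 := mul_le_mul_of_nonneg_left (mul_le_mul_of_nonneg_right h5 h7) (by linarith : 0 ≤ L)
    have k2 := mul_le_mul_of_nonneg_left h6 (by positivity : 0 ≤ p * (1 + 2 * L))
    have k3 := mul_le_mul_of_nonneg_left hθ (by positivity : 0 ≤ p * n * T.card)
    linarith
  · rw [← nsmul_eq_mul, ← sum_const]
    refine sum_le_sum fun a _ => ?_
    have h5 := pow_four_le (g := (1 / 2 : ℝ) ^ k) h1 n
    have k1 := mul_nonneg h2 (sub_nonneg.2 (hc a))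
    have k2 := mul_le_mul_of_nonneg_left (mul_le_mul h5 (hc a) (hc0 a) (by positivity))
      (by linarith : 0 ≤ L)
    linarith

end Fibre

open Fibre in
theorem fibre_proof : FibreStmt := by
  intro ι A Vb _ _ _ _ _ _ π sc Kn wS x E1 I L θ X E0 hw hx hI hE1 hE0 hL _ hθ hX hLX hK hc hJ
  have h1 : ∀ k ∈ Icc 1 Kn, ∑ S, wS S * bk L X k S.card ≤ E1 k * I + Fintype.card Vb * E0 := by
    intro k hk
    obtain ⟨hne, hc⟩ := hc k hk
    have hg := g_le (mem_Icc.1 hk).1
    have hq : ∀ n : ℕ, 0 ≤ (1 - (1 / 2 : ℝ) ^ k) ^ n := fun n => pow_nonneg (by linarith) _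
    have h2 : ∀ a ∈ univ.filter fun a => sc a = k,
        ∑ S, wS S * ((1 - (1 / 2 : ℝ) ^ k) ^ (S.card - 1) * (S.card - coll (π a) S) -
          L * ((1 - (1 / 2 : ℝ) ^ k) ^ (S.card - 2) * coll (π a) S)) ≤
          E1 k * I + Fintype.card Vb * E0 := by
      intro a ha
      have ha' : sc a = k := (mem_filter.1 ha).2
      have h3 := sum_le_sum fun v (_ : v ∈ (univ : Finset Vb)) => hJ (a, v) (ha' ▸ hk)
      simp only [ha'] at h3
      rw [sum_add_distrib, sum_add_distrib, ← mul_sum, ← mul_sum, sum_comm, sum_const,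
        nsmul_eq_mul, card_univ, sum_comm (s := univ) (t := univ) (f := fun v S =>
          if (S ∩ blk π (a, v)).card = 2 then
            2 * wS S * (1 - (1 / 2 : ℝ) ^ k) ^ (S.card - 2) else 0)] at h3
      have h4 := mul_le_mul_of_nonneg_left (hx a) (hE1 k)
      have h5 : ∑ S, wS S * ((1 - (1 / 2 : ℝ) ^ k) ^ (S.card - 1) * (S.card - coll (π a) S)) ≤
          ∑ S, ∑ v, if (S ∩ blk π (a, v)).card = 1 then
            wS S * (1 - (1 / 2 : ℝ) ^ k) ^ (S.card - 1) else 0 := by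
        refine sum_le_sum fun S _ => ?_
        rw [← mul_assoc]
        refine (mul_le_mul_of_nonneg_left (count π a S).1 (mul_nonneg (hw S) (hq _))).trans
          (le_of_eq ?_)
        rw [mul_sum]
        exact sum_congr rfl fun v _ => by split_ifs <;> ring
      have h6 : (∑ S, ∑ v, if (S ∩ blk π (a, v)).card = 2 then
            2 * wS S * (1 - (1 / 2 : ℝ) ^ k) ^ (S.card - 2) else 0) ≤
          ∑ S, wS S * ((1 - (1 / 2 : ℝ) ^ k) ^ (S.card - 2) * coll (π a) S) := by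
        refine sum_le_sum fun S _ => ?_
        rw [← mul_assoc]
        refine le_trans (le_of_eq ?_)
          (mul_le_mul_of_nonneg_left (count π a S).2.1 (mul_nonneg (hw S) (hq _)))
        rw [mul_sum]
        exact sum_congr rfl fun v _ => by split_ifs <;> ring
      have h7 := mul_le_mul_of_nonneg_left h6 (by linarith : 0 ≤ L)
      have e : ∑ S, wS S * ((1 - (1 / 2 : ℝ) ^ k) ^ (S.card - 1) * (S.card - coll (π a) S) -
          L * ((1 - (1 / 2 : ℝ) ^ k) ^ (S.card - 2) * coll (π a) S)) =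
          ∑ S, wS S * ((1 - (1 / 2 : ℝ) ^ k) ^ (S.card - 1) * (S.card - coll (π a) S)) -
            L * ∑ S, wS S * ((1 - (1 / 2 : ℝ) ^ k) ^ (S.card - 2) * coll (π a) S) := by
        rw [mul_sum, ← sum_sub_distrib]
        exact sum_congr rfl fun S _ => by ring
      rw [e]
      linarith
    have h3 := sum_le_sum h2
    rw [sum_comm, sum_const, nsmul_eq_mul] at h3
    refine le_of_mul_le_mul_left (le_trans ?_ h3) (Nat.cast_pos.2 hne.card_pos)
    rw [mul_sum]
    refine sum_le_sum fun S _ => ?_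
    rw [← mul_sum, mul_left_comm]
    exact mul_le_mul_of_nonneg_left (avg _ (fun a => (coll (π a) S : ℝ)) S.card (mem_Icc.1 hk).1
      hL hθ (fun a => Nat.cast_nonneg _) (fun a => (count π a S).2.2) (hc S)) (hw S)
  have h2 : ∑ S, wS S * ∑ k ∈ Icc 1 Kn, (1 / 2 : ℝ) ^ k * bk L X k S.card ≤
      ∑ k ∈ Icc 1 Kn, (1 / 2 : ℝ) ^ k * (E1 k * I + Fintype.card Vb * E0) := by
    simp only [mul_sum]
    rw [sum_comm]
    refine sum_le_sum fun k hk => ?_
    refine le_trans (le_of_eq ?_) (mul_le_mul_of_nonneg_left (h1 k hk) (by positivity))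
    rw [mul_sum]
    exact sum_congr rfl fun S _ => by ring
  have h3 : (∑ S : Finset ι, if S = ∅ then 0 else wS S) ≤
      24 * ∑ S, wS S * ∑ k ∈ Icc 1 Kn, (1 / 2 : ℝ) ^ k * bk L X k S.card +
        2 * (∑ S, (S.card : ℝ) * wS S) / 2 ^ Kn := by
    rw [mul_sum, mul_sum, sum_div, ← sum_add_distrib]
    refine sum_le_sum fun S _ => ?_
    have k := mul_le_mul_of_nonneg_left (num hL hX hLX hK S.card) (hw S)
    simp only [card_eq_zero, mul_ite, mul_zero, mul_one] at k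
    refine k.trans (le_of_eq ?_)
    ring
  have h4 : 2 * (∑ S, (S.card : ℝ) * wS S) / 2 ^ Kn ≤ 2 * I / 2 ^ Kn := by gcongr
  linarith

end Vale.Agent.P318.C
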