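import Vale.Agent.P318.C.StmtI
import Vale.Agent.P318.M.Fourier

/-! Fourier expansion in the bits (linear window). -/

namespace Vale.Agent.P318.C

open Finset
open M (ind bit wt1 wt Eb Dd pt zz U01 coef)
open M.FourierP hiding noised_eq noised_pt noised_W noised_inf

noncomputable section

namespace FourierP

variable {ι : Type} [Fintype ι] [DecidableEq ι]

theorem noised_eq (w : Wn) (ρ : ℝ) (J : Finset ι) (f : (ι → ℤ) → ℝ) (y : ι → ℝ) (b : ι → Bool)
    (x : ι → ℤ) : noised w ρ J f y b x = T (nk (py w y) ρ J b fun _ d => dl d false)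
      fun a => f fun i => if i ∈ J then x i else pt y a i := by
  refine sum_congr rfl fun a _ => ?_
  congr 1
  refine prod_congr rfl fun i _ => ?_
  unfold nk
  cases a i <;> simp [dl, py]

theorem noised_pt (w : Wn) (ρ : ℝ) {J : Finset ι} (f : (ι → ℤ) → ℝ) {y y' : ι → ℝ}
    (hy : ∀ i, i ∉ J → y' i = y i) (b c : ι → Bool) :
    noised w ρ J f y b (pt y' c) = T (nk (py w y) ρ J b fun _ d => dl d false)
      fun a => (fun e => f (pt y' e)) fun i => if i ∈ J then c i else a i := by
  rw [noised_eq]
  congr 1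
  funext a
  congr 1
  funext i
  by_cases h : i ∈ J
  · simp [pt, h]
  · simp [pt, h, hy i h]

theorem noised_W (w : Wn) (ρ : ℝ) (J : Finset ι) (f : (ι → ℤ) → ℝ) (y y' : ι → ℝ)
    (hy : ∀ i, i ∉ J → y' i = y i) :
    Eb (py w y) (fun b => W1 w J (noised w ρ J f y b) y') = Q1 w ρ J f y' ∧
      Eb (py w y) (fun b => W2 w J (noised w ρ J f y b) y') = Q2 w ρ J f y' := by
  have hp : ∀ i, i ∉ J → py w y' i = py w y i := fun i h => by simp [py, hy i h]
  constructor
  · unfold W1 Q1
    rw [Eb_sum]
    simp only [← cnt1 (inter_subset_right (s₂ := J))]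
    rw [sum_comm]
    refine sum_congr rfl fun j hj => ?_
    have hR : {j} ⊆ J := singleton_subset_iff.2 hj
    have := main _ _ ρ hR hp fun e => f (pt y' e)
    rw [prod_singleton, card_singleton] at this
    refine Eq.trans ?_ this
    congr 2
    funext b
    unfold c1
    rw [Eb_eq, ← ck_empty, T_Dd _ (notMem_empty j), ← T_ck_nk _ _ _ hR]
    simp only [noised_pt w ρ f hy, T_pw _ _ _ _ _ fun e => f (pt y' e)]
    rfl
  · unfold W2 Q2
    simp only [mul_assoc (2 : ℝ), ← cnt2 (inter_subset_right (s₂ := J))]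
    rw [sum_comm]
    have e := Eb_sum (py w y) J (fun _ => 1) fun j b => ∑ j' ∈ J.erase j,
      pq w (y' j) * pq w (y' j') * c2 w (noised w ρ J f y b) j j' y' ^ 2
    simp only [one_mul] at e
    rw [e]
    refine sum_congr rfl fun j hj => ?_
    rw [Eb_sum, sum_comm]
    refine sum_congr rfl fun j' hj' => ?_
    have hne := (ne_of_mem_erase hj').symm
    have hR : {j, j'} ⊆ J := insert_subset hj (singleton_subset_iff.2 (mem_of_mem_erase hj'))
    have := main _ _ ρ hR hp fun e => f (pt y' e)
    rw [prod_pair hne, card_pair hne] at this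
    refine Eq.trans ?_ this
    congr 2
    funext b
    unfold c2
    rw [Eb_eq, ← ck_empty, T_Dd _ (notMem_empty j'), T_Dd _ (by simpa using hne),
      ← T_ck_nk _ _ _ hR]
    simp only [noised_pt w ρ f hy, T_pw _ _ _ _ _ fun e => f (pt y' e)]
    rfl

theorem noised_inf (w : Wn) {ρ : ℝ} (h0 : 0 ≤ ρ) (h1 : ρ ≤ 1) {J : Finset ι} (f : (ι → ℤ) → ℝ)
    {y y' : ι → ℝ} (hy : ∀ i, i ∉ J → y' i = y i) (hp : ∀ t, 0 ≤ pr w t ∧ pr w t ≤ 1) {j : ι}
    (hj : j ∈ J) :
    Eb (py w y) (fun b => inf1 w (noised w ρ J f y b) j y') ≤ inf1 w f j y' := by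
  have hw : ∀ (z : ι → ℝ) i d, 0 ≤ wt1 (py w z i) d := fun z i => wt1_nonneg (hp _).1 (hp _).2
  unfold inf1
  rw [← T_stat (py w y) (py w y') ρ (J := J) fun i h => by simp [py, hy i h]]
  refine T_mono (hw y) fun b => ?_
  rw [← T_ck_nk _ _ _ (empty_subset J), ck_empty]
  refine T_mono (hw y') fun c => ?_
  rw [← T_pw]
  refine le_trans (le_of_eq ?_) (T_abs (nk_nonneg (fun i => hp _) h0 h1 J b fun _ => false) _)
  congr 1
  unfold Dd
  simp only [noised_pt w ρ f hy]
  unfold T
  rw [← sum_sub_distrib]
  refine sum_congr rfl fun a _ => ?_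
  have h : ∀ t, (fun i => if i ∈ J then Function.update c j t i else a i) =
      Function.update (fun i => if i ∈ J then c i else a i) j t := fun t => by
    funext i
    by_cases h : i = j
    · subst h; simp [hj]
    · simp [h]
  beta_reduce
  rw [h, h, mul_sub]
  rfl

end FourierP

open FourierP

theorem fourier_proof (hW : WinStmt) : FourierStmt := by
  intro ι _ _ w f h0 hf
  have R := hW w h0
  have hp : ∀ t, 0 ≤ pr w t ∧ pr w t ≤ 1 := fun t => ⟨R.pr_nonneg t, R.pr_le t⟩
  have hw : ∀ (z : ι → ℝ) i d, 0 ≤ wt1 (py w z i) d := fun z i => wt1_nonneg (hp _).1 (hp _).2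
  have par : ∀ y, Ey w (fun x => f x ^ 2) y = ∑ S : Finset ι, fw w f S y := fun y =>
    parseval (py w y) fun b => f (pt y b)
  refine ⟨fun S => ⟨?_, fun y => ?_⟩, fun y => ?_, fun y => ?_, fun y => ?_, fun y => ?_,
    fun r hr S y => ?_, fun ρ J y r0 r1 => ⟨fun b x => ?_, fun r b hr hf x => ?_, fun y' hy =>
      ⟨(noised_W w ρ J f y y' hy).1, (noised_W w ρ J f y y' hy).2, ?_⟩⟩⟩
  · unfold fw coef
    refine (Finset.measurable_prod _ fun i _ => R.pq_meas.comp (measurable_pi_apply i)).mul
      ((Finset.measurable_sum _ fun a _ => Measurable.mul ?_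
        (Finset.measurable_prod _ fun i _ => ?_)).pow_const 2)
    · exact (measurable_of_countable f).comp (measurable_pi_lambda _ fun i =>
        (measurable_of_countable fun n : ℤ => -n - if a i then 1 else 0).comp
          (Int.measurable_floor.comp (measurable_pi_apply i)))
    · have hm : Measurable fun y : ι → ℝ => pr w (y i) := R.pr_meas.comp (measurable_pi_apply i)
      unfold wt1 py
      split_ifs
      exacts [measurable_const, measurable_const, hm, measurable_const.sub hm]
  · exact mul_nonneg (prod_nonneg fun i _ => R.pq_nonneg _) (sq_nonneg _)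
  · rw [← par, ← T_const (fun i => wt1 (py w y i)) (fun i => wt1_sum _) 1]
    exact T_mono (hw y) fun a => pow_le_one₀ (hf _).1 (hf _).2
  · have e : Ey w f y ^ 2 = fw w f ∅ y := by
      unfold fw
      rw [prod_empty, one_mul, coef_eq, ck_empty]
      rfl
    rw [par, e, ← add_sum_erase _ _ (mem_univ ∅), ← add_sum_erase _ _ (mem_univ ∅), if_pos rfl,
      add_sub_cancel_left, zero_add]
    exact sum_congr rfl fun S hS => (if_neg (ne_of_mem_erase hS)).symm
  · have e : ∀ S : Finset ι, (S.card : ℝ) * fw w f S y = ∑ j, if j ∈ S then fw w f S y else 0 :=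
      fun S => by rw [sum_ite_mem_eq, sum_const, nsmul_eq_mul]
    simp only [e]
    rw [sum_comm]
    refine sum_le_sum fun j _ => ?_
    refine (Dd_sq (py w y) (fun b => f (pt y b)) j).symm.trans_le ?_
    refine mul_le_mul (R.pq_le_dpr _) (T_mono (hw y) fun b => ?_) ?_ (R.dpr_nonneg _)
    · rw [← sq_abs]
      refine pow_le_of_le_one (abs_nonneg _) (abs_le.2 ?_) two_ne_zero
      unfold Dd
      constructor <;> linarith [hf (pt y (Function.update b j true)),
        hf (pt y (Function.update b j false))]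
    · rw [← T_const (fun i => wt1 (py w y i)) (fun i => wt1_sum _) 0]
      exact T_mono (hw y) fun b => sq_nonneg _
  · have e := (noised_W w 1 univ f y y fun _ _ => rfl).1
    have e' : ∀ b, noised w 1 univ f y b = f := fun b => funext fun x => by
      rw [noised_eq]
      simp only [mem_univ, if_true]
      exact T_const _ (nk_sum _ _ _ _ fun _ => false) _
    simp only [e', Q1, inter_univ, one_pow, mul_one] at e
    rw [← e]
    exact (T_const _ (fun i => wt1_sum _) _).symm
  · have e1 : py w (y + fun i => (r i : ℝ)) = py w y := funext fun i => R.pr_per _ _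
    have e2 : (fun b => f (pt (y + fun i => (r i : ℝ)) b)) = fun b => f (pt y b) := by
      funext b
      rw [← hr]
      congr 1
      funext i
      simp only [pt, Pi.add_apply, Int.floor_add_intCast]
      ring
    unfold fw
    rw [e1, e2]
    congr 1
    exact prod_congr rfl fun i _ => R.pq_per _ _
  · have hk := nk_nonneg (p := py w y) (fun i => hp _) r0 r1 J b fun _ => false
    have hs := nk_sum (py w y) ρ J b fun _ => false
    rw [noised_eq]
    exact ⟨(T_const _ hs 0).symm.trans_le (T_mono hk fun a => (hf _).1),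
      (T_mono hk fun a => (hf _).2).trans_eq (T_const _ hs 1)⟩
  · rw [noised_eq, noised_eq]
    congr 1
    funext a
    rw [← hf fun i => if i ∈ J then x i else pt y a i]
    congr 1
    funext i
    by_cases h : i ∈ J
    · simp [h]
    · simp [h, hr i h]
  · unfold Inf
    rw [Eb_sum]
    exact sum_le_sum fun j hj =>
      mul_le_mul_of_nonneg_left (noised_inf w r0 r1 f hy hp hj) (R.dpr_nonneg _)

end

end Vale.Agent.P318.C
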