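import Vale.Agent.P318.C.GStmt

/-!
Track C, geometry: the first near triangle inequality (defect `O(ω)` at all scales).
-/

namespace Vale.Agent.P318.C

open Finset
open M (ip nsq lin perp vv)
open B (cf cd IsProj rr Kt tc res Pat pS pJ pD pw zone)

namespace G1

lemma abs_le_sq (n : ℤ) : |(n : ℝ)| ≤ (n : ℝ) ^ 2 := by
  have : |n| ≤ n ^ 2 := by
    rw [← sq_abs]
    exact Int.le_self_sq _
  exact_mod_cast this

lemma sq_le_four (n : ℤ) (t : ℝ) (ht : |t| ≤ 1 / 2) : (n : ℝ) ^ 2 ≤ 4 * (n - t) ^ 2 := by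
  by_cases h : n = 0
  · subst h; simp only [Int.cast_zero]; nlinarith [sq_nonneg (0 - t)]
  · have h1 : (1 : ℝ) ≤ |(n : ℝ)| := by exact_mod_cast Int.one_le_abs h
    have h2 : |(n : ℝ)| ≤ |n - t| + |t| := by simpa using abs_add_le ((n : ℝ) - t) t
    rw [← sq_abs (n : ℝ), ← sq_abs ((n : ℝ) - t)]
    nlinarith [abs_nonneg ((n : ℝ) - t)]

lemma act_le (ω t : ℝ) (n : ℤ) (h0 : 0 < ω) (h1 : ω ≤ 1 / 16) (ht : |t| ≤ 1 / 2)
    (h : n ≠ 0 ∨ 4 * ω < |t|) : 16 * ω ^ 2 ≤ (n - t) ^ 2 := by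
  by_cases hn : n = 0
  · subst hn
    have h2 := h.resolve_left (by simp)
    rw [Int.cast_zero, zero_sub, neg_sq, ← sq_abs t]
    nlinarith
  · have h2 : (1 : ℝ) ≤ (n : ℝ) ^ 2 := by
      have : (1 : ℝ) ≤ |(n : ℝ)| := by exact_mod_cast Int.one_le_abs hn
      exact this.trans (abs_le_sq n)
    have h3 := sq_le_four n t ht
    nlinarith

/-- The numbers. -/
lemma num (ω δ a E Fq t : ℝ) (h0 : 0 < ω) (h1 : ω ≤ 1 / 16) (hδ0 : 0 < δ) (hδ : δ ≤ ω ^ 5)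
    (ha : 0 ≤ a) (hE0 : 0 ≤ E) (hE : E ≤ 4 * δ * (a + 1) + 2 * δ * t)
    (ht : 16 * ω ^ 2 * t ≤ Fq) (hF : Fq ≤ 2 * a + 2 * E) :
    E ≤ ω ^ 3 * (a + 1) ∧ 4 * Fq ≤ 9 * (a + 1) ∧ 16 * ω ^ 2 * t ≤ 3 * (a + 1) := by
  have w2 : 0 < ω ^ 2 := by positivity
  have w2' : ω ^ 2 ≤ 1 / 256 := by nlinarith
  have w3 : ω ^ 3 ≤ 1 / 4096 := by nlinarith
  have k1 : δ ≤ ω ^ 2 / 4096 := by nlinarith
  have k2 := mul_le_mul_of_nonneg_left hE (by positivity : 0 ≤ 16 * ω ^ 2)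
  have k3 := mul_le_mul_of_nonneg_left (ht.trans hF) (by positivity : 0 ≤ 2 * δ)
  have k4 := mul_le_mul_of_nonneg_right k1 hE0
  have k5 := mul_le_mul_of_nonneg_right w2' (by positivity : 0 ≤ δ * (a + 1))
  have k6 := mul_le_mul_of_nonneg_right hδ (by positivity : 0 ≤ a + 1)
  have k7 : ω ^ 2 * E ≤ ω ^ 2 * (ω ^ 3 * (a + 1)) := by
    have : 0 ≤ ω ^ 2 * E := by positivity
    have : 0 ≤ δ * a := by positivity
    nlinarith
  have k8 := le_of_mul_le_mul_left k7 w2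
  have k9 := mul_le_mul_of_nonneg_right w3 (by positivity : 0 ≤ a + 1)
  exact ⟨k8, by linarith, by linarith⟩

lemma lip (ω a t p en : ℝ) (h0 : 0 < ω) (h1 : ω ≤ 1 / 16) (ha : 0 ≤ a)
    (ht : 16 * ω ^ 2 * t ≤ 3 * (a + 1)) (hp : p ≤ 20 * (a + 1))
    (he : 144 * en ≤ ω ^ 4 * (a + 1)) :
    12 * ((1 + Real.sqrt t + Real.sqrt p) * Real.sqrt en) ≤ ω * (a + 1) := by
  obtain ⟨r, hr, hr1⟩ : ∃ r : ℝ, r ^ 2 = a + 1 ∧ 1 ≤ r :=
    ⟨Real.sqrt (a + 1), Real.sq_sqrt (by linarith), Real.one_le_sqrt.2 (by linarith)⟩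
  rw [← hr] at ht hp he ⊢
  have k1 : Real.sqrt t ≤ r / (2 * ω) := by
    refine Real.sqrt_le_iff.2 ⟨by positivity, ?_⟩
    rw [div_pow, le_div_iff₀ (by positivity)]
    nlinarith [sq_nonneg r]
  have k2 : Real.sqrt p ≤ 5 * r := Real.sqrt_le_iff.2 ⟨by positivity, by nlinarith [sq_nonneg r]⟩
  have k3 : Real.sqrt en ≤ ω ^ 2 * r / 12 :=
    Real.sqrt_le_iff.2 ⟨by positivity, by nlinarith⟩
  have k4 : 1 + Real.sqrt t + Real.sqrt p ≤ r / ω := by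
    have e : r / ω = r / (2 * ω) + r / (2 * ω) := by field_simp; ring
    have : 6 * r ≤ r / (2 * ω) := by
      rw [le_div_iff₀ (by positivity)]; nlinarith
    linarith
  have k5 := mul_le_mul k4 k3 (Real.sqrt_nonneg _) (by positivity)
  have e : r / ω * (ω ^ 2 * r / 12) = ω * r ^ 2 / 12 := by field_simp
  linarith

variable {ι : Type} [Fintype ι] [DecidableEq ι]

/-- The estimate for abstract vectors. -/
lemma main (hC : CoreStmt) (ω η δ en p m : ℝ) (u u' u'' ϑ e : ι → ℝ) (k : ι → ℤ) (h0 : 0 < ω)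
    (h1 : ω ≤ 1 / 16) (hη0 : 0 ≤ η) (hη : η ≤ ω / 2) (hδ0 : 0 < δ) (hδ : δ ≤ ω ^ 5)
    (hu : ∀ j, |u j| ≤ 1 / 2 + ω + η) (hu' : ∀ j, |u' j| ≤ 1 / 2 + ω + η)
    (hu'' : ∀ j, |u'' j| ≤ 1 / 2 + ω + η) (hϑ : ∀ j, |ϑ j| ≤ 1 / 2)
    (hD : ∀ j, u j - u' j = k j - ϑ j - e j) (ho : ∑ j, (u'' j - u' j) * e j = 0)
    (hE : ∀ T : Finset ι, ∑ j ∈ T, e j ^ 2 ≤
      4 * δ * (∑ j, (u j - u' j) ^ 2 + 1) + 2 * δ * T.card)
    (hp : p ≤ ∑ j, (ϑ j + e j) ^ 2)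
    (hen : 144 * en ≤ ω ^ 4 * (∑ j, (u j - u' j) ^ 2 + 1))
    (t1 : |T1 ω η ϑ u' - m| ≤ 6 * (1 + Real.sqrt ((univ.filter fun j => 4 * ω < |ϑ j|).card) +
      Real.sqrt p) * Real.sqrt en)
    (t2 : |T1 ω η ϑ u'' - m| ≤ 6 * (1 + Real.sqrt ((univ.filter fun j => 4 * ω < |ϑ j|).card) +
      Real.sqrt p) * Real.sqrt en) :
    ∑ j, (u j - u'' j) ^ 2 ≤ ∑ j, (u j - u' j) ^ 2 + ∑ j, (u' j - u'' j) ^ 2 +
      160 * ω * (∑ j, (u j - u' j) ^ 2 + 1) := by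
  set T : Finset ι := univ.filter fun j => k j ≠ 0 ∨ 4 * ω < |ϑ j| with hT
  have ha : 0 ≤ ∑ j, (u j - u' j) ^ 2 := sum_nonneg fun _ _ => sq_nonneg _
  have f1 : 16 * ω ^ 2 * T.card ≤ ∑ j ∈ T, (k j - ϑ j) ^ 2 := by
    rw [mul_comm, ← nsmul_eq_mul, ← sum_const]
    exact sum_le_sum fun j hj => act_le ω _ _ h0 h1 (hϑ j) (mem_filter.1 hj).2
  have f2 : ∑ j ∈ T, (k j - ϑ j) ^ 2 ≤ 2 * ∑ j, (u j - u' j) ^ 2 + 2 * ∑ j ∈ T, e j ^ 2 := by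
    have q1 : ∑ j ∈ T, (u j - u' j) ^ 2 ≤ ∑ j, (u j - u' j) ^ 2 :=
      sum_le_sum_of_subset_of_nonneg (subset_univ _) fun _ _ _ => sq_nonneg _
    have q2 : ∑ j ∈ T, (k j - ϑ j) ^ 2 ≤ ∑ j ∈ T, (2 * (u j - u' j) ^ 2 + 2 * e j ^ 2) :=
      sum_le_sum fun j _ => by
        rw [hD j]; nlinarith [sq_nonneg (k j - ϑ j - 2 * e j)]
    rw [sum_add_distrib, ← mul_sum, ← mul_sum] at q2
    linarith
  obtain ⟨n1, n2, n3⟩ := num ω δ _ _ _ _ h0 h1 hδ0 hδ ha (sum_nonneg fun _ _ => sq_nonneg _)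
    (hE T) f1 f2
  have f3 : ∑ j, (k j : ℝ) ^ 2 ≤ 4 * ∑ j ∈ T, (k j - ϑ j) ^ 2 := by
    rw [mul_sum, ← sum_subset (subset_univ T) fun j _ hj => ?_]
    · exact sum_le_sum fun j _ => sq_le_four _ _ (hϑ j)
    · have : k j = 0 := by
        by_contra h
        exact hj (mem_filter.2 ⟨mem_univ _, Or.inl h⟩)
      simp [this]
  have f4 : ∑ j, |(k j : ℝ)| ≤ ∑ j, (k j : ℝ) ^ 2 := sum_le_sum fun j _ => abs_le_sq _
  have f5 : ∑ j, (ϑ j + e j) ^ 2 ≤ ∑ j, (2 * (k j : ℝ) ^ 2 + 2 * (u j - u' j) ^ 2) :=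
    sum_le_sum fun j _ => by
      rw [hD j]; nlinarith [sq_nonneg (2 * k j - ϑ j - e j)]
  rw [sum_add_distrib, ← mul_sum, ← mul_sum] at f5
  have f6 : (((univ.filter fun j => 4 * ω < |ϑ j|).card : ℕ) : ℝ) ≤ T.card := by
    exact_mod_cast card_le_card fun j hj => mem_filter.2 ⟨mem_univ _, Or.inr (mem_filter.1 hj).2⟩
  have f7 := lip ω _ _ p en h0 h1 ha
    ((mul_le_mul_of_nonneg_left f6 (by positivity)).trans n3) (by linarith) hen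
  have c1 := sum_le_sum fun j (_ : j ∈ (univ : Finset ι)) =>
    hC.1 ω η (u j) (u' j) (u'' j) (ϑ j) (e j) (k j) h0 h1 hη0 hη (hu j) (hu' j) (hu'' j) (hϑ j)
      (hD j)
  rw [sum_sub_distrib, sum_sub_distrib, sum_sub_distrib, ← sum_filter, ← mul_sum, ← hT,
    ← sum_div, ← mul_sum] at c1
  have c2 : 7 * (∑ j ∈ T, e j ^ 2) / ω ^ 2 ≤ 7 * (ω * (∑ j, (u j - u' j) ^ 2 + 1)) := by
    rw [div_le_iff₀ (by positivity)]
    linarith
  have c3 : ∑ j, (u j - u'' j) ^ 2 = ∑ j, (u j - u' j) ^ 2 + ∑ j, (u' j - u'' j) ^ 2 -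
      2 * ∑ j, (k j - ϑ j) * (u'' j - u' j) + 2 * ∑ j, (u'' j - u' j) * e j := by
    simp only [mul_sum, ← sum_add_distrib, ← sum_sub_distrib]
    refine sum_congr rfl fun j _ => ?_
    rw [show (k j : ℝ) - ϑ j = u j - u' j + e j by linarith [hD j]]
    ring
  have c4 := mul_le_mul_of_nonneg_left (f4.trans (f3.trans n2)) h0.le
  have c5 := abs_le.1 t1
  have c6 := abs_le.1 t2
  unfold T1 at c5 c6
  rw [c3, ho]
  linarith [c5.1, c6.2]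

variable {B : Type} [Fintype B] [DecidableEq B] {M : B → ℕ} {s : (J : B) → ι → Fin (M J) → ℤ}

/-- The part of `Δ` on the blocks of `S`. -/
def cut (Δ : Kt M → ℝ) (S : Finset B) : Kt M → ℝ := fun x => if x.1 ∈ S then Δ x else 0

omit [Fintype ι] [DecidableEq ι] in
lemma sum_cut (Δ : Kt M → ℝ) (S : Finset B) (i : ι) :
    ∑ J, ip (s J i) (res (cut Δ S) J) = ∑ J ∈ S, ip (s J i) (res Δ J) := by
  rw [← sum_ite_mem_eq S fun J => ip (s J i) (res Δ J)]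
  refine sum_congr rfl fun J _ => ?_
  by_cases h : J ∈ S <;> simp [ip, res, cut, h]

omit [Fintype ι] [DecidableEq ι] [DecidableEq B] in
lemma lin_sub (Δ Δ' : Kt M → ℝ) (i : ι) :
    lin (tc s) (Δ - Δ') i = lin (tc s) Δ i - lin (tc s) Δ' i := by
  simp [lin, ip, mul_sub, sum_sub_distrib]

end G1

open G1 in
theorem g1_proof (hL : LevStmt) (hC : CoreStmt) (hPat : B.PatStmt) (hP : B.ProjStmt) :
    G1Stmt := by
  intro ι B _ _ _ _ M blk s Γ J0 wt Sp c w F Lm Cn φ η Le Υ1 δ1 g H hD hS h0 h1 hη0 hη hLe hδ0 hδ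
    hg hgrid hent x x' x'' hx hx' hx''
  obtain ⟨l1, l2, -⟩ := hL ι B M blk s Γ J0 wt F Lm Cn φ H
  obtain ⟨p1, p2, p3, -⟩ := (hP.1 ι (Kt M) (tc s)).2 Sp hS
  obtain ⟨k, τ, A, d1, d2, d3, d4⟩ := hD (x - x') (Sp fun j => (x j : ℝ) - x' j)
  have hv : ∀ i, vv (tc s) Sp c x i - vv (tc s) Sp c x' i =
      ((x - x') i : ℝ) - lin (tc s) (Sp fun j => (x j : ℝ) - x' j) i := by
    intro i
    have q := congrFun (p2 (fun j => (x j : ℝ) + c j) fun j => (x' j : ℝ) + c j) i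
    have e : ((fun j => (x j : ℝ) + c j) - fun j => (x' j : ℝ) + c j) =
        fun j => (x j : ℝ) - x' j := by
      funext j
      simp
    rw [e, perp] at q
    simp only [Pi.sub_apply] at q ⊢
    push_cast
    unfold vv
    linarith
  simp only [← hv] at d1 d3 d4
  obtain ⟨π, q1, -, q3, q4⟩ := (hPat B M g).2.1 τ A ∅ hg (fun y => (d2 y).trans (by norm_num))
    (empty_subset _)
  have hg0 : (0 : ℝ) < g := by exact_mod_cast hg
  have ho : ∀ (y : ι → ℤ) β, ∑ j, vv (tc s) Sp c y j * lin (tc s) β j = 0 := fun y β => hS _ β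
  have ha : 0 ≤ ∑ j, (vv (tc s) Sp c x j - vv (tc s) Sp c x' j) ^ 2 :=
    sum_nonneg fun _ _ => sq_nonneg _
  refine main hC w.om η δ1 (ent Le π) _ _ _ _ _ (th1 s π) (lin (tc s) (τ - pD π))
    (fun j => k j - round (pw s π j)) h0 h1 hη0.le hη hδ0 hδ hx.1 hx'.1 hx''.1
    (fun j => abs_sub_round _) (fun j => ?_) ?_ (fun T => ?_) ?_ ?_ (hx'.2.1 π) (hx''.2.1 π)
  · rw [d1, lin_sub, th1, cf, pw]
    push_cast
    ring
  · simp only [sub_mul, sum_sub_distrib, ho, sub_self]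
  · have r1 : ∀ j, lin (tc s) (τ - pD π) j =
        ∑ J ∈ Aᶜ, ip (s J j) (res τ J) + lin (tc s) (cut τ A - pD π) j := fun j => by
      rw [lin_sub, lin_sub, l1 τ, l1 (cut τ A), sum_cut, ← sum_add_sum_compl A]
      ring
    have r2 : ∀ j, lin (tc s) (cut τ A - pD π) j ^ 2 ≤ (Cn / g) ^ 2 := fun j => by
      rw [← sq_abs]
      refine pow_le_pow_left₀ (abs_nonneg _) ?_ 2
      rw [← mul_one_div]
      refine l2 _ _ (by positivity) (fun y => ?_) j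
      by_cases h : y.1 ∈ A
      · rw [Pi.sub_apply, abs_sub_comm]
        simpa [cut, h] using q3 y h
      · simp [cut, h, q4 y h]
    have r3 : ∑ j ∈ T, lin (tc s) (τ - pD π) j ^ 2 ≤
        ∑ j ∈ T, (2 * (∑ J ∈ Aᶜ, ip (s J j) (res τ J)) ^ 2 + 2 * (Cn / g) ^ 2) :=
      sum_le_sum fun j _ => by
        rw [r1]
        nlinarith [r2 j, sq_nonneg (∑ J ∈ Aᶜ, ip (s J j) (res τ J) -
          lin (tc s) (cut τ A - pD π) j)]
    rw [sum_add_distrib, ← mul_sum, sum_const, nsmul_eq_mul] at r3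
    have r4 : (T.card : ℝ) ≤ cd ι := by unfold cd; exact_mod_cast card_le_univ T
    have r5 := mul_le_mul_of_nonneg_right r4 (sq_nonneg (Cn / g))
    have r6 := mul_nonneg hδ0.le ha
    linarith [d4 T]
  · rw [← p1 (th1 s π) (τ - pD π)]
    exact p3 _
  · have hLm : 0 < Lm := by linarith [H.one_le_Lm]
    have r1 : Lm * ∑ J ∈ A, (M J : ℝ) ≤ ∑ J ∈ A, wt J := by
      rw [mul_sum]; exact sum_le_sum fun J _ => H.wt_dim J
    have r2 := mul_le_mul_of_nonneg_left (r1.trans d3) hLe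
    have r3 := mul_le_mul_of_nonneg_right hent (add_nonneg ha zero_le_one)
    rw [ent, q1]
    refine le_of_mul_le_mul_left ?_ hLm
    linarith

end Vale.Agent.P318.C
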