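import Vale.Agent.P318.C.GStmt

/-!
Track C, part (G): the second near triangle inequality.
-/

namespace Vale.Agent.P318.C

open Finset
open M (ip nsq lin perp vv)
open B (cf cd IsProj rr Kt tc res Pat pS pJ pD pw zone)

namespace G2

lemma lin_sub {ι κ : Type} [Fintype κ] (S : ι → κ → ℤ) (a b : κ → ℝ) (j : ι) :
    lin S (a - b) j = lin S a j - lin S b j := by
  simp only [lin, ip, Pi.sub_apply, mul_sub, sum_sub_distrib]

lemma lin_single {ι κ : Type} [Fintype κ] [DecidableEq κ] (S : ι → κ → ℤ) (x : κ) (j : ι) :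
    lin S (Pi.single x 1) j = S j x := by
  simp [lin, ip, Pi.single_apply]

lemma sqrt_mul_le {A B C : ℝ} (hA : 0 ≤ A) (hC : 0 ≤ C) (h : A * B ≤ C ^ 2) :
    Real.sqrt A * Real.sqrt B ≤ C := by
  rw [← Real.sqrt_mul hA]
  exact Real.sqrt_le_iff.2 ⟨hC, h⟩

/-- The real inequalities for one pair of points. -/
lemma pair_real {ι : Type} [Fintype ι] (I W : Finset ι) (D f d err e0 : ι → ℝ) (n zW zI : ℝ)
    (hn : 0 < n) (hc : (Fintype.card ι : ℝ) = n) (hf : ∀ j, j ∉ I → f j = 0)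
    (hd : ∀ j, |d j| ≤ 1 / 8) (hD : ∀ j, D j = (1 - d j) * f j - e0 j) (herr : ∀ j, |err j| ≤ 1 / n)
    (hW : ∑ j ∈ W, e0 j ^ 2 ≤ zW * ∑ j, f j ^ 2) (hI : ∑ j ∈ I, e0 j ^ 2 ≤ zI * ∑ j, f j ^ 2)
    (hzW : 0 ≤ zW) (hzI : 0 ≤ zI) (hz : zI ≤ 1 / 8) :
    ∑ j, (f j + err j) ^ 2 ≤ 8 * ∑ j, D j ^ 2 + 2 / n ∧
    ∑ j ∈ W, (e0 j + (1 - d j) * err j) ^ 2 ≤ 8 * zW * ∑ j, D j ^ 2 + 4 / n ∧
    ∑ j ∈ I, (e0 j + (1 - d j) * err j) ^ 2 ≤ 8 * zI * ∑ j, D j ^ 2 + 4 / n := by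
  have f0 : 0 ≤ ∑ j, f j ^ 2 := sum_nonneg fun _ _ => sq_nonneg _
  have h1 : ∑ j, f j ^ 2 = ∑ j ∈ I, f j ^ 2 :=
    (sum_subset (subset_univ I) fun j _ hj => by rw [hf j hj]; ring).symm
  have h2 : ∀ j ∈ I, 3 / 4 * f j ^ 2 ≤ 2 * D j ^ 2 + 2 * e0 j ^ 2 := by
    intro j _
    have a1 := abs_le.1 (hd j)
    have a2 : 3 / 4 ≤ (1 - d j) ^ 2 := by nlinarith
    have a3 : ((1 - d j) * f j) ^ 2 ≤ 2 * D j ^ 2 + 2 * e0 j ^ 2 := by
      have : (1 - d j) * f j = D j + e0 j := by rw [hD j]; ring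
      rw [this]
      nlinarith [sq_nonneg (D j - e0 j)]
    rw [mul_pow] at a3
    exact (mul_le_mul_of_nonneg_right a2 (sq_nonneg _)).trans a3
  have h3 := sum_le_sum h2
  rw [sum_add_distrib, ← mul_sum, ← mul_sum, ← mul_sum, ← h1] at h3
  have h4 : ∑ j ∈ I, D j ^ 2 ≤ ∑ j, D j ^ 2 :=
    sum_le_sum_of_subset_of_nonneg (subset_univ I) fun _ _ _ => sq_nonneg _
  have h5 : ∑ j, f j ^ 2 ≤ 4 * ∑ j, D j ^ 2 := by
    have := mul_le_mul_of_nonneg_right hz f0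
    linarith
  have h6 : ∀ T : Finset ι, ∑ j ∈ T, err j ^ 2 ≤ 1 / n := by
    intro T
    have a1 : ∀ j ∈ (univ : Finset ι), err j ^ 2 ≤ (1 / n) ^ 2 := fun j _ => by
      rw [← sq_abs]; exact pow_le_pow_left₀ (abs_nonneg _) (herr j) 2
    have a2 := sum_le_sum a1
    rw [sum_const, card_univ, nsmul_eq_mul, hc] at a2
    refine (sum_le_sum_of_subset_of_nonneg (subset_univ T) fun _ _ _ => sq_nonneg _).trans
      (a2.trans_eq ?_)
    field_simp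
  have h7 : ∀ T : Finset ι, ∑ j ∈ T, (e0 j + (1 - d j) * err j) ^ 2 ≤
      2 * ∑ j ∈ T, e0 j ^ 2 + 4 / n := by
    intro T
    have a1 : ∀ j ∈ T, (e0 j + (1 - d j) * err j) ^ 2 ≤ 2 * e0 j ^ 2 + 4 * err j ^ 2 := by
      intro j _
      have b1 := abs_le.1 (hd j)
      have b2 : (1 - d j) ^ 2 ≤ 2 := by nlinarith
      have b3 := mul_le_mul_of_nonneg_right b2 (sq_nonneg (err j))
      nlinarith [sq_nonneg (e0 j - (1 - d j) * err j)]
    have a2 := sum_le_sum a1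
    rw [sum_add_distrib, ← mul_sum, ← mul_sum] at a2
    have a3 := h6 T
    have a4 : 4 / n = 4 * (1 / n) := by ring
    linarith
  refine ⟨?_, ?_, ?_⟩
  · have a1 : ∀ j ∈ (univ : Finset ι), (f j + err j) ^ 2 ≤ 2 * f j ^ 2 + 2 * err j ^ 2 :=
      fun j _ => by nlinarith [sq_nonneg (f j - err j)]
    have a2 := sum_le_sum a1
    rw [sum_add_distrib, ← mul_sum, ← mul_sum] at a2
    have a3 := h6 univ
    have a4 : 2 / n = 2 * (1 / n) := by ring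
    linarith
  · have := mul_le_mul_of_nonneg_left h5 hzW
    linarith [h7 W]
  · have := mul_le_mul_of_nonneg_left h5 hzI
    linarith [h7 I]

variable {ι B : Type} [Fintype ι] [DecidableEq ι] [Fintype B] [DecidableEq B] {M : B → ℕ}
  {blk : B → Finset ι} {s : (J : B) → ι → Fin (M J) → ℤ}
  {Γ : (J : B) → AddSubgroup (Fin (M J) → ℝ)} {J0 : B} {wt : B → ℝ} {F Lm Cn φ : ℝ}

/-- The restriction to the blocks of `L`. -/
def cut (τ : Kt M → ℝ) (L : Finset B) : Kt M → ℝ := fun x => if x.1 ∈ L then τ x else 0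

lemma lin_off (hL : LevStmt) (H : CSys blk s Γ J0 wt F Lm Cn φ) {τ : Kt M → ℝ} {L : Finset B}
    (h : ∀ x, x.1 ∉ L → τ x = 0) {j : ι} (hj : j ∉ zone blk L) : lin (tc s) τ j = 0 := by
  obtain ⟨l1, -, l3, -⟩ := hL ι B M blk s Γ J0 wt F Lm Cn φ H
  rw [l1, ← sum_add_sum_compl L, l3 τ L j hj, zero_add]
  refine sum_eq_zero fun J hJ => sum_eq_zero fun k _ => ?_
  rw [res, h ⟨J, k⟩ (mem_compl.1 hJ), mul_zero]

/-- The support of the decoded vector is small. -/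
lemma supp (hL : LevStmt) (H : CSys blk s Γ J0 wt F Lm Cn φ) {D : ι → ℝ} {k : ι → ℤ}
    {τ : Kt M → ℝ} {Hv : Finset B} {Υ δ Y : ℝ} (h0 : 0 ≤ δ) (h1 : δ ≤ 1 / 4) (hY : Υ + 6 ≤ Y)
    (hD : ∀ j, D j = k j - lin (tc s) τ j) (hw : ∑ J ∈ Hv, wt J ≤ Υ * (∑ j, D j ^ 2 + 1))
    (hl : ∀ T : Finset ι, ∑ j ∈ T, (∑ J ∈ Hvᶜ, ip (s J j) (res τ J)) ^ 2 ≤
      δ * (∑ j, D j ^ 2 + 1) + δ * T.card) :
    ∃ I0 : Finset ι, zone blk Hv ⊆ I0 ∧ (∀ j, j ∉ I0 → k j = 0) ∧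
      (I0.card : ℝ) ≤ Y * (∑ j, D j ^ 2 + 1) := by
  obtain ⟨l1, -, l3, l4, -⟩ := hL ι B M blk s Γ J0 wt F Lm Cn φ H
  set T := univ.filter fun j => j ∉ zone blk Hv ∧ k j ≠ 0 with hT
  have a0 : 0 ≤ ∑ j, D j ^ 2 := sum_nonneg fun _ _ => sq_nonneg _
  have a1 : ∀ j ∈ T, (1 : ℝ) ≤ 2 * D j ^ 2 + 2 * (∑ J ∈ Hvᶜ, ip (s J j) (res τ J)) ^ 2 := by
    intro j hj
    obtain ⟨b1, b2⟩ := (mem_filter.1 hj).2
    have b3 := hD j
    rw [l1, ← sum_add_sum_compl Hv, l3 τ Hv j b1, zero_add] at b3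
    have b4 : (1 : ℝ) ≤ (k j : ℝ) ^ 2 := by
      have : (1 : ℤ) ≤ k j ^ 2 := by nlinarith [Int.one_le_abs b2, sq_abs (k j)]
      exact_mod_cast this
    have b5 : (k j : ℝ) = D j + ∑ J ∈ Hvᶜ, ip (s J j) (res τ J) := by rw [b3]; ring
    rw [b5] at b4
    nlinarith [sq_nonneg (D j - ∑ J ∈ Hvᶜ, ip (s J j) (res τ J))]
  have a2 := sum_le_sum a1
  rw [sum_const, nsmul_eq_mul, mul_one, sum_add_distrib, ← mul_sum, ← mul_sum] at a2
  have a3 : ∑ j ∈ T, D j ^ 2 ≤ ∑ j, D j ^ 2 :=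
    sum_le_sum_of_subset_of_nonneg (subset_univ T) fun _ _ _ => sq_nonneg _
  have a4 := hl T
  have a5 := mul_le_mul_of_nonneg_right h1 (show 0 ≤ ∑ j, D j ^ 2 + 1 by linarith)
  have a6 := mul_le_mul_of_nonneg_right h1 (Nat.cast_nonneg (α := ℝ) T.card)
  have a7 : ((zone blk Hv).card : ℝ) ≤ Υ * (∑ j, D j ^ 2 + 1) :=
    (l4 Hv).trans ((sum_le_sum fun J _ => H.wt_ge J).trans hw)
  refine ⟨zone blk Hv ∪ T, subset_union_left, fun j hj => ?_, ?_⟩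
  · by_contra h
    rw [mem_union, not_or] at hj
    exact hj.2 (mem_filter.2 ⟨mem_univ _, hj.1, h⟩)
  · have a8 : ((zone blk Hv ∪ T).card : ℝ) ≤ (zone blk Hv).card + T.card := by
      exact_mod_cast card_union_le _ _
    have a9 := mul_le_mul_of_nonneg_right hY (show 0 ≤ ∑ j, D j ^ 2 + 1 by linarith)
    linarith

/-- One pair of points. -/
lemma pair (hL : LevStmt) (hPat : P318.B.PatStmt) (H : CSys blk s Γ J0 wt F Lm Cn φ) {D d : ι → ℝ}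
    {k : ι → ℤ} {τ : Kt M → ℝ} {L : Finset B} {I : Finset ι} {g : ℕ} {zW zI : ℝ} (hg : 1 ≤ g)
    (hn : 0 < cd ι) (hgn : cd ι * Cn ≤ g) (hI : zone blk L ⊆ I) (hk : ∀ j, j ∉ I → k j = 0)
    (hD : ∀ j, D j = k j - lin (tc s) τ j) (hτ : ∀ y, |τ y| ≤ 1 / 2)
    (ho : ∀ x, ∑ j, (tc s j x : ℝ) * D j = 0) (hd : ∀ j, |d j| ≤ 1 / 8)
    (hR : ∀ (f : ι → ℝ) (τ : Kt M → ℝ), (∀ j, j ∉ I → f j = 0) → (∀ x, x.1 ∈ L → τ x = 0) →
      (∀ x, x.1 ∉ L → ∑ j, (tc s j x : ℝ) * (f j - lin (tc s) τ j) = 0) →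
      ∑ j ∈ zone blk L, (lin (tc s) τ j - d j * f j) ^ 2 ≤ zW * ∑ j, f j ^ 2 ∧
      ∑ j ∈ I, (lin (tc s) τ j - d j * f j) ^ 2 ≤ zI * ∑ j, f j ^ 2)
    (hzW : 0 ≤ zW) (hzI : 0 ≤ zI) (hz : zI ≤ 1 / 8) :
    ∃ (π : Pat M g) (e : ι → ℝ), pS π = L ∧ (∀ j, j ∉ zone blk L → pw s π j = 0) ∧
      (∀ j, D j = (1 - d j) * (k j - pw s π j) - e j) ∧
      ∑ j, (k j - pw s π j) ^ 2 ≤ 8 * ∑ j, D j ^ 2 + 2 / cd ι ∧
      ∑ j ∈ zone blk L, e j ^ 2 ≤ 8 * zW * ∑ j, D j ^ 2 + 4 / cd ι ∧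
      ∑ j ∈ I, e j ^ 2 ≤ 8 * zI * ∑ j, D j ^ 2 + 4 / cd ι := by
  obtain ⟨-, l2, -⟩ := hL ι B M blk s Γ J0 wt F Lm Cn φ H
  obtain ⟨π, p1, -, p3, p4⟩ := (hPat B M g).2.1 τ L ∅ hg (fun x => (hτ x).trans (by norm_num))
    (empty_subset L)
  have hg0 : (0 : ℝ) < g := by exact_mod_cast hg
  set f : ι → ℝ := fun j => k j - lin (tc s) (cut τ L) j with hf
  set err : ι → ℝ := fun j => lin (tc s) (cut τ L - pD π) j with herr
  have f0 : ∀ j, j ∉ I → f j = 0 := fun j hj => by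
    simp only [hf]
    rw [hk j hj, lin_off hL H (τ := cut τ L) (fun x hx => if_neg hx) fun h => hj (hI h)]
    simp
  have e1 : ∀ j, D j = f j - lin (tc s) (τ - cut τ L) j := fun j => by
    simp only [hf]
    rw [hD j, lin_sub]
    ring
  have e2 : ∀ j, k j - pw s π j = f j + err j := fun j => by
    simp only [hf, herr]
    rw [lin_sub, pw]
    ring
  have e3 : ∀ j, |err j| ≤ 1 / cd ι := fun j => by
    refine (l2 _ (1 / g) (by positivity) (fun x => ?_) j).trans ?_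
    · by_cases hx : x.1 ∈ L
      · rw [Pi.sub_apply, cut, if_pos hx, abs_sub_comm]
        exact p3 x hx
      · rw [Pi.sub_apply, cut, if_neg hx, p4 x hx, sub_zero, abs_zero]
        positivity
    · rw [mul_one_div, div_le_div_iff₀ hg0 hn]
      linarith
  obtain ⟨r1, r2⟩ := hR f (τ - cut τ L) f0 (fun x hx => by simp [cut, hx]) fun x _ => by
    simp only [← e1]
    exact ho x
  obtain ⟨q1, q2, q3⟩ := pair_real I (zone blk L) D f d err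
    (fun j => lin (tc s) (τ - cut τ L) j - d j * f j) (cd ι) zW zI hn rfl f0 hd
    (fun j => by rw [e1 j]; ring) e3 r1 r2 hzW hzI hz
  refine ⟨π, fun j => lin (tc s) (τ - cut τ L) j - d j * f j + (1 - d j) * err j, p1,
    fun j hj => lin_off hL H p4 hj, fun j => ?_, ?_, q2, q3⟩
  · rw [e2 j, e1 j]
    ring
  · simp only [e2]
    exact q1

/-- The sets `L` and `I`. -/
lemma sets (hL : LevStmt) (H : CSys blk s Γ J0 wt F Lm Cn φ) {I0 : Finset ι} {Y q : ℝ}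
    (hq : 0 < q) (hY : 1000 ≤ Y) (hqY : q * Y ^ 2 ≤ 1) (hF : F ≤ Y) (hn : 0 < cd ι)
    (h0 : (I0.card : ℝ) ≤ 2 * Y * (cd ι * q ^ 64)) :
    ∃ L : Finset B, (∀ J, blk J ⊆ I0 → J ∈ L) ∧
      ((zone blk L).card : ℝ) ≤ 2 * Y ^ 2 * cd ι * q ^ 56 ∧
      ∑ J ∈ L, (M J : ℝ) ≤ 4 * Y ^ 3 * cd ι * q ^ 84 ∧
      ((I0 ∪ zone blk L).card : ℝ) ≤ 4 * Y ^ 2 * cd ι * q ^ 56 ∧
      ∀ J, J ∉ L → ((blk J ∩ zone blk L).card : ℝ) ≤ 4 * Y ^ 2 * q ^ 56 * (blk J).card ∧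
        ((blk J ∩ (I0 ∪ zone blk L)).card : ℝ) ≤ 2 * q ^ 8 * (blk J).card := by
  obtain ⟨-, -, -, l4, l5, -⟩ := hL ι B M blk s Γ J0 wt F Lm Cn φ H
  have hY1 : 1 ≤ Y ^ 2 := one_le_pow₀ (by linarith)
  have hq1 : q ≤ 1 := (le_mul_of_one_le_right hq.le hY1).trans hqY
  set L := univ.filter fun J => q ^ 8 * (blk J).card ≤ ((blk J ∩ I0).card : ℝ) with hLd
  have wb : ∑ J ∈ L, ((blk J).card : ℝ) ≤ 2 * Y ^ 2 * cd ι * q ^ 56 := by
    have a1 : ∑ J ∈ L, q ^ 8 * ((blk J).card : ℝ) ≤ ∑ J, ((blk J ∩ I0).card : ℝ) :=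
      (sum_le_sum fun J hJ => (mem_filter.1 hJ).2).trans
        (sum_le_sum_of_subset_of_nonneg (subset_univ _) fun _ _ _ => Nat.cast_nonneg _)
    rw [← mul_sum] at a1
    have a2 := (a1.trans (l5 I0)).trans (mul_le_mul hF h0 (Nat.cast_nonneg _) (by linarith))
    refine le_of_mul_le_mul_left (a2.trans_eq ?_) (pow_pos hq 8)
    ring
  have hW := (l4 L).trans wb
  have cr : ∀ J, J ∉ L → ((blk J ∩ zone blk L).card : ℝ) ≤ 4 * Y ^ 2 * q ^ 56 * (blk J).card := by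
    intro J hJ
    have a1 : ((blk J ∩ zone blk L).card : ℝ) ≤ ∑ J' ∈ L, ((blk J ∩ blk J').card : ℝ) := by
      rw [zone, inter_biUnion]
      exact_mod_cast card_biUnion_le
    have a2 : ∑ J' ∈ L, ((blk J ∩ blk J').card : ℝ) * cd ι ≤
        ∑ J' ∈ L, 2 * ((blk J).card : ℝ) * (blk J').card :=
      sum_le_sum fun J' hJ' => H.cross J J' fun h => hJ (h ▸ hJ')
    rw [← sum_mul, ← mul_sum] at a2
    have a3 := (mul_le_mul_of_nonneg_right a1 hn.le).trans (a2.trans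
      (mul_le_mul_of_nonneg_left wb (by positivity)))
    refine le_of_mul_le_mul_right (a3.trans_eq ?_) hn
    ring
  refine ⟨L, fun J hJ => mem_filter.2 ⟨mem_univ _, ?_⟩, hW, ?_, ?_, fun J hJ => ⟨cr J hJ, ?_⟩⟩
  · rw [inter_eq_left.2 hJ]
    exact mul_le_of_le_one_left (Nat.cast_nonneg _) (pow_le_one₀ hq.le hq1)
  · have a1 : ∀ J ∈ L, (M J : ℝ) ≤ 2 * Y * q ^ 28 * (blk J).card := by
      intro J hJ
      have b1 : ((blk J).card : ℝ) ≤ 2 * Y ^ 2 * cd ι * q ^ 56 :=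
        (single_le_sum (f := fun J => ((blk J).card : ℝ)) (fun _ _ => Nat.cast_nonneg _) hJ).trans wb
      have b2 : Real.sqrt (blk J).card ≤ 2 * Y * q ^ 28 * Real.sqrt (cd ι) := by
        refine Real.sqrt_le_iff.2 ⟨by positivity, b1.trans ?_⟩
        rw [mul_pow, Real.sq_sqrt hn.le]
        have : 0 ≤ Y ^ 2 * cd ι * q ^ 56 := by positivity
        nlinarith
      have b3 := (H.dim2 J).trans (mul_le_mul_of_nonneg_left b2 (Nat.cast_nonneg _))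
      refine le_of_mul_le_mul_right (b3.trans_eq ?_) (Real.sqrt_pos.2 hn)
      ring
    refine (sum_le_sum a1).trans ?_
    rw [← mul_sum]
    refine (mul_le_mul_of_nonneg_left wb (by positivity)).trans_eq ?_
    ring
  · have a1 : ((I0 ∪ zone blk L).card : ℝ) ≤ I0.card + (zone blk L).card := by
      exact_mod_cast card_union_le _ _
    have a2 : 2 * Y * (cd ι * q ^ 64) ≤ 2 * Y ^ 2 * cd ι * q ^ 56 := by
      have b1 : Y * q ^ 64 ≤ Y ^ 2 * q ^ 56 :=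
        mul_le_mul (by nlinarith) (pow_le_pow_of_le_one hq.le hq1 (by norm_num)) (by positivity)
          (by positivity)
      have b2 := mul_le_mul_of_nonneg_left b1 (show 0 ≤ 2 * cd ι by positivity)
      linarith
    linarith
  · have a1 : ((blk J ∩ (I0 ∪ zone blk L)).card : ℝ) ≤
        (blk J ∩ I0).card + (blk J ∩ zone blk L).card := by
      rw [inter_union_distrib_left]
      exact_mod_cast card_union_le _ _
    have a2 : ((blk J ∩ I0).card : ℝ) ≤ q ^ 8 * (blk J).card :=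
      le_of_not_ge fun h => hJ (mem_filter.2 ⟨mem_univ _, h⟩)
    have a3 : 4 * Y ^ 2 * q ^ 56 ≤ q ^ 8 := by
      have b1 : 4 * q ≤ 1 := by nlinarith
      have b2 : q ^ 46 ≤ 1 := pow_le_one₀ hq.le hq1
      calc 4 * Y ^ 2 * q ^ 56 = q ^ 8 * ((4 * q) * (q * Y ^ 2) * q ^ 46) := by ring
        _ ≤ q ^ 8 * (1 * 1 * 1) := by gcongr
        _ = q ^ 8 := by ring
    have a4 := (cr J hJ).trans (mul_le_mul_of_nonneg_right a3 (Nat.cast_nonneg _))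
    linarith

section num
variable {Y q η n B x y : ℝ} (hq : 0 < q) (hY : 1000 ≤ Y) (hqY : q * Y ^ 2 ≤ 1)
include hq hY hqY

lemma q_le : q ≤ 1 := (le_mul_of_one_le_right hq.le (one_le_pow₀ (by linarith))).trans hqY

lemma Yq : Y * q ≤ 1 / 1000 := by
  have c1 := mul_le_mul_of_nonneg_left hY (show 0 ≤ Y * q by positivity)
  linarith

lemma mono (hB : 0 ≤ B) {i j : ℕ} (hi : i ≤ 7) (hj : 2 ≤ j) :
    Y ^ i * q ^ j * B ≤ Y ^ 7 * q ^ 2 * B :=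
  mul_le_mul_of_nonneg_right (mul_le_mul (pow_le_pow_right₀ (by linarith) hi)
    (pow_le_pow_of_le_one hq.le (q_le hq hY hqY) hj) (by positivity) (by positivity)) hB

lemma inv_n (hn : 0 < n) (hb : n * q ^ 64 = B) (hB : 1 ≤ B) (i : ℕ) {j : ℕ} (hj : j ≤ 64) :
    4 / n ≤ 4 * (Y ^ i * q ^ j * B) := by
  have n1 : 1 / n ≤ q ^ 64 := by rw [div_le_iff₀ hn]; linarith
  have c1 : q ^ 64 ≤ Y ^ i * q ^ j * B :=
    (pow_le_pow_of_le_one hq.le (q_le hq hY hqY) hj).trans ((le_mul_of_one_le_left (by positivity)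
      (one_le_pow₀ (by linarith))).trans (le_mul_of_one_le_right (by positivity) hB))
  have c2 : 4 / n = 4 * (1 / n) := by ring
  linarith

lemma rho0 : 2 * q ^ 8 ≤ 1 / Y ^ 15 := by
  have q16 : (q * Y ^ 2) ^ 8 ≤ 1 := pow_le_one₀ (by positivity) hqY
  have c1 := mul_le_mul_of_nonneg_left hY (show 0 ≤ q ^ 8 * Y ^ 15 by positivity)
  have c2 : (q * Y ^ 2) ^ 8 = q ^ 8 * Y ^ 15 * Y := by ring
  have c3 : 0 ≤ q ^ 8 * Y ^ 15 := by positivity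
  rw [le_div_iff₀ (by positivity)]
  linarith

omit hqY in
lemma sq4 (hn : 0 < n) (h : x ≤ 4 * Y ^ 2 * n * q ^ 56) :
    Real.sqrt (Real.sqrt (x / n)) ≤ Y * q ^ 14 := by
  refine Real.sqrt_le_iff.2 ⟨by positivity, Real.sqrt_le_iff.2 ⟨by positivity, ?_⟩⟩
  rw [div_le_iff₀ hn]
  refine h.trans ?_
  have c0 : 4 ≤ Y ^ 2 := by nlinarith
  have c1 := mul_le_mul_of_nonneg_right c0 (show 0 ≤ Y ^ 2 * n * q ^ 56 by positivity)
  linarith

lemma z1 (h : x ≤ Y * q ^ 14) : Y ^ 5 * (x + 4 * Y ^ 2 * q ^ 56) ≤ 2 * Y ^ 6 * q ^ 14 := by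
  have c1 : 4 * Y ^ 2 * q ^ 56 ≤ Y * q ^ 14 := by
    have c2 : q ^ 41 ≤ 1 := pow_le_one₀ hq.le (q_le hq hY hqY)
    have c3 := Yq hq hY hqY
    have c4 : 0 ≤ Y * q ^ 14 := by positivity
    calc 4 * Y ^ 2 * q ^ 56 = Y * q ^ 14 * (4 * (Y * q) * q ^ 41) := by ring
      _ ≤ Y * q ^ 14 * (4 * (1 / 1000) * 1) := by gcongr
      _ ≤ Y * q ^ 14 := by linarith
  exact (mul_le_mul_of_nonneg_left (add_le_add h c1) (by positivity)).trans_eq (by ring)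

lemma z2 (h : x ≤ Y * q ^ 14) : Y ^ 5 * (x + 2 * q ^ 8) ≤ 3 * Y ^ 5 * q ^ 8 := by
  have c1 : Y * q ^ 14 ≤ q ^ 8 := by
    have c2 : q ^ 5 ≤ 1 := pow_le_one₀ hq.le (q_le hq hY hqY)
    have c3 : Y * q ≤ 1 := (Yq hq hY hqY).trans (by norm_num)
    calc Y * q ^ 14 = q ^ 8 * ((Y * q) * q ^ 5) := by ring
      _ ≤ q ^ 8 * (1 * 1) := by gcongr
      _ = q ^ 8 := by ring
  exact (mul_le_mul_of_nonneg_left (add_le_add (h.trans c1) le_rfl)
    (by positivity)).trans_eq (by ring)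

lemma z3 : 3 * Y ^ 5 * q ^ 8 ≤ 1 / 8 := by
  have c2 : q ^ 3 ≤ 1 := pow_le_one₀ hq.le (q_le hq hY hqY)
  have c3 := Yq hq hY hqY
  calc 3 * Y ^ 5 * q ^ 8 = 3 * (Y * q) ^ 5 * q ^ 3 := by ring
    _ ≤ 3 * (1 / 1000) ^ 5 * 1 := by gcongr
    _ ≤ 1 / 8 := by norm_num

omit hqY in
lemma n2 (hη : 0 < η) (hηY : 1 / η ≤ Y) (hn : 0 < n) (hb : n * q ^ 64 = B)
    (hx : x ≤ 2 * Y ^ 2 * n * q ^ 56) (hy0 : 0 ≤ y) (hy : y ≤ 4 * Y ^ 4 * n * q ^ 84) :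
    12 / η * Real.sqrt (x * y) ≤ 36 * (Y ^ 4 * q ^ 6 * B) := by
  subst hb
  have c1 : Real.sqrt (x * y) ≤ 3 * Y ^ 3 * q ^ 6 * (n * q ^ 64) := by
    refine Real.sqrt_le_iff.2 ⟨by positivity, (mul_le_mul hx hy hy0 (by positivity)).trans ?_⟩
    have : 0 ≤ Y ^ 6 * n ^ 2 * q ^ 140 := by positivity
    linarith
  have c2 : 12 / η ≤ 12 * Y := by rw [div_eq_mul_one_div]; linarith
  exact (mul_le_mul c2 c1 (Real.sqrt_nonneg _) (by positivity)).trans_eq (by ring)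

omit hqY in
lemma n3 (hn : 0 < n) (hb : n * q ^ 64 = B) (hx0 : 0 ≤ x) (hx : x ≤ 2 * Y ^ 2 * n * q ^ 56)
    (hy : y ≤ 20 * (Y ^ 6 * q ^ 14 * B)) : Real.sqrt x * Real.sqrt y ≤ 7 * Y ^ 4 * q ^ 3 * B := by
  subst hb
  refine sqrt_mul_le hx0 (by positivity) ?_
  refine (mul_le_mul_of_nonneg_left hy hx0).trans
    ((mul_le_mul_of_nonneg_right hx (by positivity)).trans ?_)
  have : 0 ≤ Y ^ 8 * q ^ 134 * n ^ 2 := by positivity
  linarith

omit hqY in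
lemma n4 (hB : 0 ≤ B) (hx0 : 0 ≤ x) (hx : x ≤ 8 * B) (hy : y ≤ 28 * (Y ^ 5 * q ^ 8 * B)) :
    Real.sqrt x * Real.sqrt y ≤ 16 * (Y ^ 3 * q ^ 4 * B) := by
  refine sqrt_mul_le hx0 (by positivity) ?_
  refine (mul_le_mul_of_nonneg_left hy hx0).trans
    ((mul_le_mul_of_nonneg_right hx (by positivity)).trans ?_)
  have c1 : Y ^ 5 * (q ^ 8 * B ^ 2) ≤ Y ^ 6 * (q ^ 8 * B ^ 2) :=
    mul_le_mul_of_nonneg_right (pow_le_pow_right₀ (by linarith) (by norm_num)) (by positivity)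
  have : 0 ≤ Y ^ 6 * (q ^ 8 * B ^ 2) := by positivity
  linarith

omit hqY in
lemma n5 (hη : 0 < η) (hηY : 1 / η ≤ Y) (hB : 0 ≤ B) (hx : x ≤ 56 * (Y ^ 5 * q ^ 8 * B)) :
    20 * x / η ^ 2 ≤ 1120 * (Y ^ 7 * q ^ 8 * B) := by
  have c1 : (1 / η) ^ 2 ≤ Y ^ 2 := pow_le_pow_left₀ (by positivity) hηY 2
  have c2 : 20 * x / η ^ 2 = (1 / η) ^ 2 * (20 * x) := by field_simp
  rw [c2]
  exact (mul_le_mul_of_nonneg_left (show _ ≤ 1120 * (Y ^ 5 * q ^ 8 * B) by linarith)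
    (by positivity)).trans ((mul_le_mul_of_nonneg_right c1 (by positivity)).trans_eq (by ring))

omit hqY in
lemma n6 (hB : 0 ≤ B) : 4000 * (Y ^ 7 * q ^ 2 * B) ≤ Y ^ 10 * B * q ^ 2 := by
  have c1 : (4000 : ℝ) ≤ Y ^ 3 := by
    have : (1000 : ℝ) ^ 3 ≤ Y ^ 3 := pow_le_pow_left₀ (by norm_num) hY 3
    linarith
  exact (mul_le_mul_of_nonneg_right c1 (by positivity)).trans_eq (by ring)

/-- The final numerical inequality. -/
lemma fin_num {ω a b ft eW eW' eI eI' W en : ℝ} (hη : 0 < η) (hω : 0 < ω) (hηY : 1 / η ≤ Y)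
    (ha : 0 ≤ a) (hab : a ≤ b) (hn : 0 < n) (hb : n * q ^ 64 = b + 1) (hW0 : 0 ≤ W)
    (hW : W ≤ 2 * Y ^ 2 * n * q ^ 56) (hen0 : 0 ≤ en) (hen : en ≤ 4 * Y ^ 4 * n * q ^ 84)
    (hft0 : 0 ≤ ft) (hft : ft ≤ 8 * a + 2 / n)
    (h1 : eW ≤ 8 * (2 * Y ^ 6 * q ^ 14) * a + 4 / n)
    (h1' : eW' ≤ 8 * (2 * Y ^ 6 * q ^ 14) * b + 4 / n)
    (h2 : eI ≤ 8 * (3 * Y ^ 5 * q ^ 8) * a + 4 / n)
    (h2' : eI' ≤ 8 * (3 * Y ^ 5 * q ^ 8) * b + 4 / n) :
    2 * (84 * η / ω * ft + 11 * (12 / η * Real.sqrt (W * en)) +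
      3 / η * Real.sqrt W * (Real.sqrt eW + Real.sqrt eW') +
      Real.sqrt ft * Real.sqrt eI' + 20 * (eI + eI') / η ^ 2) ≤
      4000 * η / ω * (a + 1) + Y ^ 10 * (b + 1) * q ^ 2 := by
  have aB : a + 1 ≤ b + 1 := by linarith
  have bB : b ≤ b + 1 := by linarith
  generalize b + 1 = B at *
  have B1 : 1 ≤ B := by linarith
  have B0 : 0 ≤ B := by linarith
  have t : ∀ {c x y z : ℝ}, 0 ≤ c → x ≤ B → y ≤ c * x + 4 / n → 4 / n ≤ z → y ≤ c * B + z :=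
    fun hc hx hy hz => hy.trans (add_le_add (mul_le_mul_of_nonneg_left hx hc) hz)
  have f1 : ft ≤ 8 * (a + 1) := by
    have c0 : 1 / n ≤ q ^ 64 := by rw [div_le_iff₀ hn]; linarith
    have c1 := c0.trans (pow_le_one₀ hq.le (q_le hq hY hqY))
    have c2 : 2 / n = 2 * (1 / n) := by ring
    linarith
  have m1 := inv_n hq hY hqY hn hb B1 6 (j := 14) (by norm_num)
  have m2 := inv_n hq hY hqY hn hb B1 5 (j := 8) (by norm_num)
  have w1 : eW ≤ 20 * (Y ^ 6 * q ^ 14 * B) :=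
    (t (by positivity) (by linarith) h1 m1).trans_eq (by ring)
  have w2 : eW' ≤ 20 * (Y ^ 6 * q ^ 14 * B) := (t (by positivity) bB h1' m1).trans_eq (by ring)
  have i1 : eI ≤ 28 * (Y ^ 5 * q ^ 8 * B) :=
    (t (by positivity) (by linarith) h2 m2).trans_eq (by ring)
  have i2 : eI' ≤ 28 * (Y ^ 5 * q ^ 8 * B) := (t (by positivity) bB h2' m2).trans_eq (by ring)
  have s1 : 84 * η / ω * ft ≤ 672 * (η / ω * (a + 1)) :=
    (mul_le_mul_of_nonneg_left f1 (by positivity)).trans_eq (by ring)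
  have s2 := n2 hq hY hη hηY hn hb hW hen0 hen
  have s3 : 3 / η * Real.sqrt W * (Real.sqrt eW + Real.sqrt eW') ≤ 42 * (Y ^ 5 * q ^ 3 * B) := by
    have c2 : 3 / η ≤ 3 * Y := by rw [div_eq_mul_one_div]; linarith
    rw [mul_assoc, mul_add]
    exact (mul_le_mul c2 (add_le_add (n3 hq hY hn hb hW0 hW w1) (n3 hq hY hn hb hW0 hW w2))
      (by positivity) (by positivity)).trans_eq (by ring)
  have s4 := n4 hq hY B0 hft0 (f1.trans (mul_le_mul_of_nonneg_left aB (by norm_num))) i2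
  have s5 := n5 hq hY hη hηY B0 ((add_le_add i1 i2).trans_eq (by ring))
  have s6 := n6 hq hY B0
  have s7 : 0 ≤ η / ω * (a + 1) := by positivity
  have s9 : 4000 * η / ω * (a + 1) = 4000 * (η / ω * (a + 1)) := by ring
  have s10 : 0 ≤ Y ^ 7 * q ^ 2 * B := by positivity
  have u1 := mono hq hY hqY B0 (i := 4) (j := 6) (by norm_num) (by norm_num)
  have u2 := mono hq hY hqY B0 (i := 5) (j := 3) (by norm_num) (by norm_num)
  have u3 := mono hq hY hqY B0 (i := 3) (j := 4) (by norm_num) (by norm_num)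
  have u4 := mono hq hY hqY B0 (i := 7) (j := 8) (by norm_num) (by norm_num)
  rw [s9]
  linear_combination 2 * s1 + 22 * s2 + 2 * s3 + 2 * s4 + 2 * s5 + s6 + 2656 * s7 + 852 * s10 +
    792 * u1 + 84 * u2 + 32 * u3 + 2240 * u4

end num

lemma q_ex {Y n B : ℝ} (hY : 1000 ≤ Y) (hB : 0 < B) (h : Y ^ 128 * B ≤ n) :
    0 < n ∧ ∃ q : ℝ, 0 < q ∧ n * q ^ 64 = B ∧ q * Y ^ 2 ≤ 1 ∧ (B / n) ^ (1 / 32 : ℝ) = q ^ 2 := by
  have hn : 0 < n := lt_of_lt_of_le (by positivity) h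
  have b0 : 0 < B / n := div_pos hB hn
  have q64 : n * ((B / n) ^ (1 / 64 : ℝ)) ^ 64 = B := by
    rw [← Real.rpow_natCast, ← Real.rpow_mul b0.le]
    norm_num
    field_simp
  refine ⟨hn, _, Real.rpow_pos_of_pos b0 _, q64, ?_, ?_⟩
  · generalize (B / n) ^ (1 / 64 : ℝ) = q at q64
    refine le_of_not_gt fun h' => ?_
    have c1 : 1 < (q * Y ^ 2) ^ 64 := one_lt_pow₀ h' (by norm_num)
    have c2 := mul_lt_mul_of_pos_left c1 hn
    have c3 : n * (q * Y ^ 2) ^ 64 = Y ^ 128 * (n * q ^ 64) := by ring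
    rw [c3, q64] at c2
    linarith
  · rw [← Real.rpow_natCast, ← Real.rpow_mul b0.le]
    norm_num

end G2

open G2 in
theorem g2_proof (hL : LevStmt) (hS : SumStmt) (hPat : B.PatStmt) (hP : B.ProjStmt) :
    G2Stmt := by
  intro ι B _ _ _ _ M blk s Γ J0 wt Sp c w F Lm Cn φ η Le Υ1 δ1 Y g H hDec hRP hpr hM h0 h1 h2 h3
    hLe hδ0 hδ1 hg hgn hY hF hΥ hLY hηY x x' x'' G G' G'' hab hsm
  classical
  have ps := ((hP.1 ι (Kt M) (tc s)).2 Sp hpr).2.1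
  have dif : ∀ y y' : ι → ℤ, ∀ j, vv (tc s) Sp c y j - vv (tc s) Sp c y' j =
      ((y - y') j : ℝ) - lin (tc s) (Sp fun i => ((y - y') i : ℝ)) j := fun y y' j => by
    have e1 := congrFun (ps (fun i => (y i : ℝ) + c i) fun i => (y' i : ℝ) + c i) j
    have e2 : ((fun i => (y i : ℝ) + c i) - fun i => (y' i : ℝ) + c i) =
        fun i => ((y - y') i : ℝ) := by
      funext i
      simp
    rw [e2] at e1
    exact e1.symm
  set u := vv (tc s) Sp c x with hu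
  set u' := vv (tc s) Sp c x' with hu'
  set u'' := vv (tc s) Sp c x'' with hu''
  set a := rr (tc s) Sp c x x' with ha
  set b := rr (tc s) Sp c x' x'' with hb
  have ea : ∑ j, (u j - u' j) ^ 2 = a := rfl
  have eb : ∑ j, (u'' j - u' j) ^ 2 = b := sum_congr rfl fun j _ => by ring
  have a0 : 0 ≤ a := sum_nonneg fun _ _ => sq_nonneg _
  obtain ⟨hn, q, q0, q64, qY, q2⟩ := q_ex hY (show 0 < b + 1 by linarith) hsm
  obtain ⟨k, τ, Hv, d1, d2, d3, d4⟩ := hDec (x - x') (Sp fun i => ((x - x') i : ℝ))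
  obtain ⟨k', τ', Hv', d1', d2', d3', d4'⟩ := hDec (x'' - x') (Sp fun i => ((x'' - x') i : ℝ))
  simp only [← dif] at d1 d3 d4 d1' d3' d4'
  obtain ⟨I1, i1, i2, i3⟩ := supp hL H hδ0 hδ1 hΥ d1 d3 d4
  obtain ⟨I2, i1', i2', i3'⟩ := supp hL H hδ0 hδ1 hΥ d1' d3' d4'
  rw [ea] at i3
  rw [eb] at i3'
  obtain ⟨L, -, l2, l3, l4, l5⟩ := sets hL H (I0 := I1 ∪ I2) q0 hY qY hF hn (by
    have c1 : ((I1 ∪ I2).card : ℝ) ≤ I1.card + I2.card := by exact_mod_cast card_union_le _ _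
    have c2 := mul_le_mul_of_nonneg_left (show a + 1 ≤ b + 1 by linarith) (show 0 ≤ Y by linarith)
    rw [q64]
    linarith)
  set I := I1 ∪ I2 ∪ zone blk L with hI
  obtain ⟨d, r1, r2⟩ := hRP I L subset_union_right fun J hJ => (l5 J hJ).2.trans
    (mul_le_mul_of_nonneg_right (rho0 q0 hY qY) (Nat.cast_nonneg _))
  have y1 := z1 q0 hY qY (sq4 q0 hY hn l4)
  have y2 := z2 q0 hY qY (sq4 q0 hY hn l4)
  have y3 := z3 q0 hY qY
  have Y0 : 0 < Y := by linarith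
  have hR : ∀ (f : ι → ℝ) (τ : Kt M → ℝ), (∀ j, j ∉ I → f j = 0) → (∀ x, x.1 ∈ L → τ x = 0) →
      (∀ x, x.1 ∉ L → ∑ j, (tc s j x : ℝ) * (f j - lin (tc s) τ j) = 0) →
      ∑ j ∈ zone blk L, (lin (tc s) τ j - d j * f j) ^ 2 ≤ 2 * Y ^ 6 * q ^ 14 * ∑ j, f j ^ 2 ∧
      ∑ j ∈ I, (lin (tc s) τ j - d j * f j) ^ 2 ≤ 3 * Y ^ 5 * q ^ 8 * ∑ j, f j ^ 2 :=
    fun f τ c1 c2 c3 =>
      have c4 : 0 ≤ ∑ j, f j ^ 2 := sum_nonneg fun _ _ => sq_nonneg _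
      ⟨(r2 f τ c1 c2 c3 _ _ subset_union_right (by positivity) fun J hJ => (l5 J hJ).1).trans
          (mul_le_mul_of_nonneg_right y1 c4),
        (r2 f τ c1 c2 c3 _ _ Subset.rfl (by positivity) fun J hJ => (l5 J hJ).2).trans
          (mul_le_mul_of_nonneg_right y2 c4)⟩
  have hd : ∀ j, |d j| ≤ 1 / 8 := fun j => (r1 j).trans
    ((pow_le_pow_left₀ h2.le (show η ≤ 1 / 8 by linarith) 2).trans (by norm_num))
  have orth : ∀ (y y' : ι → ℤ) β,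
      ∑ j, (vv (tc s) Sp c y j - vv (tc s) Sp c y' j) * lin (tc s) β j = 0 := fun y y' β => by
    simp only [dif]
    exact hpr _ β
  have orth1 : ∀ (y y' : ι → ℤ) z,
      ∑ j, (tc s j z : ℝ) * (vv (tc s) Sp c y j - vv (tc s) Sp c y' j) = 0 := fun y y' z => by
    have c1 := orth y y' (Pi.single z 1)
    simp only [lin_single] at c1
    simpa only [mul_comm] using c1
  have k0 : ∀ j, j ∉ I → k j = 0 := fun j hj =>
    i2 j fun h => hj (mem_union_left _ (mem_union_left _ h))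
  have k0' : ∀ j, j ∉ I → k' j = 0 := fun j hj =>
    i2' j fun h => hj (mem_union_left _ (mem_union_right _ h))
  obtain ⟨π, e, p1, p2, p3, p4, p5, p6⟩ := pair hL hPat H hg hn hgn subset_union_right k0 d1 d2
    (orth1 x x') hd hR (by positivity) (by positivity) y3
  obtain ⟨π', e', p1', p2', p3', -, p5', p6'⟩ := pair hL hPat H hg hn hgn subset_union_right k0' d1'
    d2' (orth1 x'' x') hd hR (by positivity) (by positivity) y3
  rw [ea] at p4 p5 p6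
  rw [eb] at p5' p6'
  have t1 : ∀ j, ((k j - round (pw s π j) : ℤ) : ℝ) - th1 s π j = k j - pw s π j := fun j => by
    simp only [th1, cf]
    push_cast
    ring
  have t2 : ∀ j, ((k' j - round (pw s π' j - th1 s π j) : ℤ) : ℝ) - th2 s π π' j =
      k' j - pw s π' j := fun j => by
    simp only [th2, cf]
    push_cast
    ring
  have t3 : ∀ j, |th1 s π j| ≤ 1 / 2 := fun j => abs_sub_round _
  have t4 : ∀ j, |th2 s π π' j - th1 s π j| ≤ 1 / 2 := fun j => by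
    rw [th2, add_sub_cancel_left]
    exact abs_sub_round _
  have main := hS ι w.om η (12 / η * Real.sqrt ((zone blk L).card * ent Le π)) u u' u''
    (th1 s π) (th2 s π π') d e e' (fun j => k j - round (pw s π j))
    (fun j => k' j - round (pw s π' j - th1 s π j)) I (zone blk L)
    (fun i => zE w fun z => T2 w.om η (th1 s π) (th2 s π π') (perp (tc s) Sp z) i) h0 h1 h2 h3
    subset_union_right (fun j => ⟨G.1 j, G'.1 j, G''.1 j⟩) (fun j => ⟨t3 j, t4 j, r1 j⟩)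
    (fun j hj => by simp [th1, th2, cf, p2 j hj, p2' j hj])
    (fun j hj => by simp [k0 j hj, p2 j fun h => hj (mem_union_right _ h)])
    (fun j _ => by rw [t1, t2]; exact ⟨p3 j, p3' j⟩)
    (fun i => by
      rw [← p1]
      exact ⟨G.2.2 π π' (p1.trans p1'.symm) i, G'.2.2 π π' (p1.trans p1'.symm) i,
        G''.2.2 π π' (p1.trans p1'.symm) i⟩)
    (hM _ _ t3 t4)
  simp only [t1] at main
  have s0 : 0 ≤ ∑ J ∈ L, (M J : ℝ) := sum_nonneg fun _ _ => Nat.cast_nonneg _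
  have num := fin_num q0 hY qY h2 h0 hηY a0 hab hn q64 (Nat.cast_nonneg _) l2
    (en := ent Le π) (by rw [ent, p1]; positivity)
    (by rw [ent, p1]; exact (mul_le_mul hLY l3 s0 (by linarith)).trans_eq (by ring))
    (sum_nonneg fun _ _ => sq_nonneg _) p4 p5 p5' p6 p6'
  have fin : rr (tc s) Sp c x x'' = a + b - 2 * ∑ j, (k j - pw s π j) * (u'' j - u' j) := by
    have c1 := orth x'' x' (pD π - τ)
    rw [← ea, ← eb, ← sub_zero (_ + _), ← mul_zero 2, ← c1]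
    simp only [rr, mul_sum, ← sum_add_distrib, ← sum_sub_distrib]
    refine sum_congr rfl fun j _ => ?_
    have c2 := d1 j
    rw [lin_sub, pw]
    linear_combination (-2 * (u'' j - u' j)) * c2
  rw [fin, q2]
  linear_combination 2 * main + num

end Vale.Agent.P318.C
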