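import Vale.Agent.P318.C.StmtI
import Vale.Agent.P318.M.Gauss
import Vale.Agent.P318.M.Block0

/-! Splitting of the Gaussian move and smoothing of a periodic weight. -/

namespace Vale.Agent.P318.C

open Finset MeasureTheory ProbabilityTheory
open M (BM ip ch nsq gm)
open M.Block (bm_int bm_mul bm_comp meas_ip)
open scoped NNReal

namespace Gauss

variable {κ : Type} [Fintype κ]

theorem mp_pi {μ ν : Measure ℝ} [IsProbabilityMeasure μ] [IsProbabilityMeasure ν]
    {f : κ → ℝ × ℝ → ℝ} (h : ∀ k, MeasurePreserving (f k) (μ.prod μ) ν) :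
    MeasurePreserving (fun (p : (κ → ℝ) × (κ → ℝ)) k => f k (p.1 k, p.2 k))
      ((Measure.pi fun _ => μ).prod (Measure.pi fun _ => μ)) (Measure.pi fun _ => ν) :=
  (measurePreserving_pi _ _ h).comp
    (measurePreserving_arrowProdEquivProdArrow ℝ ℝ κ (fun _ => μ) fun _ => μ).symm

theorem mp_add {σ σ' : ℝ} (h : σ ^ 2 = 2 * σ' ^ 2) :
    MeasurePreserving (fun p : (κ → ℝ) × (κ → ℝ) => p.1 + p.2) ((gm κ σ').prod (gm κ σ'))
      (gm κ σ) := by
  refine mp_pi (f := fun _ p => p.1 + p.2) fun _ => ⟨by fun_prop, ?_⟩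
  refine (gaussianReal_conv_gaussianReal (m₁ := 0) (m₂ := 0)).trans ?_
  rw [add_zero, ← Real.toNNReal_add (sq_nonneg _) (sq_nonneg _), h, two_mul]

theorem law (σ : ℝ) (x : κ → ℝ) : MeasurePreserving (fun ξ : κ → ℝ => ∑ k, x k * ξ k) (gm κ σ)
    (gaussianReal 0 (σ ^ 2 * nsq x).toNNReal) := by
  refine ⟨by fun_prop, Measure.ext_of_charFun (funext fun t => ?_)⟩
  have h0 : 0 ≤ σ ^ 2 * nsq x := mul_nonneg (sq_nonneg _) (sum_nonneg fun _ _ => sq_nonneg _)
  have hp : (Real.pi : ℂ) ≠ 0 := Complex.ofReal_ne_zero.2 Real.pi_pos.ne'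
  rw [charFun_apply_real, integral_map (Measurable.aemeasurable (by fun_prop)) (by fun_prop),
    charFun_gaussianReal,
    Real.coe_toNNReal _ h0]
  refine Eq.trans ?_ ((M.Gauss.char σ fun k => t / (2 * Real.pi) * x k).trans ?_)
  · refine integral_congr_ae (.of_forall fun ξ => ?_)
    simp only [ch, mul_assoc (t / _), ← mul_sum]
    congr 1
    push_cast
    field_simp
  · simp only [nsq, mul_pow, ← mul_sum, Complex.ofReal_exp]
    congr 1
    push_cast
    field_simp
    ring

/-- a periodic weight against a unimodal density -/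
theorem unimodal {q φ : ℝ → ℝ} (hq : BM q) (q0 : ∀ x, 0 ≤ q x) (qp : Function.Periodic q 1)
    (hφ : Integrable φ) (h1 : ∫ x, φ x = 1) (hm : ∀ x y, |x| ≤ |y| → φ y ≤ φ x) (b : ℝ) :
    ∫ z, q (b + z) * φ z ≤ (∫ x in (0 : ℝ)..1, q x) * (1 + 2 * φ 0) := by
  obtain ⟨qm, C, hC⟩ := hq
  have qb : Measurable fun z => q (b + z) := qm.comp (measurable_const_add b)
  have i1 : Integrable fun z => q (b + z) * φ z :=
    hφ.bdd_mul qb.aestronglyMeasurable (.of_forall fun z => hC (b + z))
  set Q := ∫ x in (0 : ℝ)..1, q x with hQ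
  have Q0 : 0 ≤ Q := intervalIntegral.integral_nonneg zero_le_one fun x _ => q0 x
  have up : ∀ c x : ℝ, (∀ z ∈ Set.Icc c (c + 1), |x| ≤ |z|) →
      ∫ z in c..c + 1, q (b + z) * φ z ≤ Q * φ x := fun c x h => by
    have i2 : IntervalIntegrable (fun z => q (b + z)) volume c (c + 1) :=
      (intervalIntegrable_const (c := C)).mono_fun' qb.aestronglyMeasurable
        (.of_forall fun z => hC (b + z))
    refine (intervalIntegral.integral_mono_on (by linarith) i1.intervalIntegrable
      (i2.mul_const (φ x)) fun z hz => mul_le_mul_of_nonneg_left (hm _ _ (h z hz)) (q0 _)).trans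
      (le_of_eq ?_)
    rw [intervalIntegral.integral_mul_const, intervalIntegral.integral_comp_add_left,
      ← add_assoc, qp.intervalIntegral_add_eq _ 0, zero_add]
  have lo : ∀ c x : ℝ, (∀ z ∈ Set.Icc c (c + 1), |z| ≤ |x|) → φ x ≤ ∫ z in c..c + 1, φ z :=
    fun c x h => by
      simpa using intervalIntegral.integral_mono_on (by linarith : c ≤ c + 1)
        (intervalIntegrable_const (c := φ x)) hφ.intervalIntegrable fun z hz => hm _ _ (h z hz)
  have s1 := (hasSum_nat_add_iff' 1).2 (i1.hasSum_intervalIntegral 0).nat_add_neg_add_one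
  have s2 := (hφ.hasSum_intervalIntegral 0).nat_add_neg_add_one.mul_left Q
  have s3 := hasSum_le (fun n => ?_) s1 s2
  · simp only [sum_range_one, h1] at s3
    have a1 := up (0 + ((0 : ℕ) : ℤ)) 0 fun z _ => by simp
    have a2 := up (0 + (-(((0 : ℕ) : ℤ) + 1) : ℤ)) 0 fun z _ => by simp
    linarith
  · have n0 : (0 : ℝ) ≤ n := n.cast_nonneg
    have n1 : |(n : ℝ) + 1| = n + 1 := abs_of_nonneg (by linarith)
    rw [mul_add]
    refine add_le_add ((up _ (n + 1) fun z hz => ?_).trans
      (mul_le_mul_of_nonneg_left (lo _ _ fun z hz => ?_) Q0)) ((up _ (n + 1) fun z hz => ?_).trans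
      (mul_le_mul_of_nonneg_left (lo _ _ fun z hz => ?_) Q0)) <;>
      obtain ⟨z1, z2⟩ := hz <;> push_cast at z1 z2 <;> rw [n1]
    · exact le_trans (by linarith) (le_abs_self z)
    · exact abs_le.2 ⟨by linarith, by linarith⟩
    · exact le_trans (by linarith) (neg_le_abs z)
    · exact abs_le.2 ⟨by linarith, by linarith⟩

theorem smooth {q : ℝ → ℝ} (hq : BM q) (q0 : ∀ x, 0 ≤ q x) (qp : Function.Periodic q 1)
    {v : ℝ≥0} {τ : ℝ} (hτ : 0 < τ) (hv : τ ^ 2 ≤ v) (b : ℝ) :
    ∫ z, q (b + z) ∂gaussianReal 0 v ≤ (∫ x in (0 : ℝ)..1, q x) * (1 + 1 / τ) := by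
  have v0 : (0 : ℝ) < v := lt_of_lt_of_le (by positivity) hv
  have v1 : v ≠ 0 := fun e => v0.ne' (by rw [e]; rfl)
  rw [integral_gaussianReal_eq_integral_smul v1]
  simp only [smul_eq_mul, mul_comm (gaussianPDFReal 0 v _)]
  refine (unimodal hq q0 qp (integrable_gaussianPDFReal 0 v) (integral_gaussianPDFReal_eq_one 0 v1)
    (fun x y h => ?_) b).trans (mul_le_mul_of_nonneg_left ?_
      (intervalIntegral.integral_nonneg zero_le_one fun x _ => q0 x))
  · simp only [gaussianPDFReal, sub_zero, neg_div]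
    gcongr ?_ * Real.exp (-(?_ / _))
    exact sq_le_sq.2 h
  · have : 2 * τ ≤ √(2 * Real.pi * v) :=
      Real.le_sqrt_of_sq_le (by nlinarith [Real.pi_gt_three])
    simp only [gaussianPDFReal, sub_zero]
    calc 1 + 2 * ((√(2 * Real.pi * v))⁻¹ * Real.exp (-0 ^ 2 / (2 * v)))
        = 1 + 2 * (√(2 * Real.pi * v))⁻¹ := by simp
      _ ≤ 1 + 2 * (2 * τ)⁻¹ := by gcongr
      _ = _ := by field_simp

end Gauss

open Gauss in
theorem gauss_proof : GaussStmt := by
  classical
  refine fun κ _ σ => ⟨fun σ' F h hF hi => ⟨(mp_add h).integrable_comp_of_integrable hi, ?_⟩,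
    fun s s' q g a r n0 hσ hr hn hs hK hq q0 qp hg g0 => ?_⟩
  · rw [← (mp_add h).map_eq, integral_map (mp_add h).aemeasurable hF.aestronglyMeasurable]
  have mp : MeasurePreserving
      (fun (p : (κ → ℝ) × (κ → ℝ)) k => if s k = 0 ∧ s' k ≠ 0 then p.2 k else p.1 k)
      ((gm κ σ).prod (gm κ σ)) (gm κ σ) :=
    mp_pi (f := fun k p => if s k = 0 ∧ s' k ≠ 0 then p.2 else p.1) fun k => by
      split_ifs
      exacts [measurePreserving_snd, measurePreserving_fst]
  have bF : BM fun ξ => q (a + r * ip s' ξ) * g (ip s ξ) :=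
    bm_mul (bm_comp hq (((meas_ip s').const_mul r).const_add a)) (bm_comp hg (meas_ip s))
  set x : κ → ℝ := fun k => if s k = 0 ∧ s' k ≠ 0 then r * s' k else 0 with hx
  have hv : (r * σ * √n0) ^ 2 ≤ (σ ^ 2 * nsq x).toNNReal := by
    refine le_trans ?_ (Real.le_coe_toNNReal _)
    have e : nsq x = r ^ 2 * (univ.filter fun k => s k = 0 ∧ s' k ≠ 0).card := by
      rw [card_filter, Nat.cast_sum, mul_sum]
      refine sum_congr rfl fun k _ => ?_
      simp only [hx]
      split_ifs with h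
      · rcases hs k with h1 | h1 | h1
        · exact absurd h1 h.2
        · simp [h1]
        · simp [h1]
      · simp
    rw [e, mul_pow, mul_pow, Real.sq_sqrt hn.le, ← mul_assoc, mul_comm (σ ^ 2)]
    gcongr
  rw [← mp.map_eq, integral_map mp.aemeasurable bF.1.aestronglyMeasurable, mp.map_eq,
    integral_prod _ (bm_int (bm_comp bF mp.measurable) _), ← integral_const_mul]
  refine integral_mono (bm_int (bm_comp bF mp.measurable) _).integral_prod_left
    ((bm_int (bm_comp hg (meas_ip s)) _).const_mul _) fun ξ => ?_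
  have e1 : ∀ η : κ → ℝ, ip s (fun k => if s k = 0 ∧ s' k ≠ 0 then η k else ξ k) = ip s ξ :=
    fun η => sum_congr rfl fun k _ => by
      simp only
      split_ifs with h
      · simp [h.1]
      · rfl
  have e2 : ∀ η : κ → ℝ, a + r * ip s' (fun k => if s k = 0 ∧ s' k ≠ 0 then η k else ξ k) =
      a + (∑ k, if s k = 0 ∧ s' k ≠ 0 then 0 else r * s' k * ξ k) + ∑ k, x k * η k := fun η => by
    rw [add_assoc, ← sum_add_distrib, ip, mul_sum]
    refine congrArg _ (sum_congr rfl fun k _ => ?_)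
    simp only [hx]
    split_ifs <;> ring
  simp only [e1, e2]
  rw [integral_mul_const]
  refine mul_le_mul_of_nonneg_right ?_ (g0 _)
  generalize (a + ∑ k, if s k = 0 ∧ s' k ≠ 0 then 0 else r * s' k * ξ k) = b
  have k := smooth hq q0 (fun y => by simpa using qp y 1) (by positivity) hv b
  rwa [← (law σ x).map_eq, integral_map (f := fun z => q (b + z)) (law σ x).aemeasurable
    (hq.1.comp (measurable_const_add b)).aestronglyMeasurable] at k

end Vale.Agent.P318.C
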