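import Vale.Agent.P318.C.GStmt

/-!
Track C, part (G): assembly of the geometry and the numerical inequalities.
-/

namespace Vale.Agent.P318.C

open Finset MeasureTheory Filter
open M (ind Eb pt zz tm BM ip nsq Dual lin Inv CND perp vv)
open B (cf nd cd av Op IsProj rr Nice Red Kt tc res Pat pS pJ pD pw zone)

namespace Geo

theorem upw {y c v : ℝ} (h1 : 1 ≤ y) (hv : 0 ≤ v) (hc : c ≤ v * y) {a b : ℕ} (h : a < b) :
    c * y ^ a ≤ v * y ^ b :=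
  calc c * y ^ a ≤ v * y * y ^ a := by gcongr
    _ = v * y ^ (a + 1) := by ring
    _ ≤ v * y ^ b := mul_le_mul_of_nonneg_left (pow_le_pow_right₀ h1 h) hv

theorem ex_k {n l : ℝ} (e : Real.exp l = n) (hl : 1 ≤ l) :
    ∃ k : ℕ, 1 ≤ k ∧ n ^ 2 ≤ 2 ^ k ∧ 2 ^ k ≤ 2 * n ^ 2 ∧ (k : ℝ) ≤ 4 * l := by
  have hn : 1 ≤ n := e ▸ Real.one_le_exp (by linarith)
  obtain ⟨k, h1, h2⟩ := exists_nat_pow_near (one_le_pow₀ (n := 2) hn) one_lt_two
  refine ⟨k + 1, Nat.le_add_left _ _, h2.le, by rw [pow_succ]; linarith, ?_⟩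
  have h3 := Real.log_le_log (by positivity) h1
  rw [Real.log_pow, Real.log_pow, ← e, Real.log_exp] at h3
  have h4 := mul_le_mul_of_nonneg_left Real.log_two_gt_d9.le (Nat.cast_nonneg (α := ℝ) k)
  push_cast at h3 ⊢
  linarith

theorem term {n l : ℝ} (e : Real.exp l = n) (hl : 0 ≤ l) (hn : 3 ≤ n) {m : ℕ} (hm : 1 ≤ m) :
    2 * (2 * n ^ 8 + 1) ^ m * Real.exp (-(30 * l * m)) ≤ 2 / n ^ 21 := by
  have a : 2 * n ^ 8 + 1 ≤ Real.exp l ^ 9 := by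
    have := mul_le_mul_of_nonneg_left hn (show 0 ≤ n ^ 8 by positivity)
    rw [e]
    linarith [one_le_pow₀ (n := 8) (show 1 ≤ n by linarith), pow_succ n 8]
  have b : (1 : ℝ) ≤ m := by exact_mod_cast hm
  rw [mul_assoc, div_eq_mul_inv, ← e, ← Real.exp_nat_mul l 21, ← Real.exp_neg, e]
  refine mul_le_mul_of_nonneg_left ((mul_le_mul_of_nonneg_right
    (pow_le_pow_left₀ (by positivity) a _) (Real.exp_pos _).le).trans ?_) zero_le_two
  rw [← Real.exp_nat_mul, ← Real.exp_nat_mul, ← Real.exp_add]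
  refine Real.exp_le_exp.2 ?_
  push_cast
  nlinarith

theorem tail {n y : ℝ} (e : Real.exp (y ^ 20) = n) (hy : 272 ≤ y) :
    Real.exp (-(1 / y ^ 22) ^ 2 / (16 * (1 / y ^ 65))) ≤ 1 / n ^ 17 := by
  have y0 : 0 < y := by linarith
  rw [← e, ← Real.exp_nat_mul, one_div (Real.exp _), ← Real.exp_neg,
    show -(1 / y ^ 22) ^ 2 / (16 * (1 / y ^ 65)) = -(y * y ^ 20 / 16) by field_simp]
  refine Real.exp_le_exp.2 ?_
  push_cast
  nlinarith [pow_pos y0 20]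

theorem tri {X : Type} {G : X → Prop} {r : X → X → ℝ} {ψ : ℝ → ℝ} {Λ : ℝ}
    (sy : ∀ x x', r x x' = r x' x)
    (h : ∀ x x' x'', G x → G x' → G x'' → r x x' ≤ r x' x'' →
      ψ (r x x'') ≤ ψ (r x x') + ψ (r x' x'') + Λ) (x x' x'' : X) (g : G x) (g' : G x')
    (g'' : G x'') : ψ (r x x'') ≤ ψ (r x x') + ψ (r x' x'') + Λ := by
  rcases le_total (r x x') (r x' x'') with h1 | h1
  · exact h x x' x'' g g' g'' h1
  · have := h x'' x' x g'' g' g (by rwa [sy x'' x', sy x' x])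
    rw [sy x'' x, sy x'' x', sy x' x] at this
    linarith

section
variable {ι κ : Type} [Fintype ι] [Fintype κ] {S : ι → κ → ℤ}
  {Sp : (ι → ℝ) →ₗ[ℝ] (κ → ℝ)} {c : ι → ℝ}

theorem rr_symm (x x' : ι → ℤ) : rr S Sp c x x' = rr S Sp c x' x :=
  sum_congr rfl fun _ _ => by ring

theorem rr_nonneg (x x' : ι → ℤ) : 0 ≤ rr S Sp c x x' := sum_nonneg fun _ _ => sq_nonneg _

theorem rr_le {x x' : ι → ℤ} (h : ∀ i, |vv S Sp c x i| ≤ 1) (h' : ∀ i, |vv S Sp c x' i| ≤ 1) :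
    rr S Sp c x x' ≤ 4 * cd ι := by
  refine (sum_le_card_nsmul _ _ 4 fun i _ => ?_).trans_eq (by rw [nsmul_eq_mul, mul_comm]; rfl)
  obtain ⟨a1, a2⟩ := abs_le.1 (h i)
  obtain ⟨b1, b2⟩ := abs_le.1 (h' i)
  nlinarith

theorem metric_mono [DecidableEq ι] {w : Wn} {D D' D2 : ℝ} {dd : (ι → ℤ) → (ι → ℤ) → ℝ}
    (h : MetricAt w D D2 S c dd) (hD : D ≤ D') : MetricAt w D' D2 S c dd :=
  { h with edge := h.edge.trans hD }

end

theorem rp_mono {ι B : Type} [Fintype ι] [DecidableEq ι] [Fintype B] [DecidableEq B] {M : B → ℕ}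
    {blk : B → Finset ι} {s : (J : B) → ι → Fin (M J) → ℤ} {ϱ d d' Z Z' : ℝ}
    (h : RP blk s ϱ d Z) (hd : d ≤ d') (hZ : Z ≤ Z') : RP blk s ϱ d' Z' := by
  intro I L h1 h2
  obtain ⟨e, e1, e2⟩ := h I L h1 h2
  refine ⟨e, fun j => (e1 j).trans hd, fun f τ a1 a2 a3 I1 ϱ1 a4 a5 a6 =>
    (e2 f τ a1 a2 a3 I1 ϱ1 a4 a5 a6).trans ?_⟩
  gcongr

/-- the inequalities between powers of `y = l ^ (1 / 20)` -/
structure Num (y ω C F K LG cG φ : ℝ) : Prop where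
  et1 : 1 / y ^ 22 ≤ ω / 8
  et2 : 1 / y ^ 22 ≤ 1 / 160
  pm1 : φ / cG ≤ 1 / y ^ 65
  pm2 : 4 * (1 / y ^ 65) ≤ (1 / y ^ 22) ^ 2
  d1 : 256000 * F ^ 3 * K * LG ≤ y ^ 66
  d2 : ∀ k : ℝ, 0 ≤ k → k ≤ 4 * y ^ 20 →
    3000000 * k * F ^ 2 * K * (1 / y ^ 88 + 1 / (y ^ 20) ^ 5) ≤ ω ^ 5
  r1 : 4 * K * φ ≤ cG
  r2 : 4 * K * F * (y ^ 20 + 1) * (1 / (y ^ 80) ^ 15) ≤ cG
  r3 : 16 / cG * (16 * (y ^ 20) ^ 2 + K * F * (y ^ 20 + 1)) ≤ (y ^ 80) ^ 5
  g1 : 144 * (30 * y ^ 20) * (512000 * F ^ 3 * K * LG / ω ^ 5) ≤ ω ^ 4 * y ^ 88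
  g2 : 512000 * F ^ 3 * K * LG / ω ^ 5 + 6 ≤ y ^ 80
  p1 : C * (4000 * (1 / y ^ 22) / ω * y ^ 20) ≤ 1
  p2 : 1 / (4000 * (1 / y ^ 22) / ω) ≤ y ^ 80
  m1 : 1600 * y ^ 22 ≤ ω * y ^ 39
  m2 : 1 ≤ ω ^ 5 * y ^ 39

theorem num {y ω C F K LG cG φ : ℝ} (ω0 : 0 < ω) (ω1 : ω ≤ 1 / 16) (hC : 1 ≤ C)
    (hy : 10 ^ 10 * C ≤ ω ^ 9 * y) (F1 : 1 ≤ F) (K1 : 1 ≤ K) (L1 : 1 ≤ LG) (c0 : 0 < cG)
    (φ0 : 0 < φ) (hF : F ≤ y ^ 21) (hK : K ≤ y) (hL : LG ≤ y) (hc : 1 / cG ≤ y)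
    (hφ : φ ≤ 1 / y ^ 66) : Num y ω C F K LG cG φ := by
  have y1 : 1 ≤ y := K1.trans hK
  have y0 : 0 < y := by linarith
  have W : ∀ k ≤ 9, 10 ^ 10 * C ≤ ω ^ k * y := fun k hk =>
    hy.trans (mul_le_mul_of_nonneg_right (pow_le_pow_of_le_one ω0.le (by linarith) hk) y0.le)
  have U : ∀ k ≤ 9, ∀ c ≤ (10 : ℝ) ^ 10, ∀ a b : ℕ, a < b → c * y ^ a ≤ ω ^ k * y ^ b :=
    fun k hk c hc a b h => upw y1 (by positivity) (hc.trans (le_trans (by linarith) (W k hk))) h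
  have U0 : ∀ c ≤ (10 : ℝ) ^ 10, ∀ a b : ℕ, a < b → c * y ^ a ≤ y ^ b := fun c hc a b h => by
    simpa using U 0 (by norm_num) c hc a b h
  have P1 : K * F * (y ^ 20 + 1) ≤ 2 * y ^ 42 :=
    calc K * F * (y ^ 20 + 1) ≤ y * y ^ 21 * (y ^ 20 + y ^ 20) := by
          gcongr
          exact one_le_pow₀ y1
      _ = 2 * y ^ 42 := by ring
  have P2 : F ^ 2 * K ≤ y ^ 43 :=
    calc F ^ 2 * K ≤ (y ^ 21) ^ 2 * y := by gcongr
      _ = y ^ 43 := by ring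
  have P3 : F ^ 3 * K * LG ≤ y ^ 65 :=
    calc F ^ 3 * K * LG ≤ (y ^ 21) ^ 3 * y * y := by gcongr
      _ = y ^ 65 := by ring
  have cy : 1 / y ≤ cG := (one_div_le c0 y0).1 hc
  have Υ : 512000 * F ^ 3 * K * LG / ω ^ 5 ≤ 512000 * y ^ 65 / ω ^ 5 :=
    div_le_div_of_nonneg_right (by linarith) (by positivity)
  refine ⟨?_, ?_, ?_, ?_, by linarith [U0 256000 (by norm_num) 65 66 (by norm_num)],
    fun k k0 hk => ?_, ?_, ?_, ?_, ?_, ?_, ?_, ?_, ?_, ?_⟩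
  · rw [div_le_div_iff₀ (by positivity) (by norm_num)]
    linarith [U 1 (by norm_num) 8 (by norm_num) 0 22 (by norm_num)]
  · exact one_div_le_one_div_of_le (by norm_num)
      (by linarith [U0 160 (by norm_num) 0 22 (by norm_num)])
  · calc φ / cG = φ * (1 / cG) := by ring
      _ ≤ 1 / y ^ 66 * y := by gcongr
      _ = 1 / y ^ 65 := by field_simp
  · rw [mul_one_div, div_pow, div_le_div_iff₀ (by positivity) (by positivity)]
    linarith [U0 4 (by norm_num) 44 65 (by norm_num)]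
  · have a : 1 / (y ^ 20) ^ 5 ≤ 1 / y ^ 88 :=
      one_div_le_one_div_of_le (by positivity) (by linarith [U0 1 (by norm_num) 88 100 (by norm_num)])
    calc _ = 3000000 * k * (F ^ 2 * K) * (1 / y ^ 88 + 1 / (y ^ 20) ^ 5) := by ring
      _ ≤ 3000000 * (4 * y ^ 20) * y ^ 43 * (1 / y ^ 88 + 1 / y ^ 88) := by gcongr
      _ = 24000000 * y ^ 63 / y ^ 88 := by ring
      _ ≤ ω ^ 5 := by
        rw [div_le_iff₀ (by positivity)]
        exact U 5 (by norm_num) _ (by norm_num) 63 88 (by norm_num)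
  · calc 4 * K * φ ≤ 4 * y * (1 / y ^ 66) := by gcongr
      _ = 4 * y / y ^ 66 := by ring
      _ ≤ 1 / y := by
        rw [div_le_div_iff₀ (by positivity) y0]
        linarith [U0 4 (by norm_num) 2 66 (by norm_num)]
      _ ≤ cG := cy
  · calc _ = 4 * (K * F * (y ^ 20 + 1)) / (y ^ 80) ^ 15 := by ring
      _ ≤ 4 * (2 * y ^ 42) / (y ^ 80) ^ 15 := by gcongr
      _ ≤ 1 / y := by
        rw [div_le_div_iff₀ (by positivity) y0]
        linarith [U0 8 (by norm_num) 43 1200 (by norm_num)]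
      _ ≤ cG := cy
  · calc _ = 16 * (1 / cG) * (16 * (y ^ 20) ^ 2 + K * F * (y ^ 20 + 1)) := by ring
      _ ≤ 16 * y * (16 * (y ^ 20) ^ 2 + 2 * y ^ 42) := by gcongr
      _ ≤ (y ^ 80) ^ 5 := by
        linarith [U0 512 (by norm_num) 41 400 (by norm_num),
          U0 64 (by norm_num) 43 400 (by norm_num)]
  · calc _ ≤ 144 * (30 * y ^ 20) * (512000 * y ^ 65 / ω ^ 5) := by gcongr
      _ = 2211840000 * y ^ 85 / ω ^ 5 := by ring
      _ ≤ ω ^ 4 * y ^ 88 := by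
        rw [div_le_iff₀ (by positivity)]
        linarith [U 9 (by norm_num) 2211840000 (by norm_num) 85 88 (by norm_num)]
  · have a : 512000 * y ^ 65 / ω ^ 5 ≤ y ^ 80 / 2 := by
      rw [div_le_div_iff₀ (by positivity) (by norm_num)]
      linarith [U 5 (by norm_num) 1024000 (by norm_num) 65 80 (by norm_num)]
    linarith [U0 12 (by norm_num) 0 80 (by norm_num)]
  · rw [show C * (4000 * (1 / y ^ 22) / ω * y ^ 20) = 4000 * C * y ^ 0 / (ω * y ^ 2) by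
      field_simp, div_le_one (by positivity)]
    exact upw y1 ω0.le (by linarith [W 1 (by norm_num)]) (by norm_num)
  · rw [show 1 / (4000 * (1 / y ^ 22) / ω) = ω / 4000 * y ^ 22 by field_simp]
    exact U0 _ (by linarith) 22 80 (by norm_num)
  · linarith [U 1 (by norm_num) 1600 (by norm_num) 22 39 (by norm_num)]
  · linarith [U 5 (by norm_num) 1 (by norm_num) 0 39 (by norm_num)]

/-- the inequalities between powers of `n = exp (y ^ 20)` -/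
structure NumN (y ω n : ℝ) : Prop where
  n1 : 1000 ≤ n
  k1 : y ^ 21 * n ≤ n ^ 2
  k2 : 320 * (n ^ 2) ^ 2 * (2 * n ^ 2) ≤ n ^ 8
  me : 2 * Real.exp (-(1 / y ^ 22) ^ 2 / (16 * (1 / y ^ 65))) ≤ 1 / y ^ 22
  x1 : n ^ 2 * (2 / n ^ 21) ≤ 1 / n ^ 18
  x2 : 1 / n ^ 18 ≤ 1 / 2
  g1 : n * (n ^ 2 / n ^ 8) ^ 2 ≤ ω ^ 5
  g2 : n * n ^ 2 ≤ n ^ 8
  pb1 : 1 / n ^ 15 ≤ 1 / 20
  pb2 : 2 * n * Real.exp (-(1 / y ^ 22) ^ 2 / (16 * (1 / y ^ 65))) + 100 * (1 / n ^ 18) ≤ 1 / n ^ 15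
  sq : 2 * n + 40 * n ^ 2 * Real.sqrt (1 / n ^ 15 / (ω * (1 / y ^ 22))) ≤ 3 * n
  Y1 : 1000 ≤ y ^ 80
  Y2 : y ^ 21 ≤ y ^ 80
  Y3 : 30 * y ^ 20 ≤ y ^ 80
  Y4 : 1 / (1 / y ^ 22) ≤ y ^ 80

theorem numN {y ω n : ℝ} (ω0 : 0 < ω) (a1 : 1000 ≤ y) (en : Real.exp (y ^ 20) = n)
    (m1 : 1600 * y ^ 22 ≤ ω * y ^ 39) (m2 : 1 ≤ ω ^ 5 * y ^ 39) : NumN y ω n := by
  have y1 : 1 ≤ y := by linarith
  have U : ∀ c ≤ (1000 : ℝ), ∀ a b : ℕ, a < b → c * y ^ a ≤ y ^ b := fun c hc a b h => by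
    simpa using upw y1 zero_le_one (show c ≤ 1 * y by linarith) h
  have ny : y ^ 39 ≤ n := by
    have := Real.quadratic_le_exp_of_nonneg (show 0 ≤ y ^ 20 by positivity)
    rw [en] at this
    linarith [U 2 (by norm_num) 39 40 (by norm_num), pow_pos (one_pos.trans_le y1) 20]
  have n1 : 1000 ≤ n := by linarith [U 1000 le_rfl 0 39 (by norm_num)]
  have n0 : 0 < n := by linarith
  have V : ∀ c ≤ (1000 : ℝ), ∀ a b : ℕ, a < b → c * n ^ a ≤ n ^ b := fun c hc a b h => by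
    simpa using upw (show 1 ≤ n by linarith) zero_le_one (show c ≤ 1 * n by linarith) h
  have tl := (tail en (by linarith : 272 ≤ y)).trans
    (one_div_le_one_div_of_le (by positivity) (V 4 (by norm_num) 16 17 (by norm_num)))
  refine ⟨n1, ?_, by linarith [V 640 (by norm_num) 6 8 (by norm_num)], ?_, ?_,
    one_div_le_one_div_of_le (by norm_num) (by linarith [V 2 (by norm_num) 0 18 (by norm_num)]),
    ?_, by linarith [V 1 (by norm_num) 3 8 (by norm_num)],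
    one_div_le_one_div_of_le (by norm_num) (by linarith [V 20 (by norm_num) 0 15 (by norm_num)]),
    ?_, ?_, by linarith [U 1000 le_rfl 0 80 (by norm_num)],
    by linarith [U 1 (by norm_num) 21 80 (by norm_num)], U 30 (by norm_num) 20 80 (by norm_num),
    by rw [one_div_one_div]; linarith [U 1 (by norm_num) 22 80 (by norm_num)]⟩
  · rw [sq]
    exact mul_le_mul_of_nonneg_right (by linarith [U 1 (by norm_num) 21 39 (by norm_num)]) n0.le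
  · have : 1 / (4 * n ^ 16) ≤ 1 / (2 * y ^ 22) := one_div_le_one_div_of_le (by positivity)
      (by linarith [U 2 (by norm_num) 22 39 (by norm_num), V 1 (by norm_num) 1 16 (by norm_num)])
    rw [show 1 / (2 * y ^ 22) = 1 / y ^ 22 / 2 by ring] at this
    linarith
  · rw [← mul_div_assoc, div_le_div_iff₀ (by positivity) (by positivity)]
    linarith [V 2 (by norm_num) 20 21 (by norm_num)]
  · rw [show n * (n ^ 2 / n ^ 8) ^ 2 = 1 / n ^ 11 by field_simp, div_le_iff₀ (by positivity)]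
    exact m2.trans (mul_le_mul_of_nonneg_left
      (by linarith [V 1 (by norm_num) 1 11 (by norm_num)]) (by positivity))
  · have a : 2 * n * (1 / (4 * n ^ 16)) = 1 / n ^ 15 / 2 := by
      field_simp
      norm_num
    have b : 100 * (1 / n ^ 18) ≤ 1 / n ^ 15 / 2 := by
      rw [mul_one_div, div_div, div_le_div_iff₀ (by positivity) (by positivity)]
      linarith [V 200 (by norm_num) 15 18 (by norm_num)]
    linarith [mul_le_mul_of_nonneg_left tl (show 0 ≤ 2 * n by positivity)]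
  · have s1 : Real.sqrt (1 / n ^ 15 / (ω * (1 / y ^ 22))) ≤ 1 / (40 * n) := by
      refine Real.sqrt_le_iff.2 ⟨by positivity, ?_⟩
      rw [show 1 / n ^ 15 / (ω * (1 / y ^ 22)) = y ^ 22 / (ω * n ^ 15) by field_simp, div_pow,
        div_le_div_iff₀ (by positivity) (by positivity)]
      have a : ω * y ^ 39 ≤ ω * n ^ 13 :=
        mul_le_mul_of_nonneg_left (by linarith [V 1 (by norm_num) 1 13 (by norm_num)]) ω0.le
      linarith [mul_le_mul_of_nonneg_right (m1.trans a) (sq_nonneg n)]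
    have s2 : 40 * n ^ 2 * (1 / (40 * n)) = n := by field_simp
    linarith [mul_le_mul_of_nonneg_left s1 (show 0 ≤ 40 * n ^ 2 by positivity)]

theorem lam_le {C ω p ε l y Λ : ℝ} (hp : 0 < p) (hω : ω * (400000 * C) ≤ p) (l1 : 1 ≤ l)
    (el : l = y ^ 20) (hε : C * (ε * l) ≤ 1)
    (h : Λ ≤ Real.exp (C * (160 * ω * (Real.log ((y ^ 80) ^ 128) + Real.log l) + ε * l))) :
    Λ ≤ l ^ (p / 2) * 3 := by
  have lY : Real.log ((y ^ 80) ^ 128) = 512 * Real.log l := by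
    rw [el, Real.log_pow, Real.log_pow, Real.log_pow]
    push_cast
    ring
  have ll := Real.log_nonneg l1
  refine h.trans (le_trans (Real.exp_le_exp.2 (?_ : _ ≤ Real.log l * (p / 2) + 1)) ?_)
  · rw [lY]
    linarith [mul_le_mul_of_nonneg_right hω ll, mul_nonneg hp.le ll]
  · rw [Real.exp_add, ← Real.rpow_def_of_pos (by linarith)]
    exact mul_le_mul_of_nonneg_left (Real.exp_one_lt_d9.le.trans (by norm_num)) (by positivity)

end Geo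

open Geo

theorem geoC_proof (hP : B.ProjStmt) (hL : LevStmt) (hD : DecStmt) (hR : RPStmt) (hM : MeanStmt)
    (hT : TypCStmt) (h1 : G1Stmt) (h2 : G2Stmt) (hPr : ProfStmt) (hMe : MetricCStmt) :
    GeoCStmt := by
  intro p hp
  obtain ⟨C, hC, pr⟩ := hPr
  refine ⟨min (1 / 16) (min (1 / (160 * C)) (p / (400000 * C))), by positivity,
    fun ω ω0 hω => ?_⟩
  simp only [le_min_iff] at hω
  obtain ⟨ω1, ω2, ω3⟩ := hω
  rw [le_div_iff₀ (by positivity)] at ω2 ω3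
  obtain ⟨l0, hl0⟩ := eventually_atTop.1
    (((tendsto_rpow_atTop (show (0 : ℝ) < 1 / 20 by norm_num)).eventually_ge_atTop
      (max (10 ^ 10 * C / ω ^ 9) 1000)).and
      (((tendsto_rpow_atTop (half_pos hp)).eventually_ge_atTop 9).and (eventually_ge_atTop 1)))
  refine ⟨l0, fun ι B _ _ _ _ M blk s Γ J0 wt l F K LG cG φ hl G => ?_⟩
  obtain ⟨a1, a2, l1⟩ := hl0 l hl
  have l0' : 0 < l := one_pos.trans_le l1
  obtain ⟨y, hy⟩ : ∃ y, y = l ^ (1 / 20 : ℝ) := ⟨_, rfl⟩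
  have pw : ∀ (k : ℕ) (r : ℝ), r = 1 / 20 * k → l ^ r = y ^ k := fun k r h => by
    rw [h, Real.rpow_mul l0'.le, Real.rpow_natCast, hy]
  have el : l = y ^ 20 := by rw [← pw 20 1 (by norm_num), Real.rpow_one]
  rw [← hy, max_le_iff, div_le_iff₀' (by positivity)] at a1
  obtain ⟨a0, a1⟩ := a1
  obtain ⟨sys, le, cB, rip1, rip2, low, c1, lo, K1, L1, c0, hF, hK, hLG, hc, φ0, hφ⟩ := G
  rw [pw 88 _ (by norm_num)] at sys
  rw [pw 66 _ (by norm_num)] at c1 hφ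
  rw [pw 21 _ (by norm_num)] at hF
  rw [← hy] at hK hLG hc
  rw [pw 22 _ (by norm_num)]
  have N := num ω0 ω1 hC a0 sys.one_le_F K1 L1 c0 φ0 hF hK hLG hc hφ
  have eg : ((Fintype.card ι ^ 8 : ℕ) : ℝ) = cd ι ^ 8 := Nat.cast_pow _ _
  have n0 : 0 < cd ι := one_pos.trans ((Real.log_pos_iff (Nat.cast_nonneg _)).1 (l0'.trans_eq le))
  have en : Real.exp l = cd ι := by rw [le, Real.exp_log n0]
  have ne : Nonempty ι := Fintype.card_pos_iff.1 (Nat.cast_pos.1 n0)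
  have g1 : 1 ≤ Fintype.card ι ^ 8 := Nat.one_le_pow _ _ Fintype.card_pos
  have Q := numN ω0 a1 (el ▸ en) N.m1 N.m2
  have y0 : 0 < y := lt_of_lt_of_le (by norm_num) a1
  have η0 : 0 < 1 / y ^ 22 := by positivity
  have ok : (⟨ω, 1 / y ^ 22⟩ : Wn).Ok :=
    ⟨ω0, ω1.trans (by norm_num), η0, N.et1.trans (by show ω / 8 ≤ ω / 4; gcongr; norm_num)⟩
  have δ0 : 0 < ω ^ 5 := by positivity
  have δ1 : ω ^ 5 ≤ 1 / 4 := (pow_le_pow_left₀ ω0.le ω1 5).trans (by norm_num)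
  have Pm0 : 0 < 1 / y ^ 65 := by positivity
  have Le0 : 0 ≤ 30 * l := by positivity
  obtain ⟨⟨Sp, hSp⟩, -⟩ := hP.1 ι (Kt M) (tc s)
  have lev := fun i => ((hL ι B M blk s Γ J0 wt _ _ _ _ sys).2.2.2.2.2.2.2 Sp cG hSp c0 low i).trans
    N.pm1
  obtain ⟨k, k1, k2, k3, k4⟩ := ex_k en l1
  have dec := hD ι B M blk s Γ J0 wt _ _ _ _ K LG _ _ (ω ^ 5) _ k sys rip2 c1 K1 L1 (by positivity)
    δ0 δ1 k1 (((mul_le_mul_of_nonneg_right hF n0.le).trans Q.k1).trans k2) N.d1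
    ((mul_le_mul_of_nonneg_left k3 (by positivity)).trans (Q.k2.trans_eq eg.symm))
    (el ▸ N.d2 k (Nat.cast_nonneg _) (el ▸ k4))
  have rp := rp_mono (hR ι B M blk s Γ J0 wt _ _ _ _ K _ cG _ (1 / (y ^ 80) ^ 15) sys rip1 low lo K1
    (le_add_of_nonneg_left l0'.le) c0 (by positivity) (by positivity) N.r1 (el ▸ N.r2))
    (le_trans ((mul_div_assoc _ _ _).trans_le (mul_le_mul_of_nonneg_left N.pm1 (by norm_num)))
      N.pm2) (el ▸ N.r3)
  have mean := hM.2 ι B M s Sp _ _ _ ok η0 (N.et2.trans (by norm_num)) le_rfl hSp Pm0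
    ((le_mul_of_one_le_left Pm0.le (by norm_num)).trans N.pm2) lev Q.me
  obtain ⟨bm, c, hc⟩ := hT ι B M blk s Sp _ _ (30 * l) _ (1 / cd ι ^ 18) (Fintype.card ι ^ 8) ok η0
    N.et2 Pm0 Le0 hSp sys.zero sys.ne lev
    ((sum_le_card_nsmul _ _ _ fun J _ => eg ▸ term en l0'.le (le_trans (by norm_num) Q.n1)
      (sys.dim_pos J)).trans ((nsmul_eq_mul _ _).trans_le
        ((mul_le_mul_of_nonneg_right cB (by positivity)).trans Q.x1))) Q.x2
  have t1 := h1 ι B M blk s Γ J0 wt Sp c ⟨ω, 1 / y ^ 22⟩ _ _ _ _ (1 / y ^ 22) (30 * l) _ _ _ sys dec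
    hSp ω0 ω1 η0 (N.et1.trans (by show ω / 8 ≤ ω / 2; gcongr; norm_num)) Le0 δ0 le_rfl g1
    (eg ▸ Q.g1) (el ▸ N.g1)
  have t2 := h2 ι B M blk s Γ J0 wt Sp c ⟨ω, 1 / y ^ 22⟩ _ _ _ _ (1 / y ^ 22) (30 * l) _ _ _ _ sys
    dec rp hSp mean ω0 ω1 η0 N.et1 Le0 δ0.le δ1 g1 (eg ▸ Q.g2) Q.Y1 (hF.trans Q.Y2) N.g2
    (el ▸ Q.Y3) Q.Y4
  have Z1 : ∀ a ≤ 128, (y ^ 80) ^ a ≤ (y ^ 80) ^ 128 := fun a ha =>
    pow_le_pow_right₀ (le_trans (by norm_num) Q.Y1) ha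
  have Z2 := (pow_one _).symm.trans_le (Z1 1 (by norm_num))
  have ε0 : 0 < 4000 * (1 / y ^ 22) / ω := by positivity
  have p1 := N.p1
  rw [← el] at p1
  obtain ⟨ψ, Λ, bern, b1, b2, b3⟩ := pr (cd ι) (160 * ω) (4000 * (1 / y ^ 22) / ω) ((y ^ 80) ^ 128)
    (le_trans (by norm_num) Q.n1) (by positivity) (le_of_eq_of_le (by ring) ω2) ε0
    (le_trans (mul_le_mul_of_nonneg_left (le_mul_of_one_le_right ε0.le l1)
      (zero_le_one.trans hC)) p1) ((le_trans (by norm_num) Q.Y1).trans Z2) (N.p2.trans Z2)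
  have u1 : ∀ u, GoodC ⟨ω, 1 / y ^ 22⟩ (1 / y ^ 22) (30 * l) blk s Sp (Fintype.card ι ^ 8) u →
      ∀ i, |u i| ≤ 1 := fun u hu i =>
    (hu.1 i).trans ((add_le_add (add_le_add le_rfl ω1) N.et2).trans (by norm_num))
  obtain ⟨dd, hd⟩ := hMe ι (Kt M) (tc s) Sp c _ _ ψ Λ (1 / cd ι ^ 15) hSp sys.unit ok u1 bern b1
    (tri (G := fun x => GoodC _ _ _ blk s Sp _ (vv (tc s) Sp c x)) rr_symm
      fun x x' x'' g g' g'' h => b3 _ _ _ (rr_nonneg ..) h (rr_le (u1 _ g') (u1 _ g''))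
        (rr_nonneg ..) (t1 x x' x'' g g' g'') fun h' => (t2 x x' x'' g g' g'' h h').trans (by
          have := rr_nonneg (S := tc s) (Sp := Sp) (c := c) x' x''
          exact add_le_add le_rfl (mul_le_mul_of_nonneg_right (mul_le_mul_of_nonneg_right
            (Z1 10 (by norm_num)) (by positivity)) (by positivity))))
    (by positivity) Q.pb1 bm (hc.trans Q.pb2)
  refine ⟨c, dd, metric_mono hd ?_⟩
  rw [← le] at b2
  have s3 := lam_le hp ω3 l1 el p1 b2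
  have lp : l ^ p = l ^ (p / 2) * l ^ (p / 2) := by rw [← Real.rpow_add l0', add_halves]
  calc _ ≤ l ^ (p / 2) * 3 * (3 * cd ι) := mul_le_mul s3 Q.sq (by positivity) (by positivity)
    _ = l ^ (p / 2) * 9 * cd ι := by ring
    _ ≤ _ := by rw [lp]; gcongr

end Vale.Agent.P318.C
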