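import Vale.Agent.P318.C.IStmt

/-!
Track C: the instance and the final bound.
-/

namespace Vale.Agent.P318.C

open Finset Filter Real
open B (cd Kt tc)

namespace InstC

theorem card_le {ι B : Type} [Fintype ι] [DecidableEq ι] [Fintype B] [DecidableEq B] {M : B → ℕ}
    {blk : B → Finset ι} {s : (J : B) → ι → Fin (M J) → ℤ}
    {Γ : (J : B) → AddSubgroup (Fin (M J) → ℝ)} {J0 : B} {wt : B → ℝ} {F Lm Cn φ : ℝ}
    (h : CSys blk s Γ J0 wt F Lm Cn φ) : (Fintype.card (Kt M) : ℝ) ≤ cd ι * φ := by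
  have h1 := sum_le_sum fun i (_ : i ∈ univ) => h.frac i
  simp only [sum_filter] at h1
  rw [sum_comm, sum_const, card_univ, nsmul_eq_mul] at h1
  refine le_of_eq_of_le ?_ h1
  rw [Fintype.card_sigma, Nat.cast_sum]
  refine sum_congr rfl fun J _ => ?_
  rw [sum_ite_mem, univ_inter, sum_const, nsmul_eq_mul, Fintype.card_fin,
    mul_div_cancel₀ _ (Nat.cast_ne_zero.2 (h.ne J).card_pos.ne')]

theorem size {n k : ℕ} (h1 : 200 ≤ n) (h2 : 2 * log n * k ≤ n) :
    ((101 * ((n ^ 2) ^ k * 4 ^ n) : ℕ) : ℝ) ≤ exp (3 * n) := by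
  have n0 : (200 : ℝ) ≤ n := by exact_mod_cast h1
  have a1 : (101 : ℝ) ≤ exp (n / 2) := le_trans (by linarith) (add_one_le_exp _)
  have a2 : ((n : ℝ) ^ 2) ^ k ≤ exp n := by
    rw [← exp_log (by linarith : (0 : ℝ) < n), ← exp_nat_mul, ← exp_nat_mul, exp_log (by linarith)]
    exact exp_le_exp.2 (by push_cast; linarith)
  have a3 : (4 : ℝ) ^ n ≤ exp (n * (3 / 2)) := by
    rw [exp_nat_mul]
    gcongr
    rw [← exp_log four_pos, show (4 : ℝ) = 2 ^ 2 by norm_num, log_pow]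
    exact exp_le_exp.2 (by push_cast; linarith [log_two_lt_d9])
  push_cast
  calc _ ≤ exp (n / 2) * (exp n * exp (n * (3 / 2))) := by gcongr
    _ = _ := by rw [← exp_add, ← exp_add]; congr 1; ring

theorem tendsto_log : Tendsto (fun n : ℕ => log n) atTop atTop :=
  tendsto_log_atTop.comp tendsto_natCast_atTop_atTop

end InstC

open InstC

theorem instC_proof (hE : ExistCStmt) (hI : IsoCStmt) (hG : GeoCStmt) (hM : ModelStmt) :
    InstCStmt := by
  obtain ⟨c0, C1, hc, hC, n0, hE⟩ := hE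
  obtain ⟨ω1, o1, hI⟩ := hI c0 C1 hc hC
  obtain ⟨ω2, o2, hG⟩ := hG (1 / 20) (by norm_num)
  obtain ⟨ω, o0, a1, a2, a3⟩ : ∃ ω : ℝ, 0 < ω ∧ ω ≤ ω1 ∧ ω ≤ ω2 ∧ ω ≤ 1 / 8 :=
    ⟨min ω1 (min ω2 (1 / 8)), by positivity, min_le_left _ _,
      (min_le_right _ _).trans (min_le_left _ _), (min_le_right _ _).trans (min_le_right _ _)⟩
  obtain ⟨l1, hI⟩ := hI ω o0 a1
  obtain ⟨l2, hG⟩ := hG ω o0 a2
  obtain ⟨n1, hn⟩ := eventually_atTop.1 ((eventually_ge_atTop n0).and ((eventually_ge_atTop 200).and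
    ((tendsto_log.eventually_ge_atTop l1).and ((tendsto_log.eventually_ge_atTop l2).and
      ((tendsto_log.eventually_ge_atTop 2).and (tendsto_log.eventually_ge_atTop (4 / ω)))))))
  refine ⟨1 / 10240000, by norm_num, n1, fun n h N hN => ?_⟩
  obtain ⟨b0, b1, b2, b3, b4, b5⟩ := hn n h
  obtain ⟨B, A, _, _, _, _, M, blk, s, Γ, Γ', J0, wt, F, K, LG, cG, φ, P, sc, Kn, e, Γt, sh, C1t,
    C2t, g, i⟩ := hE n b0
  obtain ⟨c, dd, md⟩ := hG _ B M blk s Γ J0 wt _ F K LG cG φ b3 g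
  have hI := hI _ B A M blk s Γ' P sc Kn e Γt _ sh C1t C2t b2 i c
  have k1 := card_le g.sys
  have k2 := g.sys.row
  have k3 := g.phi_le
  have cn : cd (Fin n) = n := by simp [cd]
  rw [cn] at md hI k1 k2
  have p0 : (0 : ℝ) < n := by positivity
  have p1 : 0 < log n := by linarith
  have p2 : ∀ {a b : ℝ}, a ≤ b → log n ^ a ≤ log n ^ b := rpow_le_rpow_of_exponent_le (by linarith)
  refine le_of_eq_of_le ?_ (hM _ _ (tc s) c dd (n ^ 2) _ _ _ _ ⟨o0, a3, by positivity, ?_⟩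
    (by positivity) (by positivity) (by positivity) (Nat.one_le_pow _ _ (by omega))
    (by simpa using k2) md hI N ?_)
  · rw [show (57 / 20 : ℝ) = 14 / 5 + 1 / 20 by norm_num, rpow_add p1]
    field_simp
    norm_num
  · have := p2 (by norm_num : (1 : ℝ) ≤ 11 / 10)
    rw [rpow_one] at this
    rw [div_le_iff₀ o0] at b5
    rw [div_le_div_iff₀ (by positivity) four_pos]
    nlinarith
  · rw [Fintype.card_fin]
    refine Nat.cast_le.1 ((size b1 ?_).trans hN)
    have := p2 (by norm_num : (2 : ℝ) ≤ 33 / 10)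
    rw [rpow_two] at this
    have k4 := k1.trans (mul_le_mul_of_nonneg_left k3 p0.le)
    rw [mul_one_div, le_div_iff₀ (by positivity)] at k4
    refine le_trans ?_ k4
    rw [mul_comm]
    gcongr
    nlinarith

theorem finalC_proof (h : InstCStmt) : FinalCStmt := by
  obtain ⟨c, hc, n0, h⟩ := h
  obtain ⟨N0, hN⟩ := eventually_atTop.1 ((eventually_gt_atTop 0).and
    ((tendsto_log.eventually_ge_atTop (3 * n0)).and (tendsto_log.eventually_ge_atTop 6)))
  refine ⟨c / 3, by positivity, N0, fun N a => ?_⟩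
  obtain ⟨a1, a2, a3⟩ := hN N a
  have f1 : (⌊log N / 3⌋₊ : ℝ) ≤ log N / 3 := Nat.floor_le (by positivity)
  have f2 := Nat.lt_floor_add_one (log N / 3)
  have f3 : n0 ≤ ⌊log N / 3⌋₊ := Nat.le_floor (by linarith)
  set n := ⌊log N / 3⌋₊
  refine le_trans ?_ (h n f3 N ?_)
  · have p : 0 < log n := log_pos (by linarith)
    have q : √(log N) ≤ 3 * √n := by
      rw [← sqrt_sq zero_le_three, ← sqrt_mul (by positivity)]
      exact sqrt_le_sqrt (by linarith)
    refine div_le_div₀ (by positivity) (by nlinarith) (by positivity) ?_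
    exact rpow_le_rpow p.le (log_le_log (by linarith) (by linarith)) (by norm_num)
  · rw [← exp_log (Nat.cast_pos.2 a1), exp_le_exp]
    linarith

end Vale.Agent.P318.C
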