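import Vale.Agent.P318.C.IStmt

/-!
Track C: the isoperimetric inequality with numbers.
-/

namespace Vale.Agent.P318.C

open Finset MeasureTheory Filter
open M (U01 tm Dual Lat lin Inv Ksh Eb)
open B (cd Kt tc)

namespace IsoC

lemma tend_rpow {a : ℝ} (ha : 0 < a) : Tendsto (fun l : ℝ => l ^ a) atTop atTop :=
  tendsto_rpow_atTop ha

lemma ev_a {ω : ℝ} (hω : 0 < ω) : ∀ᶠ l : ℝ in atTop, 1 / l ^ (11 / 10 : ℝ) ≤ ω / 4 := by
  filter_upwards [(tend_rpow (a := 11 / 10) (by norm_num)).eventually_ge_atTop (4 / ω)] with l hl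
  have h4 : 0 < 4 / ω := by positivity
  calc 1 / l ^ (11 / 10 : ℝ) ≤ 1 / (4 / ω) := one_div_le_one_div_of_le h4 hl
    _ = ω / 4 := by field_simp

lemma ev_b {ω : ℝ} (hω : 0 < ω) :
    ∀ᶠ l : ℝ in atTop, 8 / ω * (1 + 11 / 10 * Real.log l) ≤ l ^ (1 / 1000 : ℝ) := by
  have h := (isLittleO_log_rpow_atTop (r := 1 / 1000) (by norm_num)).bound
    (c := ω / 40) (by positivity)
  filter_upwards [h, (tend_rpow (a := 1 / 1000) (by norm_num)).eventually_ge_atTop (16 / ω),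
    eventually_ge_atTop (1 : ℝ)] with l h1 h2 h3
  have hl : 0 ≤ l ^ (1 / 1000 : ℝ) := by positivity
  rw [Real.norm_eq_abs, Real.norm_eq_abs, abs_of_nonneg (Real.log_nonneg h3),
    abs_of_nonneg hl] at h1
  have e1 : 8 / ω ≤ l ^ (1 / 1000 : ℝ) / 2 := by
    have : 8 / ω = 16 / ω / 2 := by ring
    linarith
  have e2 : 8 / ω * (11 / 10 * Real.log l) ≤ 8 / ω * (11 / 10 * (ω / 40 * l ^ (1 / 1000 : ℝ))) := by
    gcongr
  have e3 : 8 / ω * (11 / 10 * (ω / 40 * l ^ (1 / 1000 : ℝ))) = 11 / 50 * l ^ (1 / 1000 : ℝ) := by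
    field_simp; ring
  nlinarith

lemma ev_d : ∀ᶠ l : ℝ in atTop,
    200 * (l ^ (1 / 100 : ℝ)) ^ 2 * Real.exp (-l ^ (1 / 100 : ℝ)) ≤ 1 := by
  have h := (Real.tendsto_pow_mul_exp_neg_atTop_nhds_zero 2).comp
    (tend_rpow (a := 1 / 100) (by norm_num))
  filter_upwards [h.eventually (gt_mem_nhds (show (0 : ℝ) < 1 / 200 by norm_num))] with l hl
  simp only [Function.comp] at hl
  linarith

lemma ev_g {D : ℝ} (hD : 0 < D) : ∀ᶠ l : ℝ in atTop, D * (l * Real.exp (-l)) ≤ 1 / 100 := by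
  have h := Real.tendsto_pow_mul_exp_neg_atTop_nhds_zero 1
  filter_upwards [h.eventually (gt_mem_nhds (show (0 : ℝ) < 1 / (100 * D) by positivity))]
    with l hl
  rw [pow_one, lt_div_iff₀ (by positivity)] at hl
  nlinarith

lemma inf_nonneg {ι : Type} [Fintype ι] [DecidableEq ι] {w : Wn} (h : WinAt w) (J : Finset ι)
    (f : (ι → ℤ) → ℝ) (y : ι → ℝ) : 0 ≤ Inf w J f y := by
  refine sum_nonneg fun j _ => mul_nonneg (h.dpr_nonneg _) ?_
  refine sum_nonneg fun b _ => mul_nonneg (prod_nonneg fun i _ => ?_) (abs_nonneg _)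
  unfold M.wt1 py
  split_ifs
  · exact h.pr_nonneg _
  · linarith [h.pr_le (y i)]

lemma blockAt_mono {ι κ : Type} [Fintype ι] [DecidableEq ι] [Fintype κ] {w : Wn}
    {L E1 E0 E0' : ℝ} {Γ : AddSubgroup (κ → ℝ)} {J : Finset ι} {s : ι → κ → ℤ}
    (h : BlockAt w L E1 E0 Γ J s) (hE : E0 ≤ E0') : BlockAt w L E1 E0' Γ J s :=
  fun t g hg hI => (h t g hg hI).trans (by linarith)

/-- The final numerical inequality, with `u = l^(1/1000)`. -/
lemma final {C CP F u l n q r S P I cB E : ℝ} (hC : 1 ≤ C) (hCP : 0 < CP) (hF1 : 1 ≤ F)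
    (hFu : F ≤ u) (hn : 0 < n) (hq0 : 0 ≤ q) (hq : q ≤ u ^ 20) (hr : r ≤ u ^ 2500 / n)
    (hS0 : 0 ≤ S) (hP0 : 0 ≤ P) (hSP : S + P ≤ u ^ 2250 / n) (hI : 0 ≤ I)
    (hf : CP * (6 * C + 1) ≤ u ^ 28) (hE0 : 0 ≤ E) (hcB : cB ≤ C * F * E)
    (hl : u ^ 22 ≤ l) (hg : 2 * CP * C * (l * E) ≤ 1 / 100) {S' : ℝ}
    (hS' : S' ≤ 3 * C * F * u ^ 500 * S) :
    CP * ((1 + F * q) * ((S' + P) * I + cB) + r * I) ≤ u ^ 2800 / n * I + 1 / 100 := by
  have hu : 1 ≤ u := hF1.trans hFu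
  have hu0 : 0 ≤ u := by linarith
  have h1 : 1 + F * q ≤ 2 * u ^ 21 := by
    have a : F * q ≤ u * u ^ 20 := by gcongr
    have b : 1 ≤ u ^ 21 := one_le_pow₀ hu
    calc 1 + F * q ≤ u ^ 21 + u * u ^ 20 := by linarith
      _ = 2 * u ^ 21 := by ring
  have h10 : 0 ≤ 1 + F * q := by positivity
  have hT : 1 ≤ 3 * C * F * u ^ 500 := by
    have a : 1 ≤ u ^ 500 := one_le_pow₀ hu
    have b : 1 ≤ C * F := one_le_mul_of_one_le_of_one_le hC hF1
    nlinarith
  have hT2 : 3 * C * F * u ^ 500 ≤ 3 * C * u * u ^ 500 := by gcongr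
  have h2 : S' + P ≤ 3 * C * u ^ 2751 / n := by
    have a : P ≤ 3 * C * F * u ^ 500 * P := le_mul_of_one_le_left hP0 hT
    calc S' + P ≤ 3 * C * F * u ^ 500 * (S + P) := by linarith
      _ ≤ 3 * C * u * u ^ 500 * (u ^ 2250 / n) := by
          apply mul_le_mul hT2 hSP (by linarith) (by positivity)
      _ = 3 * C * u ^ 2751 / n := by ring
  have h3 : cB ≤ C * u * E := hcB.trans (by gcongr)
  have h4 : (1 + F * q) * ((S' + P) * I + cB) ≤
      2 * u ^ 21 * (3 * C * u ^ 2751 / n * I + C * u * E) := by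
    have a : (S' + P) * I + cB ≤ 3 * C * u ^ 2751 / n * I + C * u * E :=
      add_le_add (mul_le_mul_of_nonneg_right h2 hI) h3
    exact (mul_le_mul_of_nonneg_left a h10).trans
      (mul_le_mul_of_nonneg_right h1 (by positivity))
  have h5 : r * I ≤ u ^ 2772 / n * I := by
    refine mul_le_mul_of_nonneg_right (hr.trans ?_) hI
    exact div_le_div_of_nonneg_right (pow_le_pow_right₀ hu (by norm_num)) hn.le
  have h6 : CP * (6 * C + 1) * (u ^ 2772 / n * I) ≤ u ^ 28 * (u ^ 2772 / n * I) :=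
    mul_le_mul_of_nonneg_right hf (mul_nonneg (div_nonneg (pow_nonneg hu0 _) hn.le) hI)
  have h7 : 2 * CP * C * (u ^ 22 * E) ≤ 2 * CP * C * (l * E) := by gcongr
  calc CP * ((1 + F * q) * ((S' + P) * I + cB) + r * I)
      ≤ CP * (2 * u ^ 21 * (3 * C * u ^ 2751 / n * I + C * u * E) + u ^ 2772 / n * I) :=
        mul_le_mul_of_nonneg_left (add_le_add h4 h5) hCP.le
    _ = CP * (6 * C + 1) * (u ^ 2772 / n * I) + 2 * CP * C * (u ^ 22 * E) := by ring
    _ ≤ u ^ 28 * (u ^ 2772 / n * I) + 1 / 100 := add_le_add h6 (h7.trans hg)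
    _ = u ^ 2800 / n * I + 1 / 100 := by ring

lemma upow {l : ℝ} (hl : 0 ≤ l) (k : ℕ) {a : ℝ} (ha : a = 1 / 1000 * k) :
    l ^ a = (l ^ (1 / 1000 : ℝ)) ^ k := by
  rw [ha, Real.rpow_mul hl, Real.rpow_natCast]

end IsoC

open IsoC in
theorem isoC_proof (hW : WinStmt) (hB : BlockStmt) (hP : Poin2Stmt) : IsoCStmt := by
  intro c0 C1 hc0 hC1
  obtain ⟨ω0, hω0, hB⟩ := hB c0 hc0
  refine ⟨min ω0 (1 / 8), by positivity, fun ω hω hωle => ?_⟩
  obtain ⟨C, hC, hB⟩ := hB ω C1 hω (hωle.trans (min_le_left _ _)) hC1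
  have hω8 : ω ≤ 1 / 8 := hωle.trans (min_le_right _ _)
  obtain ⟨CP, hCP, hP⟩ := hP
  have hu := tend_rpow (a := 1 / 1000) (by norm_num)
  have hev := (ev_a hω).and ((ev_b hω).and (ev_d.and ((ev_g (D := 2 * CP * C) (by positivity)).and
    ((eventually_ge_atTop (16 : ℝ)).and ((hu.eventually_ge_atTop (6 * C)).and
      (hu.eventually_ge_atTop (CP * (6 * C + 1))))))))
  obtain ⟨l0, hl0⟩ := eventually_atTop.1 hev
  refine ⟨l0, ?_⟩
  intro ι B A _ _ _ _ _ _ M blk s Γ P sc Kn e Γt l sh C1t C2t hl H c f hf hI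
  obtain ⟨ha, hb, hd, hg, h16, h6, hf'⟩ := hl0 l hl
  have hl0' : 0 < l := by linarith
  set w : Wn := ⟨ω, 1 / l ^ (11 / 10 : ℝ)⟩ with hw
  have hok : w.Ok := ⟨hω, hω8, by simp only [hw]; positivity, ha⟩
  have hWw := hW w hok
  set u : ℝ := l ^ (1 / 1000 : ℝ) with hu_def
  have hF1 : 1 ≤ Fi w := hWw.Fi_ge
  have hFu : Fi w ≤ u := by
    refine hWw.Fi_le.trans (le_trans ?_ hb)
    have hp : 0 < l ^ (11 / 10 : ℝ) := by positivity
    have e1 : w.om / w.et ≤ l ^ (11 / 10 : ℝ) := by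
      simp only [hw]
      rw [div_div_eq_mul_div, div_one]
      nlinarith
    have e2 : Real.log (w.om / w.et) ≤ 11 / 10 * Real.log l := by
      rw [← Real.log_rpow hl0']
      exact Real.log_le_log (div_pos hok.1 hok.2.2.1) e1
    have : w.om = ω := rfl
    rw [this] at e2 ⊢
    gcongr
  have hu1 : 1 ≤ u := hF1.trans hFu
  have hn1 : 1 < cd ι := by
    by_contra hh
    have : Real.log (cd ι) ≤ 0 :=
      Real.log_nonpos (by unfold cd; positivity) (not_lt.1 hh)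
    linarith [H.l_eq]
  have hn0 : 0 < cd ι := by linarith
  have hexp : Real.exp l = cd ι := by rw [H.l_eq, Real.exp_log hn0]
  have hX : l ^ (1 / 100 : ℝ) = u ^ 10 := upow hl0'.le 10 (by norm_num)
  have hLX : 1 + 2 * (C * Fi w ^ 2) ≤ u ^ 10 / 2 := by
    have a : C * Fi w ^ 2 ≤ C * u ^ 2 := by gcongr
    have b : 1 ≤ C * u ^ 2 := one_le_mul_of_one_le_of_one_le hC (one_le_pow₀ hu1)
    have d : 6 * C * u ^ 2 ≤ u * u ^ 2 := by gcongr
    have g : u * u ^ 2 ≤ u ^ 10 := by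
      rw [← pow_succ']; exact pow_le_pow_right₀ hu1 (by norm_num)
    linarith
  have hL1 : 1 ≤ C * Fi w ^ 2 := one_le_mul_of_one_le_of_one_le hC (one_le_pow₀ hF1)
  have hXpos : 0 < u ^ 10 := by positivity
  have hU : U01 f := fun x => by rcases hf x with h | h <;> simp [h]
  have het : 0 ≤ w.et := hok.2.2.1.le
  have key := hP ι B A M blk s Γ P sc Kn Γt c f w
    (fun k => C * Fi w * (Real.sqrt (4 * l) + 4 * l * w.et) * e k) (C * Fi w ^ 2)
    (1 / l ^ (1 / 100 : ℝ)) (l ^ (1 / 100 : ℝ)) (C * Fi w * cd ι * Real.exp (-(4 * l)))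
    sh C1t C2t hok
    (fun k => by have := (H.e_mem k).1; positivity) (by positivity) hL1 (by positivity)
    (by rw [hX, div_mul_eq_mul_div, one_mul, div_le_iff₀ hXpos]; linarith)
    (by rw [hX]; linarith)
    (by
      refine le_trans ?_ hd
      have a : C * Fi w ^ 2 ≤ l ^ (1 / 100 : ℝ) := by rw [hX]; linarith
      have b : 0 ≤ l ^ (1 / 100 : ℝ) := by positivity
      calc 200 * (C * Fi w ^ 2) * l ^ (1 / 100 : ℝ) * Real.exp (-l ^ (1 / 100 : ℝ))
          ≤ 200 * l ^ (1 / 100 : ℝ) * l ^ (1 / 100 : ℝ) * Real.exp (-l ^ (1 / 100 : ℝ)) := by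
            gcongr
        _ = _ := by ring)
    H.one_le H.coll H.zero H.part
    (fun a i hk => by
      have hb' := H.block a i hk
      have : Nonempty (Fin (M (P a i))) := ⟨⟨0, H.dim_pos _⟩⟩
      have := hB w hok rfl ι (Fin (M (P a i))) (Γ (P a i)) (blk (P a i)) (s (P a i)) (e (sc a))
        (4 * l) hb'.lat hb'.dual (H.t3 _) hb'.norm (H.zero _) hb'.zpat hb'.split hb'.ksh
        (H.e_mem _).1 (H.e_mem _).2 (by linarith)
      refine blockAt_mono this ?_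
      have hc : ((blk (P a i)).card : ℝ) ≤ cd ι := by
        unfold cd; exact_mod_cast card_le_univ _
      gcongr)
    H.sh_pos H.C1t_pos H.C2t_nonneg H.lat H.dual (fun j x => H.t3 x.1 j x.2) H.split hU hI
  have hff : (fun x => f x ^ 2) = f := by
    funext x; rcases hf x with h | h <;> simp [h]
  rw [hff] at key
  have hI0 : 0 ≤ tm fun β => Inf w univ f (c + lin (tc s) β) :=
    integral_nonneg fun β => inf_nonneg hWw _ _ _
  have hsq : Real.sqrt l = u ^ 500 := by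
    rw [Real.sqrt_eq_rpow]; exact upow hl0'.le 500 (by norm_num)
  have hs4 : 4 ≤ Real.sqrt l := Real.le_sqrt_of_sq_le (by linarith)
  have hsn : 0 < Real.sqrt (cd ι) := Real.sqrt_pos.2 hn0
  have hfin := final (C := C) (CP := CP) (F := Fi w) (u := u) (l := l) (n := Real.sqrt (cd ι))
    (q := C1t / sh) (r := Real.sqrt (C2t / sh)) (S := ∑ k ∈ Icc 1 Kn, (1 / 2 : ℝ) ^ k * e k)
    (P := 1 / 2 ^ Kn) (I := tm fun β => Inf w univ f (c + lin (tc s) β))
    (cB := cd B * (C * Fi w * cd ι * Real.exp (-(4 * l)))) (E := Real.exp (-l))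
    hC hCP hF1 hFu hsn (div_nonneg H.C1t_pos.le H.sh_pos.le)
    (by
      rw [div_le_iff₀ H.sh_pos, ← upow hl0'.le 20 (a := 1 / 50) (by norm_num)]
      exact H.C1t_le)
    (by
      have a : C2t / sh ≤ l ^ 5 / cd ι := by rw [div_le_iff₀ H.sh_pos]; exact H.C2t_le
      refine (Real.sqrt_le_sqrt a).trans (le_of_eq ?_)
      rw [Real.sqrt_div (by positivity)]
      congr 1
      rw [show l ^ 5 = (u ^ 2500) ^ 2 by
        rw [← pow_mul, ← Real.rpow_natCast l 5]; exact upow hl0'.le _ (by norm_num)]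
      exact Real.sqrt_sq (by positivity))
    (sum_nonneg fun k _ => by have := (H.e_mem k).1; positivity) (by positivity)
    (by rw [← upow hl0'.le 2250 (a := 9 / 4) (by norm_num)]; exact H.e_sum)
    hI0 (hf'.trans (le_self_pow₀ hu1 (by norm_num))) (by positivity)
    (by
      have a : cd B * (C * Fi w * cd ι * Real.exp (-(4 * l))) ≤
          cd ι ^ 2 * (C * Fi w * cd ι * Real.exp (-(4 * l))) :=
        mul_le_mul_of_nonneg_right H.cardB (by positivity)
      refine a.trans (le_of_eq ?_)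
      rw [← hexp, show -l = l + l + l + -(4 * l) by ring]
      simp only [Real.exp_add]; ring)
    (by
      rw [← upow hl0'.le 22 (a := 22 / 1000) (by norm_num)]
      calc l ^ (22 / 1000 : ℝ) ≤ l ^ (1 : ℝ) :=
            Real.rpow_le_rpow_of_exponent_le (by linarith) (by norm_num)
        _ = l := Real.rpow_one l)
    hg (S' := ∑ k ∈ Icc 1 Kn, (1 / 2 : ℝ) ^ k *
      (C * Fi w * (Real.sqrt (4 * l) + 4 * l * w.et) * e k))
    (by
      rw [mul_sum]
      refine sum_le_sum fun k _ => ?_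
      have he := (H.e_mem k).1
      have a : Real.sqrt (4 * l) = 2 * Real.sqrt l := by
        rw [Real.sqrt_mul (by norm_num), show (4 : ℝ) = 2 ^ 2 by norm_num,
          Real.sqrt_sq (by norm_num)]
      have b : l * w.et ≤ 1 := by
        simp only [hw]
        rw [mul_one_div, div_le_one (by positivity)]
        calc l = l ^ (1 : ℝ) := (Real.rpow_one l).symm
          _ ≤ l ^ (11 / 10 : ℝ) := Real.rpow_le_rpow_of_exponent_le (by linarith) (by norm_num)
      have d : Real.sqrt (4 * l) + 4 * l * w.et ≤ 3 * u ^ 500 := by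
        rw [← hsq, a]; linarith
      calc (1 / 2 : ℝ) ^ k * (C * Fi w * (Real.sqrt (4 * l) + 4 * l * w.et) * e k)
          ≤ (1 / 2 : ℝ) ^ k * (C * Fi w * (3 * u ^ 500) * e k) := by gcongr
        _ = _ := by ring)
  rw [upow hl0'.le 2800 (a := 14 / 5) (by norm_num)]
  calc _ = tm (fun β => Ey w f (c + lin (tc s) β)) -
        tm (fun β => Ey w f (c + lin (tc s) β)) ^ 2 := by ring
    _ ≤ _ := key.trans hfin

end Vale.Agent.P318.C
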