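import Vale.Agent.P318.C.GStmt
import Vale.Agent.P318.M.Bit
import Vale.Agent.P318.M.Chernoff
import Vale.Agent.P318.M.Torus

/-! The law of the position `z = fract (offset) - bit` in the linear window. -/

namespace Vale.Agent.P318.C

open Finset MeasureTheory Function
open M (ind bit wt1 wt Eb pt zz tm BM Per cube)

namespace Law

variable {w : Wn}

/-! ### One coordinate -/

theorem ramp_cont (A : WinAt w) : Continuous (ramp w) :=
  continuous_iff_continuousAt.2 fun x => (A.deriv x).continuousAt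

theorem ii {φ : ℝ → ℝ} (hφ : Measurable φ) {C : ℝ} (hC : ∀ t, |t| ≤ 1 → |φ t| ≤ C) {a b : ℝ}
    (ha : -1 ≤ a) (hab : a ≤ b) (hb : b ≤ 1) : IntervalIntegrable φ volume a b := by
  rw [intervalIntegrable_iff_integrableOn_Ioc_of_le hab]
  refine IntegrableOn.of_bound (by simp) hφ.aestronglyMeasurable C ?_
  filter_upwards [ae_restrict_mem measurableSet_Ioc] with t ht
  exact hC t (abs_le.2 ⟨by linarith [ht.1], by linarith [ht.2]⟩)

theorem zmean_dens (hw : w.Ok) (A : WinAt w) {φ : ℝ → ℝ} (hφ : Measurable φ) {C : ℝ}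
    (hC : ∀ t, |t| ≤ 1 → |φ t| ≤ C) :
    zmean w φ = ∫ t in (-1 : ℝ)..1,
      φ t * (ramp w (t + 1 / 2 + w.om) - ramp w (t - 1 / 2 + w.om)) := by
  obtain ⟨h0, h8, -, -⟩ := hw
  have hc := ramp_cont A
  have hq : Continuous fun t => ramp w (t + 1 / 2 + w.om) - ramp w (t - 1 / 2 + w.om) := by
    fun_prop
  have h1 := (ii hφ hC (a := -1) (b := 0) le_rfl (by norm_num) (by norm_num)).mul_continuousOn
    hq.continuousOn
  have h2 := (ii hφ hC (a := 0) (b := 1) (by norm_num) (by norm_num) le_rfl).mul_continuousOn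
    hq.continuousOn
  have h3 := h1.comp_sub_right 1
  rw [neg_add_cancel, zero_add] at h3
  have h4 := intervalIntegral.integral_comp_sub_right (a := 0) (b := 1)
    (fun t => φ t * (ramp w (t + 1 / 2 + w.om) - ramp w (t - 1 / 2 + w.om))) 1
  rw [zero_sub, sub_self] at h4
  rw [← intervalIntegral.integral_add_adjacent_intervals h1 h2, ← h4,
    ← intervalIntegral.integral_add h3 h2, zmean]
  refine intervalIntegral.integral_congr_ae ?_
  filter_upwards [(Set.countable_singleton (1 : ℝ)).ae_notMem volume] with t ht1 ht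
  rw [Set.uIoc_of_le zero_le_one] at ht
  have ht2 : t < 1 := ht.2.lt_of_ne ht1
  have e : Int.fract t = t := Int.fract_eq_self.2 ⟨ht.1.le, ht2⟩
  rw [pr, pos, e, A.ramp_one (t + 1 / 2 + w.om) (by linarith [ht.1]),
    A.ramp_zero (t - 1 - 1 / 2 + w.om) (by linarith),
    show t - 1 + 1 / 2 + w.om = t - 1 / 2 + w.om by ring]
  ring

theorem zmean_neg (hw : w.Ok) (A : WinAt w) {φ : ℝ → ℝ} (hφ : Measurable φ) {C : ℝ}
    (hC : ∀ t, |t| ≤ 1 → |φ t| ≤ C) : zmean w (fun t => φ (-t)) = zmean w φ := by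
  rw [zmean_dens hw A hφ hC, zmean_dens hw A (φ := fun t => φ (-t)) (hφ.comp measurable_neg)
    (fun t ht => hC _ (by rwa [abs_neg]))]
  have h := intervalIntegral.integral_comp_neg (a := -1) (b := 1)
    (fun t => φ t * (ramp w (t + 1 / 2 + w.om) - ramp w (t - 1 / 2 + w.om)))
  rw [neg_neg] at h
  rw [← h]
  refine intervalIntegral.integral_congr fun t _ => ?_
  have e1 := A.ramp_symm (t - 1 / 2 + w.om)
  have e2 := A.ramp_symm (t + 1 / 2 + w.om)
  rw [show 2 * w.om - (t - 1 / 2 + w.om) = -t + 1 / 2 + w.om by ring] at e1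
  rw [show 2 * w.om - (t + 1 / 2 + w.om) = -t - 1 / 2 + w.om by ring] at e2
  simp only [e1, e2]
  ring

/-- The mixture of the two values at offset `y`. -/
noncomputable def mix (w : Wn) (φ : ℝ → ℝ) (y : ℝ) : ℝ :=
  (1 - pr w y) * φ (Int.fract y) + pr w y * φ (Int.fract y - 1)

theorem zmean_eq (φ : ℝ → ℝ) : zmean w φ = ∫ t in (0 : ℝ)..1, mix w φ t := rfl

theorem mix_per (A : WinAt w) (φ : ℝ → ℝ) : Periodic (mix w φ) 1 := fun y => by
  have := A.pr_per y 1
  rw [Int.cast_one] at this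
  rw [mix, mix, this, Int.fract_add_one]

theorem mix_meas (A : WinAt w) {φ : ℝ → ℝ} (hφ : Measurable φ) : Measurable (mix w φ) :=
  ((measurable_const.sub A.pr_meas).mul (hφ.comp measurable_fract)).add
    (A.pr_meas.mul (hφ.comp (measurable_fract.sub_const 1)))

theorem abs_mix_le (A : WinAt w) {φ : ℝ → ℝ} {C : ℝ} (h : ∀ z, |z| ≤ 1 → |φ z| ≤ C) (y : ℝ) :
    |mix w φ y| ≤ C := by
  have h1 := h _ (by simpa [bit] using M.Chernoff.abs_fract_sub_bit y false)
  have h2 := h _ (by simpa [bit] using M.Chernoff.abs_fract_sub_bit y true)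
  have h3 := A.pr_nonneg y
  have h4 := A.pr_le y
  refine (abs_add_le _ _).trans ?_
  rw [abs_mul, abs_mul, abs_of_nonneg h3, abs_of_nonneg (sub_nonneg.2 h4)]
  nlinarith [mul_le_mul_of_nonneg_left h1 (sub_nonneg.2 h4), mul_le_mul_of_nonneg_left h2 h3]

theorem abs_zmean_le (A : WinAt w) {φ : ℝ → ℝ} {C : ℝ} (h : ∀ z, |z| ≤ 1 → |φ z| ≤ C) :
    |zmean w φ| ≤ C := by
  have := intervalIntegral.norm_integral_le_of_norm_le_const (a := 0) (b := 1) (f := mix w φ)
    (C := C) fun x _ => abs_mix_le A h x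
  simpa [zmean_eq] using this

/-! ### Several coordinates -/

variable {ι : Type} [Fintype ι] [DecidableEq ι] {Φ Ψ : (ι → ℝ) → ℝ}

/-- The mean over the bits. -/
noncomputable def HH (w : Wn) (Φ : (ι → ℝ) → ℝ) (y : ι → ℝ) : ℝ :=
  Eb (py w y) fun b => Φ (zz y b)

theorem zE_eq (Φ : (ι → ℝ) → ℝ) : zE w Φ = ∫ c, HH w Φ c ∂cube ι := rfl

omit [Fintype ι] [DecidableEq ι] in
theorem py_mem (A : WinAt w) (y : ι → ℝ) (i : ι) : 0 ≤ py w y i ∧ py w y i ≤ 1 :=
  ⟨A.pr_nonneg _, A.pr_le _⟩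

omit [Fintype ι] [DecidableEq ι] in
theorem abs_zz_le (y : ι → ℝ) (b : ι → Bool) (i : ι) : |zz y b i| ≤ 1 := by
  rw [M.Chernoff.zz_eq]
  exact M.Chernoff.abs_fract_sub_bit _ _

omit [Fintype ι] [DecidableEq ι] in
theorem zz_meas (b : ι → Bool) : Measurable fun y : ι → ℝ => zz y b :=
  measurable_pi_lambda _ fun i => by
    simp only [M.Chernoff.zz_eq]
    exact (measurable_fract.comp (measurable_pi_apply i)).sub_const _

omit [DecidableEq ι] in
theorem wt_meas (A : WinAt w) (b : ι → Bool) : Measurable fun y : ι → ℝ => wt (py w y) b := by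
  refine Finset.measurable_prod _ fun i _ => ?_
  have h := A.pr_meas.comp (measurable_pi_apply (X := fun _ : ι => ℝ) i)
  unfold wt1
  split_ifs
  exacts [h, measurable_const.sub h]

theorem HH_meas (A : WinAt w) (hΦ : Measurable Φ) : Measurable (HH w Φ) :=
  Finset.measurable_sum _ fun b _ => (wt_meas A b).mul (hΦ.comp (zz_meas b))

theorem abs_HH_le (A : WinAt w) {C : ℝ} (hC : ∀ z, (∀ i, |z i| ≤ 1) → |Φ z| ≤ C) (y : ι → ℝ) :
    |HH w Φ y| ≤ C :=
  (M.Bit.abs_Eb_le (py_mem A y) _).trans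
    ((M.Bit.Eb_mono (py_mem A y) fun b => hC _ (abs_zz_le y b)).trans_eq (M.Bit.Eb_const _ _))

theorem HH_BM (A : WinAt w) (hΦ : LB Φ) : BM (HH w Φ) :=
  ⟨HH_meas A hΦ.1, hΦ.2.imp fun _ hC => abs_HH_le A hC⟩

theorem HH_int (A : WinAt w) (hΦ : LB Φ) : Integrable (HH w Φ) (cube ι) := by
  obtain ⟨h, C, hC⟩ := HH_BM A hΦ
  exact Integrable.of_bound h.aestronglyMeasurable C (Filter.Eventually.of_forall hC)

theorem HH_per (A : WinAt w) (Φ : (ι → ℝ) → ℝ) : Per (HH w Φ) := fun y n => by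
  have e1 : py w (y + fun k => (n k : ℝ)) = py w y := funext fun i => A.pr_per _ _
  have e2 : ∀ b, zz (y + fun k => (n k : ℝ)) b = zz y b := fun b => funext fun i => by
    rw [M.Chernoff.zz_eq, M.Chernoff.zz_eq, Pi.add_apply, Int.fract_add_intCast]
  simp only [HH, e1, e2]

theorem Eb_upd (p : ι → ℝ) (j : ι) (x : ℝ) (F : (ι → Bool) → ℝ) :
    Eb (update p j x) F = Eb p fun b => (1 - x) * F (update b j false) + x * F (update b j true) := by
  refine mul_left_cancel₀ (two_ne_zero (α := ℝ)) ?_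
  rw [Eb, Eb, M.Bit.two_mul_sum j, M.Bit.two_mul_sum j]
  refine sum_congr rfl fun b _ => ?_
  have e : ∏ i ∈ univ.erase j, wt1 (update p j x i) (b i) = ∏ i ∈ univ.erase j, wt1 (p i) (b i) :=
    prod_congr rfl fun i hi => by rw [update_of_ne (ne_of_mem_erase hi)]
  rw [M.Bit.wt_update, M.Bit.wt_update, M.Bit.wt_update, M.Bit.wt_update, e]
  simp only [update_idem, update_self, wt1, if_true, Bool.false_eq_true, if_false]
  ring

theorem HH_upd (Φ : (ι → ℝ) → ℝ) (c : ι → ℝ) (j : ι) (r : ℝ) :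
    HH w Φ (update c j r) = Eb (py w c) fun b => mix w (fun t => Φ (update (zz c b) j t)) r := by
  have e1 : py w (update c j r) = update (py w c) j (pr w r) := funext fun i => by
    by_cases e : i = j
    · subst e
      rw [py, update_self, update_self]
    · rw [py, update_of_ne e, update_of_ne e, py]
  have e2 : ∀ (b : ι → Bool) (a : Bool), zz (update c j r) (update b j a) =
      update (zz c b) j (Int.fract r - bit a) := fun b a => funext fun i => by
    by_cases e : i = j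
    · subst e
      rw [M.Chernoff.zz_eq, update_self, update_self, update_self]
    · rw [M.Chernoff.zz_eq, update_of_ne e, update_of_ne e, update_of_ne e, M.Chernoff.zz_eq]
  rw [HH, e1, Eb_upd]
  simp only [e2, mix, bit, if_true, Bool.false_eq_true, if_false, sub_zero]

omit [Fintype ι] in
theorem upd_le {z : ι → ℝ} (hz : ∀ i, |z i| ≤ 1) (j : ι) {t : ℝ} (ht : |t| ≤ 1) (i : ι) :
    |update z j t i| ≤ 1 := by
  by_cases e : i = j
  · subst e
    rwa [update_self]
  · rw [update_of_ne e]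
    exact hz i

omit [Fintype ι] in
theorem res_LB (A : WinAt w) (hΦ : LB Φ) (j : ι) :
    LB fun z => zmean w fun t => Φ (update z j t) := by
  obtain ⟨hm, C, hC⟩ := hΦ
  refine ⟨?_, C, fun z hz => abs_zmean_le A fun t ht => hC _ (upd_le hz j ht)⟩
  simp only [zmean_eq, intervalIntegral.integral_of_le zero_le_one]
  refine (StronglyMeasurable.integral_prod_right
    (f := fun (z : ι → ℝ) (r : ℝ) => mix w (fun t => Φ (update z j t)) r)
    (Measurable.stronglyMeasurable ?_)).measurable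
  have h1 : Measurable fun x : (ι → ℝ) × ℝ => pr w x.2 := A.pr_meas.comp measurable_snd
  have h2 : Measurable fun x : (ι → ℝ) × ℝ => Int.fract x.2 := measurable_fract.comp measurable_snd
  have h3 := hm.comp (measurable_update' (X := fun _ : ι => ℝ) (a := j))
  exact ((measurable_const.sub h1).mul (h3.comp (measurable_fst.prodMk h2))).add
    (h1.mul (h3.comp (measurable_fst.prodMk (h2.sub_const 1))))

theorem int_line (A : WinAt w) (hΦ : LB Φ) (j : ι) (c : ι → ℝ) :
    ∫ r in (0 : ℝ)..1, HH w Φ (c + Pi.single j r) =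
      HH w (fun z => zmean w fun t => Φ (update z j t)) c := by
  obtain ⟨hm, C, hC⟩ := hΦ
  have e : ∀ r : ℝ, c + Pi.single j r = update c j (c j + r) := fun r => funext fun i => by
    by_cases e : i = j
    · subst e
      rw [Pi.add_apply, Pi.single_eq_same, update_self]
    · rw [Pi.add_apply, Pi.single_eq_of_ne e, update_of_ne e, add_zero]
  have hp : Periodic (fun r => HH w Φ (update c j r)) 1 := fun r => by
    simp only [HH_upd, mix_per A _ r]
  simp only [e]
  rw [intervalIntegral.integral_comp_add_left (fun r => HH w Φ (update c j r)), add_zero,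
    hp.intervalIntegral_add_eq (c j) 0, zero_add]
  simp only [HH_upd]
  rw [HH, Eb]
  simp only [Eb]
  rw [intervalIntegral.integral_finsetSum]
  · exact sum_congr rfl fun b _ => by rw [intervalIntegral.integral_const_mul, zmean_eq]
  · intro b _
    exact (M.Chernoff.ii_of_bound (mix_meas A (hm.comp (measurable_update _)))
      (abs_mix_le A fun t ht => hC _ (upd_le (abs_zz_le c b) j ht))).const_mul _

theorem zE_res (A : WinAt w) (hΦ : LB Φ) (j : ι) :
    zE w Φ = zE w fun z => zmean w fun t => Φ (update z j t) := by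
  obtain ⟨hm, C, hC⟩ := HH_BM A hΦ
  have h1 : ∀ r : ℝ, ∫ c, HH w Φ (c + Pi.single j r) ∂cube ι = zE w Φ := fun r =>
    M.Torus.int_shift (HH_per A Φ) _
  have h2 : Measurable fun r : ℝ => (Pi.single j r : ι → ℝ) := measurable_update _
  have h3 : Integrable (uncurry fun (r : ℝ) (c : ι → ℝ) => HH w Φ (c + Pi.single j r))
      ((volume.restrict (Set.Ioc (0 : ℝ) 1)).prod (cube ι)) :=
    Integrable.of_bound (hm.comp (measurable_snd.add (h2.comp measurable_fst))).aestronglyMeasurable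
      C (Filter.Eventually.of_forall fun x => hC _)
  have h4 := integral_integral_swap h3
  simp only [h1, ← intervalIntegral.integral_of_le zero_le_one, int_line A hΦ] at h4
  simpa [zE_eq] using h4

theorem zE_const (a : ℝ) : zE w (fun _ : ι → ℝ => a) = a := by
  simp [zE, M.Bit.Eb_const, tm]

theorem zE_mul (a : ℝ) (Φ : (ι → ℝ) → ℝ) : zE w (fun z => a * Φ z) = a * zE w Φ := by
  simp only [zE, M.Bit.Eb_const_mul, tm, integral_const_mul]

theorem zE_add (A : WinAt w) (hΦ : LB Φ) (hΨ : LB Ψ) :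
    zE w (fun z => Φ z + Ψ z) = zE w Φ + zE w Ψ := by
  rw [zE_eq Φ, zE_eq Ψ, ← integral_add (HH_int A hΦ) (HH_int A hΨ)]
  simp only [zE, M.Bit.Eb_add, tm, HH]

omit [DecidableEq ι] in
theorem zz_win (hw : w.Ok) (A : WinAt w) {y : ι → ℝ} {b : ι → Bool} (h : wt (py w y) b ≠ 0)
    (i : ι) : |zz y b i| ≤ 1 / 2 + w.om := by
  have h1 : wt1 (pr w (y i)) (b i) ≠ 0 := prod_ne_zero_iff.1 h i (mem_univ i)
  have h2 := Int.fract_nonneg (y i)
  have h3 := Int.fract_lt_one (y i)
  have h4 := hw.1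
  rw [M.Chernoff.zz_eq, abs_le]
  unfold wt1 at h1
  unfold bit
  split_ifs at h1 ⊢
  · have := A.pr_ne_zero _ h1
    constructor <;> linarith
  · have := A.pr_ne_one _ fun e => h1 (by rw [e, sub_self])
    constructor <;> linarith

theorem zE_mono (hw : w.Ok) (A : WinAt w) (hΦ : LB Φ) (hΨ : LB Ψ)
    (h : ∀ z, (∀ i, |z i| ≤ 1 / 2 + w.om) → Φ z ≤ Ψ z) : zE w Φ ≤ zE w Ψ := by
  refine integral_mono (HH_int A hΦ) (HH_int A hΨ) fun y => sum_le_sum fun b _ => ?_
  by_cases e : wt (py w y) b = 0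
  · rw [e, zero_mul, zero_mul]
  · exact mul_le_mul_of_nonneg_left (h _ (zz_win hw A e)) (M.Bit.wt_nonneg (py_mem A y) b)

omit [DecidableEq ι] in
theorem LB_of_cont (hΦ : Continuous Φ) : LB Φ := by
  obtain ⟨C, hC⟩ := (isCompact_univ_pi fun _ : ι => isCompact_Icc (a := (-1 : ℝ))
    (b := 1)).exists_bound_of_continuousOn hΦ.continuousOn
  exact ⟨hΦ.measurable, C, fun z hz => hC z fun i _ => abs_le.1 (hz i)⟩

theorem zE_lin (A : WinAt w) (a : ι → ℝ) : zE w (fun z => ∑ i, a i * z i) = 0 := by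
  have h1 : ∀ i, zE w (fun z : ι → ℝ => a i * z i) = 0 := fun i => by
    rw [zE_mul, zE_res A (LB_of_cont (continuous_apply i)) i]
    simp only [update_self, A.zmean_id, zE_const, mul_zero]
  have h2 : ∀ i, Integrable (HH w fun z : ι → ℝ => a i * z i) (cube ι) := fun i =>
    HH_int A (LB_of_cont (by fun_prop))
  have h3 := integral_finsetSum univ fun i _ => h2 i
  simp only [← zE_eq, h1, sum_const_zero] at h3
  rw [← h3]
  simp only [zE, M.Bit.Eb_sum, tm, HH]

end Law

open Law in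
theorem law_proof (hW : WinStmt) : LawStmt := by
  intro w hw
  have A := hW w hw
  refine ⟨fun φ hφ ⟨C, hC⟩ => ⟨zmean_dens hw A hφ hC, zmean_neg hw A hφ hC⟩,
    fun ι _ _ => ⟨fun Φ => LB_of_cont, fun Φ hΦ => ⟨HH_BM A hΦ,
      fun t => M.Torus.int_shift (HH_per A Φ) t, fun j => ⟨res_LB A hΦ j, zE_res A hΦ j⟩,
      fun a => zE_mul a Φ, fun Ψ hΨ => ⟨zE_add A hΦ hΨ, zE_mono hw A hΦ hΨ⟩⟩,
      zE_const, zE_lin A⟩⟩

end Vale.Agent.P318.C
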