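import Vale.Agent.P318.C.GStmt
import Vale.Agent.P318.B.Proj
import Vale.Agent.P318.B.PatBasic

/-!
Track C, part (G): block decomposition, duality bounds, leverage.
-/

namespace Vale.Agent.P318.C

open Finset
open M (ip nsq lin)
open B (Op IsProj Kt tc res zone)
open B.PatBasic (ip_zero lin_tc sum_card_le nsq_nonneg)

namespace Lev

variable {ι B : Type} [DecidableEq ι]

/-- Weighted Cauchy-Schwarz inequality, summed over the coordinates. -/
theorem gen (blk : B → Finset ι) (x : B → ι → ℝ) (S : Finset B) (T : Finset ι) (a b : B → ℝ)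
    (A : ℝ) (hA : 0 ≤ A) (hx : ∀ J j, j ∉ blk J → x J j = 0) (ha : ∀ J, 0 ≤ a J)
    (hb : ∀ J ∈ S, 0 ≤ b J) (h : ∀ J ∈ S, ∑ j ∈ blk J ∩ T, x J j ^ 2 ≤ a J * b J)
    (hs : ∀ i, ∑ J ∈ S.filter fun J => i ∈ blk J, a J ≤ A) :
    ∑ j ∈ T, (∑ J ∈ S, x J j) ^ 2 ≤ A * ∑ J ∈ S, b J := by
  have h1 : ∀ i ∈ T, (∑ J ∈ S, x J i) ^ 2 ≤
      A * ∑ J ∈ S, if i ∈ blk J then x J i ^ 2 / a J else 0 := by
    intro i hi
    rw [← sum_filter, ← sum_filter_of_ne (p := fun J => i ∈ blk J)
      fun J _ h0 => by_contra fun hn => h0 (hx J i hn)]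
    refine (sum_sq_le_sum_mul_sum_of_sq_le_mul _ (fun J _ => ha J)
      (fun J _ => div_nonneg (sq_nonneg _) (ha J)) fun J hJ => ?_).trans
      (mul_le_mul_of_nonneg_right (hs i) (sum_nonneg fun J _ => div_nonneg (sq_nonneg _) (ha J)))
    rcases (ha J).eq_or_lt with h0 | h0
    · have h2 := (single_le_sum (f := fun j => x J j ^ 2) (fun _ _ => sq_nonneg _)
        (mem_inter.2 ⟨(mem_filter.1 hJ).2, hi⟩)).trans (h J (mem_filter.1 hJ).1)
      rw [← h0, zero_mul] at h2 ⊢
      exact h2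
    · rw [mul_div_cancel₀ _ h0.ne']
  refine (sum_le_sum h1).trans ?_
  rw [← mul_sum, sum_comm]
  refine mul_le_mul_of_nonneg_left (sum_le_sum fun J hJ => ?_) hA
  rw [← sum_filter, filter_mem_eq_inter, inter_comm, ← sum_div]
  exact div_le_of_le_mul₀ (ha J) (hb J hJ) ((h J hJ).trans_eq (mul_comm _ _))

end Lev

theorem lev_proof : LevStmt := by
  intro ι B _ _ _ _ M blk s Γ J0 wt F Lm Cn φ H
  have hF := H.one_le_F
  have hL := H.one_le_Lm
  obtain ⟨i0, -⟩ := H.ne J0
  have hz : ∀ (τ : Kt M → ℝ) J j, j ∉ blk J → ip (s J j) (res τ J) = 0 := fun τ J j h => by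
    rw [H.zero J j h, ip_zero]
  have h5 : ∀ (S : Finset B) (T : Finset ι), ∑ J ∈ S, ((blk J ∩ T).card : ℝ) ≤ F * T.card :=
    fun S T => by simpa only [inter_comm] using sum_card_le blk H.deg S T
  have h6 : ∀ (τ : Kt M → ℝ) (S : Finset B) (T : Finset ι) (a : B → ℝ) (A : ℝ), (∀ J, 0 ≤ a J) →
      (∀ J ∈ S, Op (blk J ∩ T) (s J) (a J * (blk J).card)) →
      (∀ i, ∑ J ∈ S.filter fun J => i ∈ blk J, a J ≤ A) →
      ∑ j ∈ T, (∑ J ∈ S, ip (s J j) (res τ J)) ^ 2 ≤
        A * ∑ J ∈ S, ((blk J).card : ℝ) * nsq (res τ J) := fun τ S T a A ha hO hs =>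
    Lev.gen blk (fun J j => ip (s J j) (res τ J)) S T a _ A
      ((sum_nonneg fun J _ => ha J).trans (hs i0)) (hz τ) ha
      (fun J _ => mul_nonneg (Nat.cast_nonneg _) (nsq_nonneg _))
      (fun J hJ => (hO J hJ _).trans_eq (mul_assoc _ _ _)) hs
  refine ⟨lin_tc s, fun τ e he hτ i => ?_, fun τ S i hi => ?_, fun S => ?_, h5 univ, h6,
    fun τ S T K LG εR θ2 hK hLG hε hθ hR hτ => ?_, fun Sp cG h hc hG i => ?_⟩
  · refine le_trans ?_ (mul_le_mul_of_nonneg_right (H.row i) he)
    rw [sum_mul]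
    refine (abs_sum_le_sum_abs _ _).trans (sum_le_sum fun x _ => ?_)
    rw [abs_mul]
    exact mul_le_mul_of_nonneg_left (hτ x) (abs_nonneg _)
  · exact sum_eq_zero fun J hJ => hz τ J i fun h => hi (mem_biUnion.2 ⟨J, hJ, h⟩)
  · unfold zone
    exact_mod_cast card_biUnion_le
  · have hw : ∀ J, 0 ≤ wt J := fun J => (Nat.cast_nonneg _).trans (H.wt_ge J)
    have key := Lev.gen blk (fun J j => ip (s J j) (res τ J)) S T (fun _ => 1)
      (fun J => K * (1 / Lm + εR) * (wt J * nsq (res τ J)) +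
        K * LG * θ2 * ((blk J ∩ T).card : ℝ)) F (by linarith) (hz τ) (fun _ => zero_le_one)
      (fun J _ => by
        have := hw J
        have := nsq_nonneg (res τ J)
        positivity)
      (fun J hJ => by
        refine (hR J _ inter_subset_left (res τ J)).trans ?_
        have a1 : (M J : ℝ) ≤ 1 / Lm * wt J := by
          rw [one_div, ← div_eq_inv_mul, le_div_iff₀ (by linarith), mul_comm]
          exact H.wt_dim J
        have a2 := nsq_nonneg (res τ J)
        have a3 := H.wt_ge J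
        have a4 := hτ J hJ
        calc _ = K * (M J * nsq (res τ J) + LG * (blk J ∩ T).card * nsq (res τ J) +
              εR * (blk J).card * nsq (res τ J)) := by ring
          _ ≤ K * (1 / Lm * wt J * nsq (res τ J) + LG * (blk J ∩ T).card * θ2 +
              εR * wt J * nsq (res τ J)) := by gcongr
          _ = _ := by ring)
      (fun i => by
        rw [sum_const, nsmul_eq_mul, mul_one]
        refine le_trans ?_ (H.deg i)
        exact_mod_cast card_le_card (filter_subset_filter _ (subset_univ S)))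
    rw [sum_add_distrib, ← mul_sum, ← mul_sum] at key
    refine key.trans ?_
    have := h5 S T
    calc _ ≤ F * (K * (1 / Lm + εR) * ∑ J ∈ S, wt J * nsq (res τ J) +
          K * LG * θ2 * (F * T.card)) := by gcongr
      _ = _ := by ring
  · set D := Sp (Pi.single i 1) with hD
    have h1 : ∑ j, lin (tc s) (Sp (Pi.single j 1)) i ^ 2 = ∑ j, lin (tc s) D j ^ 2 :=
      sum_congr rfl fun j _ => by rw [P318.B.ProjP.symm h j i]
    have h2 : lin (tc s) D i = ∑ j, lin (tc s) D j ^ 2 := by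
      rw [hD, P318.B.ProjP.gram_eq h i i]
      exact sum_congr rfl fun j _ => (sq _).symm
    have hφ : 0 ≤ φ := (sum_nonneg fun J _ => by positivity).trans (H.frac i)
    have h3 := h6 D univ {i} (fun J => (M J : ℝ) / (blk J).card) φ (fun J => by positivity)
      (fun J _ V => by
        rw [div_mul_cancel₀ _ (Nat.cast_ne_zero.2 (H.ne J).card_pos.ne')]
        refine (sum_le_sum_of_subset_of_nonneg inter_subset_right fun _ _ _ => sq_nonneg _).trans ?_
        rw [sum_singleton]
        refine (sum_mul_sq_le_sq_mul_sq univ (fun k => (s J i k : ℝ)) V).trans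
          (mul_le_mul_of_nonneg_right ?_ (nsq_nonneg V))
        calc ∑ k, (s J i k : ℝ) ^ 2 ≤ ∑ _k : Fin (M J), (1 : ℝ) :=
              sum_le_sum fun k _ => by
                rw [← sq_abs]
                exact pow_le_one₀ (abs_nonneg _) (H.ent J i k)
          _ = M J := by simp) H.frac
    rw [sum_singleton, ← lin_tc, h2] at h3
    have h4 := hG D
    rw [h1]
    set P := ∑ j, lin (tc s) D j ^ 2 with hP
    have hP0 : 0 ≤ P := sum_nonneg fun j _ => sq_nonneg _
    have h7 : en blk D ≤ P / cG := by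
      rw [le_div_iff₀ hc, mul_comm]
      exact h4
    have h8 : P * P ≤ φ / cG * P :=
      calc P * P = P ^ 2 := (sq P).symm
        _ ≤ φ * (P / cG) := h3.trans (mul_le_mul_of_nonneg_left h7 hφ)
        _ = _ := by ring
    rcases hP0.eq_or_lt with h0 | h0
    · rw [← h0]
      positivity
    · exact le_of_mul_le_mul_right h8 h0

end Vale.Agent.P318.C
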