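import Vale.Agent.P318.C.StmtI
import Vale.Agent.P318.M.Line
import Vale.Agent.P318.M.Torus
import Vale.Agent.P318.M.Gauss
import Vale.Agent.P318.M.Bit

/-!
The weighted Gaussian move on functions supported in the window, and the Hoeffding tail bound.
-/

namespace Vale.Agent.P318.C

open Finset MeasureTheory ProbabilityTheory
open M (ind bit wt1 wt Eb Dd pt zz U01 coef cube tm Per BM ip ch fc nsq gm chi kap k0 bb A0 A1)

open M.Line in
theorem line_proof : LineStmt := by
  intro κ _ σ ε W ω t e s F G hε hW hWσ hbb _ hω he pF bF pG bG sF sG hk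
  classical
  obtain ⟨-, hP, hP2, -, -⟩ := M.torus_proof κ
  obtain ⟨hG1, hG2⟩ := M.gauss_proof
  obtain ⟨-, -, -, -, hline⟩ := hG1 κ σ
  obtain ⟨hs0, hs1, hk0, -, -, -⟩ := hG2 W ε hW hε hbb
  have hkl : ∀ i : ℤ, kap σ ε s (i • s) =
      ((k0 W ε * Real.exp (-(bb W ε * (i : ℝ) ^ 2)) : ℝ) : ℂ) :=
    fun i => hline ε W s i hε hW hWσ
  set w : ℤ → ℝ := fun i => k0 W ε * Real.exp (-(bb W ε * (i : ℝ) ^ 2)) with hw
  have hw0 : ∀ i, 0 ≤ w i := fun i => mul_nonneg hk0.le (Real.exp_pos _).le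
  set a : (κ → ℤ) → ℂ := fun m => fc F m * (starRingEnd ℂ) (fc G m) with ha
  obtain ⟨hcs, hcs'⟩ := cs (f := fun m => ‖fc F m‖) (g := fun m => ‖fc G m‖)
    (fun _ => norm_nonneg _) (fun _ => norm_nonneg _) (hP2 F pF bF) (hP2 G pG bG)
  have hna : ∀ m, ‖a m‖ = ‖fc F m‖ * ‖fc G m‖ := fun m => by
    simp only [ha, norm_mul, Complex.norm_conj]
  set φ : (κ → ℤ) → (κ → ℝ) → ℂ :=
    fun m ξ => a m * ((chi ε (ip s ξ) : ℂ) * ch (-ip m ξ)) with hφ
  have hφc : ∀ m, Continuous (φ m) := fun m => by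
    refine continuous_const.mul (Continuous.mul ?_ ?_)
    · exact Complex.continuous_ofReal.comp ((continuous_chi ε).comp (continuous_ip s))
    · exact continuous_ch.comp (continuous_ip m).neg
  have hφb : ∀ m ξ, ‖φ m ξ‖ ≤ ‖fc F m‖ * ‖fc G m‖ := fun m ξ => by
    simp only [hφ, norm_mul, norm_ch, mul_one, Complex.norm_real, Real.norm_eq_abs, hna,
      abs_of_nonneg (chi_nonneg ε _)]
    exact mul_le_of_le_one_right (by positivity) (chi_le _ _)
  have hφi : ∀ m, Integrable (φ m) (gm κ σ) := fun m =>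
    Integrable.of_bound (hφc m).aestronglyMeasurable _ (Filter.Eventually.of_forall (hφb m))
  have hφs : Summable fun m => ∫ ξ, ‖φ m ξ‖ ∂gm κ σ := by
    refine Summable.of_nonneg_of_le (fun m => integral_nonneg fun _ => norm_nonneg _)
      (fun m => ?_) hcs
    have := integral_mono (hφi m).norm (integrable_const (‖fc F m‖ * ‖fc G m‖)) (hφb m)
    simpa using this
  have hsum := hasSum_integral_of_summable_integral_norm hφi hφs
  have e1 : ∀ m, ∫ ξ, φ m ξ ∂gm κ σ = a m * kap σ ε s m := fun m => by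
    simp only [hφ, kap]
    rw [integral_const_mul]
  have e2 : ∀ ξ, ∑' m, φ m ξ =
      ((chi ε (ip s ξ) * tm (fun β => F β * G (β + ξ)) : ℝ) : ℂ) := fun ξ => by
    have := ((hP F G pF bF pG bG ξ).mul_left (chi ε (ip s ξ) : ℂ)).tsum_eq
    rw [Complex.ofReal_mul, ← this]
    refine tsum_congr fun m => ?_
    simp only [hφ, ha]
    ring
  simp only [e1, e2] at hsum
  rw [integral_complex_ofReal] at hsum
  set I0 := ∫ ξ, chi ε (ip s ξ) * tm (fun β => F β * G (β + ξ)) ∂gm κ σ with hI0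
  have hinj : Function.Injective fun i : ℤ => i • s := by
    intro i j hij
    obtain ⟨k, hk⟩ : ∃ k, s k ≠ 0 := by
      by_contra h
      simp only [not_exists, not_not] at h
      simp only [h, Int.cast_zero, ne_eq, OfNat.ofNat_ne_zero, not_false_eq_true, zero_pow,
        sum_const_zero, mul_zero] at hWσ
      exact (pow_pos hW 2).ne' hWσ
    exact mul_right_cancel₀ hk (congrFun hij k)
  set u1 : (κ → ℤ) → ℂ := fun m => if ∃ i : ℤ, m = i • s then a m * kap σ ε s m else 0 with hu1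
  set u2 : (κ → ℤ) → ℂ := fun m => if ∃ i : ℤ, m = i • s then 0 else a m * kap σ ε s m with hu2
  have hu2b : ∀ m, ‖u2 m‖ ≤ e * (‖fc F m‖ * ‖fc G m‖) := fun m => by
    simp only [hu2]
    split_ifs with h
    · rw [norm_zero]; positivity
    · rw [norm_mul, hna]
      by_cases h1 : fc F m = 0
      · simp [h1]
      by_cases h2 : fc G m = 0
      · simp [h2]
      rw [mul_comm e]
      exact mul_le_mul_of_nonneg_left (hk m h h1 h2) (by positivity)
  have hu2s : Summable u2 := Summable.of_norm_bounded (hcs.mul_left e) hu2b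
  have hu2n : ‖∑' m, u2 m‖ ≤
      e * Real.sqrt (tm fun β => F β ^ 2) * Real.sqrt (tm fun β => G β ^ 2) := by
    refine (tsum_of_norm_bounded (hcs.mul_left e).hasSum hu2b).trans ?_
    rw [tsum_mul_left, mul_assoc]
    exact mul_le_mul_of_nonneg_left hcs' he
  have hu1s : HasSum u1 ((I0 : ℂ) - ∑' m, u2 m) := by
    have e4 : u1 = fun m => a m * kap σ ε s m - u2 m := by
      funext m
      simp only [hu1, hu2]
      split_ifs <;> simp
    rw [e4]
    exact hsum.sub hu2s.hasSum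
  have hl : HasSum (fun i : ℤ => a (i • s) * (w i : ℂ)) ((I0 : ℂ) - ∑' m, u2 m) := by
    have := (hinj.hasSum_iff (f := u1) (a := (I0 : ℂ) - ∑' m, u2 m) (fun m hm => by
      simp only [hu1]
      rw [if_neg]
      rintro ⟨i, rfl⟩
      exact hm ⟨i, rfl⟩)).2 hu1s
    have e5 : (fun i : ℤ => a (i • s) * (w i : ℂ)) = u1 ∘ fun i : ℤ => i • s := by
      funext i
      simp only [hu1, Function.comp]
      rw [if_pos ⟨i, rfl⟩, hkl]
    rw [e5]
    exact this
  have hA0 : HasSum (fun i : ℤ => (tm F : ℂ) * (tm G : ℂ) * (w i : ℂ))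
      ((tm F : ℂ) * (tm G : ℂ) * (A0 W ε : ℂ)) :=
    (Complex.hasSum_ofReal.2 hs0.hasSum).mul_left _
  have hd := hl.sub hA0
  have hb : HasSum (fun i : ℤ => 4 * Real.pi * ω * (tm fun β => |F β|) * (tm fun β => |G β|) *
      (|(i : ℝ)| * w i))
      (4 * Real.pi * ω * (tm fun β => |F β|) * (tm fun β => |G β|) * A1 W ε) :=
    hs1.hasSum.mul_left _
  have hn := hd.norm_le_of_bounded hb fun i => by
    rw [← sub_mul, norm_mul, Complex.norm_real, Real.norm_eq_abs, abs_of_nonneg (hw0 i)]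
    have := mul_le_mul_of_nonneg_right (prod_line bF bG s t ω hω sF sG i) (hw0 i)
    refine this.trans (le_of_eq ?_)
    ring
  have e3 : ((I0 - A0 W ε * tm F * tm G : ℝ) : ℂ) =
      ((I0 : ℂ) - ∑' m, u2 m - (tm F : ℂ) * (tm G : ℂ) * (A0 W ε : ℂ)) + ∑' m, u2 m := by
    push_cast; ring
  rw [← Real.norm_eq_abs, ← Complex.norm_real, e3]
  refine (norm_add_le _ _).trans ?_
  have := add_le_add hn hu2n
  refine this.trans (le_of_eq ?_)
  ring

namespace Line

theorem two_point {p : ℝ} (h0 : 0 ≤ p) (h1 : p ≤ 1) (t : ℝ) :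
    p * Real.exp (t * (1 - p)) + (1 - p) * Real.exp (t * (0 - p)) ≤ Real.exp (t ^ 2 / 4) := by
  have hq : 0 ≤ 1 - p := sub_nonneg.2 h1
  have a1 : 1 ≤ p * Real.exp (-(t * (1 - p))) + (1 - p) * Real.exp (-(t * (0 - p))) := by
    have b1 := mul_le_mul_of_nonneg_left (Real.add_one_le_exp (-(t * (1 - p)))) h0
    have b2 := mul_le_mul_of_nonneg_left (Real.add_one_le_exp (-(t * (0 - p)))) hq
    nlinarith
  have a2 : 0 ≤ p * Real.exp (t * (1 - p)) + (1 - p) * Real.exp (t * (0 - p)) := by positivity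
  refine (le_mul_of_one_le_right a2 a1).trans ?_
  have e1 : Real.exp (t * (1 - p)) * Real.exp (-(t * (1 - p))) = 1 := by
    rw [← Real.exp_add, add_neg_cancel, Real.exp_zero]
  have e2 : Real.exp (t * (0 - p)) * Real.exp (-(t * (0 - p))) = 1 := by
    rw [← Real.exp_add, add_neg_cancel, Real.exp_zero]
  have e3 : Real.exp (t * (1 - p)) * Real.exp (-(t * (0 - p))) = Real.exp t := by
    rw [← Real.exp_add]; congr 1; ring
  have e4 : Real.exp (t * (0 - p)) * Real.exp (-(t * (1 - p))) = Real.exp (-t) := by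
    rw [← Real.exp_add]; congr 1; ring
  have e5 : Real.exp t + Real.exp (-t) = 4 * Real.cosh (t / 2) ^ 2 - 2 := by
    have b1 := Real.cosh_two_mul (t / 2)
    have b2 := Real.cosh_sq (t / 2)
    rw [mul_div_cancel₀ t two_ne_zero, Real.cosh_eq] at b1
    linarith
  have a3 : 1 ≤ Real.cosh (t / 2) ^ 2 := one_le_pow₀ (Real.one_le_cosh _)
  have a4 : Real.cosh (t / 2) ^ 2 ≤ Real.exp (t ^ 2 / 4) := by
    refine (pow_le_pow_left₀ (Real.cosh_pos _).le (Real.cosh_le_exp_half_sq _) 2).trans_eq ?_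
    rw [← Real.exp_nat_mul]
    congr 1
    push_cast
    ring
  calc _ = 1 + 4 * (p * (1 - p)) * (Real.cosh (t / 2) ^ 2 - 1) := by
        linear_combination p ^ 2 * e1 + (1 - p) ^ 2 * e2 + p * (1 - p) * (e3 + e4 + e5)
    _ ≤ 1 + 1 * (Real.cosh (t / 2) ^ 2 - 1) := by
        gcongr
        nlinarith [sq_nonneg (2 * p - 1)]
    _ ≤ _ := by linarith

variable {ι : Type} [Fintype ι] [DecidableEq ι] {p : ι → ℝ}

theorem mgf (hp : ∀ i, 0 ≤ p i ∧ p i ≤ 1) (a : ι → ℝ) (θ : ℝ) :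
    Eb p (fun b => Real.exp (θ * ∑ j, a j * (bit (b j) - p j))) ≤
      Real.exp (θ ^ 2 / 4 * ∑ j, a j ^ 2) := by
  simp only [mul_sum, Real.exp_sum]
  rw [M.Bit.Eb_prod p fun j b => Real.exp (θ * (a j * (bit b - p j)))]
  refine prod_le_prod (fun j _ => add_nonneg (mul_nonneg (hp j).1 (Real.exp_pos _).le)
    (mul_nonneg (sub_nonneg.2 (hp j).2) (Real.exp_pos _).le)) fun j _ => ?_
  have h := two_point (hp j).1 (hp j).2 (θ * a j)
  rw [mul_assoc, mul_assoc, mul_pow, mul_div_right_comm] at h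
  simpa only [bit, if_true, Bool.false_eq_true, if_false] using h

theorem abs_mul_le {g z β θ : ℝ} (hg : |g| ≤ 1) (hθ : 0 < θ) :
    |g * z| ≤ β * |g| + Real.exp (-(θ * β)) / (2 * θ) * (Real.exp (θ * z) + Real.exp (-θ * z)) := by
  have h1 : θ * (|z| - β) ≤ Real.exp (θ * (|z| - β) - 1) := by
    linarith [Real.add_one_le_exp (θ * (|z| - β) - 1)]
  have h2 : Real.exp (θ * |z|) ≤ Real.exp (θ * z) + Real.exp (-θ * z) := by
    rcases abs_choice z with h | h <;> rw [h]
    · linarith [Real.exp_pos (-θ * z)]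
    · rw [mul_neg, ← neg_mul]
      linarith [Real.exp_pos (θ * z)]
  have h3 : Real.exp (θ * (|z| - β) - 1) * 2 ≤ Real.exp (-(θ * β)) * Real.exp (θ * |z|) := by
    have h4 : (2 : ℝ) ≤ Real.exp 1 := by linarith [Real.add_one_le_exp 1]
    refine (mul_le_mul_of_nonneg_left h4 (Real.exp_pos _).le).trans_eq ?_
    rw [← Real.exp_add, ← Real.exp_add]
    congr 1
    ring
  set K := Real.exp (-(θ * β)) / (2 * θ) * (Real.exp (θ * z) + Real.exp (-θ * z)) with hK
  have K0 : 0 ≤ K := by positivity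
  have h4 : |z| - β ≤ K := by
    rw [hK, div_mul_eq_mul_div, le_div_iff₀ (by positivity)]
    have h5 := mul_le_mul_of_nonneg_left h2 (Real.exp_pos (-(θ * β))).le
    linarith
  rw [abs_mul]
  nlinarith [abs_nonneg g]

end Line

open M.Bit in
theorem hoef_proof : HoefStmt := by
  intro ι _ _ p hp G a A l hG hA hl ha
  rcases hA.eq_or_lt with rfl | hA
  · have h1 : ∀ j, a j = 0 := fun j => pow_eq_zero_iff two_ne_zero |>.1 (le_antisymm
      ((single_le_sum (f := fun j => a j ^ 2) (fun _ _ => sq_nonneg _) (mem_univ j)).trans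
        (ha.trans_eq (by simp))) (sq_nonneg _))
    simp [h1, Eb]
  have s1 : 1 ≤ Real.sqrt l := Real.one_le_sqrt.2 hl
  have s2 : Real.sqrt l ^ 2 = l := Real.sq_sqrt (by linarith)
  set θ := 2 * Real.sqrt l / A with hθ
  have θ0 : 0 < θ := by positivity
  have e1 : θ * (Real.sqrt l * A) = 2 * l := by
    rw [hθ]; field_simp; exact s2
  have m : ∀ η : ℝ, η ^ 2 = θ ^ 2 →
      Eb p (fun b => Real.exp (η * ∑ j, a j * (bit (b j) - p j))) ≤ Real.exp l := fun η hη => by
    refine (Line.mgf hp a η).trans (Real.exp_le_exp.2 ?_)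
    rw [hη]
    refine (mul_le_mul_of_nonneg_left ha (by positivity)).trans_eq ?_
    rw [hθ]; field_simp; linarith
  refine (abs_Eb_le hp _).trans ((Eb_mono hp fun b =>
    Line.abs_mul_le (β := Real.sqrt l * A) (hG b) θ0).trans ?_)
  rw [Eb_add, Eb_const_mul, Eb_const_mul, Eb_add, e1]
  refine add_le_add le_rfl ?_
  have h1 := add_le_add (m θ rfl) (m (-θ) (neg_sq θ))
  refine (mul_le_mul_of_nonneg_left h1 (by positivity)).trans ?_
  have e2 : Real.exp (-(2 * l)) * Real.exp l = Real.exp (-l) := by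
    rw [← Real.exp_add]; congr 1; ring
  have h2 : 1 / θ ≤ A := by
    rw [hθ, one_div_div, div_le_iff₀ (by positivity)]
    nlinarith
  calc _ = 1 / θ * (Real.exp (-(2 * l)) * Real.exp l) := by field_simp; ring
    _ ≤ _ := by rw [e2]; gcongr

end Vale.Agent.P318.C
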