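import Vale.Agent.P318.C.GStmt
import Vale.Agent.P318.B.MetricB

/-!
Track C: collapse of the bad vertices.
-/

namespace Vale.Agent.P318.C

open Finset MeasureTheory
open M (ind wt Eb pt zz tm BM lin Inv CND perp vv cube neg_proof torus_proof)
open B (cd IsProj rr Nice)
open M.MetricAux B.MetricB

/-- The discrete kernel is of negative type. -/
lemma cnd_ne {X Y : Type} (v : X → Y) : CND fun x y => ind (v x ≠ v y) := by
  classical
  refine ⟨fun x => ind_neg (by simp), fun x y => by simp only [ne_comm], fun n x a ha => ?_⟩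
  set T := univ.image fun i => v (x i) with hT
  set e : Fin n → Y → ℝ := fun i y => if v (x i) = y then 1 else 0 with he
  have h1 : ∀ i j, ind (v (x i) ≠ v (x j)) = 1 - ∑ y ∈ T, e i y * e j y := by
    intro i j
    rw [Finset.sum_eq_single_of_mem (s := T) (f := fun y => e i y * e j y) (v (x i))
      (mem_image_of_mem (fun i => v (x i)) (mem_univ i)) fun y _ hy => by simp [he, hy.symm]]
    by_cases h : v (x j) = v (x i)
    · rw [ind_neg (not_not.2 h.symm)]
      simp [he, h]
    · rw [ind_pos (Ne.symm h)]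
      simp [he, h]
  have h2 : ∑ i, ∑ j, a i * a j * ind (v (x i) ≠ v (x j)) =
      (∑ i, a i) * (∑ j, a j) - ∑ y ∈ T, (∑ i, a i * e i y) ^ 2 := by
    simp only [sq, Finset.sum_mul_sum]
    simp only [h1, mul_sub, mul_one, Finset.sum_sub_distrib, Finset.mul_sum]
    congr 1
    rw [Finset.sum_comm (s := T)]
    refine Finset.sum_congr rfl fun i _ => ?_
    rw [Finset.sum_comm (s := T)]
    exact Finset.sum_congr rfl fun j _ => Finset.sum_congr rfl fun y _ => by ring
  rw [h2, ha, zero_mul, zero_sub, neg_nonpos]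
  exact Finset.sum_nonneg fun y _ => sq_nonneg _

theorem metricC_proof (hW : WinStmt) (hPr : B.ProjStmt) : MetricCStmt := by
  classical
  intro ι κ _ _ _ _ S Sp c G w ψ Λ pb hP hs hw hG1 hB hψ hTr hpb0 hpb hBM htm
  have hRa : WinAt w := hW w hw
  obtain ⟨N1, N2, N3, N4, -⟩ := neg_proof
  obtain ⟨-, P2, P3, P4, P5, -⟩ := (hPr.1 ι κ S).2 Sp hP
  have hp : ∀ (y : ι → ℝ) i, 0 ≤ py w y i ∧ py w y i ≤ 1 := fun y i =>
    ⟨hRa.pr_nonneg _, hRa.pr_le _⟩
  have hw0 : ∀ (y : ι → ℝ) b, 0 ≤ wt (py w y) b := fun y => M.Bit.wt_nonneg (hp y)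
  have hw1 : ∀ y : ι → ℝ, ∑ b, wt (py w y) b = 1 := fun y => M.Bit.sum_wt _
  set Gd : (ι → ℤ) → Prop := fun x => G (vv S Sp c x) with hGd
  set ρ := rr S Sp c with hρ
  have R1 : CND ρ := N4 _ _ (vv S Sp c)
  have hρ0 : ∀ x x', 0 ≤ ρ x x' := N1 _ _ R1
  have hn1 : (1 : ℝ) ≤ cd ι := by
    unfold cd
    exact_mod_cast Fintype.card_pos
  have hn : (0 : ℝ) < cd ι := by linarith
  have R2 : ∀ x j, ρ x (x + Pi.single j 1) ≤ 1 := by
    intro x j
    have h1 : ∀ i, vv S Sp c x i - vv S Sp c (x + Pi.single j 1) i =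
        perp S Sp (fun i => -((Pi.single j (1 : ℤ) : ι → ℤ) i : ℝ)) i := by
      intro i
      have h2 : (fun i => -((Pi.single j (1 : ℤ) : ι → ℤ) i : ℝ)) =
          (fun i => (x i : ℝ) + c i) -
            fun i => (((x + Pi.single j 1 : ι → ℤ) i : ℤ) : ℝ) + c i := by
        funext i
        simp only [Pi.sub_apply, Pi.add_apply, Int.cast_add]
        ring
      rw [h2, P2]
      rfl
    simp only [hρ, rr, h1]
    refine (P3 _).trans (le_of_eq ?_)
    rw [Finset.sum_eq_single j]
    · simp
    · intro i _ hi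
      simp [Pi.single_eq_of_ne hi]
    · intro h
      exact absurd (mem_univ j) h
  have hgood : ∀ (β : κ → ℝ) (b : ι → Bool), Nice S Sp G (zz (c + lin S β) b) →
      Gd (pt (c + lin S β) b) ∧
        ∀ j, |vv S Sp c (pt (c + lin S β) b) j - zz (c + lin S β) b j| ≤ 1 / 160 := by
    intro β b h1
    simp only [hGd]
    rw [P4 c β b]
    exact h1
  obtain ⟨x0, hx0⟩ : ∃ x0, Gd x0 := by
    by_contra hcon
    push Not at hcon
    have h1 : ∀ β : κ → ℝ, (Eb (py w (c + lin S β)) fun b =>
        ind (¬ Nice S Sp G (zz (c + lin S β) b))) = 1 := by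
      intro β
      rw [← M.Bit.Eb_const (py w (c + lin S β)) 1]
      congr 1
      funext b
      exact ind_pos fun hv => hcon _ (hgood β b hv).1
    simp only [h1] at htm
    rw [M.Block.tm_const] at htm
    linarith
  set φ : (ι → ℤ) → (ι → ℤ) := fun x => if Gd x then x else x0 with hφ
  have hφg : ∀ x, Gd (φ x) := by
    intro x
    by_cases h : Gd x
    · simp only [hφ, if_pos h]; exact h
    · simp only [hφ, if_neg h]; exact hx0
  have hφi : ∀ x, Gd x → φ x = x := fun x h => by simp only [hφ, if_pos h]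
  have hΛ : 1 ≤ Λ := by
    have := hψ 1 zero_le_one
    linarith [this.1, this.2]
  set dd : (ι → ℤ) → (ι → ℤ) → ℝ := fun x x' =>
    ψ (ρ (φ x) (φ x')) + Λ * ind (vv S Sp c (φ x) ≠ vv S Sp c (φ x')) with hdd
  have hlo : ∀ x x', ρ (φ x) (φ x') ≤ dd x x' := fun x x' =>
    (hψ _ (hρ0 _ _)).1.trans (le_add_of_nonneg_right (mul_nonneg (by linarith) (ind_nonneg _)))
  have hup : ∀ x x', dd x x' ≤ Λ * (ρ (φ x) (φ x') + 1) := fun x x' => by
    rw [mul_add]
    exact add_le_add (hψ _ (hρ0 _ _)).2 (mul_le_mul_of_nonneg_left (ind_le_one _) (by linarith))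
  have hd0 : ∀ x x', 0 ≤ dd x x' := fun x x' => (hρ0 _ _).trans (hlo x x')
  have hbd : ∀ x x', dd x x' ≤ Λ * (5 * cd ι) := by
    intro x x'
    have h2 : ρ (φ x) (φ x') ≤ ∑ _j : ι, (4 : ℝ) := by
      refine Finset.sum_le_sum fun j _ => ?_
      have a1 := abs_le.1 (hG1 _ (hφg x) j)
      have a2 := abs_le.1 (hG1 _ (hφg x') j)
      nlinarith [a1.1, a1.2, a2.1, a2.2]
    simp only [sum_const, card_univ, nsmul_eq_mul] at h2
    refine (hup x x').trans (mul_le_mul_of_nonneg_left ?_ (by linarith))
    unfold cd at hn1 ⊢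
    linarith
  have hBE : BM (fun β : κ → ℝ => Eb (py w (c + lin S β)) fun b =>
      ind (¬ Nice S Sp G (zz (c + lin S β) b))) := M.Block.bm_comp hBM (meas_aff S c)
  have hint := integrable_of_BM hBE
  refine ⟨dd, ?_, ?_, ?_, ⟨_, hbd⟩, ?_, ?_⟩
  · exact N3 _ _ _ Λ (hB _ _ (N2 _ _ ρ φ R1) fun _ _ => hρ0 _ _)
      (cnd_ne fun x => vv S Sp c (φ x)) (by linarith)
  · intro x y z
    by_cases h1 : vv S Sp c (φ x) = vv S Sp c (φ y)
    · have : dd x z = dd y z := by simp only [hdd, hρ, rr, h1]
      linarith [hd0 x y]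
    by_cases h2 : vv S Sp c (φ y) = vv S Sp c (φ z)
    · have : dd x z = dd x y := by simp only [hdd, hρ, rr, h2]
      linarith [hd0 y z]
    have t1 := hTr _ _ _ (hφg x) (hφg y) (hφg z)
    have t2 := mul_le_mul_of_nonneg_left (ind_le_one (vv S Sp c (φ x) ≠ vv S Sp c (φ z)))
      (show 0 ≤ Λ by linarith)
    simp only [hdd, ind_pos (show _ ≠ _ from h1), ind_pos (show _ ≠ _ from h2)]
    linarith
  · intro x' r0 _ r hr x
    have e1 := P5 c r0 r x hr
    have e2 : vv S Sp c (φ (x + r)) = vv S Sp c (φ x) := by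
      by_cases h : Gd x
      · have h' : Gd (x + r) := by simp only [hGd]; rw [e1]; exact h
        rw [hφi _ h, hφi _ h', e1]
      · have h' : ¬ Gd (x + r) := by simp only [hGd]; rw [e1]; exact h
        simp only [hφ, if_neg h, if_neg h']
    simp only [hdd, hρ, rr, e2]
  · have hdp : BM (dpr w) := M.Block.bm_of_mem hRa.dpr_meas hRa.dpr_nonneg hRa.dpr_le
    have hbd' : ∀ j, BM fun β : κ → ℝ => dpr w ((c + lin S β) j) := fun j =>
      M.Block.bm_comp hdp ((measurable_pi_apply j).comp (meas_aff S c))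
    have hoe : 0 < w.om * w.et := mul_pos hw.1 hw.2.2.1
    set k := 2 / Real.sqrt (w.om * w.et) with hk
    have hk0 : 0 ≤ k := by positivity
    have hb1 := M.Block.bm_mul (M.Block.bm_const (2 * Λ))
      (M.Block.bm_sum univ fun j (_ : j ∈ (univ : Finset ι)) => hbd' j)
    have hb2 := M.Block.bm_mul (M.Block.bm_const (10 * Λ * cd ι ^ 2 * k)) (bm_sqrt hBE)
    refine (tm_mono (G := fun β : κ → ℝ => 2 * Λ * ∑ j, dpr w ((c + lin S β) j) +
      10 * Λ * cd ι ^ 2 * k *
      Real.sqrt (Eb (py w (c + lin S β)) fun b => ind (¬ Nice S Sp G (zz (c + lin S β) b))))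
      (fun β => ?_) (integrable_of_BM (M.Block.bm_add hb1 hb2)) fun β => ?_).trans ?_
    · exact Finset.sum_nonneg fun j _ => mul_nonneg (hRa.dpr_nonneg _)
        (Eb_nonneg (hw0 _) fun b => hd0 _ _)
    · have hg := hgood β
      set y := c + lin S β with hy
      set I : (ι → Bool) → ℝ := fun b => ind (¬ Nice S Sp G (zz y b)) with hI
      have hI01 : ∀ b, 0 ≤ I b ∧ I b ≤ 1 := fun b => ⟨ind_nonneg _, ind_le_one _⟩
      have hΛn : 0 ≤ Λ * (5 * cd ι) := by positivity
      have h1 : ∀ j, dpr w (y j) * (Eb (py w y) fun b =>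
          dd (pt y (Function.update b j true)) (pt y (Function.update b j false))) ≤
          2 * Λ * dpr w (y j) + 10 * Λ * cd ι * k * Real.sqrt (Eb (py w y) I) := by
        intro j
        have h2 : (Eb (py w y) fun b =>
            dd (pt y (Function.update b j true)) (pt y (Function.update b j false))) ≤
            Eb (py w y) fun b => 2 * Λ + Λ * (5 * cd ι) *
              (I (Function.update b j true) + I (Function.update b j false)) := by
          refine M.Bit.Eb_mono (hp y) fun b => ?_
          have i1 := mul_nonneg hΛn (hI01 (Function.update b j true)).1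
          have i2 := mul_nonneg hΛn (hI01 (Function.update b j false)).1
          have i3 := hbd (pt y (Function.update b j true)) (pt y (Function.update b j false))
          rw [mul_add]
          by_cases hv1 : Nice S Sp G (zz y (Function.update b j true))
          · by_cases hv2 : Nice S Sp G (zz y (Function.update b j false))
            · have i4 := hup (pt y (Function.update b j true)) (pt y (Function.update b j false))
              rw [hφi _ (hg _ hv1).1, hφi _ (hg _ hv2).1] at i4
              have i5 := R2 (pt y (Function.update b j true)) j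
              rw [← pt_upd] at i5
              nlinarith
            · have i4 : I (Function.update b j false) = 1 := ind_pos hv2
              rw [i4]
              linarith
          · have i4 : I (Function.update b j true) = 1 := ind_pos hv1
            rw [i4]
            linarith
        rw [Eb_aff (hw1 _), M.Bit.Eb_add _ (fun b => I (Function.update b j true))] at h2
        have hd : dpr w (y j) ^ 2 ≤ k ^ 2 * (py w y j * (1 - py w y j)) := by
          rw [← hRa.kp2_mul, hk, div_pow, Real.sq_sqrt hoe.le]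
          exact mul_le_mul_of_nonneg_right ((hRa.kp2_le _).trans (le_of_eq (by norm_num)))
            (hRa.pq_nonneg _)
        have h3 := cond_le (hp y) hI01 j hk0 hd true
        have h4 := cond_le (hp y) hI01 j hk0 hd false
        refine (mul_le_mul_of_nonneg_left h2 (hRa.dpr_nonneg _)).trans ?_
        have h5 := mul_le_mul_of_nonneg_left (add_le_add h3 h4) hΛn
        linarith
      refine (Finset.sum_le_sum fun j _ => h1 j).trans (le_of_eq ?_)
      rw [Finset.sum_add_distrib, ← Finset.mul_sum]
      simp only [sum_const, card_univ, nsmul_eq_mul, cd]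
      ring
    · rw [M.Block.tm_add hb1 hb2, M.Block.tm_cmul, M.Block.tm_cmul, M.Block.tm_sum univ fun j _ => hbd' j]
      have h1 : ∀ j, tm (fun β : κ → ℝ => dpr w ((c + lin S β) j)) = 1 := by
        intro j
        obtain ⟨k, hk⟩ := hs j
        rw [← hRa.int_dpr, ← (torus_proof κ).2.2.2.2 (dpr w) (S j) k (c j) hdp hRa.dpr_per hk]
        rfl
      simp only [h1, sum_const, card_univ, nsmul_eq_mul, mul_one]
      have h2 := tm_sqrt_le hBE (fun β => Eb_nonneg (hw0 _) fun b => ind_nonneg _) htm
      have h3 := mul_le_mul_of_nonneg_left h2 (show 0 ≤ 10 * Λ * cd ι ^ 2 * k by positivity)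
      have h4 : k * Real.sqrt pb = 2 * Real.sqrt (pb / (w.om * w.et)) := by
        rw [Real.sqrt_div hpb0, hk]
        ring
      have h5 : 0 ≤ Λ * cd ι ^ 2 * Real.sqrt (pb / (w.om * w.et)) := by positivity
      rw [mul_assoc _ k (Real.sqrt pb), h4] at h3
      unfold cd at h3 h5 ⊢
      linarith
  · intro x'
    set v' := vv S Sp c (φ x') with hv'
    have hai : ∀ j, Integrable (fun β : κ → ℝ => arc ((c + lin S β) j - v' j + 1 / 80))
        (cube κ) := by
      intro j
      obtain ⟨hm, C, hC⟩ := arc_BM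
      refine integrable_of_BM ⟨hm.comp ?_, C, fun β => hC _⟩
      exact (((measurable_pi_apply j).comp (meas_aff S c)).sub_const _).add_const _
    have ham : ∀ j, ∫ β, arc ((c + lin S β) j - v' j + 1 / 80) ∂cube κ ≤ 1 / 40 := by
      intro j
      obtain ⟨k, hk⟩ := hs j
      have h1 := (torus_proof κ).2.2.2.2 arc (S j) k (c j - v' j + 1 / 80) arc_BM arc_per hk
      refine le_trans (le_of_eq ?_) arc_int
      rw [← h1]
      unfold tm
      congr 1
      funext β
      congr 1
      simp only [Pi.add_apply, lin]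
      ring
    have hsi : Integrable (fun β : κ → ℝ => 2 / (Fintype.card ι : ℝ) *
        ∑ j, arc ((c + lin S β) j - v' j + 1 / 80)) (cube κ) :=
      (integrable_finsetSum _ fun j _ => hai j).const_mul _
    refine (tm_mono (G := fun β : κ → ℝ => 2 / (Fintype.card ι : ℝ) *
        ∑ j, arc ((c + lin S β) j - v' j + 1 / 80) + 1 *
      Eb (py w (c + lin S β)) fun b => ind (¬ Nice S Sp G (zz (c + lin S β) b)))
      (fun β => ?_) ?_ fun β => ?_).trans ?_
    · exact Eb_nonneg (hw0 _) fun b => ind_nonneg _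
    · exact hsi.add (hint.const_mul 1)
    · rw [← Eb_aff (hw1 _)]
      refine Eb_mono (hw0 _) fun b hb => ?_
      beta_reduce
      have ha0 : 0 ≤ 2 / (Fintype.card ι : ℝ) * ∑ j, arc ((c + lin S β) j - v' j + 1 / 80) :=
        mul_nonneg (by positivity) (Finset.sum_nonneg fun j _ => ind_nonneg _)
      by_cases hv : Nice S Sp G (zz (c + lin S β) b)
      · obtain ⟨g1, g2⟩ := hgood β b hv
        rw [ind_neg (not_not.2 hv), mul_zero, add_zero]
        by_cases hd : dd (pt (c + lin S β) b) x' < cd ι / 51200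
        · rw [ind_pos hd]
          have h2 := (hlo _ _).trans_lt hd
          rw [hφi _ g1] at h2
          exact count_arc (c + lin S β) (vv S Sp c (pt (c + lin S β) b)) v'
            (pt (c + lin S β) b) g2 h2
        · rw [ind_neg hd]
          exact ha0
      · rw [ind_pos hv]
        linarith [ind_le_one (dd (pt (c + lin S β) b) x' < cd ι / 51200)]
    · unfold tm at htm ⊢
      rw [integral_add hsi (hint.const_mul 1), integral_const_mul, integral_const_mul,
        integral_finsetSum _ fun j _ => hai j]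
      have h2 := Finset.sum_le_sum fun j (_ : j ∈ (univ : Finset ι)) => ham j
      simp only [sum_const, card_univ, nsmul_eq_mul] at h2
      have hn' : (0 : ℝ) < Fintype.card ι := hn
      have h3 : 2 / (Fintype.card ι : ℝ) *
          ∑ j, ∫ β, arc ((c + lin S β) j - v' j + 1 / 80) ∂cube κ ≤ 1 / 20 := by
        refine (mul_le_mul_of_nonneg_left h2 (by positivity)).trans (le_of_eq ?_)
        field_simp
        norm_num
      linarith

end Vale.Agent.P318.C
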