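import Vale.Agent.P318.C.StmtI
import Vale.Agent.P318.M.Model
import Vale.Agent.P318.M.Reduce
import Vale.Agent.P318.M.Bit

/-!
Track C: from the model on the torus to a finite weighted instance.
-/

namespace Vale.Agent.P318.C

open Finset MeasureTheory ProbabilityTheory
open M (ind bit wt1 wt Eb Dd pt zz U01 coef cube tm Per BM ip ch fc nsq gm chi kap k0 bb A0 A1
  Dual Lat lin Inv Ksh CND blk)
open M.Model (ind_nonneg ind_pos ind_neg law rep rep_inv inv_rep meas_y meas_pt)

namespace Model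

variable {ι κ : Type} [Fintype ι] [DecidableEq ι] [Fintype κ]

omit [DecidableEq ι] in
theorem meas_wt {w : Wn} (hR : WinAt w) (b : ι → Bool) :
    Measurable fun y : ι → ℝ => wt (py w y) b := by
  simp only [wt]
  refine Finset.measurable_prod _ fun j _ => ?_
  have : Measurable fun y : ι → ℝ => pr w (y j) := hR.pr_meas.comp (measurable_pi_apply j)
  simp only [wt1, py]
  split_ifs
  · exact this
  · exact this.const_sub 1

open Classical in
/-- A finite set which contains all samples. -/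
noncomputable def box (s : ι → κ → ℤ) (c : ι → ℝ) (Cn : ℕ) : Finset (ι → ℤ) :=
  (Fintype.piFinset fun _ : κ => Finset.range Cn).biUnion fun g =>
    Fintype.piFinset fun j => Finset.Icc (-⌊(c + lin s fun k => (g k : ℝ) / Cn) j⌋ - 2)
      (-⌊(c + lin s fun k => (g k : ℝ) / Cn) j⌋ + 1)

theorem card_box (s : ι → κ → ℤ) (c : ι → ℝ) (Cn : ℕ) :
    (box s c Cn).card ≤ Cn ^ Fintype.card κ * 4 ^ Fintype.card ι := by
  classical
  refine (Finset.card_biUnion_le_card_mul _ _ (4 ^ Fintype.card ι) fun g _ => ?_).trans ?_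
  · rw [Fintype.card_piFinset, ← Finset.card_univ, ← Finset.prod_const]
    refine Finset.prod_le_prod' fun j _ => ?_
    rw [Int.card_Icc]
    omega
  · rw [Fintype.card_piFinset, Finset.prod_const, Finset.card_range, Finset.card_univ]

theorem ae_box (s : ι → κ → ℤ) (c : ι → ℝ) (Cn : ℕ) (hC : 1 ≤ Cn)
    (hs : ∀ j, ∑ k, |(s j k : ℝ)| ≤ Cn) :
    ∀ᵐ β ∂cube κ, ∀ b, pt (c + lin s β) b ∈ box s c Cn := by
  classical
  have hm : MeasurableSet (Set.univ.pi fun _ : κ => Set.Ioc (0 : ℝ) 1) :=
    MeasurableSet.univ_pi fun _ => measurableSet_Ioc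
  have C0 : (0 : ℝ) < Cn := by exact_mod_cast hC
  refine (ae_restrict_mem hm).mono fun β hβ b => ?_
  have h0 : ∀ k, 1 ≤ ⌈Cn * β k⌉₊ := fun k => Nat.ceil_pos.2 (mul_pos C0 (hβ k trivial).1)
  have h1 : ∀ k, |β k - ((⌈Cn * β k⌉₊ - 1 : ℕ) : ℝ) / Cn| ≤ 1 / Cn := fun k => by
    have a1 := Nat.le_ceil (Cn * β k)
    have a2 := Nat.ceil_lt_add_one (mul_pos C0 (hβ k trivial).1).le
    rw [Nat.cast_sub (h0 k), show β k - ((⌈Cn * β k⌉₊ : ℝ) - (1 : ℕ)) / Cn =
      (Cn * β k - ⌈Cn * β k⌉₊ + 1) / Cn by push_cast; field_simp; ring, abs_div, abs_of_pos C0]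
    exact div_le_div_of_nonneg_right (abs_le.2 ⟨by linarith, by linarith⟩) C0.le
  rw [box, Finset.mem_biUnion]
  refine ⟨fun k => ⌈Cn * β k⌉₊ - 1, Fintype.mem_piFinset.2 fun k => Finset.mem_range.2 ?_,
    Fintype.mem_piFinset.2 fun j => ?_⟩
  · have : ⌈Cn * β k⌉₊ ≤ Cn := Nat.ceil_le.2 (mul_le_of_le_one_right C0.le (hβ k trivial).2)
    have := h0 k
    omega
  · set y := (c + lin s fun k => ((⌈Cn * β k⌉₊ - 1 : ℕ) : ℝ) / Cn) j with hy
    have h2 : |(c + lin s β) j - y| ≤ 1 := by
      simp only [hy, Pi.add_apply, lin, ip, add_sub_add_left_eq_sub, ← Finset.sum_sub_distrib,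
        ← mul_sub]
      refine (Finset.abs_sum_le_sum_abs _ _).trans ((Finset.sum_le_sum fun k _ =>
        (abs_mul _ _).trans_le (mul_le_mul_of_nonneg_left (h1 k) (abs_nonneg _))).trans ?_)
      rw [← Finset.sum_mul, mul_one_div, div_le_one C0]
      exact hs j
    obtain ⟨h3, h4⟩ := abs_le.1 h2
    have h5 : ⌊y⌋ - 1 ≤ ⌊(c + lin s β) j⌋ := by
      rw [← Int.floor_sub_one]
      exact Int.floor_mono (by linarith)
    have h6 : ⌊(c + lin s β) j⌋ ≤ ⌊y⌋ + 1 := by
      rw [← Int.floor_add_one]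
      exact Int.floor_mono (by linarith)
    simp only [pt, Finset.mem_Icc]
    split_ifs <;> constructor <;> omega

end Model

open Model in
theorem model_proof (hW : WinStmt) (_hD : DerivStmt) : ModelStmt := by
  classical
  intro ι κ _ _ _ s c dd Cn ω δ D1 D2 hω hδ hD1 hD2 hc hs hM hP N hN
  have hRa := hW ω hω
  have hwt : ∀ y : ι → ℝ, (∀ b, 0 ≤ wt (py ω y) b) ∧ ∑ b, wt (py ω y) b = 1 := fun y =>
    let h := M.bit_proof ι (py ω y) fun i => ⟨hRa.pr_nonneg _, hRa.pr_le _⟩
    ⟨h.1, h.2.1⟩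
  have hwt1 : ∀ (y : ι → ℝ) b, wt (py ω y) b ≤ 1 := fun y b => by
    rw [← (hwt y).2]
    exact Finset.single_le_sum (fun b _ => (hwt y).1 b) (Finset.mem_univ b)
  set X : Finset (ι → ℤ) := (box s c Cn).image (rep ⊤ s) with hX
  have hrm : Measurable (rep ⊤ s) := measurable_of_countable _
  have hbox := ae_box s c Cn hc hs
  -- the vertex weights
  let ν : (ι → ℤ) → ℝ := fun z =>
    ∫ β, ∑ b, wt (py ω (c + lin s β)) b * ind (rep ⊤ s (pt (c + lin s β) b) = z) ∂cube κ
  have hν : ∀ G : (ι → ℤ) → ℝ, ∑ z : X, ν z * G z =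
      tm fun β => Ey ω (fun x => G (rep ⊤ s x)) (c + lin s β) := by
    intro G
    rw [Finset.sum_coe_sort X fun z => ν z * G z]
    exact law (cube κ) (fun b β => wt (py ω (c + lin s β)) b)
      (fun b β => rep ⊤ s (pt (c + lin s β) b)) X 1
      (fun b => (meas_wt hRa b).comp (meas_y s c))
      (fun b β => by rw [abs_of_nonneg ((hwt _).1 b)]; exact hwt1 _ b)
      (fun b => hrm.comp ((meas_pt b).comp (meas_y s c)))
      (hbox.mono fun β hβ b => Finset.mem_image_of_mem _ (hβ b)) G
  -- the edge weights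
  let w : ι × (ι → Bool) → (κ → ℝ) → ℝ := fun t β =>
    dpr ω ((c + lin s β) t.1) * wt (py ω (c + lin s β)) t.2
  let a : ι × (ι → Bool) → (κ → ℝ) → (ι → ℤ) × (ι → ℤ) := fun t β =>
    (rep ⊤ s (pt (c + lin s β) (Function.update t.2 t.1 true)),
      rep ⊤ s (pt (c + lin s β) (Function.update t.2 t.1 false)))
  have hw0 : ∀ t β, 0 ≤ w t β := fun t β => mul_nonneg (hRa.dpr_nonneg _) ((hwt _).1 _)
  let A : (ι → ℤ) → (ι → ℤ) → ℝ := fun z z' => ∫ β, ∑ t, w t β * ind (a t β = (z, z')) ∂cube κ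
  have hA0 : ∀ z z', 0 ≤ A z z' := fun z z' =>
    integral_nonneg fun β => Finset.sum_nonneg fun t _ => mul_nonneg (hw0 t β) (ind_nonneg _)
  have hA : ∀ G : (ι → ℤ) → (ι → ℤ) → ℝ, ∑ z : X, ∑ z' : X, A z z' * G z z' =
      tm fun β => ∑ j, dpr ω ((c + lin s β) j) * Eb (py ω (c + lin s β)) fun b =>
        G (rep ⊤ s (pt (c + lin s β) (Function.update b j true)))
          (rep ⊤ s (pt (c + lin s β) (Function.update b j false))) := by
    intro G
    have h1 := law (cube κ) w a (X ×ˢ X) (1 / ω.om)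
      (fun t => (hRa.dpr_meas.comp ((measurable_pi_apply t.1).comp (meas_y s c))).mul
        ((meas_wt hRa t.2).comp (meas_y s c)))
      (fun t β => by
        rw [abs_of_nonneg (hw0 t β)]
        exact (mul_le_of_le_one_right (hRa.dpr_nonneg _) (hwt1 _ _)).trans (hRa.dpr_le _))
      (fun t => (hrm.comp ((meas_pt _).comp (meas_y s c))).prodMk
        (hrm.comp ((meas_pt _).comp (meas_y s c))))
      (hbox.mono fun β hβ t => Finset.mk_mem_product (Finset.mem_image_of_mem _ (hβ _))
        (Finset.mem_image_of_mem _ (hβ _))) (fun p => G p.1 p.2)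
    rw [Finset.sum_product] at h1
    rw [Finset.sum_coe_sort X fun z => ∑ z' : X, A z z' * G z z']
    simp_rw [fun z => Finset.sum_coe_sort X fun z' => A z z' * G z z']
    refine h1.trans ?_
    simp only [tm, Fintype.sum_prod_type, Eb, Finset.mul_sum, w, a, mul_assoc]
  have hsym : ∀ G : (ι → ℤ) → (ι → ℤ) → ℝ,
      ∑ z : X, ∑ z' : X, (A z z' + A z' z) * G z z' =
        ∑ z : X, ∑ z' : X, A z z' * (G z z' + G z' z) := by
    intro G
    simp only [add_mul, mul_add, Finset.sum_add_distrib]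
    rw [Finset.sum_comm (f := fun z z' : X => A z' z * G z z')]
  have hdd : ∀ x x', dd (rep ⊤ s x) (rep ⊤ s x') = dd x x' := fun x x' => by
    rw [inv_rep (hM.inv _) x, hM.cnd.2.1, inv_rep (hM.inv _) x', hM.cnd.2.1]
  have key := M.reduce_proof' X (fun z => ν z) (fun z z' => A z z' + A z' z) (fun z z' => dd z z') δ
    (2 * D1) D2
    (fun z => integral_nonneg fun β =>
      Finset.sum_nonneg fun b _ => mul_nonneg ((hwt _).1 b) (ind_nonneg _))
    (by
      have := hν fun _ => 1
      simp only [mul_one, Ey, Eb, (hwt _).2, tm] at this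
      simpa using this)
    (fun z z' => add_nonneg (hA0 _ _) (hA0 _ _)) (fun z z' => add_comm _ _)
    ⟨fun z => hM.cnd.1 _, fun z z' => hM.cnd.2.1 _ _,
      fun n x b hb => hM.cnd.2.2 n (fun i => x i) b hb⟩
    (fun x y z => hM.tri _ _ _) hδ (by positivity) hD2
    (by
      intro U
      let g : (ι → ℤ) → ℝ := fun z => ind (∃ h : z ∈ X, (⟨z, h⟩ : X) ∈ U)
      have hg : ∀ z : X, g z = if z ∈ U then 1 else 0 := by
        intro z
        split_ifs with h
        · exact ind_pos ⟨z.2, h⟩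
        · exact ind_neg fun ⟨_, h'⟩ => h h'
      have hg01 : ∀ z, g z = 0 ∨ g z = 1 := fun z => by
        by_cases h : ∃ h : z ∈ X, (⟨z, h⟩ : X) ∈ U
        · exact Or.inr (ind_pos h)
        · exact Or.inl (ind_neg h)
      have h1 : ∑ x ∈ U, ν x = tm fun β => Ey ω (fun x => g (rep ⊤ s x)) (c + lin s β) := by
        rw [← hν g]
        simp only [hg, mul_ite, mul_one, mul_zero]
        rw [Finset.sum_ite_mem, Finset.univ_inter]
      have h2 : ∑ x ∈ U, ∑ x' ∈ Uᶜ, (A x x' + A x' x) =
          tm fun β => Inf ω univ (fun x => g (rep ⊤ s x)) (c + lin s β) := by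
        have h3 : ∑ x ∈ U, ∑ x' ∈ Uᶜ, (A x x' + A x' x) =
            ∑ z : X, ∑ z' : X, (A z z' + A z' z) * (g z * (1 - g z')) := by
          rw [← Finset.sum_subset (Finset.subset_univ U)]
          · refine Finset.sum_congr rfl fun z hz => ?_
            rw [← Finset.sum_subset (Finset.subset_univ Uᶜ)]
            · refine Finset.sum_congr rfl fun z' hz' => ?_
              rw [hg, hg, if_pos hz, if_neg (Finset.mem_compl.1 hz')]; ring
            · intro z' _ hz'
              rw [hg z', if_pos (by simpa using hz')]; ring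
          · intro z _ hz
            refine Finset.sum_eq_zero fun z' _ => ?_
            rw [hg z, if_neg hz]; ring
        rw [h3, hsym fun z z' => g z * (1 - g z'),
          hA fun z z' => g z * (1 - g z') + g z' * (1 - g z)]
        simp only [Inf, inf1, Dd]
        congr 1
        funext β
        refine Finset.sum_congr rfl fun j _ => ?_
        congr 2
        funext b
        rcases hg01 (rep ⊤ s (pt (c + lin s β) (Function.update b j true))) with h | h <;>
          rcases hg01 (rep ⊤ s (pt (c + lin s β) (Function.update b j false))) with h' | h' <;>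
          rw [h, h'] <;> norm_num
      rw [h1, h2]
      exact hP _ (fun x => hg01 _) (rep_inv ⊤ s g))
    (by
      rw [hsym dd, hA fun z z' => dd z z' + dd z' z]
      have he := hM.edge
      have h2 : ∀ x x', dd (rep ⊤ s x) (rep ⊤ s x') + dd (rep ⊤ s x') (rep ⊤ s x) =
          2 * dd x x' := fun x x' => by rw [hdd, hdd, hM.cnd.2.1 x' x]; ring
      simp only [h2]
      refine le_trans (le_of_eq ?_) (mul_le_mul_of_nonneg_left he (by norm_num : (0 : ℝ) ≤ 2))
      simp only [tm]
      rw [← integral_const_mul]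
      congr 1
      funext β
      simp only [Eb, Finset.mul_sum]
      refine Finset.sum_congr rfl fun j _ => Finset.sum_congr rfl fun b _ => by ring)
    (by
      intro x'
      rw [hν fun z => ind (dd z x' < D2)]
      simp only [fun x => inv_rep (hM.inv x') x]
      exact hM.spread x')
    N (by
      refine le_trans (Nat.mul_le_mul_left _ ?_) hN
      rw [Fintype.card_coe]
      exact Finset.card_image_le.trans (card_box s c Cn))
  rwa [show 100 * δ * (2 * D1) = 200 * δ * D1 by ring] at key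

end Vale.Agent.P318.C
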