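import Vale.Agent.P318.C.Near1

/-!
The part of the Gaussian move which stays in the same window (linear window).
-/

namespace Vale.Agent.P318.C

open Finset MeasureTheory ProbabilityTheory
open M (U01 cube tm Per BM ip nsq gm lin Inv)
open M.Near (swap3 int3 integrable_sum_abs)

namespace Near

set_option linter.unusedSectionVars false

lemma int_sqrt : Integrable (fun r : ℝ => 1 / Real.sqrt r) (volume.restrict (Set.Ioc (0 : ℝ) 1)) ∧
    ∫ r in Set.Ioc (0 : ℝ) 1, 1 / Real.sqrt r = 2 := by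
  have e : ∀ r ∈ Set.Ioc (0 : ℝ) 1, r ^ (-(1 / 2) : ℝ) = 1 / Real.sqrt r := fun r hr => by
    rw [Real.rpow_neg hr.1.le, Real.sqrt_eq_rpow, one_div (r ^ (1 / 2 : ℝ))]
  have h1 : IntervalIntegrable (fun r : ℝ => r ^ (-(1 / 2) : ℝ)) volume 0 1 :=
    intervalIntegral.intervalIntegrable_rpow' (by norm_num)
  constructor
  · exact (h1.1.congr_fun e measurableSet_Ioc :)
  · rw [← setIntegral_congr_fun measurableSet_Ioc e,
      ← intervalIntegral.integral_of_le zero_le_one, integral_rpow (Or.inl (by norm_num))]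
    norm_num

lemma int_bound (a : ℝ) {b c : ℝ} (hb : 0 ≤ b) (hc : 0 ≤ c) :
    Integrable (fun r : ℝ => a * (1 / Real.sqrt r) + if r < c then b else 0)
      (volume.restrict (Set.Ioc (0 : ℝ) 1)) ∧
    ∫ r in Set.Ioc (0 : ℝ) 1, (a * (1 / Real.sqrt r) + if r < c then b else 0) ≤
      2 * a + b * c := by
  have e : (fun r : ℝ => if r < c then b else 0) = (Set.Iio c).indicator fun _ => b := by
    funext r; simp [Set.indicator_apply]
  have i2 : Integrable (fun r : ℝ => if r < c then b else 0)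
      (volume.restrict (Set.Ioc (0 : ℝ) 1)) := by
    rw [e]; exact (integrable_const b).indicator measurableSet_Iio
  refine ⟨(int_sqrt.1.const_mul a).add i2, ?_⟩
  rw [integral_add (int_sqrt.1.const_mul a) i2, integral_const_mul, int_sqrt.2, e,
    integral_indicator_const _ measurableSet_Iio, measureReal_restrict_apply measurableSet_Iio,
    smul_eq_mul]
  have : volume.real (Set.Iio c ∩ Set.Ioc (0 : ℝ) 1) ≤ c := by
    refine (measureReal_mono (s₂ := Set.Ioo 0 c) (fun x hx => ⟨hx.2.1, hx.1⟩)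
      (by simp)).trans ?_
    simp [hc]
  nlinarith

variable {ι κ : Type} [Fintype ι] [DecidableEq ι] [Fintype κ] {d : Dt ι κ} {B : ℝ}

/-- The move as an integral over the time `r`. -/
lemma Hyp.near_eq (H : Hyp d B) (σ : ℝ) :
    (∀ j, Integrable (d.N σ j) (volume.restrict (Set.Ioc (0 : ℝ) 1))) ∧
    ∀ j, ∫ ξ, ct (d.χ j) (ip (d.s j) ξ) *
      tm (fun η => pq d.w (d.y η j) * (c1 d.w d.h j (d.y η) - d.m j) * psi d.w (d.y (η + ξ) j) *
        (c1 d.w d.h j (d.y η) - c1 d.w d.h j (d.y (η + ξ)))) ∂gm κ σ =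
      -∫ r in Set.Ioc (0 : ℝ) 1, d.N σ j r := by
  set ρ : Measure ℝ := volume.restrict (Set.Ioc (0 : ℝ) 1) with hρ
  have : IsProbabilityMeasure ρ := ⟨by simp [hρ]⟩
  have hi : ∀ k, Integrable (fun ξ : κ → ℝ => ξ k) (gm κ σ) := fun k =>
    (M.Gauss.mem2 σ k).integrable (by simp)
  have hint : ∀ j, Integrable (fun p : ((κ → ℝ) × (κ → ℝ)) × ℝ =>
      d.Ph j (d.y p.1.2) (ip (d.s j) p.1.1) * d.Hj j p.1.1 (d.y (p.1.2 + p.2 • p.1.1)))
      (((gm κ σ).prod (cube κ)).prod ρ) := by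
    intro j
    obtain ⟨C, hC⟩ := H.abs_F_le j
    refine Integrable.mono' (((integrable_sum_abs hi C).comp_fst (cube κ)).comp_fst ρ) ?_
      (ae_of_all _ fun p => hC p.1.1 _ _ _)
    exact (((H.Ph_meas j).comp (f := fun p : ((κ → ℝ) × (κ → ℝ)) × ℝ =>
      (d.y p.1.2, ip (d.s j) p.1.1)) (by fun_prop)).mul ((H.Hj_meas j).comp
        (f := fun p : ((κ → ℝ) × (κ → ℝ)) × ℝ => (p.1.1, d.y (p.1.2 + p.2 • p.1.1)))
        (by fun_prop))).aestronglyMeasurable
  refine ⟨fun j => int3 (gm κ σ) (cube κ) ρ (fun ξ η r =>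
    d.Ph j (d.y η) (ip (d.s j) ξ) * d.Hj j ξ (d.y (η + r • ξ))) (hint j), fun j => ?_⟩
  unfold Dt.N
  rw [← swap3 (gm κ σ) (cube κ) ρ (fun ξ η r =>
    d.Ph j (d.y η) (ip (d.s j) ξ) * d.Hj j ξ (d.y (η + r • ξ))) (hint j), ← integral_neg]
  refine integral_congr_ae (ae_of_all _ fun ξ => ?_)
  simp only [tm]
  rw [← integral_const_mul, ← integral_neg]
  refine integral_congr_ae (ae_of_all _ fun η => ?_)
  have := H.claim1 j ξ η
  rw [intervalIntegral.integral_of_le zero_le_one] at this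
  simp only
  rw [← this, d.y_add_apply]
  unfold Dt.Ph
  ring

/-- The bound at time `r` with the final choice of the parameters. -/
lemma Hyp.N_le [Nonempty κ] (H : Hyp d B) (hG : GaussStmt) (hSm : SmallStmt) (hB : 0 ≤ B)
    {σ W C1 ε l lam : ℝ} (hσ : 0 < σ) (hW : 0 < W) (hWσ : W ^ 2 = σ ^ 2 * Fintype.card κ)
    (hC1 : 0 ≤ C1) (hε : 0 ≤ ε) (hl : 1 ≤ l) (hlam : 0 < lam) (hT : ∀ j, T3 (d.s j))
    (hZ : ZPat d.J d.s) (hS : SplitT d.J d.s (C1 * Fintype.card κ) (ε ^ 2 * Fintype.card κ))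
    {r : ℝ} (hr0 : 0 < r) (hr1 : r ≤ 1) :
    |∑ j ∈ d.J, d.N σ j r| ≤
      (Fi d.w * tm (fun η => W2 d.w d.J d.h (d.y η)) / lam +
        lam * ((1 + 6 / W) * (C1 * (8 * W ^ 2 / d.w.om ^ 2))) *
          (∑ j ∈ d.J, tm fun η => d.dd j (d.y η)) +
        2 * Real.sqrt l * (ε * (W / d.w.om * (16 + 2 * B))) *
          tm (fun η => Inf d.w d.J d.h (d.y η)) +
        d.J.card * (48 * (ε * (W / d.w.om * (16 + 2 * B))) / d.w.om * Real.exp (-l))) *
        (1 / Real.sqrt r) +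
      if r < 2 * d.w.et / d.w.om then 8 * l * (ε * (W / d.w.om * (16 + 2 * B))) *
        tm (fun η => Inf d.w d.J d.h (d.y η)) else 0 := by
  have h0 := H.om_pos
  have hF : 0 < Fi d.w := zero_lt_one.trans_le H.W.Fi_ge
  have hM : (0 : ℝ) < Fintype.card κ := Nat.cast_pos.2 Fintype.card_pos
  have hs0 : 0 < Real.sqrt r := Real.sqrt_pos.2 hr0
  have hs1 : Real.sqrt r ≤ 1 := Real.sqrt_le_one.2 hr1
  have hs2 : Real.sqrt r ^ 2 = r := Real.sq_sqrt hr0.le
  set ρ := σ / Real.sqrt 2 with hρdef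
  have hρ : 0 < ρ := by positivity
  have hρ2 : σ ^ 2 = 2 * ρ ^ 2 := by
    rw [hρdef, div_pow, Real.sq_sqrt (by norm_num)]; ring
  have hρM : Fintype.card κ * ρ ^ 2 = W ^ 2 / 2 := by rw [hWσ, hρ2]; ring
  set A := ε * (W / d.w.om * (16 + 2 * B)) with hAdef
  have hA : 0 ≤ A := by positivity
  have hA2 : ε ^ 2 * Fintype.card κ * ρ ^ 2 * (256 / d.w.om ^ 2) * (2 + B / 2) ≤ A ^ 2 := by
    have e1 : ε ^ 2 * Fintype.card κ * ρ ^ 2 * (256 / d.w.om ^ 2) * (2 + B / 2) =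
        (ε * (W / d.w.om)) ^ 2 * (256 + 64 * B) := by
      rw [mul_assoc (ε ^ 2), hρM]; ring
    have e2 : A ^ 2 = (ε * (W / d.w.om)) ^ 2 * (16 + 2 * B) ^ 2 := by rw [hAdef]; ring
    rw [e1, e2]
    exact mul_le_mul_of_nonneg_left (by nlinarith [sq_nonneg B]) (sq_nonneg _)
  have key := H.S_le hG hSm hB hρ hr0 hr1 (n0 := Fintype.card κ / 16) (by positivity)
    (lam := lam * Real.sqrt r / Fi d.w) (mul_nonneg hC1 hM.le) (by positivity) hA hl
    (by positivity) hS hT hZ hA2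
  simp_rw [H.N_eq hG hρ2 hr0.le hr1]
  rw [← mul_sum, abs_mul, abs_two]
  refine (mul_le_mul_of_nonneg_left key zero_le_two).trans ?_
  have nD : 0 ≤ ∑ j ∈ d.J, tm fun η => d.dd j (d.y η) :=
    sum_nonneg fun j _ => integral_nonneg fun η => H.dd_nonneg _ _
  set D := ∑ j ∈ d.J, tm fun η => d.dd j (d.y η)
  set w2 := tm (fun η => W2 d.w d.J d.h (d.y η))
  set I := tm (fun η => Inf d.w d.J d.h (d.y η))
  have hn : W / 6 ≤ ρ * Real.sqrt (Fintype.card κ / 16) := by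
    refine abs_le_of_sq_le_sq' ?_ (by positivity) |>.2
    rw [mul_pow, Real.sq_sqrt (by positivity)]
    nlinarith [sq_nonneg W]
  have hg : Real.sqrt r * (1 + 1 / (r * ρ * Real.sqrt (Fintype.card κ / 16))) ≤
      (1 + 6 / W) * (1 / Real.sqrt r) := by
    have a1 : 1 / (r * ρ * Real.sqrt (Fintype.card κ / 16)) ≤ 1 / (r * (W / 6)) := by
      rw [mul_assoc]; gcongr
    have a2 : Real.sqrt r * (1 / (r * (W / 6))) = 6 / W * (1 / Real.sqrt r) := by
      have : r = Real.sqrt r * Real.sqrt r := (Real.mul_self_sqrt hr0.le).symm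
      generalize Real.sqrt r = x at *
      rw [this]; field_simp
    have a3 : Real.sqrt r ≤ 1 / Real.sqrt r := hs1.trans (by rw [le_div_iff₀ hs0]; linarith)
    have a4 := mul_le_mul_of_nonneg_left a1 hs0.le
    linarith
  have b2 : 2 * (lam * Real.sqrt r / Fi d.w / 2 *
      (Fi d.w * (1 + 1 / (r * ρ * Real.sqrt (Fintype.card κ / 16))) *
        (C1 * Fintype.card κ * ρ ^ 2 * (16 / d.w.om ^ 2)) * D)) ≤
      lam * ((1 + 6 / W) * (C1 * (8 * W ^ 2 / d.w.om ^ 2))) * D * (1 / Real.sqrt r) := by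
    rw [mul_assoc C1, hρM]
    calc _ = lam * (C1 * (8 * W ^ 2 / d.w.om ^ 2)) * D *
          (Real.sqrt r * (1 + 1 / (r * ρ * Real.sqrt (Fintype.card κ / 16)))) := by
          field_simp; ring
      _ ≤ lam * (C1 * (8 * W ^ 2 / d.w.om ^ 2)) * D * ((1 + 6 / W) * (1 / Real.sqrt r)) := by
          gcongr
      _ = _ := by ring
  have b1 : 2 * (1 / (2 * (lam * Real.sqrt r / Fi d.w)) * w2) =
      Fi d.w * w2 / lam * (1 / Real.sqrt r) := by field_simp
  rw [mul_add, mul_add, b1]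
  split_ifs <;> linear_combination b2

end Near

open Near in
theorem near_proof (hW : WinStmt) (hG : GaussStmt) (hD : DerivStmt) (hS : SmallStmt) :
    NearStmt := by
  intro ω W δ C1 B h0 hWp hδ hC1 hB
  set K1 := W / ω * (16 + 2 * B) with hK1
  set K3 := (1 + 6 / W) * (C1 * (8 * W ^ 2 / ω ^ 2)) with hK3
  have pK1 : 0 < K1 := by positivity
  have pK3 : 0 ≤ K3 := by positivity
  set lam := δ / (2 * K3 + 1) with hlam
  have plam : 0 < lam := by positivity
  refine ⟨2 / lam + 4 * K1 + 96 * K1 / ω, by positivity, ?_⟩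
  intro w ok hω ι κ _ _ _ _ Γ J s t h σ ε l χ m hΓ hs hh hI hσ hWσ hT hZ hSp hε hl χm χb mb mB
  subst hω
  let d : Dt ι κ := ⟨w, J, s, t, h, χ, m⟩
  have H : Hyp d B := mkHyp hW hD d ok hΓ hs hh hI χm χb mb mB
  obtain ⟨i1, e1⟩ := H.near_eq σ
  have e2 : ∑ j ∈ J, ∫ ξ, (if |ip (s j) ξ| < 1 / 2 then χ j (ip (s j) ξ) else 0) *
      tm (fun η => pq w ((t + lin s η) j) * (c1 w h j (t + lin s η) - m j) *
        psi w ((t + lin s (η + ξ)) j) *
        (c1 w h j (t + lin s η) - c1 w h j (t + lin s (η + ξ)))) ∂gm κ σ =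
      -∫ r in Set.Ioc (0 : ℝ) 1, ∑ j ∈ J, d.N σ j r := by
    rw [integral_finsetSum _ fun j _ => i1 j, ← sum_neg_distrib]
    exact sum_congr rfl fun j _ => e1 j
  have nD : 0 ≤ ∑ j ∈ J, tm fun η => pq w ((t + lin s η) j) * (c1 w h j (t + lin s η) - m j) ^ 2 :=
    sum_nonneg fun j _ => integral_nonneg fun η => H.dd_nonneg _ _
  have n2 : 0 ≤ tm fun η => W2 w J h (t + lin s η) := integral_nonneg fun η => H.W2nn _
  have nI : 0 ≤ tm fun η => Inf w J h (t + lin s η) := integral_nonneg fun η => H.Inn _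
  have hF : 0 < Fi w := zero_lt_one.trans_le H.W.Fi_ge
  have he : 0 < w.et := H.et_pos
  have hl0 : 0 ≤ l := zero_le_one.trans hl
  have key := fun r (hr : r ∈ Set.Ioc (0 : ℝ) 1) =>
    H.N_le hG hS hB hσ hWp hWσ hC1 hε hl plam hT hZ hSp hr.1 hr.2
  set D := ∑ j ∈ J, tm fun η => pq w ((t + lin s η) j) * (c1 w h j (t + lin s η) - m j) ^ 2
    with hDdef
  set w2 := tm fun η => W2 w J h (t + lin s η) with hw2
  set I := tm fun η => Inf w J h (t + lin s η) with hIdef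
  obtain ⟨i2, e3⟩ := int_bound (Fi w * w2 / lam + lam * K3 * D + 2 * Real.sqrt l * (ε * K1) * I +
    J.card * (48 * (ε * K1) / w.om * Real.exp (-l))) (b := 8 * l * (ε * K1) * I)
    (c := 2 * w.et / w.om) (by positivity) (by positivity)
  have hb := norm_integral_le_of_norm_le (f := fun r => ∑ j ∈ J, d.N σ j r) i2
    ((ae_restrict_mem measurableSet_Ioc).mono key)
  rw [e2, abs_neg]
  refine (le_of_eq (Real.norm_eq_abs _).symm).trans (hb.trans (e3.trans ?_))
  have b1 : 2 * (lam * K3 * D) ≤ δ * D := by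
    have : 2 * (lam * K3) ≤ δ := by
      rw [hlam, div_mul_eq_mul_div, ← mul_div_assoc, div_le_iff₀ (by positivity)]
      nlinarith
    nlinarith
  have q1 : 0 ≤ Fi w * w2 := by positivity
  have q2 : 0 ≤ Real.sqrt l * ε * I := by positivity
  have q3 : 0 ≤ l * w.et * ε * I := by positivity
  have q4 : 0 ≤ ε * J.card * Real.exp (-l) := by positivity
  have p1 : 0 ≤ 2 / lam := by positivity
  have p3 : 0 ≤ K1 / w.om := by positivity
  have := mul_nonneg p1 (add_nonneg (add_nonneg q2 q3) q4)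
  have := mul_nonneg pK1.le (add_nonneg (add_nonneg q1 q3) q4)
  have := mul_nonneg p3 (add_nonneg q1 q2)
  have := mul_nonneg p3 q3
  linear_combination b1 + ‹0 ≤ 2 / lam * _› + 4 * ‹0 ≤ K1 * _› +
    96 * ‹0 ≤ K1 / w.om * (_ + _)› + 80 * this

end Vale.Agent.P318.C
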