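import Vale.Agent.P318.C.StmtI
import Vale.Agent.P318.M.Noised
import Vale.Agent.P318.M.Torus
import Vale.Agent.P318.M.Bit

/-!
Track C: the block lemma for the noised function and the Poincare inequality of the model.
-/

namespace Vale.Agent.P318.C

open Finset MeasureTheory ProbabilityTheory
open M (ind bit wt1 wt Eb Dd pt zz U01 coef cube tm Per BM ip ch fc nsq gm chi kap k0 bb A0 A1
  Dual Lat lin Inv Ksh CND blk)
open M.Noised (bm_comp bm_const bm_add bm_mul bm_sum tm_const tm_add tm_sub tm_mul tm_sum tm_mono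
  tm_nonneg lin_add meas_lin per_of_inv tm_tm)

namespace Poincare

variable {ι : Type} [Fintype ι] [DecidableEq ι]

theorem bm_fw (hF : FourierStmt) {w : Wn} {f : (ι → ℤ) → ℝ} (hw : w.Ok)
    (hf : U01 f) (S : Finset ι) : BM (fw w f S) := by
  obtain ⟨a, b, -⟩ := hF ι w f hw hf
  refine ⟨(a S).1, 1, fun y => ?_⟩
  rw [abs_of_nonneg ((a S).2 y)]
  exact (Finset.single_le_sum (f := fun S => fw w f S y) (fun T _ => (a T).2 y)
    (Finset.mem_univ S)).trans (b y)

theorem bm_fsum (hF : FourierStmt) {w : Wn} {f : (ι → ℤ) → ℝ} (hw : w.Ok)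
    (hf : U01 f) (a : Finset ι → ℝ) : BM fun y => ∑ S : Finset ι, a S * fw w f S y :=
  bm_sum _ fun S _ => bm_mul (bm_const _) (bm_fw hF hw hf S)

theorem Q1_eq (w : Wn) (ρ : ℝ) (J : Finset ι) (f : (ι → ℤ) → ℝ) :
    Q1 w ρ J f = fun y => ∑ S : Finset ι,
      (if (S ∩ J).card = 1 then ρ ^ (2 * (S.card - 1)) else 0) * fw w f S y := by
  funext y
  refine Finset.sum_congr rfl fun S _ => ?_
  split_ifs <;> ring

theorem Q2_eq (w : Wn) (ρ : ℝ) (J : Finset ι) (f : (ι → ℤ) → ℝ) :
    Q2 w ρ J f = fun y => ∑ S : Finset ι,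
      (if (S ∩ J).card = 2 then 2 * ρ ^ (2 * (S.card - 2)) else 0) * fw w f S y := by
  funext y
  refine Finset.sum_congr rfl fun S _ => ?_
  split_ifs <;> ring

/-- The mean of a combination of Fourier weights. -/
theorem tm_fsum (hF : FourierStmt) {κ : Type} [Fintype κ] {w : Wn} {f : (ι → ℤ) → ℝ} (hw : w.Ok)
    (hf : U01 f) (S : ι → κ → ℤ) (c : ι → ℝ) (a : Finset ι → ℝ) :
    tm (fun β => ∑ T : Finset ι, a T * fw w f T (c + lin S β)) =
      ∑ T : Finset ι, a T * tm fun β => fw w f T (c + lin S β) := by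
  rw [tm_sum _ fun T _ => bm_mul (bm_const _) (bm_comp (bm_fw hF hw hf T) (meas_lin S c))]
  exact Finset.sum_congr rfl fun T _ => tm_mul _ _

theorem geom_le (n : ℕ) : ∑ k ∈ Icc 1 n, (1 / 2 : ℝ) ^ k ≤ 1 := by
  have h : ∑ k ∈ Icc 1 n, (1 / 2 : ℝ) ^ k = 1 - (1 / 2) ^ n := by
    induction n with
    | zero => simp
    | succ n ih =>
      rw [Finset.sum_Icc_succ_top (by omega), ih, pow_succ]
      ring
  rw [h]
  have : (0 : ℝ) ≤ (1 / 2) ^ n := by positivity
  linarith

omit [DecidableEq ι] in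
theorem sum_blk {A Vb : Type} [Fintype Vb] [DecidableEq Vb] (π : A → ι → Vb) (a : A)
    (F : ι → ℝ) : ∑ v, ∑ j ∈ blk π (a, v), F j = ∑ j, F j := by
  simp only [blk, Finset.sum_filter]
  rw [Finset.sum_comm]
  refine Finset.sum_congr rfl fun j _ => ?_
  rw [Finset.sum_ite_eq]
  simp

end Poincare

open Poincare in
theorem noised_proof (hW : WinStmt) (hD : DerivStmt) (hF : FourierStmt) : NoisedStmt := by
  intro ι K κ _ _ _ _ Γ J s S emb c f w L E1 E0 ρ hw hL hE hρ0 hρ1 hBl hs hemb hlin hf hinvt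
  have hT := M.torus_proof
  have hR := hW w hw
  have hinv : Inv Γ s f := fun r _ z hz => hinvt (emb r) trivial z fun j => by
    rw [hlin]
    exact hz j
  have hZ : ∀ n : κ → ℤ, (fun k => (n k : ℝ)) ∈ (⊤ : AddSubgroup (κ → ℝ)) := fun _ => trivial
  obtain ⟨-, -, -, -, -, fper, fno⟩ := hF ι w f hw hf
  obtain ⟨-, -, -, dbm, dper, -⟩ := hD ι w f hw hf
  have bQ1 : BM (Q1 w ρ J f) := by rw [Q1_eq]; exact bm_fsum hF hw hf _
  have bQ2 : BM (Q2 w ρ J f) := by rw [Q2_eq]; exact bm_fsum hF hw hf _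
  have bI : BM (Inf w J f) := (dbm J).2.2.1
  have key : ∀ y : ι → ℝ, tm (fun η => Q1 w ρ J f (y + lin s η)) ≤
      L * tm (fun η => Q2 w ρ J f (y + lin s η)) +
        E1 * tm (fun η => Inf w J f (y + lin s η)) + E0 := by
    intro y
    obtain ⟨nU, nI, nF⟩ := fno ρ J y hρ0 hρ1
    obtain ⟨w0, w1, -⟩ := M.bit_proof ι (py w y) fun i => ⟨hR.pr_nonneg _, hR.pr_le _⟩
    have hy : ∀ η i, i ∉ J → (y + lin s η) i = y i := by
      intro η i hi
      simp [lin, ip, hs i hi]
    have hI : ∀ b, Inv Γ s (noised w ρ J f y b) := by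
      intro b r hr z hz
      refine nI z b (fun i hi => ?_) (hinv r hr z hz)
      have := hz i
      simp only [lin, ip, hs i hi, Pi.zero_apply, Int.cast_zero, zero_mul,
        Finset.sum_const_zero] at this
      exact_mod_cast this
    have hb := fun b => hBl y (noised w ρ J f y b) (nU b) (hI b)
    have bm := fun b => (hD ι w (noised w ρ J f y b) hw (nU b)).2.2.2.1 J
    have e1 : tm (fun η => Q1 w ρ J f (y + lin s η)) =
        ∑ b, wt (py w y) b * tm (fun η => W1 w J (noised w ρ J f y b) (y + lin s η)) := by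
      simp only [← tm_mul]
      rw [← tm_sum _ fun b _ => bm_mul (bm_const _) (bm_comp (bm b).1 (meas_lin s y))]
      congr 1
      funext η
      exact ((nF _ (hy η)).1).symm
    have e2 : tm (fun η => Q2 w ρ J f (y + lin s η)) =
        ∑ b, wt (py w y) b * tm (fun η => W2 w J (noised w ρ J f y b) (y + lin s η)) := by
      simp only [← tm_mul]
      rw [← tm_sum _ fun b _ => bm_mul (bm_const _) (bm_comp (bm b).2.1 (meas_lin s y))]
      congr 1
      funext η
      exact ((nF _ (hy η)).2.1).symm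
    have e3 : ∑ b, wt (py w y) b * tm (fun η => Inf w J (noised w ρ J f y b) (y + lin s η)) ≤
        tm (fun η => Inf w J f (y + lin s η)) := by
      simp only [← tm_mul]
      rw [← tm_sum _ fun b _ => bm_mul (bm_const _) (bm_comp (bm b).2.2.1 (meas_lin s y))]
      refine tm_mono (bm_sum _ fun b _ => bm_mul (bm_const _)
        (bm_comp (bm b).2.2.1 (meas_lin s y))) (bm_comp bI (meas_lin s y)) fun η => ?_
      exact (nF _ (hy η)).2.2
    rw [e1, e2]
    calc ∑ b, wt (py w y) b * tm (fun η => W1 w J (noised w ρ J f y b) (y + lin s η))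
        ≤ ∑ b, wt (py w y) b * (L * tm (fun η => W2 w J (noised w ρ J f y b) (y + lin s η)) +
          E1 * tm (fun η => Inf w J (noised w ρ J f y b) (y + lin s η)) + E0) :=
          Finset.sum_le_sum fun b _ => mul_le_mul_of_nonneg_left (hb b) (w0 b)
      _ = L * (∑ b, wt (py w y) b * tm (fun η => W2 w J (noised w ρ J f y b) (y + lin s η))) +
          E1 * (∑ b, wt (py w y) b * tm (fun η => Inf w J (noised w ρ J f y b) (y + lin s η))) +
            (∑ b, wt (py w y) b) * E0 := by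
          rw [Finset.mul_sum, Finset.mul_sum, Finset.sum_mul, ← Finset.sum_add_distrib,
            ← Finset.sum_add_distrib]
          exact Finset.sum_congr rfl fun b _ => by ring
      _ ≤ _ := by
          rw [w1, one_mul]
          have := mul_le_mul_of_nonneg_left e3 hE
          linarith
  have pQ1 : Per fun β => Q1 w ρ J f (c + lin S β) := by
    refine per_of_inv hZ hinvt c (Φ := Q1 w ρ J f) fun r hr y => ?_
    simp only [Q1, fper r hr]
  have pQ2 : Per fun β => Q2 w ρ J f (c + lin S β) := by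
    refine per_of_inv hZ hinvt c (Φ := Q2 w ρ J f) fun r hr y => ?_
    simp only [Q2, fper r hr]
  have pI : Per fun β => Inf w J f (c + lin S β) :=
    per_of_inv hZ hinvt c (Φ := Inf w J f) fun r hr y => ((dper r hr y).2.2.2 J).2.2
  obtain ⟨b1, t1⟩ := tm_tm hT pQ1 (bm_comp bQ1 (meas_lin S c)) hemb
  obtain ⟨b2, t2⟩ := tm_tm hT pQ2 (bm_comp bQ2 (meas_lin S c)) hemb
  obtain ⟨b3, t3⟩ := tm_tm hT pI (bm_comp bI (meas_lin S c)) hemb
  have hsh : ∀ β η, c + lin S (β + emb η) = (c + lin S β) + lin s η := by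
    intro β η
    rw [lin_add, hlin, add_assoc]
  simp only [hsh] at b1 b2 b3 t1 t2 t3
  rw [← t1, ← t2, ← t3, ← tm_mul, ← tm_mul,
    ← tm_add (bm_mul (bm_const _) b2) (bm_mul (bm_const _) b3), ← tm_const (κ := κ) E0,
    ← tm_add (bm_add (bm_mul (bm_const _) b2) (bm_mul (bm_const _) b3)) (bm_const _)]
  exact tm_mono b1 (bm_add (bm_add (bm_mul (bm_const _) b2) (bm_mul (bm_const _) b3))
    (bm_const _)) fun β => key _

open Poincare in
theorem poincare_proof (hW : WinStmt) (hD : DerivStmt) (hF : FourierStmt) (hT : TVStmt)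
    (hN : NoisedStmt) (hFb : FibreStmt) : PoincareStmt := by
  obtain ⟨C, hC, hTV⟩ := hT
  refine ⟨24 + 24 * C, by positivity, ?_⟩
  intro ι κ A Vb _ _ _ _ _ _ _ K _ π sc Kn s Γb S Γ emb c f w E1 L θ X E0 sh C1 C2 hw hE1 hE0 hL
    hθ hθL hX hXL hKn hcoll hblk hsh hC1 hC2 hLat hdual hT3 hsplit hf hinv
  have hR := hW w hw
  have hf2 : U01 fun x => f x ^ 2 := fun x => ⟨sq_nonneg _, by
    have := hf x
    nlinarith⟩
  have ml := meas_lin S c
  obtain ⟨f0, -, fvar, fI, fW, -⟩ := hF ι w f hw hf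
  obtain ⟨dE, -, -, dbm, -⟩ := hD ι w f hw hf
  obtain ⟨dE2, -⟩ := hD ι w (fun x => f x ^ 2) hw hf2
  have bE : BM (Ey w f) := ⟨dE.1, 1, fun y => by
    rw [abs_of_nonneg (dE.2 y).1]; exact (dE.2 y).2⟩
  have bE2 : BM (Ey w fun x => f x ^ 2) := ⟨dE2.1, 1, fun y => by
    rw [abs_of_nonneg (dE2.2 y).1]; exact (dE2.2 y).2⟩
  have bEsq : BM fun y => Ey w f y ^ 2 := by
    simpa only [sq] using bm_mul bE bE
  set I := tm (fun β => Inf w univ f (c + lin S β)) with hI
  have hI0 : 0 ≤ I := tm_nonneg fun β => ((dbm univ).2.2.2 _).2.2.2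
  have bI : BM fun β => Inf w univ f (c + lin S β) := bm_comp (dbm univ).2.2.1 ml
  set wS : Finset ι → ℝ := fun T => tm fun β => fw w f T (c + lin S β) with hwS
  have hwS0 : ∀ T, 0 ≤ wS T := fun T => tm_nonneg fun β => (f0 T).2 _
  have hFib := hFb ι A Vb π sc Kn wS
    (fun J => tm fun β => Inf w (blk π J) f (c + lin S β)) E1 I L θ X E0 hwS0
    (fun a => by
      rw [← tm_sum _ fun v _ => bm_comp (dbm (blk π (a, v))).2.2.1 ml]
      refine le_of_eq (congrArg tm (funext fun β => ?_))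
      exact sum_blk π a _)
    (by
      rw [← tm_fsum hF hw hf S c fun T => (T.card : ℝ)]
      exact tm_mono (bm_comp (bm_fsum hF hw hf fun T => (T.card : ℝ)) ml) bI fun β => fI _)
    hE1 hE0 hL hθ hθL hX hXL hKn hcoll
    (fun J hJ => by
      obtain ⟨hB, hz, hm, hl⟩ := hblk J hJ
      have hg0 : (0 : ℝ) ≤ (1 / 2) ^ sc J.1 := by positivity
      have hg1 : (1 / 2 : ℝ) ^ sc J.1 ≤ 1 := pow_le_one₀ (by norm_num) (by norm_num)
      set q : ℝ := 1 - (1 / 2) ^ sc J.1 with hq
      have hq0 : 0 ≤ q := by linarith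
      have hρ : ∀ n : ℕ, Real.sqrt q ^ (2 * n) = q ^ n := fun n => by
        rw [pow_mul, Real.sq_sqrt hq0]
      have h := hN ι (K J.1) κ (Γb J) (blk π J) (s J) S (emb J) c f w L (E1 (sc J.1)) E0
        (Real.sqrt q) hw (by linarith) (hE1 _) (Real.sqrt_nonneg _)
        (Real.sqrt_le_one.2 (by linarith)) hB hz hm hl hf hinv
      rw [Q1_eq, Q2_eq] at h
      simp only [hρ] at h
      rw [tm_fsum hF hw hf, tm_fsum hF hw hf] at h
      refine le_of_eq_of_le ?_ (h.trans (le_of_eq ?_))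
      · refine Finset.sum_congr rfl fun T _ => ?_
        split_ifs <;> ring
      · congr 3
        refine Finset.sum_congr rfl fun T _ => ?_
        split_ifs <;> ring)
  set V := ∑ T : Finset ι, if T = ∅ then 0 else wS T with hV
  have hVeq : tm (fun β => Ey w (fun x => f x ^ 2) (c + lin S β)) -
      tm (fun β => Ey w f (c + lin S β) ^ 2) = V := by
    rw [← tm_sub (bm_comp bE2 ml) (bm_comp bEsq ml)]
    have : V = ∑ T : Finset ι, (if T = ∅ then (0 : ℝ) else 1) * wS T :=
      Finset.sum_congr rfl fun T _ => by split_ifs <;> ring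
    rw [this, ← tm_fsum hF hw hf]
    refine congrArg tm (funext fun β => (fvar _).trans ?_)
    exact Finset.sum_congr rfl fun T _ => by split_ifs <;> ring
  have hW1 : tm (fun β => W1 w univ f (c + lin S β)) ≤ V := by
    have : tm (fun β => W1 w univ f (c + lin S β)) =
        ∑ T : Finset ι, (if T.card = 1 then (1 : ℝ) else 0) * wS T := by
      rw [← tm_fsum hF hw hf]
      refine congrArg tm (funext fun β => (fW _).trans ?_)
      exact Finset.sum_congr rfl fun T _ => by split_ifs <;> ring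
    rw [this]
    refine Finset.sum_le_sum fun T _ => ?_
    have := hwS0 T
    split_ifs with h1 h2 h2
    · rw [h2] at h1
      simp at h1
    · linarith
    · linarith
    · linarith
  have hTo := hTV ι κ Γ S c f w sh C1 C2 hw hsh hC1 hC2 hLat hdual hT3 hsplit hf
    fun r _ z hz => hinv r trivial z hz
  rw [← hI] at hTo
  set G := ∑ k ∈ Icc 1 Kn, (1 / 2 : ℝ) ^ k * E1 k with hG
  have hG0 : 0 ≤ G := Finset.sum_nonneg fun k _ => mul_nonneg (by positivity) (hE1 k)
  have hVb : (0 : ℝ) ≤ Fintype.card Vb * E0 := by positivity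
  have hsum : ∑ k ∈ Icc 1 Kn, (1 / 2 : ℝ) ^ k * (E1 k * I + Fintype.card Vb * E0) ≤
      G * I + Fintype.card Vb * E0 := by
    have : ∑ k ∈ Icc 1 Kn, (1 / 2 : ℝ) ^ k * (E1 k * I + Fintype.card Vb * E0) =
        G * I + (∑ k ∈ Icc 1 Kn, (1 / 2 : ℝ) ^ k) * (Fintype.card Vb * E0) := by
      rw [hG, Finset.sum_mul, Finset.sum_mul, ← Finset.sum_add_distrib]
      exact Finset.sum_congr rfl fun k _ => by ring
    rw [this]
    have := mul_le_mul_of_nonneg_right (geom_le Kn) hVb
    linarith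
  set Y := (G + 1 / 2 ^ Kn) * I + Fintype.card Vb * E0 with hY
  have hI2 : 0 ≤ 1 / 2 ^ Kn * I := by positivity
  have hVY : V ≤ 24 * Y := by
    have : 2 * I / 2 ^ Kn = 2 * (1 / 2 ^ Kn * I) := by ring
    rw [hY]
    nlinarith
  have hY0 : 0 ≤ Y := by positivity
  have hFi : 0 ≤ Fi w * (C1 / sh) := mul_nonneg (by linarith [hR.Fi_ge]) (by positivity)
  have hS0 : 0 ≤ Real.sqrt (C2 / sh) * I := by positivity
  set P := Fi w * (C1 / sh) with hP
  set R := Real.sqrt (C2 / sh) * I with hR'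
  have h1 : P * tm (fun β => W1 w univ f (c + lin S β)) ≤ P * (24 * Y) :=
    mul_le_mul_of_nonneg_left (hW1.trans hVY) hFi
  have h2 : C * (P * tm (fun β => W1 w univ f (c + lin S β)) + R) ≤ C * (P * (24 * Y) + R) :=
    mul_le_mul_of_nonneg_left (by linarith) hC.le
  have h3 : 0 ≤ P * Y := mul_nonneg hFi hY0
  have h4 : 0 ≤ C * Y := mul_nonneg hC.le hY0
  have h5 : 0 ≤ C * R := mul_nonneg hC.le hS0
  nlinarith

end Vale.Agent.P318.C
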