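import Vale.Agent.P318.C.IStmt
import Vale.Agent.P318.C.Poincare
import Vale.Agent.P318.B.Iso

/-!
Track C: the Poincare inequality for a system of blocks.
-/

namespace Vale.Agent.P318.C

open Finset MeasureTheory ProbabilityTheory
open M (U01 tm BM Dual Lat lin Inv blk)
open M.Noised (bm_comp bm_const bm_add bm_mul bm_sum tm_const tm_add tm_sub tm_mul tm_sum tm_mono
  tm_nonneg lin_add meas_lin per_of_inv tm_tm)
open B (cd Kt tc)

open Poincare in
theorem poin2_proof (hW : WinStmt) (hD : DerivStmt) (hF : FourierStmt) (hT : TVStmt)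
    (hN : NoisedStmt) (hFb : FibreStmt) : Poin2Stmt := by
  obtain ⟨C, hC, hTV⟩ := hT
  refine ⟨24 + 24 * C, by positivity, ?_⟩
  intro ι Vb A _ _ _ _ _ _ Md bk s Γb π sc Kn Γ c f w E1 L θ X E0 sh C1 C2 hw hE1 hE0 hL
    hθ hθL hX hXL hKn hcoll hz hpart hblk hsh hC1 hC2 hLat hdual hT3 hsplit hf hinv
  set S := tc s with hS
  change _ ≤ _ * (_ * (_ + (Fintype.card Vb : ℝ) * E0) + _)
  have hR := hW w hw
  have hf2 : U01 fun x => f x ^ 2 := fun x => ⟨sq_nonneg _, by
    have := hf x
    nlinarith⟩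
  have ml := meas_lin S c
  obtain ⟨f0, -, fvar, fI, fW, -⟩ := hF ι w f hw hf
  obtain ⟨dE, -, -, dbm, -⟩ := hD ι w f hw hf
  obtain ⟨dE2, -⟩ := hD ι w (fun x => f x ^ 2) hw hf2
  have bE : BM (Ey w f) := ⟨dE.1, 1, fun y => by
    rw [abs_of_nonneg (dE.2 y).1]; exact (dE.2 y).2⟩
  have bE2 : BM (Ey w fun x => f x ^ 2) := ⟨dE2.1, 1, fun y => by
    rw [abs_of_nonneg (dE2.2 y).1]; exact (dE2.2 y).2⟩
  have bEsq : BM fun y => Ey w f y ^ 2 := by
    simpa only [sq] using bm_mul bE bE
  set I := tm (fun β => Inf w univ f (c + lin S β)) with hI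
  have hI0 : 0 ≤ I := tm_nonneg fun β => ((dbm univ).2.2.2 _).2.2.2
  have bI : BM fun β => Inf w univ f (c + lin S β) := bm_comp (dbm univ).2.2.1 ml
  set wS : Finset ι → ℝ := fun T => tm fun β => fw w f T (c + lin S β) with hwS
  have hwS0 : ∀ T, 0 ≤ wS T := fun T => tm_nonneg fun β => (f0 T).2 _
  have hFib := hFb ι A Vb π sc Kn wS
    (fun J => tm fun β => Inf w (blk π J) f (c + lin S β)) E1 I L θ X E0 hwS0
    (fun a => by
      rw [← tm_sum _ fun v _ => bm_comp (dbm (blk π (a, v))).2.2.1 ml]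
      refine le_of_eq (congrArg tm (funext fun β => ?_))
      exact sum_blk π a _)
    (by
      rw [← tm_fsum hF hw hf S c fun T => (T.card : ℝ)]
      exact tm_mono (bm_comp (bm_fsum hF hw hf fun T => (T.card : ℝ)) ml) bI fun β => fI _)
    hE1 hE0 hL hθ hθL hX hXL hKn hcoll
    (fun J hJ => by
      by_cases hex : ∃ i, π J.1 i = J.2
      swap
      · have he : blk π J = ∅ := by
          refine Finset.eq_empty_of_forall_notMem fun j hj => hex ⟨j, ?_⟩
          exact (Finset.mem_filter.1 hj).2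
        have h0 : 0 ≤ tm fun β => Inf w (blk π J) f (c + lin S β) :=
          tm_nonneg fun β => ((dbm _).2.2.2 _).2.2.2
        have h1 := mul_nonneg (hE1 (sc J.1)) h0
        simp only [he, Finset.inter_empty, Finset.card_empty, zero_ne_one, if_false,
          Finset.sum_const_zero, OfNat.zero_ne_ofNat, mul_zero, zero_add] at h1 ⊢
        linarith
      obtain ⟨i, hi⟩ := hex
      have he : blk π J = bk J.2 := by
        ext j
        rw [← hi, hpart]
        simp only [blk, Finset.mem_filter, Finset.mem_univ, true_and, hi]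
      have hB : BlockAt w L (E1 (sc J.1)) E0 (Γb J.2) (blk π J) (s J.2) := by
        rw [he, ← hi]
        exact hblk J.1 i hJ
      have hz' : ∀ j, j ∉ blk π J → s J.2 j = 0 := by
        rw [he]
        exact hz J.2
      have hg0 : (0 : ℝ) ≤ (1 / 2) ^ sc J.1 := by positivity
      have hg1 : (1 / 2 : ℝ) ^ sc J.1 ≤ 1 := pow_le_one₀ (by norm_num) (by norm_num)
      set q : ℝ := 1 - (1 / 2) ^ sc J.1 with hq
      have hq0 : 0 ≤ q := by linarith
      have hρ : ∀ n : ℕ, Real.sqrt q ^ (2 * n) = q ^ n := fun n => by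
        rw [pow_mul, Real.sq_sqrt hq0]
      have h := hN ι (Fin (Md J.2)) (Kt Md) (Γb J.2) (blk π J) (s J.2) S (B.Iso.emb J.2) c f w L
        (E1 (sc J.1)) E0
        (Real.sqrt q) hw (by linarith) (hE1 _) (Real.sqrt_nonneg _)
        (Real.sqrt_le_one.2 (by linarith)) hB hz' (B.Iso.meas_emb J.2) (B.Iso.lin_emb s J.2) hf
        hinv
      rw [Q1_eq, Q2_eq] at h
      simp only [hρ] at h
      rw [tm_fsum hF hw hf, tm_fsum hF hw hf] at h
      refine le_of_eq_of_le ?_ (h.trans (le_of_eq ?_))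
      · refine Finset.sum_congr rfl fun T _ => ?_
        split_ifs <;> ring
      · congr 3
        refine Finset.sum_congr rfl fun T _ => ?_
        split_ifs <;> ring)
  set V := ∑ T : Finset ι, if T = ∅ then 0 else wS T with hV
  have hVeq : tm (fun β => Ey w (fun x => f x ^ 2) (c + lin S β)) -
      tm (fun β => Ey w f (c + lin S β) ^ 2) = V := by
    rw [← tm_sub (bm_comp bE2 ml) (bm_comp bEsq ml)]
    have : V = ∑ T : Finset ι, (if T = ∅ then (0 : ℝ) else 1) * wS T :=
      Finset.sum_congr rfl fun T _ => by split_ifs <;> ring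
    rw [this, ← tm_fsum hF hw hf]
    refine congrArg tm (funext fun β => (fvar _).trans ?_)
    exact Finset.sum_congr rfl fun T _ => by split_ifs <;> ring
  have hW1 : tm (fun β => W1 w univ f (c + lin S β)) ≤ V := by
    have : tm (fun β => W1 w univ f (c + lin S β)) =
        ∑ T : Finset ι, (if T.card = 1 then (1 : ℝ) else 0) * wS T := by
      rw [← tm_fsum hF hw hf]
      refine congrArg tm (funext fun β => (fW _).trans ?_)
      exact Finset.sum_congr rfl fun T _ => by split_ifs <;> ring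
    rw [this]
    refine Finset.sum_le_sum fun T _ => ?_
    have := hwS0 T
    split_ifs with h1 h2 h2
    · rw [h2] at h1
      simp at h1
    · linarith
    · linarith
    · linarith
  have hTo := hTV ι (Kt Md) Γ S c f w sh C1 C2 hw hsh hC1 hC2 hLat hdual hT3 hsplit hf
    fun r _ z hz => hinv r trivial z hz
  rw [← hI] at hTo
  set G := ∑ k ∈ Icc 1 Kn, (1 / 2 : ℝ) ^ k * E1 k with hG
  have hG0 : 0 ≤ G := Finset.sum_nonneg fun k _ => mul_nonneg (by positivity) (hE1 k)
  have hVb : (0 : ℝ) ≤ Fintype.card Vb * E0 := by positivity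
  have hsum : ∑ k ∈ Icc 1 Kn, (1 / 2 : ℝ) ^ k * (E1 k * I + Fintype.card Vb * E0) ≤
      G * I + Fintype.card Vb * E0 := by
    have : ∑ k ∈ Icc 1 Kn, (1 / 2 : ℝ) ^ k * (E1 k * I + Fintype.card Vb * E0) =
        G * I + (∑ k ∈ Icc 1 Kn, (1 / 2 : ℝ) ^ k) * (Fintype.card Vb * E0) := by
      rw [hG, Finset.sum_mul, Finset.sum_mul, ← Finset.sum_add_distrib]
      exact Finset.sum_congr rfl fun k _ => by ring
    rw [this]
    have := mul_le_mul_of_nonneg_right (geom_le Kn) hVb
    linarith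
  set Y := (G + 1 / 2 ^ Kn) * I + Fintype.card Vb * E0 with hY
  have hI2 : 0 ≤ 1 / 2 ^ Kn * I := by positivity
  have hVY : V ≤ 24 * Y := by
    have : 2 * I / 2 ^ Kn = 2 * (1 / 2 ^ Kn * I) := by ring
    rw [hY]
    nlinarith
  have hY0 : 0 ≤ Y := by positivity
  have hFi : 0 ≤ Fi w * (C1 / sh) := mul_nonneg (by linarith [hR.Fi_ge]) (by positivity)
  have hS0 : 0 ≤ Real.sqrt (C2 / sh) * I := by positivity
  set P := Fi w * (C1 / sh) with hP
  set R := Real.sqrt (C2 / sh) * I with hR'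
  have h1 : P * tm (fun β => W1 w univ f (c + lin S β)) ≤ P * (24 * Y) :=
    mul_le_mul_of_nonneg_left (hW1.trans hVY) hFi
  have h2 : C * (P * tm (fun β => W1 w univ f (c + lin S β)) + R) ≤ C * (P * (24 * Y) + R) :=
    mul_le_mul_of_nonneg_left (by linarith) hC.le
  have h3 : 0 ≤ P * Y := mul_nonneg hFi hY0
  have h4 : 0 ≤ C * Y := mul_nonneg hC.le hY0
  have h5 : 0 ≤ C * R := mul_nonneg hC.le hS0
  nlinarith

end Vale.Agent.P318.C
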