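import Vale.Agent.P318.C.GStmt
import Vale.Agent.P318.RProb

/-! The projection is almost diagonal on sparse sets. -/

namespace Vale.Agent.P318.C

open Finset
open scoped BigOperators
open M (ip nsq lin)
open B (cd Op Kt tc res zone)

namespace RPp

theorem decouple {α : Type} [Fintype α] [DecidableEq α] (I : Finset α) (g : α → α → ℝ) (C : ℝ)
    (h : ∀ I' ⊆ I, |∑ j ∈ I', ∑ l ∈ I \ I', g j l| ≤ C) :
    |∑ j ∈ I, ∑ l ∈ I.erase j, g j l| ≤ 4 * C := by
  have h1 : ∀ i l, i ≠ l → 𝔼 d : α → Bool,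
      ((if d i = true then (1 : ℝ) else 0) * if d l = false then (1 : ℝ) else 0) = 1 / 4 := by
    intro i l hil
    have := R.expect_prod_pi_mem (Ω := fun _ : α => Bool) {i, l}
      (fun a u => if a = i then (if u = true then (1 : ℝ) else 0) else
        (if u = false then (1 : ℝ) else 0))
    simp only [prod_pair hil, if_true, if_neg hil.symm] at this
    rw [this]
    simp only [Fintype.expect_eq_sum_div_card]
    norm_num
  have h2 : ∑ i ∈ I, ∑ l ∈ I.erase i, g i l = 4 * 𝔼 d : α → Bool,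
      ∑ i ∈ I.filter (fun i => d i = true), ∑ l ∈ I \ I.filter (fun i => d i = true), g i l := by
    have e : ∀ d : α → Bool, ∑ i ∈ I.filter (fun i => d i = true),
        ∑ l ∈ I \ I.filter (fun i => d i = true), g i l =
        ∑ i ∈ I, ∑ l ∈ I.erase i,
          ((if d i = true then (1 : ℝ) else 0) * if d l = false then (1 : ℝ) else 0) * g i l := by
      intro d
      rw [sum_filter]
      refine sum_congr rfl fun i _ => ?_
      split_ifs with hi
      · have : I \ I.filter (fun i => d i = true) = (I.erase i).filter fun l => d l = false := by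
          ext l
          simp only [mem_sdiff, mem_filter, mem_erase]
          constructor
          · rintro ⟨a, b⟩
            have : d l = false := by simpa [a] using b
            exact ⟨⟨fun hc => by simp [hc, hi] at this, a⟩, this⟩
          · rintro ⟨⟨-, a⟩, b⟩
            exact ⟨a, by simp [b]⟩
        rw [this, sum_filter]
        refine sum_congr rfl fun l _ => ?_
        split_ifs <;> simp
      · simp
    simp only [e, expect_sum_comm, ← expect_mul, mul_sum]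
    refine sum_congr rfl fun i _ => sum_congr rfl fun l hl => ?_
    rw [h1 i l (mem_erase.1 hl).1.symm]
    ring
  rw [h2, abs_mul, abs_of_pos (by norm_num : (0 : ℝ) < 4)]
  exact mul_le_mul_of_nonneg_left ((abs_expect_le _ _).trans
    (expect_le univ_nonempty fun d _ => h _ (filter_subset _ _))) (by norm_num)

variable {ι B : Type} [Fintype ι] [DecidableEq ι] [Fintype B] [DecidableEq B] {M : B → ℕ}

omit [Fintype ι] [DecidableEq ι] in
theorem ip_comb {κ : Type} [Fintype κ] (m : κ → ℤ) (I : Finset ι) (y : ι → ℝ) (T : ι → κ → ℝ) :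
    ip m (fun x => ∑ j ∈ I, y j * T j x) = ∑ j ∈ I, y j * ip m (T j) := by
  simp only [ip, mul_sum]
  rw [sum_comm]
  exact sum_congr rfl fun j _ => sum_congr rfl fun k _ => by ring

omit [Fintype ι] [DecidableEq ι] [DecidableEq B] in
theorem ipBig_comb (blk : B → Finset ι) (s : (J : B) → ι → Fin (M J) → ℤ) (m : ℝ) (I : Finset ι)
    (y : ι → ℝ) (T : ι → Kt M → ℝ) (i : ι) :
    ipBig blk s m (fun x => ∑ j ∈ I, y j * T j x) i = ∑ j ∈ I, y j * ipBig blk s m (T j) i := by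
  simp only [ipBig, mul_sum]
  rw [sum_comm]
  exact sum_congr rfl fun J _ => ip_comb (s J i) I y fun j => res (T j) J

omit [Fintype ι] [DecidableEq ι] [DecidableEq B] in
theorem en_nonneg (blk : B → Finset ι) (τ : Kt M → ℝ) : 0 ≤ en blk τ :=
  sum_nonneg fun _ _ => mul_nonneg (Nat.cast_nonneg _) (sum_nonneg fun _ _ => sq_nonneg _)

omit [Fintype ι] [DecidableEq ι] [DecidableEq B] in
theorem en_sub (blk : B → Finset ι) (τ : Kt M → ℝ) (S : Finset B) :
    ∑ J ∈ S, ((blk J).card : ℝ) * nsq (res τ J) ≤ en blk τ :=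
  sum_le_sum_of_subset_of_nonneg (subset_univ S) fun _ _ _ =>
    mul_nonneg (Nat.cast_nonneg _) (sum_nonneg fun _ _ => sq_nonneg _)

omit [Fintype ι] [DecidableEq ι] [DecidableEq B] in
theorem en_zero {blk : B → Finset ι} (hne : ∀ J, (blk J).Nonempty) {τ : Kt M → ℝ}
    (h : en blk τ ≤ 0) : τ = 0 := by
  funext x
  have h1 := en_sub blk τ {x.1}
  rw [sum_singleton] at h1
  have h2 : (0 : ℝ) < (blk x.1).card := by exact_mod_cast (hne x.1).card_pos
  have h3 : nsq (res τ x.1) ≤ 0 := by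
    by_contra hc
    have := mul_pos h2 (not_le.1 hc)
    linarith
  have h4 : res τ x.1 x.2 ^ 2 ≤ nsq (res τ x.1) :=
    single_le_sum (f := fun k => res τ x.1 k ^ 2) (fun _ _ => sq_nonneg _) (mem_univ x.2)
  exact pow_eq_zero_iff (two_ne_zero) |>.1 (le_antisymm (h4.trans h3) (sq_nonneg _))

omit [Fintype ι] [DecidableEq ι] in
theorem op_mono {κ : Type} [Fintype κ] {T : Finset ι} {s : ι → κ → ℤ} {a b : ℝ} (h : Op T s a)
    (hab : a ≤ b) : Op T s b := fun V =>
  (h V).trans (mul_le_mul_of_nonneg_right hab (sum_nonneg fun _ _ => sq_nonneg _))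

omit [DecidableEq B] in
/-- Pairing the equation with the solution. -/
theorem pair {s : (J : B) → ι → Fin (M J) → ℤ} {L : Finset B} {I I2 : Finset ι} {y : ι → ℝ}
    {τ : Kt M → ℝ} (h : Sol s L I I2 y τ) :
    ∑ i ∈ Iᶜ, lin (tc s) τ i ^ 2 = ∑ j ∈ I2, y j * lin (tc s) τ j := by
  have h1 : ∑ x, τ x * ∑ i ∈ Iᶜ, (tc s i x : ℝ) * lin (tc s) τ i =
      ∑ x, τ x * ∑ j ∈ I2, y j * tc s j x := by
    refine sum_congr rfl fun x _ => ?_
    by_cases hx : x.1 ∈ L
    · rw [h.1 x hx, zero_mul, zero_mul]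
    · rw [h.2 x hx]
  simp only [mul_sum] at h1
  rw [sum_comm, sum_comm (t := I2)] at h1
  calc _ = ∑ i ∈ Iᶜ, ∑ x, τ x * ((tc s i x : ℝ) * lin (tc s) τ i) := by
        refine sum_congr rfl fun i _ => ?_
        rw [sq]
        nth_rewrite 1 [lin]
        rw [ip, sum_mul]
        exact sum_congr rfl fun x _ => by ring
    _ = _ := h1
    _ = _ := by
        refine sum_congr rfl fun j _ => ?_
        rw [lin, ip, mul_sum]
        exact sum_congr rfl fun x _ => by ring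

omit [DecidableEq B] in
theorem sol_comb {s : (J : B) → ι → Fin (M J) → ℤ} {L : Finset B} {I : Finset ι}
    {T : ι → Kt M → ℝ} (hT : ∀ j, Sol s L I {j} (fun _ => 1) (T j)) (I2 : Finset ι) (y : ι → ℝ) :
    Sol s L I I2 y fun x => ∑ j ∈ I2, y j * T j x := by
  refine ⟨fun x hx => sum_eq_zero fun j _ => by rw [(hT j).1 x hx, mul_zero], fun x hx => ?_⟩
  simp only [lin, ip_comb, mul_sum]
  rw [sum_comm]
  refine sum_congr rfl fun j _ => ?_
  have := (hT j).2 x hx
  rw [sum_singleton, one_mul] at this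
  rw [← this, mul_sum]
  exact sum_congr rfl fun i _ => by rw [lin]; ring

omit [DecidableEq B] in
theorem sol_sub {s : (J : B) → ι → Fin (M J) → ℤ} {L : Finset B} {I I2 : Finset ι} {y : ι → ℝ}
    {τ τ' : Kt M → ℝ} (h : Sol s L I I2 y τ) (h' : Sol s L I I2 y τ') :
    Sol s L I ∅ y (τ - τ') := by
  refine ⟨fun x hx => by simp [h.1 x hx, h'.1 x hx], fun x hx => ?_⟩
  have e : ∀ i, lin (tc s) (τ - τ') i = lin (tc s) τ i - lin (tc s) τ' i := fun i => by
    simp [lin, ip, mul_sub, sum_sub_distrib]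
  simp only [e, mul_sub, sum_sub_distrib, h.2 x hx, h'.2 x hx, sub_self, sum_empty]

/-- The linear map of the equations. -/
noncomputable def gmap (s : (J : B) → ι → Fin (M J) → ℤ) (L : Finset B) (I : Finset ι) :
    (Kt M → ℝ) →ₗ[ℝ] (Kt M → ℝ) where
  toFun τ x := if x.1 ∈ L then τ x else ∑ i ∈ Iᶜ, (tc s i x : ℝ) * lin (tc s) τ i
  map_add' a b := by
    funext x
    simp only [Pi.add_apply]
    split_ifs
    · rfl
    · simp [lin, ip, mul_add, sum_add_distrib]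
  map_smul' c a := by
    funext x
    simp only [Pi.smul_apply, smul_eq_mul, RingHom.id_apply]
    split_ifs
    · rfl
    · simp only [lin, ip, mul_sum, Pi.smul_apply, smul_eq_mul]
      exact sum_congr rfl fun i _ => sum_congr rfl fun k _ => by ring

variable {blk : B → Finset ι} {s : (J : B) → ι → Fin (M J) → ℤ}
  {Γ : (J : B) → AddSubgroup (Fin (M J) → ℝ)} {J0 : B} {wt : B → ℝ}
  {F Lm Cn φ K Lg cG KX ϱ0 : ℝ}

theorem stepA (hL : LevStmt) (hS : CSys blk s Γ J0 wt F Lm Cn φ) (hR : RipS blk s K Lg 0)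
    (hG : LowG blk s cG) (hK : 1 ≤ K) (hLg : 1 ≤ Lg) (hc : 0 < cG) (hϱ0 : 0 ≤ ϱ0)
    (hφ : 4 * K * φ ≤ cG) (hF : 4 * K * F * Lg * ϱ0 ≤ cG) (I : Finset ι) (L : Finset B)
    (hsp : ∀ J, J ∉ L → ((blk J ∩ I).card : ℝ) ≤ ϱ0 * (blk J).card) :
    (∀ I2 ⊆ I, ∀ y τ, Sol s L I I2 y τ → en blk τ ≤ 2 / cG * ∑ j ∈ I2, y j ^ 2) ∧
    ∃ T : ι → Kt M → ℝ, (∀ j, Sol s L I {j} (fun _ => 1) (T j)) ∧
      ∀ m0 j, |ipBig blk s m0 (T j) j| ≤ 2 * φ / cG := by
  obtain ⟨l1, -, -, -, -, l6, -⟩ := hL ι B M blk s Γ J0 wt F Lm Cn φ hS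
  have hcard : ∀ J, (0 : ℝ) < (blk J).card := fun J => by exact_mod_cast (hS.ne J).card_pos
  have hlin : ∀ τ : Kt M → ℝ, (∀ x, x.1 ∈ L → τ x = 0) → ∀ J ∈ L, ∀ i,
      ip (s J i) (res τ J) = 0 := fun τ hτ J hJ i =>
    sum_eq_zero fun k _ => by rw [show res τ J k = 0 from hτ ⟨J, k⟩ hJ, mul_zero]
  have hfr : ∀ (S : Finset B) i,
      ∑ J ∈ S.filter (fun J => i ∈ blk J), (M J : ℝ) / (blk J).card ≤ φ := fun S i =>
    (sum_le_sum_of_subset_of_nonneg (filter_subset_filter _ (subset_univ S))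
      fun J _ _ => by positivity).trans (hS.frac i)
  have hdeg : ∀ (S : Finset B) i, ((S.filter fun J => i ∈ blk J).card : ℝ) ≤ F := fun S i =>
    le_trans (by exact_mod_cast card_le_card (filter_subset_filter _ (subset_univ S))) (hS.deg i)
  have hφ0 : ∀ _ : ι, 0 ≤ φ := fun i => by simpa using hfr ∅ i
  -- step 1
  have s1 : ∀ τ : Kt M → ℝ, (∀ x, x.1 ∈ L → τ x = 0) →
      ∑ i ∈ I, lin (tc s) τ i ^ 2 ≤ cG / 2 * en blk τ := by
    intro τ hτ
    have e : ∀ i, lin (tc s) τ i = ∑ J ∈ Lᶜ, ip (s J i) (res τ J) := fun i => by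
      rw [l1, ← sum_add_sum_compl L, sum_eq_zero fun J hJ => hlin τ hτ J hJ i, zero_add]
    simp only [e]
    refine (l6 τ Lᶜ I (fun J => K * ((M J : ℝ) / (blk J).card + Lg * ϱ0)) (cG / 2)
      (fun J => by positivity) (fun J hJ => ?_) fun i => ?_).trans
      (mul_le_mul_of_nonneg_left (en_sub blk τ _) (by positivity))
    · refine op_mono (hR J _ inter_subset_left) ?_
      have := hsp J (mem_compl.1 hJ)
      have h2 := hcard J
      rw [zero_mul, add_zero, mul_assoc, add_mul, div_mul_cancel₀ _ h2.ne', mul_assoc]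
      gcongr
    · rw [← mul_sum, sum_add_distrib, sum_const, nsmul_eq_mul]
      have h1 := hfr Lᶜ i
      have h2 := mul_le_mul_of_nonneg_right (hdeg Lᶜ i) (show 0 ≤ Lg * ϱ0 by positivity)
      nlinarith
  have s1' : ∀ τ : Kt M → ℝ, (∀ x, x.1 ∈ L → τ x = 0) →
      cG / 2 * en blk τ ≤ ∑ i ∈ Iᶜ, lin (tc s) τ i ^ 2 := by
    intro τ hτ
    have h1 := hG τ
    rw [← sum_add_sum_compl I] at h1
    linarith [s1 τ hτ]
  -- step 2
  have s2 : ∀ I2 ⊆ I, ∀ y τ, Sol s L I I2 y τ → en blk τ ≤ 2 / cG * ∑ j ∈ I2, y j ^ 2 := by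
    intro I2 hI2 y τ h
    have h1 := s1' τ h.1
    rw [pair h] at h1
    have h2 := sum_mul_sq_le_sq_mul_sq I2 y (lin (tc s) τ)
    have h3 : ∑ i ∈ I2, lin (tc s) τ i ^ 2 ≤ cG / 2 * en blk τ :=
      (sum_le_sum_of_subset_of_nonneg hI2 fun _ _ _ => sq_nonneg _).trans (s1 τ h.1)
    have h4 : 0 ≤ cG / 2 * en blk τ := mul_nonneg (by positivity) (en_nonneg blk τ)
    have h5 : 0 ≤ ∑ j ∈ I2, y j ^ 2 := sum_nonneg fun _ _ => sq_nonneg _
    have h6 : cG / 2 * en blk τ ≤ ∑ j ∈ I2, y j ^ 2 := by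
      by_contra hcon
      push Not at hcon
      have h7 := mul_le_mul_of_nonneg_left h3 h5
      have h8 := pow_le_pow_left₀ h4 h1 2
      nlinarith
    calc en blk τ = 2 / cG * (cG / 2 * en blk τ) := by field_simp
      _ ≤ _ := mul_le_mul_of_nonneg_left h6 (by positivity)
  -- step 3
  have hinj : Function.Injective (gmap s L I) := by
    rw [← LinearMap.ker_eq_bot, LinearMap.ker_eq_bot']
    intro τ hτ
    have h0 : Sol s L I ∅ 0 τ := by
      refine ⟨fun x hx => ?_, fun x hx => ?_⟩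
      · have := congrFun hτ x
        simpa [gmap, hx] using this
      · have := congrFun hτ x
        simpa [gmap, hx] using this
    have := s2 ∅ (empty_subset _) 0 _ h0
    rw [sum_empty, mul_zero] at this
    exact en_zero hS.ne this
  have hsurj := LinearMap.injective_iff_surjective.1 hinj
  have hex : ∀ j, ∃ T : Kt M → ℝ, Sol s L I {j} (fun _ => 1) T := by
    intro j
    obtain ⟨T, hT⟩ := hsurj fun x => if x.1 ∈ L then 0 else (tc s j x : ℝ)
    refine ⟨T, fun x hx => ?_, fun x hx => ?_⟩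
    · have := congrFun hT x
      simpa [gmap, hx] using this
    · have := congrFun hT x
      simpa [gmap, hx] using this
  choose T hT using hex
  have one : ∀ (τ : Kt M → ℝ) (S : Finset B) j,
      (∑ J ∈ S, ip (s J j) (res τ J)) ^ 2 ≤ φ * en blk τ := by
    intro τ S j
    have := l6 τ S {j} (fun J => (M J : ℝ) / (blk J).card) φ (fun J => by positivity)
      (fun J _ V => ?_) (hfr S)
    · rw [sum_singleton] at this
      exact this.trans (mul_le_mul_of_nonneg_left (en_sub blk τ S) (hφ0 j))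
    · rw [div_mul_cancel₀ _ (hcard J).ne']
      refine (sum_le_sum_of_subset_of_nonneg inter_subset_right fun _ _ _ => sq_nonneg _).trans ?_
      rw [sum_singleton]
      refine (sum_mul_sq_le_sq_mul_sq univ _ _).trans (mul_le_mul_of_nonneg_right ?_
        (sum_nonneg fun _ _ => sq_nonneg _))
      calc ∑ k, ((s J j k : ℤ) : ℝ) ^ 2 ≤ ∑ _k : Fin (M J), (1 : ℝ) :=
            sum_le_sum fun k _ => by
              rw [← sq_abs]; exact pow_le_one₀ (abs_nonneg _) (hS.ent J j k)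
        _ = M J := by simp
  refine ⟨s2, T, hT, fun m0 j => ?_⟩
  have h1 := s1' _ (hT j).1
  rw [pair (hT j), sum_singleton, one_mul, l1] at h1
  have h2 := one (T j) univ j
  have h3 : ipBig blk s m0 (T j) j ^ 2 ≤ φ * en blk (T j) := one (T j) _ j
  have h4 := en_nonneg blk (T j)
  have h5 := hφ0 j
  have h6 : (cG / 2 * en blk (T j)) ^ 2 ≤ φ * en blk (T j) :=
    (pow_le_pow_left₀ (by positivity) h1 2).trans h2
  have h7 : cG ^ 2 / 4 * en blk (T j) ≤ φ := by
    rcases h4.eq_or_lt with h | h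
    · rw [← h, mul_zero]; exact h5
    · refine le_of_mul_le_mul_right ?_ h
      nlinarith
  refine abs_le_of_sq_le_sq' (h3.trans ?_) (by positivity) |> abs_le.2
  calc φ * en blk (T j) = 4 * φ / cG ^ 2 * (cG ^ 2 / 4 * en blk (T j)) := by field_simp
    _ ≤ 4 * φ / cG ^ 2 * φ := mul_le_mul_of_nonneg_left h7 (by positivity)
    _ = (2 * φ / cG) ^ 2 := by field_simp; ring

omit [DecidableEq B] in
theorem stepO {I I1 : Finset ι} {L : Finset B} {T : ι → Kt M → ℝ} {m0 r : ℝ} (y O : ι → ℝ)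
    (hLO : LeaveOut blk s (2 / cG) KX) (hc : 0 < cG) (hKX : 0 ≤ KX) (hI1 : I1 ⊆ I)
    (hLI : zone blk L ⊆ I) (hm0 : m0 = Real.sqrt (I.card * cd ι))
    (hr : r = Real.sqrt (I.card / cd ι)) (hT : ∀ j, Sol s L I {j} (fun _ => 1) (T j))
    (s2 : ∀ I2 ⊆ I, ∀ y τ, Sol s L I I2 y τ → en blk τ ≤ 2 / cG * ∑ j ∈ I2, y j ^ 2)
    (hO : O = fun j => ∑ l ∈ I.erase j, y l * ipBig blk s m0 (T l) j) :
    ∑ j ∈ I1, O j ^ 2 ≤ 16 * (KX * (2 / cG) * r) * ∑ j ∈ I, y j ^ 2 := by
  set Y := ∑ j ∈ I, y j ^ 2 with hY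
  have hY0 : 0 ≤ Y := sum_nonneg fun _ _ => sq_nonneg _
  have hr0 : 0 ≤ r := hr ▸ Real.sqrt_nonneg _
  set v : ι → ℝ := fun j => if j ∈ I1 then O j else 0 with hv
  set P := ∑ j ∈ I1, O j ^ 2 with hP
  have hP0 : 0 ≤ P := sum_nonneg fun _ _ => sq_nonneg _
  have hc0 : 0 ≤ KX * (2 / cG) * r := by positivity
  have hvP : ∑ j ∈ I, v j ^ 2 = P := by
    rw [hP, ← sum_subset hI1 fun j _ hj => by simp [hv, hj]]
    exact sum_congr rfl fun j hj => by simp [hv, hj]
  have h1 := decouple I (fun j l => v j * (y l * ipBig blk s m0 (T l) j))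
    (Real.sqrt (KX * (2 / cG) * r * P * Y)) fun I' hI' => by
      refine Real.abs_le_sqrt ?_
      have := hLO I I' L hI' hLI (s2 _ sdiff_subset) v y _ (sol_comb hT (I \ I') y)
      simp only [← hm0, ipBig_comb, ← hr] at this
      simp only [← mul_sum]
      refine this.trans ?_
      refine mul_le_mul (mul_le_mul_of_nonneg_left ?_ hc0) ?_
        (sum_nonneg fun _ _ => sq_nonneg _) (by positivity)
      · rw [← hvP]
        exact sum_le_sum_of_subset_of_nonneg hI' fun _ _ _ => sq_nonneg _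
      · exact sum_le_sum_of_subset_of_nonneg sdiff_subset fun _ _ _ => sq_nonneg _
  have h2 : ∑ j ∈ I, ∑ l ∈ I.erase j, v j * (y l * ipBig blk s m0 (T l) j) = P := by
    rw [← hvP]
    refine sum_congr rfl fun j _ => ?_
    rw [← mul_sum]
    by_cases hj : j ∈ I1
    · simp only [hv, if_pos hj, hO, sq]
    · simp [hv, hj]
  rw [h2, abs_of_nonneg hP0] at h1
  have h3 := pow_le_pow_left₀ hP0 h1 2
  rw [mul_pow, Real.sq_sqrt (by positivity)] at h3
  rcases hP0.eq_or_lt with h | h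
  · rw [← h]; positivity
  · refine le_of_mul_le_mul_right ?_ h
    nlinarith

theorem stepS (hL : LevStmt) (hS : CSys blk s Γ J0 wt F Lm Cn φ) (hR : RipS blk s K Lg 0)
    (hK : 1 ≤ K) (hLg : 1 ≤ Lg) {I I1 : Finset ι} {L : Finset B} {m0 r ϱ1 Y : ℝ}
    (τ : Kt M → ℝ) (hm0 : m0 = Real.sqrt (I.card * cd ι)) (hr : r = Real.sqrt (I.card / cd ι))
    (hϱ1 : 0 ≤ ϱ1) (hsp1 : ∀ J, J ∉ L → ((blk J ∩ I1).card : ℝ) ≤ ϱ1 * (blk J).card)
    (hen : en blk τ ≤ Y) (Sm : Finset B)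
    (hSm : Sm = (univ.filter fun J => ¬ m0 ≤ (blk J).card) \ L) :
    ∑ j ∈ I1, (∑ J ∈ Sm, ip (s J j) (res τ J)) ^ 2 ≤ K * F * Lg * (Real.sqrt r + ϱ1) * Y := by
  obtain ⟨-, -, -, -, -, l6, -⟩ := hL ι B M blk s Γ J0 wt F Lm Cn φ hS
  have hcard : ∀ J, (0 : ℝ) < (blk J).card := fun J => by exact_mod_cast (hS.ne J).card_pos
  have hdeg : ∀ (S : Finset B) i, ((S.filter fun J => i ∈ blk J).card : ℝ) ≤ F := fun S i =>
    le_trans (by exact_mod_cast card_le_card (filter_subset_filter _ (subset_univ S))) (hS.deg i)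
  have hr0 : 0 ≤ r := hr ▸ Real.sqrt_nonneg _
  have hF1 := hS.one_le_F
  have hsr := Real.sqrt_nonneg r
  refine (l6 τ Sm I1 (fun _ => K * (Real.sqrt r + Lg * ϱ1)) (K * F * Lg * (Real.sqrt r + ϱ1))
    (fun J => by positivity) (fun J hJ => ?_) fun i => ?_).trans
    (mul_le_mul_of_nonneg_left ((en_sub blk τ _).trans hen)
      (by positivity))
  · obtain ⟨h1, h2⟩ := mem_sdiff.1 (hSm ▸ hJ)
    have h3 : ((blk J).card : ℝ) < m0 := not_le.1 (mem_filter.1 h1).2
    have h4 := hcard J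
    have hn : 0 < cd ι := h4.trans_le (by unfold cd; exact_mod_cast card_le_univ _)
    have h5 : Real.sqrt (blk J).card ≤ Real.sqrt r * Real.sqrt (cd ι) := by
      rw [← Real.sqrt_mul hr0]
      refine Real.sqrt_le_sqrt (h3.le.trans (le_of_eq ?_))
      rw [hm0, hr, show (I.card : ℝ) * cd ι = I.card / cd ι * cd ι ^ 2 by field_simp,
        Real.sqrt_mul' _ (sq_nonneg _), Real.sqrt_sq hn.le]
    have h6 : (M J : ℝ) ≤ Real.sqrt r * (blk J).card := by
      refine le_of_mul_le_mul_right ((hS.dim2 J).trans ?_) (Real.sqrt_pos.2 hn)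
      calc ((blk J).card : ℝ) * Real.sqrt (blk J).card ≤
            (blk J).card * (Real.sqrt r * Real.sqrt (cd ι)) :=
            mul_le_mul_of_nonneg_left h5 h4.le
        _ = _ := by ring
    refine op_mono (hR J _ inter_subset_left) ?_
    have := hsp1 J h2
    rw [zero_mul, add_zero, mul_assoc, add_mul, mul_assoc]
    gcongr
  · rw [sum_const, nsmul_eq_mul]
    refine (mul_le_mul_of_nonneg_right (hdeg Sm i) (by positivity)).trans ?_
    have : Real.sqrt r + Lg * ϱ1 ≤ Lg * (Real.sqrt r + ϱ1) := by nlinarith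
    calc F * (K * (Real.sqrt r + Lg * ϱ1)) ≤ F * (K * (Lg * (Real.sqrt r + ϱ1))) := by gcongr
      _ = _ := by ring

theorem stepP {a D f O sm : ℝ} (h2 : 1 / 2 ≤ 1 + D) (h1 : a = D * (f - a) + O + sm) :
    (a - D / (1 + D) * f) ^ 2 ≤ 8 * O ^ 2 + 8 * sm ^ 2 := by
  have h3 : (1 + D) * (a - D / (1 + D) * f) = O + sm := by
    have : (1 + D) * (D / (1 + D) * f) = D * f := by field_simp
    rw [mul_sub, this]
    linarith
  have h4 : (1 / 2 : ℝ) ^ 2 ≤ (1 + D) ^ 2 := pow_le_pow_left₀ (by norm_num) h2 2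
  have h5 := mul_le_mul_of_nonneg_right h4 (sq_nonneg (a - D / (1 + D) * f))
  rw [← mul_pow (1 + D), h3] at h5
  nlinarith [sq_nonneg (O - sm)]

end RPp

open RPp in
theorem rp_proof (hL : LevStmt) : RPStmt := by
  intro ι B _ _ _ _ M blk s Γ J0 wt F Lm Cn φ K Lg cG KX ϱ0 hS hR hG hLO hK hLg hc hKX hϱ0 hφ hF
    I L hLI hsp
  obtain ⟨s2, T, hT, hDle'⟩ := stepA hL hS hR hG hK hLg hc hϱ0 hφ hF I L hsp
  obtain ⟨l1, -⟩ := hL ι B M blk s Γ J0 wt F Lm Cn φ hS
  have hlin : ∀ τ : Kt M → ℝ, (∀ x, x.1 ∈ L → τ x = 0) → ∀ J ∈ L, ∀ i,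
      ip (s J i) (res τ J) = 0 := fun τ hτ J hJ i =>
    sum_eq_zero fun k _ => by rw [show res τ J k = 0 from hτ ⟨J, k⟩ hJ, mul_zero]
  have hφ0 : ∀ _ : ι, 0 ≤ φ := fun i =>
    (sum_nonneg fun J _ => by positivity).trans (hS.frac i)
  have uniq : ∀ I2 y τ τ', Sol s L I I2 y τ → Sol s L I I2 y τ' → τ = τ' := by
    intro I2 y τ τ' h h'
    have := s2 ∅ (empty_subset _) y _ (sol_sub h h')
    rw [sum_empty, mul_zero] at this
    exact sub_eq_zero.1 (en_zero hS.ne this)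
  set m0 := Real.sqrt (I.card * cd ι) with hm0
  set D : ι → ℝ := fun j => ipBig blk s m0 (T j) j with hD
  have hDle : ∀ j, |D j| ≤ 2 * φ / cG := hDle' m0
  have hD2 : ∀ j, 1 / 2 ≤ 1 + D j := by
    intro j
    have h1 := (abs_le.1 (hDle j)).1
    have h2 : 2 * φ / cG ≤ 1 / 2 := by
      rw [div_le_iff₀ hc]
      nlinarith [hφ0 j]
    linarith
  refine ⟨fun j => D j / (1 + D j), fun j => ?_, fun f τ hf hτ hne I1 ϱ1 hI1 hϱ1 hsp1 => ?_⟩
  · have h1 := hD2 j
    rw [abs_div, abs_of_pos (by linarith : 0 < 1 + D j), div_le_iff₀ (by linarith)]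
    have h2 : 0 ≤ 4 * φ / cG := by have := hφ0 j; positivity
    have h3 := mul_le_mul_of_nonneg_left h1 h2
    have h4 : 4 * φ / cG * (1 / 2) = 2 * φ / cG := by ring
    linarith [hDle j]
  -- step 4
  set y : ι → ℝ := fun j => f j - lin (tc s) τ j with hy
  have hsol : Sol s L I I y τ := by
    refine ⟨hτ, fun x hx => ?_⟩
    have h1 := hne x hx
    rw [← sum_add_sum_compl I] at h1
    have h2 : ∑ i ∈ Iᶜ, (tc s i x : ℝ) * (f i - lin (tc s) τ i) =
        -∑ i ∈ Iᶜ, (tc s i x : ℝ) * lin (tc s) τ i := by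
      rw [← sum_neg_distrib]
      exact sum_congr rfl fun i hi => by rw [hf i (mem_compl.1 hi)]; ring
    have h3 : ∑ j ∈ I, y j * tc s j x = ∑ j ∈ I, (tc s j x : ℝ) * (f j - lin (tc s) τ j) :=
      sum_congr rfl fun j _ => by rw [hy]; ring
    linarith
  have hyf : ∑ j ∈ I, y j ^ 2 ≤ ∑ j, f j ^ 2 := by
    have h1 : ∑ j, y j * lin (tc s) τ j = 0 := by
      have : ∑ j, y j * lin (tc s) τ j =
          ∑ x, τ x * ∑ j, (tc s j x : ℝ) * (f j - lin (tc s) τ j) := by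
        simp only [mul_sum]
        rw [sum_comm]
        refine sum_congr rfl fun j _ => ?_
        nth_rewrite 1 [lin]
        rw [ip, mul_sum]
        exact sum_congr rfl fun x _ => by rw [hy]; ring
      rw [this]
      refine sum_eq_zero fun x _ => ?_
      by_cases hx : x.1 ∈ L
      · rw [hτ x hx, zero_mul]
      · rw [hne x hx, mul_zero]
    have h2 : ∑ j, f j ^ 2 =
        ∑ j, y j ^ 2 + 2 * ∑ j, y j * lin (tc s) τ j + ∑ j, lin (tc s) τ j ^ 2 := by
      rw [mul_sum, ← sum_add_distrib, ← sum_add_distrib]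
      exact sum_congr rfl fun j _ => by rw [hy]; ring
    have h3 : ∑ j ∈ I, y j ^ 2 ≤ ∑ j, y j ^ 2 :=
      sum_le_sum_of_subset_of_nonneg (subset_univ I) fun _ _ _ => sq_nonneg _
    have h4 : 0 ≤ ∑ j, lin (tc s) τ j ^ 2 := sum_nonneg fun _ _ => sq_nonneg _
    linarith
  have hrep : τ = fun x => ∑ j ∈ I, y j * T j x := uniq I y _ _ hsol (sol_comb hT I y)
  set O : ι → ℝ := fun j => ∑ l ∈ I.erase j, y l * ipBig blk s m0 (T l) j with hO
  set Sm : Finset B := (univ.filter fun J => ¬ m0 ≤ (blk J).card) \ L with hSm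
  set sm : ι → ℝ := fun j => ∑ J ∈ Sm, ip (s J j) (res τ J) with hsm
  have hdec : ∀ j ∈ I, lin (tc s) τ j = D j * y j + O j + sm j := by
    intro j hj
    have h1 : ipBig blk s m0 τ j = D j * y j + O j := by
      conv_lhs => rw [hrep]
      rw [ipBig_comb, ← add_sum_erase I _ hj, mul_comm]
    have h2 : sm j = ∑ J ∈ univ.filter fun J => ¬ m0 ≤ (blk J).card, ip (s J j) (res τ J) := by
      refine sum_subset sdiff_subset fun J hJ hJ' => hlin τ hτ J ?_ j
      by_contra hc'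
      exact hJ' (mem_sdiff.2 ⟨hJ, hc'⟩)
    rw [← h1, h2, l1, ipBig, sum_filter_add_sum_filter_not]
  clear hrep
  set Y := ∑ j ∈ I, y j ^ 2 with hY
  have hY0 : 0 ≤ Y := sum_nonneg fun _ _ => sq_nonneg _
  set r := Real.sqrt (I.card / cd ι) with hr
  have hr0 : 0 ≤ r := Real.sqrt_nonneg _
  have hr1 : r ≤ 1 := Real.sqrt_le_one.2 (div_le_one_of_le₀
    (by unfold cd; exact_mod_cast card_le_univ I) (Nat.cast_nonneg _))
  have hr2 : r ≤ Real.sqrt r := by
    rw [Real.le_sqrt hr0 hr0]; nlinarith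
  have hOb : ∑ j ∈ I1, O j ^ 2 ≤ 16 * (KX * (2 / cG) * r) * Y :=
    stepO y O hLO hc hKX hI1 hLI hm0 hr hT s2 hO
  have hsb : ∑ j ∈ I1, sm j ^ 2 ≤ K * F * Lg * (Real.sqrt r + ϱ1) * (2 / cG * Y) :=
    stepS hL hS hR hK hLg τ hm0 hr hϱ1 hsp1 (s2 I subset_rfl y τ hsol) Sm hSm
  have hpt : ∀ j ∈ I1, (lin (tc s) τ j - D j / (1 + D j) * f j) ^ 2 ≤ 8 * O j ^ 2 + 8 * sm j ^ 2 :=
    fun j hj => stepP (hD2 j) (hdec j (hI1 hj))
  refine (sum_le_sum hpt).trans ?_
  rw [sum_add_distrib, ← mul_sum, ← mul_sum]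
  have hF1 := hS.one_le_F
  have hsr := Real.sqrt_nonneg r
  have h1 : 16 * (KX * (2 / cG) * r) * Y ≤ 16 * (KX * (2 / cG) * (Real.sqrt r + ϱ1)) * Y := by
    gcongr
    linarith
  calc 8 * ∑ j ∈ I1, O j ^ 2 + 8 * ∑ j ∈ I1, sm j ^ 2 ≤
        8 * (16 * (KX * (2 / cG) * (Real.sqrt r + ϱ1)) * Y) +
          8 * (K * F * Lg * (Real.sqrt r + ϱ1) * (2 / cG * Y)) := by linarith
    _ = 16 / cG * (16 * KX + K * F * Lg) * (Real.sqrt r + ϱ1) * Y := by ring
    _ ≤ _ := mul_le_mul_of_nonneg_left hyf (by positivity)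

end Vale.Agent.P318.C
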