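import Vale.Agent.P318.C.StmtI
import Vale.Agent.P318.M.Bit

/-! Track C: the pairing with the small entries, and consequences of restricted isometry. -/

namespace Vale.Agent.P318.C

open Finset
open M (bit Eb Dd pt U01 ip nsq Ksh)

namespace SmallP

theorem key {ι : Type} [Fintype ι] [DecidableEq ι] {w : Wn} (hw : WinAt w) (J : Finset ι)
    (h : (ι → ℤ) → ℝ) (y : ι → ℝ) (a : ι → ι → ℝ) {X Y : ℝ} (hY : 0 ≤ Y)
    (h0 : ∀ j j', pq w (y j) = 0 → a j j' = 0)
    (hb : ∀ j', |Eb (py w y) fun b => Dd j' (fun b' => h (pt y b')) b *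
      ∑ j, (if j ∈ J.erase j' then a j j' / pq w (y j) else 0) * (bit (b j) - py w y j)| ≤
        X * inf1 w h j' y + Y) :
    |∑ j ∈ J, ∑ j' ∈ J.erase j, dpr w (y j') * c2 w h j j' y * a j j'| ≤
      X * Inf w J h y + J.card * (Y / w.om) := by
  rw [sum_comm' (t' := J) (s' := fun j' => J.erase j') (by
    intro j j'
    simp only [mem_erase]
    tauto), Inf, mul_sum, ← nsmul_eq_mul, ← sum_const, ← sum_add_distrib]
  refine (abs_sum_le_sum_abs _ _).trans (sum_le_sum fun j' _ => ?_)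
  have e : ∑ j ∈ J.erase j', dpr w (y j') * c2 w h j j' y * a j j' =
      dpr w (y j') * Eb (py w y) fun b => Dd j' (fun b' => h (pt y b')) b *
        ∑ j, (if j ∈ J.erase j' then a j j' / pq w (y j) else 0) * (bit (b j) - py w y j) := by
    rw [M.Bit.cov_sum]
    simp only [ite_mul, zero_mul, sum_ite_mem, univ_inter, mul_sum]
    refine sum_congr rfl fun j hj => ?_
    rw [c2, M.Bit.Dd_comm (ne_of_mem_erase hj)]
    change _ = _ * (_ * (pq w (y j) * _))
    by_cases e : pq w (y j) = 0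
    · simp [h0 j j' e]
    · field_simp
  rw [e, abs_mul, abs_of_nonneg (hw.dpr_nonneg _)]
  refine (mul_le_mul_of_nonneg_left (hb j') (hw.dpr_nonneg _)).trans ?_
  have := mul_le_mul_of_nonneg_right (hw.dpr_le (y j')) hY
  rw [one_div_mul_eq_div] at this
  linarith

theorem abs_Dd {ι : Type} [DecidableEq ι] {h : (ι → ℤ) → ℝ} (hh : U01 h) (y : ι → ℝ) (j : ι)
    (b : ι → Bool) : |Dd j (fun b' => h (pt y b')) b| ≤ 1 := by
  have h1 := hh (pt y (Function.update b j true))
  have h2 := hh (pt y (Function.update b j false))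
  rw [Dd, abs_le]
  constructor <;> linarith [h1.1, h1.2, h2.1, h2.2]

variable {ι κ : Type} [Fintype κ] {s : ι → κ → ℤ}

theorem pair (T : Finset ι) (v : ι → ℝ) (V : κ → ℝ) :
    ∑ k, (∑ j ∈ T, v j * (s j k : ℝ)) * V k = ∑ j ∈ T, v j * ip (s j) V := by
  simp only [sum_mul, ip, mul_sum, mul_assoc]
  exact sum_comm

theorem dual {T : Finset ι} {C1 : ℝ} (hC : 0 ≤ C1)
    (h : ∀ v : ι → ℝ, ∑ k, (∑ j ∈ T, v j * (s j k : ℝ)) ^ 2 ≤ C1 * ∑ j ∈ T, v j ^ 2)
    (V : κ → ℝ) : ∑ j ∈ T, ip (s j) V ^ 2 ≤ C1 * nsq V := by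
  have h1 := sum_mul_sq_le_sq_mul_sq univ (fun k => ∑ j ∈ T, ip (s j) V * (s j k : ℝ)) V
  have h2 : 0 ≤ nsq V := sum_nonneg fun _ _ => sq_nonneg _
  have h3 := mul_le_mul_of_nonneg_right (h fun j => ip (s j) V) h2
  rw [pair] at h1
  simp only [← sq] at h1
  have h4 : 0 ≤ ∑ j ∈ T, ip (s j) V ^ 2 := sum_nonneg fun _ _ => sq_nonneg _
  rcases h4.eq_or_lt with e | e
  · rw [← e]
    positivity
  · refine le_of_mul_le_mul_left ?_ e
    unfold nsq at h3 ⊢
    linarith

theorem card_le {T : Finset ι} {n : ℕ} (hn : 1 ≤ n) {f : ι → ℝ} {D : ℝ}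
    (h1 : ∀ j ∈ T, D / n < f j) (h2 : ∀ T' ⊆ T, T'.card = n → ∑ j ∈ T', f j ≤ D) :
    T.card ≤ n := by
  by_contra hc
  obtain ⟨T', k1, k2⟩ := exists_subset_card_eq (not_le.1 hc).le
  have k3 := sum_lt_sum_of_nonempty (card_pos.1 (k2 ▸ hn)) fun j hj => h1 j (k1 hj)
  have k4 : (n : ℝ) ≠ 0 := by positivity
  rw [sum_const, k2, nsmul_eq_mul, mul_div_cancel₀ _ k4] at k3
  exact absurd (h2 T' k1 k2) (not_le.2 k3)

end SmallP

open SmallP

theorem small_proof (hW : WinStmt) (hH : HoefStmt) : SmallStmt := by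
  intro ι _ _ w J h y a A l hw hh hA hl h0
  have W := hW w hw
  have hp : ∀ i, 0 ≤ py w y i ∧ py w y i ≤ 1 := fun i => ⟨W.pr_nonneg _, W.pr_le _⟩
  refine ⟨fun h1 => ?_, fun h1 h2 => ?_⟩
  · refine (key W J h y a (Y := A * Real.exp (-l)) (by positivity) h0 fun j' =>
      hH ι _ hp _ _ A l (abs_Dd hh y j') hA hl (le_trans ?_ (h1 j'))).trans (le_of_eq (by ring))
    simp only [ite_pow, ne_eq, OfNat.ofNat_ne_zero, not_false_eq_true, zero_pow, sum_ite_mem,
      univ_inter]
    exact sum_le_sum_of_subset_of_nonneg (erase_subset _ _) fun _ _ _ => sq_nonneg _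
  · refine (key W J h y a (Y := 12 * A * Real.exp (-l)) (by positivity) h0 fun j' =>
      M.Bit.tail hp _ _ A l (abs_Dd hh y j') hA (by linarith) (fun j => ?_)
        (le_trans ?_ (h2 j'))).trans (le_of_eq (by ring))
    · split_ifs
      · exact h1 j j'
      · simpa using hA
    · simp only [ite_pow, ne_eq, OfNat.ofNat_ne_zero, not_false_eq_true, zero_pow, mul_ite,
        mul_zero, sum_ite_mem, univ_inter]
      refine le_trans (le_of_eq (sum_congr rfl fun j _ => ?_)) (sum_le_sum_of_subset_of_nonneg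
        (erase_subset j' J) fun j _ _ => div_nonneg (sq_nonneg _) (W.pq_nonneg _))
      change pq w (y j) * _ = _
      by_cases e : pq w (y j) = 0
      · simp [e]
      · field_simp

theorem rip_proof : RipStmt := by
  intro ι κ _ _ _ J s n C1 c1' hn hC hup
  have hn' : (0 : ℝ) < n := by positivity
  have hS : SplitT J s C1 (C1 / n) := fun V => by
    rw [← sum_filter]
    refine dual hC (hup _ (filter_subset _ _) (card_le hn (f := fun j => ip (s j) V ^ 2)
      (D := C1 * nsq V) (fun j hj => ?_) fun T k1 k2 =>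
        dual hC (hup T (k1.trans (filter_subset _ _)) k2.le) V)) V
    rw [← div_mul_eq_mul_div]
    exact (mem_filter.1 hj).2
  refine ⟨hS, fun hc hlo d hd => ?_⟩
  obtain ⟨D, hD⟩ : ∃ D, D = ∑ j ∈ J, |d j| := ⟨_, rfl⟩
  rw [← hD]
  have hD0 : 0 ≤ D := hD ▸ sum_nonneg fun _ _ => abs_nonneg _
  have hsub : ∀ T ⊆ J, ∑ j ∈ T, |d j| ≤ D := fun T k =>
    hD ▸ sum_le_sum_of_subset_of_nonneg k fun _ _ _ => abs_nonneg _
  have hT : (J.filter fun j => D / n < |d j|).card ≤ n := card_le hn (f := fun j => |d j|)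
    (fun j hj => (mem_filter.1 hj).2) fun T k _ => hsub T (k.trans (filter_subset _ _))
  have k1 := hlo _ (filter_subset _ _) hT d
  have k2 := hup _ (filter_subset _ _) hT d
  have hsm : ∀ j ∈ J.filter fun j => ¬ D / n < |d j|, |d j| ≤ D / n := fun j hj =>
    not_lt.1 (mem_filter.1 hj).2
  have k3 : ∑ j ∈ J.filter fun j => ¬ D / n < |d j|, d j ^ 2 ≤ D / n * D := by
    refine le_trans ?_ (mul_le_mul_of_nonneg_left
      (hsub _ (filter_subset (fun j => ¬ D / n < |d j|) _)) (by positivity))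
    rw [mul_sum]
    refine sum_le_sum fun j hj => ?_
    rw [← sq_abs, sq]
    exact mul_le_mul_of_nonneg_right (hsm j hj) (abs_nonneg _)
  obtain ⟨V, hV⟩ : ∃ V : κ → ℝ,
    V = fun k => ∑ j ∈ J.filter fun j => ¬ D / n < |d j|, d j * (s j k : ℝ) := ⟨_, rfl⟩
  have e1 : ∑ k, (∑ j ∈ J.filter fun j => D / n < |d j|, d j * (s j k : ℝ)) ^ 2 = nsq V := by
    refine sum_congr rfl fun k _ => ?_
    have := sum_filter_add_sum_filter_not J (fun j => D / n < |d j|) fun j => d j * (s j k : ℝ)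
    rw [hd k] at this
    rw [hV, eq_neg_of_add_eq_zero_left this, neg_sq]
  have e2 : nsq V = ∑ j ∈ J.filter fun j => ¬ D / n < |d j|, d j * ip (s j) V := by
    rw [← pair]
    refine sum_congr rfl fun k _ => ?_
    rw [sq]
    congr 1
    rw [hV]
  rw [e1] at k1 k2
  have hQ : 0 ≤ nsq V := sum_nonneg fun _ _ => sq_nonneg _
  obtain ⟨r, r0, r2⟩ : ∃ r, 0 ≤ r ∧ r ^ 2 = C1 / n * nsq V :=
    ⟨_, Real.sqrt_nonneg _, Real.sq_sqrt (by positivity)⟩
  have k4 : r * nsq V ≤ r ^ 2 * D + D / n * (C1 * nsq V) := by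
    refine le_trans ?_ (add_le_add (mul_le_mul_of_nonneg_left
      (hsub _ (filter_subset (fun j => ¬ D / n < |d j|) _)) (sq_nonneg r))
      (mul_le_mul_of_nonneg_left ((sum_le_sum_of_subset_of_nonneg
        (filter_subset (fun j => ¬ D / n < |d j|) J) fun j _ _ => by
          split_ifs <;> positivity).trans (hS V)) (by positivity)))
    nth_rw 1 [e2]
    rw [mul_sum, mul_sum, mul_sum, ← sum_add_distrib, ← r2]
    refine sum_le_sum fun j hj => ?_
    have m1 : r * (d j * ip (s j) V) ≤ r * (|d j| * |ip (s j) V|) :=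
      mul_le_mul_of_nonneg_left (abs_mul (d j) _ ▸ le_abs_self _) r0
    have m2 := abs_nonneg (d j)
    have m3 := abs_nonneg (ip (s j) V)
    split_ifs with m4
    · have m5 : r ≤ |ip (s j) V| := (le_abs_self r).trans (sq_le_sq.1 m4.le)
      rw [← sq_abs (ip (s j) V)]
      nlinarith [mul_le_mul (hsm j hj) (mul_le_mul_of_nonneg_right m5 m3) (by positivity)
        (by positivity), mul_nonneg (sq_nonneg r) m2]
    · have m5 : |ip (s j) V| ≤ r := abs_le_of_sq_le_sq (not_lt.1 m4) r0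
      nlinarith [mul_le_mul_of_nonneg_left m5 (mul_nonneg r0 m2)]
  have k5 : nsq V ≤ 4 * C1 / n * D ^ 2 := by
    have m0 : D / n * (C1 * nsq V) = r ^ 2 * D := by rw [r2]; ring
    rcases hQ.eq_or_lt with e | e
    · rw [← e]
      positivity
    rcases r0.eq_or_lt with rfl | m1
    · have m2 : C1 = 0 := by
        rw [zero_pow two_ne_zero, eq_comm, mul_eq_zero, div_eq_zero_iff] at r2
        rcases r2 with (m | m) | m
        exacts [m, absurd m hn'.ne', absurd m e.ne']
      simpa [m2] using k2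
    · have m2 : nsq V ≤ 2 * r * D := le_of_mul_le_mul_left (by linarith) m1
      refine le_of_mul_le_mul_left ?_ e
      calc nsq V * nsq V ≤ (2 * r * D) * (2 * r * D) := mul_self_le_mul_self hQ m2
        _ = 4 * r ^ 2 * D ^ 2 := by ring
        _ = _ := by rw [r2]; ring
  have k6 : ∑ j ∈ J.filter fun j => D / n < |d j|, d j ^ 2 ≤ 4 * C1 / n * D ^ 2 / c1' := by
    rw [le_div_iff₀ hc]
    linarith
  rw [← sum_filter_add_sum_filter_not J fun j => D / n < |d j|]
  refine (add_le_add k6 k3).trans (le_of_eq ?_)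
  ring

end Vale.Agent.P318.C
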