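import Vale.Agent.P318.C.GStmt

/-!
Track C, part (G): summation of the second estimate over the coordinates.
-/

namespace Vale.Agent.P318.C

open Finset

namespace SumL

lemma cs {ι : Type} (S : Finset ι) (f g : ι → ℝ) :
    ∑ j ∈ S, |f j| * |g j| ≤ Real.sqrt (∑ j ∈ S, f j ^ 2) * Real.sqrt (∑ j ∈ S, g j ^ 2) := by
  simpa only [sq_abs] using Real.sum_mul_le_sqrt_mul_sqrt S (fun j => |f j|) fun j => |g j|

lemma cs1 {ι : Type} (S : Finset ι) (g : ι → ℝ) :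
    ∑ j ∈ S, |g j| ≤ Real.sqrt S.card * Real.sqrt (∑ j ∈ S, g j ^ 2) := by
  simpa using cs S (fun _ => 1) g

end SumL

open SumL in
theorem sum_proof (hC : CoreStmt) : SumStmt := by
  intro ι _ _ ω η E u u' u'' ϑ ϑ' d e e' k k' I W m h0 h1 h2 h3 hW hu hϑ hW0 hI0 hD hT hm
  set G : ι → ℝ := fun j => R1 ω η (ϑ j) (ϑ' j) (u' j) - R2 ω η (ϑ j) (ϑ' j) (u j) -
    R3 ω η (ϑ j) (ϑ' j) (u'' j) - mu ω η (ϑ j) (ϑ' j) - ϑ j * (u'' j - u' j) -
    ϑ' j * (u j - u' j) + 14 * η / ω * (sg (ϑ j) * (u j - u' j)) with hG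
  have c0 : 0 ≤ 84 * η / ω := by positivity
  have key : ∀ j, G j - 84 * η / ω * (k j - ϑ j) ^ 2 -
      (if j ∈ W then 3 / η * (|e j| + |e' j|) else 0) -
      (if j ∈ I then |k j - ϑ j| * |e' j| + 20 * (e j ^ 2 + e' j ^ 2) / η ^ 2 else 0) ≤
      (k j - ϑ j) * (u'' j - u' j) := by
    intro j
    have z : j ∉ W → G j = 0 := fun h => by
      simp [hG, (hW0 j h).1, (hW0 j h).2, R1, R2, R3, mu, sg]
    have c1 := mul_nonneg c0 (sq_nonneg ((k j : ℝ) - ϑ j))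
    by_cases hI : j ∈ I
    · have c := hC.2 ω η (u j) (u' j) (u'' j) (ϑ j) (ϑ' j) (d j) (e j) (e' j) (k j) (k' j) h0 h1 h2
        h3 (hu j).1 (hu j).2.1 (hu j).2.2 (hϑ j).1 (hϑ j).2.1 (hϑ j).2.2 (hD j hI).1 (hD j hI).2
      by_cases hj : j ∈ W
      · rw [if_pos hj, if_pos hI]
        have := c.1
        simp only [hG]
        linarith
      · rw [if_neg hj, if_pos hI, z hj]
        have := c.2 (hW0 j hj).1 (hW0 j hj).2
        simp only [(hW0 j hj).1, sub_zero] at c1 ⊢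
        linarith
    · have hj : j ∉ W := fun h => hI (hW h)
      rw [if_neg hj, if_neg hI, z hj, (hW0 j hj).1, hI0 j hI]
      simp
  have s1 := sum_le_sum fun j (_ : j ∈ univ) => key j
  rw [sum_sub_distrib, sum_sub_distrib, sum_sub_distrib, sum_ite_mem, sum_ite_mem, univ_inter,
    univ_inter, ← mul_sum, ← mul_sum, sum_add_distrib (s := W), sum_add_distrib (s := I),
    ← sum_div, ← mul_sum, sum_add_distrib (s := I)] at s1
  have s2 : ∑ j, G j = T2 ω η ϑ ϑ' u' 0 - T2 ω η ϑ ϑ' u 1 - T2 ω η ϑ ϑ' u'' 2 -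
      ∑ j, mu ω η (ϑ j) (ϑ' j) - (T2 ω η ϑ ϑ' u'' 3 - T2 ω η ϑ ϑ' u' 3) -
      (T2 ω η ϑ ϑ' u 4 - T2 ω η ϑ ϑ' u' 4) +
      14 * η / ω * (T2 ω η ϑ ϑ' u 5 - T2 ω η ϑ ϑ' u' 5) := by
    simp only [T2, ← sum_sub_distrib, mul_sum, ← sum_add_distrib]
    refine sum_congr rfl fun j _ => ?_
    simp only [hG, tf, Matrix.cons_val]
    ring
  have a0 := abs_le.1 (hT 0).2.1
  have a1 := abs_le.1 (hT 1).1
  have a2 := abs_le.1 (hT 2).2.2
  have a3 := abs_le.1 (hT 3).2.2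
  have a3' := abs_le.1 (hT 3).2.1
  have a4 := abs_le.1 (hT 4).1
  have a4' := abs_le.1 (hT 4).2.1
  have a5 := abs_le.1 (hT 5).1
  have a5' := abs_le.1 (hT 5).2.1
  have hE : 0 ≤ E := (abs_nonneg _).trans (hT 0).1
  have c1 : 0 ≤ 14 * η / ω := by positivity
  have c2 : 14 * η / ω ≤ 2 := by rw [div_le_iff₀ h0]; linarith
  have s3 : -(2 * (2 * E)) ≤ 14 * η / ω * (T2 ω η ϑ ϑ' u 5 - T2 ω η ϑ ϑ' u' 5) := by
    have b1 := mul_le_mul_of_nonneg_left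
      (show -(2 * E) ≤ T2 ω η ϑ ϑ' u 5 - T2 ω η ϑ ϑ' u' 5 by linarith) c1
    have b2 := mul_le_mul_of_nonneg_right c2 (show 0 ≤ 2 * E by linarith)
    linarith
  have s4 : 3 / η * (∑ j ∈ W, |e j| + ∑ j ∈ W, |e' j|) ≤ 3 / η * Real.sqrt W.card *
      (Real.sqrt (∑ j ∈ W, e j ^ 2) + Real.sqrt (∑ j ∈ W, e' j ^ 2)) := by
    rw [mul_assoc, mul_add (Real.sqrt _)]
    exact mul_le_mul_of_nonneg_left (add_le_add (cs1 W e) (cs1 W e')) (by positivity)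
  have s5 : ∑ j ∈ I, |k j - ϑ j| * |e' j| ≤
      Real.sqrt (∑ j, (k j - ϑ j) ^ 2) * Real.sqrt (∑ j ∈ I, e' j ^ 2) :=
    (cs I (fun j => k j - ϑ j) e').trans (mul_le_mul_of_nonneg_right (Real.sqrt_le_sqrt
      (sum_le_sum_of_subset_of_nonneg (subset_univ I) fun _ _ _ => sq_nonneg _))
      (Real.sqrt_nonneg _))
  linarith

end Vale.Agent.P318.C
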