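import Vale.Agent.P318.C.StmtI
import Vale.Agent.P318.M.TV
import Vale.Agent.P318.M.Torus
import Vale.Agent.P318.M.Gauss

/-! Track C: the variance on the torus of the fibre mean. -/

namespace Vale.Agent.P318.C

open Finset MeasureTheory ProbabilityTheory
open M (U01 cube tm Per BM ip nsq gm Dual Lat lin Inv)
open M.TV (bm_int int_dom un meas_ip ip_add ip_smul spec_gap)

namespace TV

variable {ι κ : Type} [Fintype ι] [Fintype κ]

/-- the mean over the torus of a Gaussian average -/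
theorem avg_shift (σ r : ℝ) {a : (κ → ℝ) → ℝ} (ap : Per a) (ha : BM a) :
    Integrable (fun τ => ∫ ξ, a (τ + r • ξ) ∂gm κ σ) (cube κ) ∧
      ∫ τ, ∫ ξ, a (τ + r • ξ) ∂gm κ σ ∂cube κ = tm a := by
  obtain ⟨am, C, hC⟩ := ha
  have hm : Measurable fun p : (κ → ℝ) × (κ → ℝ) => a (p.1 + r • p.2) := am.comp (by fun_prop)
  have hi := bm_int ⟨hm, C, fun p => hC _⟩ ((cube κ).prod (gm κ σ))
  refine ⟨hi.integral_prod_left, ?_⟩
  rw [integral_integral_swap (f := fun τ ξ => a (τ + r • ξ)) hi]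
  have e : ∀ ξ : κ → ℝ, ∫ τ, a (τ + r • ξ) ∂cube κ = tm a := fun ξ =>
    (M.torus_proof κ).1 a ap ⟨am, C, hC⟩ _
  simp [e]

/-- the vector field of the pairing -/
noncomputable def vf (σ : ℝ) (G : (κ → ℝ) → ℝ) (r : ℝ) (τ : κ → ℝ) : κ → ℝ :=
  fun k => ∫ ξ, ξ k * G (τ - r • ξ) ∂gm κ σ

theorem core (σ Mb c d : ℝ) (s : ι → κ → ℤ) {G : (κ → ℝ) → ℝ}
    {H : ι → (κ → ℝ) → ℝ} (Gp : Per G) (Gm : Measurable G) (Gb : ∀ β, |G β| ≤ 1)
    (Hp : ∀ j, Per (H j)) (Hm : ∀ j, Measurable (H j)) (Hb : ∀ j β, |H j β| ≤ Mb)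
    (hd : ∀ β ξ, G (β + ξ) - G β = ∫ r in (0 : ℝ)..1, ∑ j, ip (s j) ξ * H j (β + r • ξ))
    (hN : ∀ r ∈ Set.Ioc (0 : ℝ) 1, |∫ τ, ∫ ξ, ∑ j, H j (τ + r • ξ) * ip (s j) (vf σ G r τ)
      ∂gm κ σ ∂cube κ| ≤ c * r ^ (-1 / 2 : ℝ) + d) :
    tm (fun β => G β ^ 2) - ∫ p, tm (fun β => G β * G (β + (p.1 + p.2)))
      ∂(gm κ σ).prod (gm κ σ) ≤ 2 * (2 * c + d) := by
  have hsh := (M.torus_proof κ).1
  have hint := (M.gauss_proof.1 κ σ).2.1
  let P : Measure (ℝ × (κ → ℝ)) := un.prod (cube κ)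
  let μ : Measure ((κ → ℝ) × (κ → ℝ)) := (gm κ σ).prod (gm κ σ)
  let Φ : (κ → ℝ) × (κ → ℝ) → ℝ × (κ → ℝ) → ℝ := fun q p =>
    G (p.2 - p.1 • q.1) * ∑ j, ip (s j) q.1 * H j (p.2 + p.1 • q.2)
  let B : (κ → ℝ) → ℝ := fun ξ => ∑ j, |ip (s j) ξ| * Mb
  have hB : Integrable B (gm κ σ) := integrable_finsetSum _ fun j _ =>
    (integrable_finsetSum _ fun k _ => (hint k).const_mul _).abs.mul_const _
  have hb : ∀ ξ β β', |G β' * ∑ j, ip (s j) ξ * H j β| ≤ B ξ := fun ξ β β' => by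
    rw [abs_mul]
    refine (mul_le_of_le_one_left (abs_nonneg _) (Gb _)).trans
      ((abs_sum_le_sum_abs _ _).trans (sum_le_sum fun j _ => ?_))
    rw [abs_mul]
    exact mul_le_mul_of_nonneg_left (Hb _ _) (abs_nonneg _)
  have hΦm : Measurable (Function.uncurry Φ) :=
    (Gm.comp (by fun_prop)).mul (Finset.measurable_sum _ fun j _ =>
      ((meas_ip _).comp measurable_fst.fst).mul ((Hm j).comp (by fun_prop)))
  have hΦ : Integrable (Function.uncurry Φ) (μ.prod P) :=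
    int_dom P (hB.comp_fst (gm κ σ)) hΦm fun q p => hb q.1 _ _
  have hsq : ∀ β, |G β ^ 2| ≤ 1 := fun β => by
    rw [abs_pow]
    exact pow_le_one₀ (abs_nonneg _) (Gb β)
  have hper : ∀ (v β : κ → ℝ) (n : κ → ℤ), G (β + (fun k => (n k : ℝ)) - v) = G (β - v) :=
    fun v β n => by rw [← Gp (β - v) n, add_sub_right_comm]
  have hper' : ∀ j (v β : κ → ℝ) (n : κ → ℤ), H j (β + (fun k => (n k : ℝ)) + v) = H j (β + v) :=
    fun j v β n => by rw [← Hp j (β + v) n, add_right_comm]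
  have hi0 : ∀ ξ ζ : κ → ℝ, Integrable (fun p : ℝ × (κ → ℝ) =>
      G p.2 * ∑ j, ip (s j) ξ * H j (p.2 + p.1 • ζ)) P := fun ξ ζ => by
    have hm0 : Measurable fun p : ℝ × (κ → ℝ) => G p.2 * ∑ j, ip (s j) ξ * H j (p.2 + p.1 • ζ) :=
      (Gm.comp measurable_snd).mul (Finset.measurable_sum _ fun j _ =>
        ((Hm j).comp (by fun_prop)).const_mul _)
    exact bm_int ⟨hm0, B ξ, fun p => hb ξ _ _⟩ _
  have key0 : ∀ q, ∫ p, Φ q p ∂P =
      ∫ p, G p.2 * ∑ j, ip (s j) q.1 * H j (p.2 + p.1 • (q.1 + q.2)) ∂P := fun q => by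
    have hm : Measurable (Φ q) := hΦm.of_uncurry_left
    rw [integral_prod _ (bm_int ⟨hm, B q.1, fun p => hb q.1 _ _⟩ P),
      integral_prod _ (hi0 q.1 (q.1 + q.2))]
    refine integral_congr_ae (ae_of_all _ fun r => ?_)
    have h1 := hsh (fun β => Φ q (r, β)) (fun β n => by simp only [Φ, hper, hper'])
      ⟨hm.comp measurable_prodMk_left, B q.1, fun β => hb q.1 _ _⟩ (r • q.1)
    simp only [Φ, add_sub_cancel_right, add_assoc, ← smul_add] at h1
    exact h1.symm
  have key1 : ∀ q : (κ → ℝ) × (κ → ℝ), tm (fun β => G β * G (β + (q.1 + q.2))) =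
      tm (fun β => G β ^ 2) + (∫ p, Φ q p ∂P + ∫ p, Φ q.swap p ∂P) := by
    intro q
    rw [key0, key0, Prod.fst_swap, Prod.snd_swap, add_comm q.2 q.1,
      ← integral_add (hi0 q.1 (q.1 + q.2)) (hi0 q.2 (q.1 + q.2))]
    have e1 : ∀ p : ℝ × (κ → ℝ), G p.2 * ∑ j, ip (s j) q.1 * H j (p.2 + p.1 • (q.1 + q.2)) +
        G p.2 * ∑ j, ip (s j) q.2 * H j (p.2 + p.1 • (q.1 + q.2)) =
        G p.2 * ∑ j, ip (s j) (q.1 + q.2) * H j (p.2 + p.1 • (q.1 + q.2)) := fun p => by
      simp only [ip_add, add_mul, sum_add_distrib, mul_add]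
    simp only [e1]
    generalize q.1 + q.2 = ξ
    rw [integral_prod_symm _ (hi0 ξ ξ)]
    have e2 : ∀ β, ∫ r, G β * ∑ j, ip (s j) ξ * H j (β + r • ξ) ∂un =
        G β * G (β + ξ) - G β ^ 2 := fun β => by
      rw [integral_const_mul, un, ← intervalIntegral.integral_of_le zero_le_one, ← hd]
      ring
    simp only [e2]
    have hm1 : Measurable fun β => G β * G (β + ξ) := Gm.mul (Gm.comp (by fun_prop))
    rw [integral_sub (bm_int ⟨hm1, 1, fun β => by
      rw [abs_mul]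
      exact mul_le_one₀ (Gb _) (abs_nonneg _) (Gb _)⟩ _) (bm_int ⟨Gm.pow_const 2, 1, hsq⟩ _)]
    simp only [tm]
    ring
  have key2 : ∀ p : ℝ × (κ → ℝ), ∫ q, Φ q p ∂μ =
      ∫ ξ, ∑ j, H j (p.2 + p.1 • ξ) * ip (s j) (vf σ G p.1 p.2) ∂gm κ σ := by
    intro p
    have gm' : Measurable fun ξ : κ → ℝ => G (p.2 - p.1 • ξ) := Gm.comp (by fun_prop)
    have hi : ∀ k, Integrable (fun ξ : κ → ℝ => ξ k * G (p.2 - p.1 • ξ)) (gm κ σ) := fun k =>
      (hint k).mul_bdd gm'.aestronglyMeasurable (ae_of_all _ fun ξ => Gb _)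
    have hm : Measurable fun q => Φ q p := hΦm.of_uncurry_right
    rw [integral_prod_symm _ ((hB.comp_fst (gm κ σ)).mono' hm.aestronglyMeasurable
      (ae_of_all _ fun q => hb q.1 _ _))]
    refine integral_congr_ae (ae_of_all _ fun ζ => ?_)
    have e1 : ∀ ξ, Φ (ξ, ζ) p =
        ∑ j, H j (p.2 + p.1 • ζ) * ∑ k, (s j k : ℝ) * (ξ k * G (p.2 - p.1 • ξ)) := fun ξ => by
      simp only [Φ, ip, mul_sum, sum_mul]
      exact sum_congr rfl fun j _ => sum_congr rfl fun k _ => by ring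
    simp only [e1]
    rw [integral_finsetSum _ fun j _ =>
      (integrable_finsetSum _ fun k _ => (hi k).const_mul _).const_mul _]
    refine sum_congr rfl fun j _ => ?_
    rw [integral_const_mul, integral_finsetSum _ fun k _ => (hi k).const_mul _]
    simp only [integral_const_mul, ip, vf]
  have hK : Integrable (fun q => ∫ p, Φ q p ∂P) μ := hΦ.integral_prod_left
  have hK' : Integrable (fun q : (κ → ℝ) × (κ → ℝ) => ∫ p, Φ q.swap p ∂P) μ := hK.swap
  have hr : IntervalIntegrable (fun r : ℝ => r ^ (-1 / 2 : ℝ)) volume 0 1 :=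
    intervalIntegral.intervalIntegrable_rpow' (by norm_num)
  have hr' : Integrable (fun r : ℝ => r ^ (-1 / 2 : ℝ)) un := hr.1
  have h1 : ‖∫ q, ∫ p, Φ q p ∂P ∂μ‖ ≤ ∫ r, (c * r ^ (-1 / 2 : ℝ) + d) ∂un := by
    rw [integral_integral_swap hΦ,
      integral_prod (fun p => ∫ q, Φ q p ∂μ) hΦ.integral_prod_right]
    refine norm_integral_le_of_norm_le ((hr'.const_mul c).add (integrable_const d))
      (ae_restrict_of_forall_mem measurableSet_Ioc fun r h => ?_)
    simpa only [key2, Real.norm_eq_abs] using hN r h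
  rw [integral_add (hr'.const_mul c) (integrable_const d), integral_const_mul, integral_const,
    probReal_univ, un, ← intervalIntegral.integral_of_le zero_le_one,
    integral_rpow (.inl (by norm_num))] at h1
  simp only [key1]
  rw [integral_add (g := fun q => ∫ p, Φ q p ∂P + ∫ p, Φ q.swap p ∂P) (integrable_const _)
    (hK.add hK'), integral_add hK hK',
    integral_prod_swap (fun q => ∫ p, Φ q p ∂P)]
  have h2 := (abs_le.1 h1).1
  norm_num at h2 ⊢
  linarith

theorem card_ge {Γ : AddSubgroup (κ → ℝ)} {sh : ℝ} (hL : Lat Γ sh) {s : κ → ℤ} (hd : Dual Γ s)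
    (h3 : T3 s) (h0 : s ≠ 0) :
    sh ≤ (univ.filter fun k => (0 : κ → ℤ) k = 0 ∧ s k ≠ 0).card := by
  refine ((hL.2 s hd).resolve_left h0).trans (le_of_eq ?_)
  rw [card_filter]
  push_cast
  exact sum_congr rfl fun k _ => by rcases h3 k with h | h | h <;> simp [h]

theorem amgm {d c x q k i l e : ℝ} (hl : 0 < l) (hd : 0 ≤ d) (hq : 0 ≤ q) (hk : 0 ≤ k)
    (hkq : k * q = d ^ 2) (hc : |c| ≤ i) {T : ℝ} (hT : T ≤ e) :
    |d * c * x| ≤ 1 / (2 * l) * (q * c ^ 2) + √e * (d * i) +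
      l / 2 * (k * if T < x ^ 2 then x ^ 2 else 0) := by
  have h1 : 0 ≤ 1 / (2 * l) * (q * c ^ 2) := by positivity
  have h2 : 0 ≤ √e * (d * i) :=
    mul_nonneg (Real.sqrt_nonneg _) (mul_nonneg hd ((abs_nonneg _).trans hc))
  split_ifs with h
  · have h3 : 0 ≤ l / 2 * (k * x ^ 2) := by positivity
    have h4 : |d * c * x| ≤ 1 / (2 * l) * (q * c ^ 2) + l / 2 * (k * x ^ 2) := by
      refine abs_le_of_sq_le_sq ?_ (by linarith)
      have h5 : (d * c * x) ^ 2 = 4 * (1 / (2 * l) * (q * c ^ 2) * (l / 2 * (k * x ^ 2))) := by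
        rw [mul_pow, mul_pow, ← hkq]
        field_simp
        ring
      nlinarith [sq_nonneg (1 / (2 * l) * (q * c ^ 2) - l / 2 * (k * x ^ 2))]
    linarith
  · have h3 : |d * c * x| ≤ √e * (d * i) := by
      rw [abs_mul, abs_mul, abs_of_nonneg hd, mul_comm]
      exact mul_le_mul (Real.abs_le_sqrt ((not_lt.1 h).trans hT))
        (mul_le_mul_of_nonneg_left hc hd) (mul_nonneg hd (abs_nonneg _)) (Real.sqrt_nonneg _)
    rw [mul_zero, mul_zero]
    linarith

end TV

open TV in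
theorem tv_proof (hW : WinStmt) (hG : GaussStmt) (hD : DerivStmt) : TVStmt := by
  refine ⟨96, by norm_num, ?_⟩
  intro ι κ _ _ _ Γ s t f w sh C1 C2 hw hsh h1 h2 hL hdual h3 hS hf hI
  have R := hW w hw
  obtain ⟨⟨Em, E01⟩, hc1, -, hW, hinv, hder, -⟩ := hD ι w f hw hf
  have ym : Measurable fun β => t + lin s β :=
    measurable_const.add (measurable_pi_lambda _ fun j => meas_ip _)
  have yadd : ∀ β ξ, t + lin s (β + ξ) = t + lin s β + lin s ξ := fun β ξ => by
    funext j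
    simp [lin, ip_add, add_assoc]
  have ysm : ∀ (r : ℝ) ξ, lin s (r • ξ) = r • lin s ξ := fun r ξ => funext fun j => ip_smul _ _ _
  have hρ : ∀ ρ ∈ Γ, ∃ r : ι → ℤ, (lin s ρ = fun i => (r i : ℝ)) ∧ ∀ x, f (x + r) = f x :=
    fun ρ h => by
      choose r hr using fun j => hdual j ρ h
      exact ⟨r, funext hr, hI ρ h r fun j => (hr j).symm⟩
  set μ := tm fun β => Ey w f (t + lin s β) with hμ
  have Ei : Integrable (fun β => Ey w f (t + lin s β)) (cube κ) :=
    bm_int ⟨Em.comp ym, 1, fun β => (abs_of_nonneg (E01 _).1).trans_le (E01 _).2⟩ _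
  have μ0 : 0 ≤ μ := integral_nonneg fun β => (E01 _).1
  have μ1 : μ ≤ 1 := (integral_mono Ei (integrable_const 1) fun β => (E01 _).2).trans (by simp)
  let G : (κ → ℝ) → ℝ := fun β => Ey w f (t + lin s β) - μ
  have Gm : Measurable G := (Em.comp ym).sub_const _
  have Gb : ∀ β, |G β| ≤ 1 := fun β => abs_le.2 ⟨by
    simp only [G]
    linarith [(E01 (t + lin s β)).1], by
    simp only [G]
    linarith [(E01 (t + lin s β)).2]⟩
  have Gi : ∀ ρ ∈ Γ, ∀ β, G (β + ρ) = G β := fun ρ h β => by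
    obtain ⟨r, e, hr⟩ := hρ ρ h
    simp only [G, yadd, e, (hinv r hr _).1]
  have Gp : Per G := fun β n => Gi _ (hL.1 n) β
  have G0 : tm G = 0 := by
    simp only [G, tm] at hμ ⊢
    rw [integral_sub Ei (integrable_const _)]
    simp [hμ]
  have hsq : ∀ β, |G β ^ 2| ≤ 1 := fun β => by
    rw [abs_pow]
    exact pow_le_one₀ (abs_nonneg _) (Gb β)
  obtain ⟨σ, σ0, hσ⟩ : ∃ σ : ℝ, 0 < σ ∧ σ ^ 2 = 1 / (2 * sh) :=
    ⟨√(1 / (2 * sh)), by positivity, Real.sq_sqrt (by positivity)⟩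
  have hσ' : √(1 / sh) ^ 2 = 1 / sh := Real.sq_sqrt (by positivity)
  have g1 := spec_gap M.torus_proof M.gauss_proof (σ := √(1 / sh))
    (by rw [hσ', one_div_mul_cancel hsh.ne']) hL ⟨Gm, 1, Gb⟩ Gi G0
  have Fm : Measurable (Function.uncurry fun ξ β : κ → ℝ => G β * G (β + ξ)) :=
    (Gm.comp measurable_snd).mul (Gm.comp (by fun_prop))
  have Fi' : Integrable (Function.uncurry fun ξ β : κ → ℝ => G β * G (β + ξ))
      ((gm κ √(1 / sh)).prod (cube κ)) := bm_int ⟨Fm, 1, fun p => by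
    rw [Function.uncurry, abs_mul]
    exact mul_le_one₀ (Gb _) (abs_nonneg _) (Gb _)⟩ _
  rw [((hG κ _).1 σ (fun ξ => tm fun β => G β * G (β + ξ)) (by rw [hσ', hσ]; field_simp)
    Fm.stronglyMeasurable.integral_prod_right.measurable Fi'.integral_prod_left).2] at g1
  obtain ⟨⟨Wm, CW, Wb⟩, -, ⟨Im, CI, Ib⟩, hpos⟩ := hW univ
  have Wp : Per fun β => W1 w univ f (t + lin s β) := fun β n => by
    obtain ⟨r, e, hr⟩ := hρ _ (hL.1 n)
    simp only [yadd, e, ((hinv r hr _).2.2.2 univ).1]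
  have Ip : Per fun β => Inf w univ f (t + lin s β) := fun β n => by
    obtain ⟨r, e, hr⟩ := hρ _ (hL.1 n)
    simp only [yadd, e, ((hinv r hr _).2.2.2 univ).2.2]
  have F1 := R.Fi_ge
  have v0 : 0 ≤ tm fun β => G β ^ 2 := integral_nonneg fun β => sq_nonneg _
  have w0 : 0 ≤ tm fun β => W1 w univ f (t + lin s β) := integral_nonneg fun β => (hpos _).1
  have A0 : 0 < Fi w * (C1 * σ ^ 2) := by positivity
  have g2 := core σ (1 / w.om) (12 * (Fi w * (C1 * σ ^ 2)) * (tm fun β => W1 w univ f (t + lin s β))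
      + (tm fun β => G β ^ 2) / 16) (√(C2 * σ ^ 2) * tm fun β => Inf w univ f (t + lin s β)) s
    (G := G) (H := fun j β => dpr w ((t + lin s β) j) * c1 w f j (t + lin s β)) Gp Gm Gb
    (fun j β n => by
      obtain ⟨r, e, hr⟩ := hρ _ (hL.1 n)
      simp only [yadd, e, ((hinv r hr _).2.1 j).1]
      rw [Pi.add_apply _ fun i => (r i : ℝ), R.dpr_per])
    (fun j => (R.dpr_meas.comp ((measurable_pi_apply j).comp ym)).mul ((hc1 j).1.comp ym))
    (fun j β => by
      rw [abs_mul, abs_of_nonneg (R.dpr_nonneg _)]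
      exact (mul_le_of_le_one_right (R.dpr_nonneg _)
        (((hc1 j).2.2 _).1.trans ((hc1 j).2.2 _).2)).trans (R.dpr_le _))
    (fun β ξ => by
      simp only [G, yadd, ysm, sub_sub_sub_cancel_right, hder, mul_assoc]
      rfl)
    (fun r hr => by
      obtain ⟨ρ, hρ⟩ : ∃ ρ, ρ = r ^ (-1 / 2 : ℝ) := ⟨_, rfl⟩
      have ρ1 : 1 ≤ ρ := hρ ▸ Real.one_le_rpow_of_pos_of_le_one_of_nonpos hr.1 hr.2 (by norm_num)
      have ρ2 : ρ ^ 2 = 1 / r := by
        rw [hρ, ← Real.rpow_natCast, ← Real.rpow_mul hr.1.le]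
        norm_num [Real.rpow_neg_one]
      rw [← hρ]
      obtain ⟨l, hl⟩ : ∃ l, l = 1 / (24 * (Fi w * (C1 * σ ^ 2)) * ρ) := ⟨_, rfl⟩
      have l0 : 0 < l := by rw [hl]; positivity
      obtain ⟨a1, a2⟩ := avg_shift σ r Wp ⟨Wm.comp ym, CW, fun β => Wb _⟩
      obtain ⟨a3, a4⟩ := avg_shift σ r Ip ⟨Im.comp ym, CI, fun β => Ib _⟩
      obtain ⟨a5, a6⟩ := avg_shift σ (-r) (a := fun β => G β ^ 2)
        (fun β n => by simp only [Gp β n]) ⟨Gm.pow_const 2, 1, hsq⟩
      simp only [neg_smul, ← sub_eq_add_neg] at a5 a6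
      have sm : 1 + 1 / (r * σ * √sh) ≤ 3 * ρ ^ 2 := by
        have b1 : 1 / 2 ≤ σ * √sh := by
          refine (abs_le_of_sq_le_sq' ?_ (by positivity)).2
          rw [mul_pow, hσ, Real.sq_sqrt hsh.le]
          field_simp
          norm_num
        have b2 : 1 / (r * σ * √sh) ≤ 2 * (1 / r) := by
          rw [mul_assoc, mul_one_div, div_le_div_iff₀ (mul_pos hr.1 (by linarith)) hr.1]
          nlinarith [hr.1]
        nlinarith
      have pt : ∀ τ, ‖∫ ξ, ∑ j, dpr w ((t + lin s (τ + r • ξ)) j) * c1 w f j (t + lin s (τ + r • ξ))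
          * ip (s j) (vf σ G r τ) ∂gm κ σ‖ ≤
          1 / (2 * l) * ∫ ξ, W1 w univ f (t + lin s (τ + r • ξ)) ∂gm κ σ +
          √(C2 * σ ^ 2) * ∫ ξ, Inf w univ f (t + lin s (τ + r • ξ)) ∂gm κ σ +
          ρ / 16 * ∫ ξ, G (τ - r • ξ) ^ 2 ∂gm κ σ := fun τ => by
        have gm' : Measurable fun ξ : κ → ℝ => G (τ - r • ξ) := Gm.comp (by fun_prop)
        have hV : nsq (vf σ G r τ) ≤ σ ^ 2 * ∫ ξ, G (τ - r • ξ) ^ 2 ∂gm κ σ :=
          (M.gauss_proof.1 κ σ).2.2.1 _ ⟨gm', 1, fun ξ => Gb _⟩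
        have b1 : ∫ ξ, G (τ - r • ξ) ^ 2 ∂gm κ σ ≤ 1 :=
          (integral_mono (bm_int ⟨gm'.pow_const 2, 1, fun ξ => hsq _⟩ (gm κ σ))
            (integrable_const 1) fun ξ => (le_abs_self _).trans (hsq _)).trans (by simp)
        generalize vf σ G r τ = V at hV ⊢
        have zm : Measurable fun ξ : κ → ℝ => t + lin s (τ + r • ξ) := ym.comp (by fun_prop)
        have i1 : Integrable (fun ξ => W1 w univ f (t + lin s (τ + r • ξ))) (gm κ σ) :=
          bm_int ⟨Wm.comp zm, CW, fun β => Wb _⟩ _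
        have i2 : Integrable (fun ξ => Inf w univ f (t + lin s (τ + r • ξ))) (gm κ σ) :=
          bm_int ⟨Im.comp zm, CI, fun β => Ib _⟩ _
        have kb : BM (kp2 w) := ⟨R.kp2_meas, _, fun y =>
          (abs_of_nonneg (R.kp2_nonneg y)).trans_le (R.kp2_le y)⟩
        have i3 : ∀ j, Integrable (fun ξ => kp2 w ((t + lin s (τ + r • ξ)) j) *
            if C2 * nsq V < ip (s j) V ^ 2 then ip (s j) V ^ 2 else 0) (gm κ σ) := fun j =>
          (bm_int ⟨kb.1.comp ((measurable_pi_apply j).comp zm), _, fun ξ =>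
            kb.2.choose_spec _⟩ _).mul_const _
        have i4 := (integrable_finsetSum univ fun j _ => i3 j).const_mul (l / 2)
        have i5 := (i1.const_mul (1 / (2 * l))).add (i2.const_mul √(C2 * σ ^ 2))
        refine (norm_integral_le_of_norm_le (i5.add i4) (ae_of_all _ fun ξ => ?_)).trans ?_
        · simp only [Pi.add_apply _ _ ξ, W1, Inf, mul_sum, ← sum_add_distrib]
          exact (abs_sum_le_sum_abs _ _).trans (sum_le_sum fun j _ => amgm l0 (R.dpr_nonneg _)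
            (R.pq_nonneg _) (R.kp2_nonneg _) (R.kp2_mul _) ((hc1 j).2.2 _).1
            (mul_le_mul_of_nonneg_left (hV.trans (mul_le_of_le_one_right (sq_nonneg _) b1)) h2))
        · rw [integral_add' i5 i4, integral_add' (i1.const_mul _) (i2.const_mul _),
            integral_const_mul, integral_const_mul, integral_const_mul,
            integral_finsetSum _ fun j _ => i3 j]
          refine add_le_add_right ?_ _
          have b2 : ∑ j, ∫ ξ, (kp2 w ((t + lin s (τ + r • ξ)) j) *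
              if C2 * nsq V < ip (s j) V ^ 2 then ip (s j) V ^ 2 else 0) ∂gm κ σ ≤
              ∑ j, Fi w * (3 * ρ ^ 2) *
                if C2 * nsq V < ip (s j) V ^ 2 then ip (s j) V ^ 2 else 0 :=
            sum_le_sum fun j _ => by
              rw [integral_mul_const]
              by_cases h0 : s j = 0
              · simp [h0, ip]
              · refine mul_le_mul_of_nonneg_right ?_ (by split_ifs <;> positivity)
                have := (hG κ σ).2 0 (s j) (kp2 w) (fun _ => 1) ((t + lin s τ) j) r sh σ0 hr.1 hsh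
                  (h3 j) (card_ge hL (hdual j) (h3 j) h0) kb R.kp2_nonneg R.kp2_per
                  ⟨measurable_const, 1, fun _ => by simp⟩ fun _ => zero_le_one
                simp only [mul_one, integral_const, probReal_univ, one_smul] at this
                simp only [yadd, ysm]
                exact this.trans (mul_le_mul_of_nonneg_left sm (by linarith : 0 ≤ Fi w))
          rw [← mul_sum] at b2
          refine (mul_le_mul_of_nonneg_left (b2.trans (mul_le_mul_of_nonneg_left ((hS V).trans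
            (mul_le_mul_of_nonneg_left hV h1.le)) (by positivity))) (by positivity)).trans
            (le_of_eq ?_)
          rw [hl]
          field_simp
          ring
      refine (norm_integral_le_of_norm_le (((a1.const_mul _).add (a3.const_mul _)).add
        (a5.const_mul _)) (ae_of_all _ pt)).trans (le_of_eq ?_)
      rw [integral_add' ((a1.const_mul _).add (a3.const_mul _)) (a5.const_mul _),
        integral_add' (a1.const_mul _) (a3.const_mul _), integral_const_mul, integral_const_mul,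
        integral_const_mul, a2, a4, a6, hl]
      field_simp
      ring)
  have e1 : tm (fun β => G β ^ 2) = tm (fun β => Ey w f (t + lin s β) ^ 2) - μ ^ 2 := by
    have e2 : ∀ β, G β ^ 2 = Ey w f (t + lin s β) ^ 2 - 2 * μ * Ey w f (t + lin s β) + μ ^ 2 :=
      fun β => by
        simp only [G]
        ring
    have Ei2 : Integrable (fun β => Ey w f (t + lin s β) ^ 2) (cube κ) :=
      bm_int ⟨(Em.comp ym).pow_const 2, 1, fun β => by
        rw [abs_of_nonneg (sq_nonneg _)]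
        exact pow_le_one₀ (E01 _).1 (E01 _).2⟩ _
    simp only [e2, tm] at hμ ⊢
    rw [integral_add (f := fun β => Ey w f (t + lin s β) ^ 2 - 2 * μ * Ey w f (t + lin s β))
      (Ei2.sub (Ei.const_mul _)) (integrable_const _),
      integral_sub Ei2 (Ei.const_mul _), integral_const_mul, ← hμ]
    simp only [integral_const, probReal_univ, one_smul]
    ring
  rw [← e1]
  have i0 : 0 ≤ tm fun β => Inf w univ f (t + lin s β) := integral_nonneg fun β => (hpos _).2.2.2
  have i1 : C1 * σ ^ 2 = C1 / sh / 2 := by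
    rw [hσ]
    field_simp
  have i2 : √(C2 * σ ^ 2) ≤ √(C2 / sh) := Real.sqrt_le_sqrt (by
    rw [hσ, mul_one_div]
    exact div_le_div_of_nonneg_left h2 hsh (by linarith))
  have i3 := mul_le_mul_of_nonneg_right i2 i0
  have i4 := mul_nonneg (Real.sqrt_nonneg (C2 / sh)) i0
  rw [i1] at g2
  linarith

end Vale.Agent.P318.C
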