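import Vale.Agent.P318.C.GStmt

/-!
Track C: there is an offset for which almost all samples are nice.
-/

namespace Vale.Agent.P318.C

open Finset MeasureTheory
open M (ind Eb pt zz tm BM ip nsq Dual lin Inv CND perp vv cube)
open B (cf nd cd av Op IsProj rr Nice Red Kt tc res Pat pS pJ pD pw zone)

namespace TypC

/-- Convex and Lipschitz functions of one variable. -/
def CL (a : ℝ) (φ : ℝ → ℝ) : Prop :=
  ConvexOn ℝ Set.univ φ ∧ ∀ t t', |φ t - φ t'| ≤ a * |t - t'|

lemma CL_lin {a σ : ℝ} (A : ℝ) (h : |σ| ≤ a) : CL a fun t => A + σ * t := by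
  refine ⟨⟨convex_univ, fun x _ y _ p q _ _ e => le_of_eq ?_⟩, fun t t' => ?_⟩
  · simp only [smul_eq_mul]
    linear_combination (-A) * e
  · rw [show A + σ * t - (A + σ * t') = σ * (t - t') by ring, abs_mul]
    gcongr

lemma CL.max0 {a : ℝ} {φ : ℝ → ℝ} (h : CL a φ) : CL a fun t => max (φ t) 0 :=
  ⟨h.1.sup (convexOn_const 0 convex_univ), fun t t' =>
    (abs_max_sub_max_le_abs _ _ _).trans (h.2 t t')⟩

lemma CL_zero {a : ℝ} (ha : 0 ≤ a) : CL a fun _ => 0 :=
  ⟨convexOn_const 0 convex_univ, fun t t' => by simp only [sub_self, abs_zero]; positivity⟩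

lemma abs_sg (x : ℝ) : |sg x| ≤ 1 := by
  unfold sg
  split_ifs <;> simp

lemma CL_hg (ω η ϑ : ℝ) : CL (if 4 * ω < |ϑ| then 1 else 0) (hg ω η ϑ) := by
  unfold hg
  split_ifs with h
  · have := (CL_lin (a := 1) (σ := -sg ϑ) (-(1 / 2 + ω + η) + |ϑ| - ω)
      (by rw [abs_neg]; exact abs_sg ϑ)).max0
    simpa only [neg_mul, ← sub_eq_add_neg] using this
  · exact CL_zero le_rfl

/-- Differences of convex Lipschitz functions. -/
def DC (a : ℝ) (φ : ℝ → ℝ) : Prop :=
  ∃ g : Bool → ℝ → ℝ, (∀ t, φ t = g true t - g false t) ∧ ∀ b, CL a (g b)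

lemma DC_lin {a σ : ℝ} (h : |σ| ≤ a) : DC a fun t => σ * t :=
  ⟨fun b t => if b then 0 + σ * t else 0, fun t => by simp, fun b => by
    cases b
    · exact CL_zero ((abs_nonneg _).trans h)
    · exact CL_lin 0 h⟩

lemma DC_rp (C : Prop) [Decidable C] {a η : ℝ} (c d ϑ : ℝ) (hη : 0 < η) (ha : 0 ≤ a)
    (h : C → 1 / η ≤ a) : DC a fun t => if C then rp c η (sg ϑ * t + d) else 0 := by
  by_cases hC : C
  · have h1 : |-sg ϑ / η| ≤ a := by
      rw [abs_div, abs_neg, abs_of_pos hη]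
      exact (div_le_div_of_nonneg_right (abs_sg ϑ) hη.le).trans (h hC)
    refine ⟨fun b t => max (((c - d) / η - if b then 0 else 1) + -sg ϑ / η * t) 0, fun t => ?_,
      fun b => (CL_lin _ h1).max0⟩
    have e : (c - (sg ϑ * t + d)) / η = (c - d) / η + -sg ϑ / η * t := by ring
    simp only [if_pos hC, rp, e, if_true, Bool.false_eq_true, if_false, sub_zero, max_def, min_def]
    split_ifs <;> linarith
  · exact ⟨fun _ _ => 0, fun t => by simp [hC], fun _ => CL_zero ha⟩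

lemma DC_tf {a η ϑ ϑ' : ℝ} (ω : ℝ) (hη : 0 < η) (h1 : η ≤ 1) (ha : 0 ≤ a) (h2 : |ϑ| ≤ 1)
    (h3 : |ϑ'| ≤ 1) (h : 1 / η ≤ a ∨ ϑ = 0 ∧ ϑ' = 0) (i : Fin 6) :
    DC a fun t => tf ω η ϑ ϑ' t i := by
  have h4 : 1 ≤ 1 / η := one_le_one_div hη h1
  have h5 : 0 < ϑ * ϑ' → 1 / η ≤ a := fun h5 => h.elim id fun h6 => by simp [h6.1] at h5
  fin_cases i
  · simpa [tf, R1] using DC_rp (0 < ϑ * ϑ') (cc ω η ϑ ϑ') 0 ϑ hη ha h5
  · exact DC_rp (0 < ϑ * ϑ' ∧ |ϑ| ≤ |ϑ'|) (cc ω η ϑ ϑ') |ϑ| ϑ hη ha fun h6 => h5 h6.1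
  · exact DC_rp (0 < ϑ * ϑ' ∧ |ϑ'| < |ϑ|) (cc ω η ϑ ϑ') |ϑ'| ϑ hη ha fun h6 => h5 h6.1
  · exact DC_lin (σ := ϑ) (h.elim (fun h6 => by linarith) fun h6 => by simpa [h6.1])
  · exact DC_lin (σ := ϑ') (h.elim (fun h6 => by linarith) fun h6 => by simpa [h6.2])
  · exact DC_lin (σ := sg ϑ) (h.elim (fun h6 => by linarith [abs_sg ϑ])
      fun h6 => by simpa [h6.1, sg])

variable {ι κ : Type} [Fintype ι] [DecidableEq ι] [Fintype κ]

/-- Convex and Lipschitz functions of several variables. -/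
def CV (L : ℝ) (F : (ι → ℝ) → ℝ) : Prop :=
  ConvexOn ℝ Set.univ F ∧ ∀ z z', |F z - F z'| ≤ L * Real.sqrt (∑ i, (z i - z' i) ^ 2)

omit [DecidableEq ι] in
lemma CV.cont {L : ℝ} {F : (ι → ℝ) → ℝ} (h : CV L F) : Continuous F :=
  continuousOn_univ.1 (h.1.continuousOn isOpen_univ)

omit [DecidableEq ι] in
lemma cs (a d : ι → ℝ) :
    |∑ j, a j * d j| ≤ Real.sqrt (∑ j, a j ^ 2) * Real.sqrt (∑ j, d j ^ 2) := by
  rw [← Real.sqrt_mul (by positivity)]
  exact Real.abs_le_sqrt (sum_mul_sq_le_sq_mul_sq _ _ _)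

omit [DecidableEq ι] in
lemma CV_lin (a : ι → ℝ) {L : ℝ} (h : Real.sqrt (∑ j, a j ^ 2) ≤ L) :
    CV L fun z => ∑ j, a j * z j := by
  refine ⟨⟨convex_univ, fun x _ y _ p q _ _ _ => le_of_eq ?_⟩, fun z z' => ?_⟩
  · simp only [smul_eq_mul, mul_sum, ← sum_add_distrib, Pi.add_apply, Pi.smul_apply]
    exact sum_congr rfl fun j _ => by ring
  · simp only [← sum_sub_distrib, ← mul_sub]
    exact (cs _ _).trans (by gcongr)

omit [DecidableEq ι] in
lemma CV.add {L L' : ℝ} {F F' : (ι → ℝ) → ℝ} (h : CV L F) (h' : CV L' F') :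
    CV (L + L') fun z => F z + F' z :=
  ⟨h.1.add h'.1, fun z z' => by
    rw [add_sub_add_comm, add_mul]
    exact (abs_add_le _ _).trans (add_le_add (h.2 z z') (h'.2 z z'))⟩

omit [DecidableEq ι] in
lemma CV.mono {L L' : ℝ} {F : (ι → ℝ) → ℝ} (h : CV L F) (h' : L ≤ L') : CV L' F :=
  ⟨h.1, fun z z' => (h.2 z z').trans (by gcongr)⟩

variable {S : ι → κ → ℤ} {Sp : (ι → ℝ) →ₗ[ℝ] (κ → ℝ)}

lemma CV_sum (hP : B.ProjStmt) (hp : IsProj S Sp) {a : ι → ℝ} {φ : ι → ℝ → ℝ}
    (h : ∀ j, CL (a j) (φ j)) :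
    CV (Real.sqrt (∑ j, a j ^ 2)) fun z => ∑ j, φ j (perp S Sp z j) := by
  obtain ⟨-, h2, h3, -⟩ := (hP.1 ι κ S).2 Sp hp
  refine ⟨⟨convex_univ, fun x _ y _ p q h0 h1 e => ?_⟩, fun z z' => ?_⟩
  · simp only [smul_eq_mul, mul_sum, ← sum_add_distrib]
    refine sum_le_sum fun j _ => le_trans (le_of_eq ?_)
      ((h j).1.2 (Set.mem_univ _) (Set.mem_univ _) h0 h1 e)
    congr 1
    simp only [perp, lin, ip, map_add, map_smul, Pi.add_apply, Pi.smul_apply, smul_eq_mul,
      mul_add, sum_add_distrib, mul_sub, mul_sum, mul_left_comm]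
    ring
  · rw [← sum_sub_distrib]
    refine (abs_sum_le_sum_abs _ _).trans ((sum_le_sum fun j _ => (h j).2 _ _).trans
      ((le_abs_self _).trans ((cs _ _).trans ?_)))
    have h4 := h3 (z - z')
    simp only [h2, Pi.sub_apply] at h4
    simp only [sq_abs]
    gcongr

omit [DecidableEq ι] in
lemma perp_adj (hp : IsProj S Sp) (a z : ι → ℝ) :
    ∑ j, a j * perp S Sp z j = ∑ j, perp S Sp a j * z j := by
  have h1 := hp z (Sp a)
  have h2 := hp a (Sp z)
  rw [← sub_eq_zero, ← sum_sub_distrib, ← sub_self (0 : ℝ)]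
  nth_rw 1 [← h1]
  nth_rw 1 [← h2]
  rw [← sum_sub_distrib]
  exact sum_congr rfl fun j _ => by unfold perp; ring

lemma CV_T1 (hP : B.ProjStmt) (hp : IsProj S Sp) (ω η : ℝ) (ϑ : ι → ℝ) :
    CV (Lip1 S Sp ω ϑ) fun z => T1 ω η ϑ (perp S Sp z) := by
  have h := (CV_sum hP hp fun j => CL_hg ω η (ϑ j)).add (CV_lin (perp S Sp ϑ) le_rfl)
  simp only [← perp_adj hp, ← sum_add_distrib] at h
  refine h.mono ?_
  simp [Lip1]

lemma ind_mem (P : Prop) : 0 ≤ ind P ∧ ind P ≤ 1 := by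
  unfold ind
  split_ifs <;> simp

omit [Fintype ι] [DecidableEq ι] in
lemma LB_ind {P : (ι → ℝ) → Prop} (hP : Measurable P) : LB fun z => ind (P z) :=
  ⟨Measurable.ite hP.setOf measurable_const measurable_const, 1, fun z _ =>
    abs_le.2 ⟨by linarith [(ind_mem (P z)).1], (ind_mem _).2⟩⟩

omit [Fintype ι] [DecidableEq ι] in
lemma LB_add {F G : (ι → ℝ) → ℝ} (h : LB F) (h' : LB G) : LB fun z => F z + G z := by
  obtain ⟨h1, C, h2⟩ := h
  obtain ⟨h3, C', h4⟩ := h'
  exact ⟨h1.add h3, C + C', fun z hz => (abs_add_le _ _).trans (add_le_add (h2 z hz) (h4 z hz))⟩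

/-- Probability of an event. -/
noncomputable def Pr (w : Wn) (P : (ι → ℝ) → Prop) : ℝ := zE w fun z => ind (P z)

variable {w : Wn}

lemma Pr_or (hL : LawStmt) (hw : w.Ok) {P Q R : (ι → ℝ) → Prop} (hP : Measurable P)
    (hQ : Measurable Q) (hR : Measurable R)
    (h : ∀ z, (∀ i, |z i| ≤ 1 / 2 + w.om) → P z → Q z ∨ R z) : Pr w P ≤ Pr w Q + Pr w R := by
  obtain ⟨-, h2, -⟩ := (hL w hw).2 ι
  refine (((h2 _ (LB_ind hP)).2.2.2.2 _ (LB_add (LB_ind hQ) (LB_ind hR))).2 fun z hz => ?_).trans_eq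
    ((h2 _ (LB_ind hQ)).2.2.2.2 _ (LB_ind hR)).1
  have := h z hz
  unfold ind
  split_ifs <;> simp_all

lemma Pr_false (hL : LawStmt) (hw : w.Ok) {P : (ι → ℝ) → Prop} (h : ∀ z, ¬ P z) :
    Pr w P = 0 := by
  simp only [Pr, ind, h, if_false]
  exact ((hL w hw).2 ι).2.2.1 0

lemma Pr_ex (hL : LawStmt) (hw : w.Ok) {A : Type} [Fintype A] {Q : A → (ι → ℝ) → Prop}
    (hQ : ∀ a, Measurable (Q a)) {δ : A → ℝ} (h : ∀ a, Pr w (Q a) ≤ δ a) :
    Pr w (fun z => ∃ a, Q a z) ≤ ∑ a, δ a := by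
  classical
  have key : ∀ T : Finset A, Pr w (fun z => ∃ a, a ∈ T ∧ Q a z) ≤ ∑ a ∈ T, δ a := fun T => by
    have m : ∀ T : Finset A, Measurable fun z => ∃ a, a ∈ T ∧ Q a z := fun T =>
      Measurable.exists fun a => measurable_const.and (hQ a)
    induction T using Finset.induction_on with
    | empty => exact (Pr_false hL hw (by simp)).le
    | insert a T ha ih =>
      rw [sum_insert ha]
      exact (Pr_or hL hw (m _) (hQ a) (m T) fun z _ hz => by simpa using hz).trans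
        (add_le_add (h a) ih)
  simpa using key univ

/-- The event of a large deviation, if `C` holds. -/
def Dev (w : Wn) (C : Prop) (F : (ι → ℝ) → ℝ) (s : ℝ) (z : ι → ℝ) : Prop :=
  C ∧ s < |F z - zE w F|

lemma meas_Dev (C : Prop) {F : (ι → ℝ) → ℝ} (hF : Continuous F) (s : ℝ) :
    Measurable (Dev w C F s) :=
  measurable_const.and (measurableSet_setOfPred.1 (measurableSet_lt measurable_const
    (Continuous.measurable (by fun_prop))))

lemma Pr_Dev (hL : LawStmt) (hC : ConcStmt) (hw : w.Ok) {C : Prop} {F : (ι → ℝ) → ℝ}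
    {L E δ : ℝ} (hF : CV L F) (hE : 0 ≤ E) (hδ : 0 ≤ δ)
    (h : C → 0 < L ∧ 2 * Real.exp (-(2 * E)) ≤ δ) :
    Pr w (Dev w C F (6 * L * Real.sqrt E)) ≤ δ := by
  by_cases hc : C
  · obtain ⟨h1, h2⟩ := h hc
    simp only [Pr, Dev, hc, true_and]
    refine (hC ι w F L _ hw h1 (by positivity) hF.1 hF.2).trans (le_trans ?_ h2)
    have e : -(6 * L * Real.sqrt E) ^ 2 / (16 * L ^ 2) = -(9 / 4 * E) := by
      rw [mul_pow, Real.sq_sqrt hE]
      field_simp
      ring
    rw [e]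
    gcongr
    norm_num
  · exact (Pr_false hL hw fun z hz => hc hz.1).trans_le hδ

lemma exists_offset (hL : LawStmt) (hw : w.Ok) (S : ι → κ → ℤ) {P : (ι → ℝ) → Prop}
    (hP : Measurable P) : BM (fun y : ι → ℝ => Eb (py w y) fun b => ind (P (zz y b))) ∧
      ∃ c : ι → ℝ, tm (fun β => Eb (py w (c + lin S β)) fun b =>
        ind (P (zz (c + lin S β) b))) ≤ Pr w P := by
  obtain ⟨⟨hm, C, hb⟩, hs, -⟩ := ((hL w hw).2 ι).2.1 _ (LB_ind hP)
  refine ⟨⟨hm, C, hb⟩, ?_⟩
  have hlin : Measurable (lin S : (κ → ℝ) → ι → ℝ) := by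
    refine measurable_pi_lambda _ fun j => ?_
    unfold lin ip
    fun_prop
  have hF : Integrable (Function.uncurry fun (c : ι → ℝ) (β : κ → ℝ) =>
      Eb (py w (c + lin S β)) fun b => ind (P (zz (c + lin S β) b))) ((cube ι).prod (cube κ)) :=
    Integrable.of_bound
      (hm.comp (measurable_fst.add (hlin.comp measurable_snd))).aestronglyMeasurable C
      (Filter.Eventually.of_forall fun c => hb _)
  obtain ⟨c, hc⟩ := exists_le_integral hF.integral_prod_left
  refine ⟨c, hc.trans ?_⟩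
  simp only [Function.uncurry_apply_pair]
  rw [integral_integral_swap hF]
  have e : ∀ β : κ → ℝ, ∫ c, (Eb (py w (c + lin S β)) fun b =>
    ind (P (zz (c + lin S β) b))) ∂cube ι = Pr w P := fun β => hs _
  simp [e]

variable {B : Type} [Fintype B] [DecidableEq B] {M : B → ℕ} {g : ℕ}

omit [Fintype ι] in
lemma th_zero {blk : B → Finset ι} {s : (J : B) → ι → Fin (M J) → ℤ}
    (h : ∀ J j, j ∉ blk J → s J j = 0) {π π' : Pat M g} (e : pS π = pS π') {j : ι}
    (hj : j ∉ zone blk (pS π)) : th1 s π j = 0 ∧ th2 s π π' j = 0 := by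
  have h1 : ∀ ρ : Pat M g, j ∉ zone blk (pS ρ) → pw s ρ j = 0 := fun ρ hj => by
    refine sum_eq_zero fun x _ => ?_
    by_cases hx : x.1 ∈ pS ρ
    · have : j ∉ blk x.1 := fun h2 => hj (mem_biUnion.2 ⟨_, hx, h2⟩)
      simp [tc, h _ _ this]
    · have : ρ x.1 = none := by simpa [pS] using hx
      simp [pD, this]
  simp [th1, th2, h1 π hj, h1 π' (e ▸ hj), cf]

end TypC

open TypC in
theorem typC_proof (_hW : WinStmt) (hL : LawStmt) (hC : ConcStmt) (hPat : B.PatStmt)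
    (hP : B.ProjStmt) : TypCStmt := by
  intro ι B _ _ _ _ M blk s Sp w η Le Pm x g hw h0 h1 hPm hLe hp hz hne hlev hx hx1
  obtain ⟨hLB, hE, hconst, hlin0⟩ := (hL w hw).2 ι
  obtain ⟨a, hlin, ha⟩ : ∃ a : ι → ι → ℝ, (∀ z i, lin (tc s) (Sp z) i = ∑ j, a i j * z j) ∧
    ∀ i, ∑ j, a i j ^ 2 ≤ Pm := ⟨_, ((hP.1 ι _ (tc s)).2 Sp hp).2.2.2.2.2, hlev⟩
  have ent0 : ∀ π : Pat M g, 0 ≤ ent Le π := fun π => by unfold ent; positivity
  let e : Pat M g → ℝ := fun π => if pS π = ∅ then 0 else Real.exp (-ent Le π)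
  have e0 : ∀ π, 0 ≤ e π := fun π => by
    simp only [e]
    split_ifs <;> positivity
  have hx0 : 0 ≤ x := le_trans (by positivity) hx
  have he : ∑ π, e π ≤ 2 * x := by
    have h2 := (hPat B M g).2.2 fun J => Le * M J
    have h3 := Real.abs_exp_sub_one_le (x := x) (by rw [abs_of_nonneg hx0]; linarith)
    rw [abs_of_nonneg hx0] at h3
    simp only [e, ent, mul_sum]
    linarith [Real.exp_le_exp.2 hx, le_abs_self (Real.exp x - 1)]
  -- the tests
  have c1 : ∀ i, CV (Real.sqrt Pm) fun z => lin (tc s) (Sp z) i := fun i => by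
    simp only [hlin]
    exact CV_lin _ (Real.sqrt_le_sqrt (ha i))
  have c2 := fun π : Pat M g => CV_T1 hP hp w.om η (th1 s π)
  have hth : ∀ (π π' : Pat M g) j, |th1 s π j| ≤ 1 ∧ |th2 s π π' j| ≤ 1 := fun π π' j => by
    have h2 : |th1 s π j| ≤ 1 / 2 := abs_sub_round _
    have h3 : |cf (pw s π' j - th1 s π j)| ≤ 1 / 2 := abs_sub_round _
    exact ⟨by linarith, (abs_add_le _ _).trans (by linarith)⟩
  have c3 : ∀ (π π' : Pat M g) (i : Fin 6), ∃ G : Bool → (ι → ℝ) → ℝ,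
      (pS π = pS π' → ∀ z, T2 w.om η (th1 s π) (th2 s π π') (perp (tc s) Sp z) i =
        G true z - G false z) ∧
      ∀ b, CV (Real.sqrt (zone blk (pS π)).card / η) (G b) := fun π π' i => by
    by_cases hS : pS π = pS π'
    swap
    · refine ⟨fun _ z => ∑ j, 0 * z j, fun h => absurd h hS, fun _ => CV_lin _ ?_⟩
      simp only [ne_eq, OfNat.ofNat_ne_zero, not_false_eq_true, zero_pow, sum_const_zero,
        Real.sqrt_zero]
      positivity
    choose G hG hG' using fun j => DC_tf (a := if j ∈ zone blk (pS π) then 1 / η else 0) w.om h0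
      (by linarith) (by split_ifs <;> positivity) (hth π π' j).1 (hth π π' j).2 (by
        split_ifs with hj
        exacts [.inl le_rfl, .inr (th_zero hz hS hj)]) i
    refine ⟨fun b z => ∑ j, G j b (perp (tc s) Sp z j), fun _ z => ?_, fun b =>
      (CV_sum hP hp fun j => hG' j b).mono (le_of_eq ?_)⟩
    · simp only [T2, hG, sum_sub_distrib]
    · simp [Real.sqrt_sq h0.le, div_eq_mul_inv]
  choose G hG hG' using c3
  let Q1 := fun i => Dev w True (fun z => lin (tc s) (Sp z) i) η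
  let Q2 := fun π : Pat M g => Dev w (pS π ≠ ∅)
    (fun z => T1 w.om η (th1 s π) (perp (tc s) Sp z))
    (6 * Lip1 (tc s) Sp w.om (th1 s π) * Real.sqrt (ent Le π))
  let Q3 := fun a : Pat M g × Pat M g × Fin 6 × Bool => Dev w (pS a.1 ≠ ∅ ∧ pS a.1 = pS a.2.1)
    (G a.1 a.2.1 a.2.2.1 a.2.2.2)
    (6 * (Real.sqrt (zone blk (pS a.1)).card / η) * Real.sqrt (ent Le a.1))
  have m1 : ∀ i, Measurable (Q1 i) := fun i => meas_Dev _ (c1 i).cont _
  have m2 : ∀ π, Measurable (Q2 π) := fun π => meas_Dev _ (c2 π).cont _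
  have m3 : ∀ a, Measurable (Q3 a) := fun a => meas_Dev _ (hG' _ _ _ _).cont _
  have p1 := Pr_ex hL hw m1 (δ := fun _ => 2 * Real.exp (-η ^ 2 / (16 * Pm))) fun i => by
    have := hC ι w _ _ η hw (Real.sqrt_pos.2 hPm) h0.le (c1 i).1 (c1 i).2
    rw [Real.sq_sqrt hPm.le] at this
    simpa only [Pr, Q1, Dev, true_and] using this
  have p2 := Pr_ex hL hw m2 (δ := fun π => 2 * e π) fun π =>
    Pr_Dev hL hC hw (c2 π) (ent0 π) (by linarith [e0 π]) fun h => ⟨by unfold Lip1; positivity, by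
      simp only [e, if_neg h]
      gcongr
      linarith [ent0 π]⟩
  have p3 := Pr_ex hL hw m3 (δ := fun a => 2 * (e a.1 * e a.2.1)) fun a =>
    Pr_Dev hL hC hw (hG' _ _ _ _) (ent0 _) (by have := e0 a.1; have := e0 a.2.1; positivity)
      fun h => ⟨by
        obtain ⟨J, hJ⟩ := nonempty_iff_ne_empty.2 h.1
        obtain ⟨j, hj⟩ := hne J
        have : 0 < (zone blk (pS a.1)).card := card_pos.2 ⟨j, mem_biUnion.2 ⟨J, hJ, hj⟩⟩
        positivity, by
        have h2 : ent Le a.2.1 = ent Le a.1 := by unfold ent; rw [h.2]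
        simp only [e, if_neg h.1, if_neg (h.2 ▸ h.1), h2, ← Real.exp_add]
        exact le_of_eq (by congr 2; ring)⟩
  have hperp : Continuous (perp (tc s) Sp) := by
    have := Sp.continuous_of_finiteDimensional
    unfold perp lin ip
    fun_prop
  have mP : Measurable fun z => ¬ Nice (tc s) Sp (GoodC w η Le blk s Sp g) z := by
    have hle : ∀ {F : (ι → ℝ) → ℝ} (a : ℝ), Continuous F → Measurable fun z => |F z| ≤ a :=
      fun a hF => measurableSet_setOfPred.1 (measurableSet_le hF.abs.measurable measurable_const)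
    refine (Measurable.and (.and (.forall fun i => hle _ (by fun_prop)) (.and
      (.forall fun π => hle _ ((c2 π).cont.sub continuous_const))
      (.forall fun π => .forall fun π' => ?_))) (.forall fun i => hle _ (by fun_prop))).not
    by_cases hS : pS π = pS π'
    · simp only [hG π π' _ hS]
      exact measurable_const.imp (.forall fun i => hle _
        (((hG' π π' i _).cont.sub (hG' π π' i _).cont).sub continuous_const))
    · simp [hS]
  obtain ⟨k1, c, k2⟩ := exists_offset hL hw (tc s) mP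
  refine ⟨k1, c, k2.trans ((Pr_or hL hw mP (.exists m1) ((Measurable.exists m2).or (.exists m3))
    fun z hz1 hn => ?_).trans ((add_le_add p1 ((Pr_or hL hw
      ((Measurable.exists m2).or (.exists m3)) (.exists m2) (.exists m3) fun _ _ h => h).trans
        (add_le_add p2 p3))).trans ?_))⟩
  · by_contra hq
    simp only [not_or, not_exists, Q1, Q2, Q3, Dev, not_and, not_lt, Prod.forall, and_imp,
      forall_const] at hq
    obtain ⟨q1, q2, q3⟩ := hq
    have hu : ∀ i, |perp (tc s) Sp z i - z i| ≤ η := fun i => by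
      have h2 := q1 i
      simp only [hlin, hlin0, sub_zero] at h2
      rwa [perp, sub_sub_cancel_left, abs_neg, hlin]
    refine hn ⟨⟨fun i => ?_, fun π => ?_, fun π π' hS i => ?_⟩, fun i => (hu i).trans h1⟩
    · have := abs_add_le (perp (tc s) Sp z i - z i) (z i)
      rw [sub_add_cancel] at this
      linarith [hu i, hz1 i]
    · by_cases h : pS π = ∅
      · have h2 : ∀ j, th1 s π j = 0 := fun j => (th_zero hz rfl (by simp [h, zone])).1
        have h3 : ¬ 4 * w.om < 0 := by linarith [hw.1]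
        simp [T1, hg, h2, h3, hconst, ent, h]
      · exact q2 π h
    · by_cases h : pS π = ∅
      · have h2 := fun j => th_zero hz hS (j := j) (by simp [h, zone])
        have h3 : ∀ u, T2 w.om η (th1 s π) (th2 s π π') u i = 0 := fun u => by
          refine sum_eq_zero fun j _ => ?_
          rw [(h2 j).1, (h2 j).2]
          fin_cases i <;> simp [tf, R1, R2, R3, sg]
        simp [h3, hconst, h, zone]
      have h2 := ((hE (fun z => G π π' i true z - G π π' i false z) (hLB _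
        ((hG' π π' i true).cont.sub (hG' π π' i false).cont))).2.2.2.2 _
        (hLB _ (hG' π π' i false).cont)).1
      simp only [sub_add_cancel] at h2
      have h3 := abs_le.1 (q3 π π' i true h hS)
      have h4 := abs_le.1 (q3 π π' i false h hS)
      have h5 : 12 / η * Real.sqrt ((zone blk (pS π)).card * ent Le π) =
          2 * (6 * (Real.sqrt (zone blk (pS π)).card / η) * Real.sqrt (ent Le π)) := by
        rw [Real.sqrt_mul (Nat.cast_nonneg _)]
        ring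
      simp only [hG π π' i hS, h5, abs_le]
      constructor <;> linarith [h3.1, h3.2, h4.1, h4.2]
  · have h2 : 0 ≤ ∑ π, e π := sum_nonneg fun π _ => e0 π
    simp only [Fintype.sum_prod_type, sum_const, card_univ, Fintype.card_fin, Fintype.card_bool,
      Fintype.card_prod, nsmul_eq_mul, ← mul_sum, ← sum_mul, cd]
    push_cast
    nlinarith

end Vale.Agent.P318.C
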