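import Vale.Agent.P318.C.StmtI
import Vale.Agent.P318.M.Ramp

/-! Elementary facts on the linear window. -/

namespace Vale.Agent.P318.C

open MeasureTheory Set Filter
open M (ind)
open M.Ramp (hd_sq int_fract ii ind_nonneg ind_le of_ind int_le)

namespace Win

variable {w : Wn}

lemma max_sq (a : ℝ) : max (-a) 0 ^ 2 = a ^ 2 - max a 0 ^ 2 := by
  rcases le_total a 0 with h | h
  · rw [max_eq_left (neg_nonneg.2 h), max_eq_right h]; ring
  · rw [max_eq_right (neg_nonpos.2 h), max_eq_left h]; ring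

lemma depth_nonneg (x : ℝ) : 0 ≤ depth w x := le_max_right _ _

lemma depth_pos {x : ℝ} (h : 0 < depth w x) : depth w x ≤ x ∧ depth w x ≤ 2 * w.om - x := by
  have h1 : depth w x = min x (2 * w.om - x) := max_eq_left ((lt_max_iff.1 h).elim le_of_lt
    fun h => absurd h (lt_irrefl _))
  exact ⟨h1 ▸ min_le_left _ _, h1 ▸ min_le_right _ _⟩

lemma pos_per (y : ℝ) (n : ℤ) : pos w (y + n) = pos w y := by rw [pos, pos, Int.fract_add_intCast]

lemma pos_meas : Measurable (pos w) := (measurable_fract.sub_const _).add_const _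

lemma depth_cont : Continuous (depth w) := by unfold depth; fun_prop

lemma slope_cont : Continuous (slope w) := by unfold slope depth; fun_prop

lemma dep_meas : Measurable (dep w) := depth_cont.measurable.comp pos_meas

lemma pr_meas : Measurable (pr w) :=
  (show Continuous (ramp w) by unfold ramp; fun_prop).measurable.comp pos_meas

lemma dpr_meas : Measurable (dpr w) := slope_cont.measurable.comp pos_meas

lemma pq_meas : Measurable (pq w) := pr_meas.mul (pr_meas.const_sub 1)

lemma psi_meas : Measurable (psi w) :=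
  Measurable.ite (measurableSet_le measurable_const dep_meas) dpr_meas measurable_const

lemma kp2_meas : Measurable (kp2 w) := (dpr_meas.pow_const 2).div pq_meas

lemma pq_le (y : ℝ) : pq w y ≤ 1 / 4 := by
  unfold pq
  nlinarith [sq_nonneg (pr w y - 1 / 2)]

lemma dep_supp (y : ℝ) (h : 0 < dep w y) : |Int.fract y - 1 / 2| < w.om := by
  obtain ⟨h1, h2⟩ := depth_pos h
  unfold dep at h
  unfold pos at *
  rw [abs_lt]
  constructor <;> linarith

variable (H : w.Ok)
include H

lemma hh_pos : 0 < w.hh := one_div_pos.2 (by linarith [H.1, H.2.2.2])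

lemma hh_mul : w.hh * (2 * w.om - w.et) = 1 := one_div_mul_cancel (by linarith [H.1, H.2.2.2])

lemma hh_ge : 1 / (2 * w.om) ≤ w.hh :=
  one_div_le_one_div_of_le (by linarith [H.1, H.2.2.2]) (by linarith [H.2.2.1])

lemma hh_om : w.hh * w.om ≤ 4 / 7 := by
  nlinarith [hh_mul H, mul_le_mul_of_nonneg_left H.2.2.2 (hh_pos H).le]

lemma hh_le : w.hh ≤ 1 / w.om := by
  rw [le_div_iff₀ H.1]
  linarith [hh_om H]

lemma hd (x : ℝ) : HasDerivAt (ramp w) (slope w x) x := by
  obtain ⟨h0, -, h1, h2⟩ := H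
  have h := ((((hd_sq x).sub ((hd_sq _).comp_sub_const x w.et)).sub
    ((hd_sq _).comp_sub_const x (2 * w.om - w.et))).add
    ((hd_sq _).comp_sub_const x (2 * w.om))).const_mul (w.hh / (2 * w.et))
  refine HasDerivAt.congr_deriv h ?_
  have e : max x 0 - max (x - w.et) 0 - max (x - (2 * w.om - w.et)) 0 + max (x - 2 * w.om) 0 =
      min (depth w x) w.et := by
    simp only [depth, max_def, min_def]
    split_ifs <;> linarith
  rw [slope, ← div_self h1.ne', min_div_div_right h1.le, ← e]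
  field_simp

lemma ramp_zero (x : ℝ) (hx : x ≤ 0) : ramp w x = 0 := by
  obtain ⟨h0, -, h1, h2⟩ := H
  rw [ramp, max_eq_right hx, max_eq_right (by linarith), max_eq_right (by linarith),
    max_eq_right (by linarith)]
  ring

lemma ramp_symm (x : ℝ) : ramp w (2 * w.om - x) = 1 - ramp w x := by
  have h1 := H.2.2.1
  rw [ramp, ramp, show 2 * w.om - x - w.et = -(x - (2 * w.om - w.et)) by ring,
    show 2 * w.om - x - (2 * w.om - w.et) = -(x - w.et) by ring,
    show 2 * w.om - x - 2 * w.om = -x by ring, ← neg_sub x, max_sq, max_sq, max_sq, max_sq,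
    ← hh_mul H]
  field_simp
  ring

lemma ramp_one (x : ℝ) (hx : 2 * w.om ≤ x) : ramp w x = 1 := by
  linarith [ramp_symm H x, ramp_zero H (2 * w.om - x) (by linarith)]

lemma ramp_lin (x : ℝ) (h1 : w.et ≤ x) (h2 : x ≤ 2 * w.om - w.et) :
    ramp w x = w.hh * (x - w.et / 2) := by
  have h3 := H.2.2.1
  rw [ramp, max_eq_left (by linarith), max_eq_left (by linarith), max_eq_right (by linarith),
    max_eq_right (by linarith)]
  field_simp
  ring

lemma slope_nonneg (x : ℝ) : 0 ≤ slope w x :=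
  mul_nonneg (hh_pos H).le (le_min (div_nonneg (depth_nonneg x) H.2.2.1.le) zero_le_one)

lemma slope_le (x : ℝ) : slope w x ≤ w.hh :=
  mul_le_of_le_one_right (hh_pos H).le (min_le_right _ _)

lemma slope_le' (x : ℝ) : slope w x * w.et ≤ w.hh * depth w x := by
  rw [slope, mul_assoc]
  exact mul_le_mul_of_nonneg_left ((le_div_iff₀ H.2.2.1).1 (min_le_left _ _)) (hh_pos H).le

lemma ramp_mono : Monotone (ramp w) :=
  monotone_of_hasDerivAt_nonneg (hd H) fun x => slope_nonneg H x

lemma depth_le (x : ℝ) : depth w x ≤ w.om :=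
  max_le (by rcases le_total x w.om with h | h; exacts [(min_le_left _ _).trans h,
    (min_le_right _ _).trans (by linarith)]) H.1.le

lemma ramp_or (x : ℝ) : ramp w x = ramp w (depth w x) ∨ ramp w x = 1 - ramp w (depth w x) := by
  have e : ∀ z, ramp w (max z 0) = ramp w z := fun z => by
    rcases le_total z 0 with h | h
    · rw [max_eq_right h, ramp_zero H z h, ramp_zero H 0 le_rfl]
    · rw [max_eq_left h]
  rw [depth, e]
  rcases min_choice x (2 * w.om - x) with h | h <;> rw [h]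
  · exact .inl rfl
  · exact .inr (by rw [ramp_symm H, sub_sub_cancel])

lemma ramp_depth (x : ℝ) : depth w x * slope w x / 2 ≤ ramp w (depth w x) ∧
    ramp w (depth w x) ≤ depth w x * slope w x ∧ ramp w (depth w x) ≤ 1 / 2 := by
  have h0 := depth_nonneg (w := w) x
  have h1 := depth_le H x
  have h2 := hh_pos H
  obtain ⟨p0, -, p1, p2⟩ := id H
  refine and_assoc.1 ⟨?_, (ramp_mono H h1).trans_eq ?_⟩
  · rw [slope]
    generalize depth w x = d at *
    rcases le_total d w.et with h | h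
    · have e : ramp w d = d * (w.hh * (d / w.et)) / 2 := by
        rw [ramp, max_eq_left h0, max_eq_right (by linarith), max_eq_right (by linarith),
          max_eq_right (by linarith)]
        field_simp
        ring
      rw [min_eq_left ((div_le_one p1).2 h), e]
      exact ⟨le_rfl, half_le_self (by positivity)⟩
    · rw [min_eq_right ((one_le_div p1).2 h), ramp_lin H d h (by linarith)]
      constructor <;> nlinarith [mul_le_mul_of_nonneg_left h h2.le]
  · rw [ramp_lin H _ (by linarith) (by linarith)]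
    linarith [hh_mul H]

lemma pq_bd (y : ℝ) : dep w y * dpr w y / 4 ≤ pq w y ∧ pq w y ≤ dep w y * dpr w y := by
  obtain ⟨h1, h2, h3⟩ := ramp_depth H (pos w y)
  have h4 := mul_nonneg (depth_nonneg (w := w) (pos w y)) (slope_nonneg H (pos w y))
  unfold pq pr dep dpr
  rcases ramp_or H (pos w y) with h | h <;> rw [h] <;> constructor <;> nlinarith

lemma pq_nonneg (y : ℝ) : 0 ≤ pq w y :=
  (div_nonneg (mul_nonneg (depth_nonneg _) (slope_nonneg H _)) (by norm_num)).trans (pq_bd H y).1

lemma dpr_le (y : ℝ) : dpr w y ≤ 1 / w.om := (slope_le H _).trans (hh_le H)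

omit H in
lemma dpr_zero {y : ℝ} (h : dep w y = 0) : dpr w y = 0 := by
  rw [dpr, slope, ← dep, h, zero_div, min_eq_left zero_le_one, mul_zero]

lemma psi_bd (y : ℝ) : 0 ≤ psi w y ∧ psi w y ≤ dpr w y := by
  unfold psi
  split_ifs
  exacts [⟨slope_nonneg H _, le_rfl⟩, ⟨le_rfl, slope_nonneg H _⟩]

lemma psi_sq_le (y : ℝ) : psi w y ^ 2 ≤ 16 / w.om ^ 2 * pq w y := by
  have h0 := H.1
  have h1 := pq_nonneg H y
  unfold psi
  split_ifs with h
  · have h2 : 0 ≤ dpr w y := slope_nonneg H _
    have h3 := (le_div_iff₀ h0).1 (dpr_le H y)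
    have h4 := mul_le_mul_of_nonneg_right h h2
    rw [div_mul_eq_mul_div, le_div_iff₀ (by positivity)]
    nlinarith [(pq_bd H y).1, mul_le_mul_of_nonneg_left h3 (mul_nonneg h2 h0.le)]
  · rw [zero_pow two_ne_zero]
    positivity

lemma kp2_mul (y : ℝ) : kp2 w y * pq w y = dpr w y ^ 2 := by
  by_cases h : pq w y = 0
  · have h1 : dep w y * dpr w y = 0 := le_antisymm (by linarith [(pq_bd H y).1])
      (mul_nonneg (depth_nonneg _) (slope_nonneg H _))
    rw [h, (mul_eq_zero.1 h1).elim dpr_zero id]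
    ring
  · exact div_mul_cancel₀ _ h

lemma kp2_nonneg (y : ℝ) : 0 ≤ kp2 w y := div_nonneg (sq_nonneg _) (pq_nonneg H y)

lemma kp2_dep (y : ℝ) : kp2 w y * dep w y ≤ 4 * w.hh ∧ kp2 w y * w.et ≤ 4 * w.hh := by
  have h0 := kp2_nonneg H y
  have h1 := hh_pos H
  rcases (slope_nonneg H (pos w y)).eq_or_lt with h | h
  · have : kp2 w y = 0 := by rw [kp2, dpr, ← h]; simp
    rw [this, zero_mul, zero_mul]
    constructor <;> positivity
  have h2 : kp2 w y * dep w y ≤ 4 * dpr w y := le_of_mul_le_mul_right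
    (by nlinarith [kp2_mul H y, mul_le_mul_of_nonneg_left (pq_bd H y).1 h0]) (show 0 < dpr w y from h)
  have h3 : 0 < dep w y := (depth_nonneg _).lt_of_ne' fun e => h.ne' (dpr_zero e)
  have h4 : dpr w y * w.et ≤ w.hh * dep w y := slope_le' H _
  refine ⟨h2.trans (by linarith [show dpr w y ≤ w.hh from slope_le H _]),
    le_of_mul_le_mul_right ?_ h3⟩
  nlinarith [mul_le_mul_of_nonneg_right h2 H.2.2.1.le]

lemma kp2_le (y : ℝ) : kp2 w y ≤ 4 / (w.om * w.et) := by
  rw [le_div_iff₀ (mul_pos H.1 H.2.2.1)]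
  nlinarith [mul_le_mul_of_nonneg_right (kp2_dep H y).2 H.1.le, hh_om H]

lemma kp2_le' (y : ℝ) : kp2 w y ≤ 8 / w.om / (2 * dep w y + w.et) := by
  have h0 : 0 ≤ dep w y := depth_nonneg _
  have h1 := H.2.2.1
  rw [le_div_iff₀ (by positivity), le_div_iff₀ H.1]
  nlinarith [mul_le_mul_of_nonneg_right (kp2_dep H y).1 H.1.le,
    mul_le_mul_of_nonneg_right (kp2_dep H y).2 H.1.le, hh_om H]

lemma int_dpr : ∫ t in (0 : ℝ)..1, dpr w t = 1 := by
  obtain ⟨p0, p1, -, -⟩ := id H
  refine (int_fract fun t => slope w (t - 1 / 2 + w.om)).trans ?_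
  rw [intervalIntegral.integral_eq_sub_of_hasDerivAt (f := fun t => ramp w (t - 1 / 2 + w.om))
    (fun t _ => ((hd H _).comp_add_const _ _).comp_sub_const t _)
    ((slope_cont.comp (by fun_prop)).intervalIntegrable _ _), ramp_one H _ (by linarith),
    ramp_zero H _ (by linarith), sub_zero]

lemma int_win : ∫ t in (0 : ℝ)..1, ind (0 < dep w t) ≤ 2 * w.om := by
  have h4 := int_le (S := Ioo (1 / 2 - w.om) (1 / 2 + w.om)) measurableSet_Ioo
    measure_Ioo_lt_top.ne zero_le_one (fun t => ind_nonneg (0 < dep w t)) (fun _ => ind_le _)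
    fun t ht => by
      have h5 := abs_lt.1 (dep_supp t (of_ind ht))
      exact ⟨by linarith [h5.1], by linarith [h5.2]⟩
  rw [Real.volume_real_Ioo_of_le (by linarith [H.1])] at h4
  linarith

lemma int_psi : 1 / 2 ≤ ∫ t in (0 : ℝ)..1, psi w t := by
  obtain ⟨p0, p1, p2, p3⟩ := id H
  refine le_trans ?_ (intervalIntegral.integral_mono_interval (a := 1 / 2 - w.om / 2)
    (b := 1 / 2 + w.om / 2) (by linarith) (by linarith) (by linarith)
    (Eventually.of_forall fun t => (psi_bd H t).1)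
    (ii psi_meas (fun t => (psi_bd H t).1) fun t => (psi_bd H t).2.trans (dpr_le H t)))
  rw [intervalIntegral.integral_congr (g := fun _ => w.hh) fun t ht => ?_,
    intervalIntegral.integral_const, smul_eq_mul]
  · nlinarith [hh_mul H, mul_pos (hh_pos H) p2]
  · rw [uIcc_of_le (by linarith)] at ht
    have h1 : w.om / 2 ≤ dep w t := by
      rw [dep, pos, Int.fract_eq_self.2 ⟨by linarith [ht.1], by linarith [ht.2]⟩]
      exact le_max_of_le_left (le_min (by linarith [ht.1]) (by linarith [ht.2]))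
    simp only [psi, if_pos h1]
    rw [dpr, slope, ← dep, min_eq_right ((one_le_div p2).2 (by linarith)), mul_one]

lemma kp2_ii : IntervalIntegrable (kp2 w) volume 0 1 := ii kp2_meas (kp2_nonneg H) (kp2_le H)

lemma Fi_ge : 1 ≤ Fi w := by
  have h1 := ii dpr_meas (fun t => slope_nonneg H _) (dpr_le H)
  have h2 := intervalIntegral.integral_mono_on zero_le_one
    ((h1.const_mul 4).sub (intervalIntegrable_const (c := 1))) (kp2_ii H) fun t _ => by
      nlinarith [kp2_mul H t, mul_le_mul_of_nonneg_left (pq_le (w := w) t) (kp2_nonneg H t),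
        sq_nonneg (2 * dpr w t - 1)]
  rw [intervalIntegral.integral_sub (h1.const_mul 4) intervalIntegrable_const,
    intervalIntegral.integral_const_mul, int_dpr H, intervalIntegral.integral_const] at h2
  exact le_trans (by norm_num) h2

lemma Fi_le : Fi w ≤ 8 / w.om * (1 + Real.log (w.om / w.et)) := by
  obtain ⟨p0, p1, p2, p3⟩ := id H
  have hi : ∀ a b : ℝ, a ∈ Icc (0 : ℝ) 1 → b ∈ Icc (0 : ℝ) 1 →
      IntervalIntegrable (kp2 w) volume a b := fun a b ha hb =>
    (kp2_ii H).mono_set (uIcc_subset_uIcc (by rwa [uIcc_of_le zero_le_one])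
      (by rwa [uIcc_of_le zero_le_one]))
  have hz : ∀ a b : ℝ, a ≤ b → (∀ t ∈ Ioo a b, ¬ |Int.fract t - 1 / 2| < w.om) →
      ∫ t in a..b, kp2 w t = 0 := fun a b hab h => by
    rw [intervalIntegral.integral_of_le hab, integral_Ioc_eq_integral_Ioo]
    refine setIntegral_eq_zero_of_forall_eq_zero fun t ht => ?_
    rw [kp2, dpr_zero (le_antisymm (not_lt.1 fun h' => h t ht (dep_supp t h')) (depth_nonneg _))]
    simp
  have hl : ∀ (s a b : ℝ), s ≠ 0 → a ∈ Icc (0 : ℝ) 1 → b ∈ Icc (0 : ℝ) 1 → a ≤ b →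
      (∀ t ∈ Icc a b, 0 ≤ w.om + s * (t - 1 / 2) ∧ w.om + s * (t - 1 / 2) ≤ dep w t) →
      ∫ t in a..b, kp2 w t ≤ 4 / w.om / s * (Real.log (2 * (w.om + s * (b - 1 / 2)) + w.et) -
        Real.log (2 * (w.om + s * (a - 1 / 2)) + w.et)) := fun s a b hs ha hb hab h => by
    have hc : ContinuousOn (fun t => 8 / w.om / (2 * (w.om + s * (t - 1 / 2)) + w.et)) (uIcc a b) :=
      continuousOn_const.div (by fun_prop) fun t ht => by
        rw [uIcc_of_le hab] at ht
        linarith [(h t ht).1]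
    refine (intervalIntegral.integral_mono_on hab (hi a b ha hb) hc.intervalIntegrable
      fun t ht => (kp2_le' H t).trans (div_le_div_of_nonneg_left (by positivity)
        (by linarith [(h t ht).1]) (by linarith [(h t ht).2]))).trans_eq ?_
    rw [mul_sub]
    refine intervalIntegral.integral_eq_sub_of_hasDerivAt
      (f := fun t => 4 / w.om / s * Real.log (2 * (w.om + s * (t - 1 / 2)) + w.et))
      (fun t ht => ?_) hc.intervalIntegrable
    rw [uIcc_of_le hab] at ht
    have h1 : 2 * (w.om + s * (t - 1 / 2)) + w.et ≠ 0 := by linarith [(h t ht).1]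
    refine (((((((hasDerivAt_id t).sub_const _).const_mul s).const_add _).const_mul 2).add_const
      _).log h1).const_mul _ |>.congr_deriv ?_
    simp only [id]
    field_simp
    norm_num
  have m0 : (0 : ℝ) ∈ Icc (0 : ℝ) 1 := ⟨le_rfl, zero_le_one⟩
  have m1 : 1 / 2 - w.om ∈ Icc (0 : ℝ) 1 := ⟨by linarith, by linarith⟩
  have m2 : (1 / 2 : ℝ) ∈ Icc (0 : ℝ) 1 := ⟨by norm_num, by norm_num⟩
  have m3 : 1 / 2 + w.om ∈ Icc (0 : ℝ) 1 := ⟨by linarith, by linarith⟩
  have m4 : (1 : ℝ) ∈ Icc (0 : ℝ) 1 := ⟨zero_le_one, le_rfl⟩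
  have i1 := hz 0 (1 / 2 - w.om) m1.1 fun t ht h => by
    rw [Int.fract_eq_self.2 ⟨ht.1.le, by linarith [ht.2]⟩] at h
    linarith [(abs_lt.1 h).1, ht.2]
  have i4 := hz (1 / 2 + w.om) 1 m3.2 fun t ht h => by
    rw [Int.fract_eq_self.2 ⟨by linarith [ht.1], ht.2⟩] at h
    linarith [(abs_lt.1 h).2, ht.1]
  have i2 := hl 1 _ _ one_ne_zero m1 m2 (by linarith) fun t ht => ⟨by linarith [ht.1], by
    rw [dep, pos, Int.fract_eq_self.2 ⟨by linarith [ht.1], by linarith [ht.2]⟩]
    exact le_max_of_le_left (le_min (by linarith) (by linarith [ht.2]))⟩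
  have i3 := hl (-1) _ _ (by norm_num) m2 m3 (by linarith) fun t ht => ⟨by linarith [ht.2], by
    rw [dep, pos, Int.fract_eq_self.2 ⟨by linarith [ht.1], by linarith [ht.2]⟩]
    exact le_max_of_le_left (le_min (by linarith [ht.1]) (by linarith))⟩
  rw [show 2 * (w.om + 1 * (1 / 2 - 1 / 2)) + w.et = 2 * w.om + w.et by ring,
    show 2 * (w.om + 1 * (1 / 2 - w.om - 1 / 2)) + w.et = w.et by ring] at i2
  rw [show 2 * (w.om + -1 * (1 / 2 - 1 / 2)) + w.et = 2 * w.om + w.et by ring,
    show 2 * (w.om + -1 * (1 / 2 + w.om - 1 / 2)) + w.et = w.et by ring] at i3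
  have h5 : Real.log (2 * w.om + w.et) ≤ 1 + Real.log w.om := by
    rw [← Real.log_exp 1, ← Real.log_mul (Real.exp_pos 1).ne' p0.ne']
    exact Real.log_le_log (by positivity) (by nlinarith [Real.exp_one_gt_d9])
  rw [Fi, ← intervalIntegral.integral_add_adjacent_intervals (hi _ _ m0 m2) (hi _ _ m2 m4),
    ← intervalIntegral.integral_add_adjacent_intervals (hi _ _ m0 m1) (hi _ _ m1 m2),
    ← intervalIntegral.integral_add_adjacent_intervals (hi _ _ m2 m3) (hi _ _ m3 m4), i1, i4,
    Real.log_div p0.ne' p2.ne']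
  have h6 := mul_le_mul_of_nonneg_left h5 (show 0 ≤ 8 / w.om by positivity)
  have h7 : 8 / w.om = 2 * (4 / w.om) := by ring
  rw [h7] at h6 ⊢
  linarith

lemma zmean_id : zmean w (fun z => z) = 0 := by
  let G : ℝ → ℝ := fun t => t - ramp w (t - 1 / 2 + w.om)
  have h1 : zmean w (fun z => z) = ∫ t in (0 : ℝ)..1, G t := by
    rw [← int_fract, zmean]
    congr 1
    funext t
    simp only [G, pr, pos]
    ring
  have h2 : ∀ t, G (1 - t) = -G t := fun t => by
    simp only [G, show 1 - t - 1 / 2 + w.om = 2 * w.om - (t - 1 / 2 + w.om) by ring, ramp_symm H]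
    ring
  have h3 := intervalIntegral.integral_comp_sub_left G (a := 0) (b := 1) 1
  simp only [h2, intervalIntegral.integral_neg, sub_self, sub_zero] at h3
  linarith

lemma path (y u r : ℝ) (hu : |u| < 1 / 2) (hy : 0 < dep w y) (he : w.om / 2 ≤ dep w (y + u))
    (hr0 : 0 ≤ r) (hr1 : r ≤ 1) : ⌊y + r * u⌋ = ⌊y⌋ ∧ pq w y ≤ 16 * pq w (y + r * u) ∧
      r / 16 * min (r * w.om / (2 * w.et)) 1 ≤ pq w (y + r * u) := by
  obtain ⟨p0, p1, p2, p3⟩ := id H
  have he0 : 0 < dep w (y + u) := (half_pos p0).trans_le he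
  have a1 := abs_lt.1 (dep_supp y hy)
  have a2 := abs_lt.1 (dep_supp _ he0)
  have a3 := abs_lt.1 hu
  have f1 := Int.floor_add_fract y
  have f2 := Int.floor_add_fract (y + u)
  have b1 : ⌊y + u⌋ = ⌊y⌋ := by
    have c1 : ((⌊y + u⌋ : ℤ) : ℝ) < (⌊y⌋ + 1 : ℤ) := by push_cast; linarith
    have c2 : ((⌊y⌋ : ℤ) : ℝ) < (⌊y + u⌋ + 1 : ℤ) := by push_cast; linarith
    have c3 := Int.cast_lt.1 c1
    have c4 := Int.cast_lt.1 c2
    omega
  rw [b1] at f2
  have b2 : ⌊y + r * u⌋ = ⌊y⌋ := by
    rw [Int.floor_eq_iff]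
    constructor <;> nlinarith [mul_nonneg hr0 (show 0 ≤ Int.fract (y + u) - 1 / 4 by linarith),
      mul_nonneg (sub_nonneg.2 hr1) (show 0 ≤ Int.fract y - 1 / 4 by linarith),
      mul_nonneg hr0 (show 0 ≤ 3 / 4 - Int.fract (y + u) by linarith),
      mul_nonneg (sub_nonneg.2 hr1) (show 0 ≤ 3 / 4 - Int.fract y by linarith)]
  have f3 := Int.floor_add_fract (y + r * u)
  rw [b2] at f3
  have b3 : pos w (y + r * u) = (1 - r) * pos w y + r * pos w (y + u) := by
    rw [pos, pos, pos, show Int.fract (y + r * u) = (1 - r) * Int.fract y + r * Int.fract (y + u) by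
      linear_combination f3 - (1 - r) * f1 - r * f2]
    ring
  obtain ⟨t1, t2⟩ := depth_pos hy
  obtain ⟨t3, t4⟩ := depth_pos he0
  have b4 : (1 - r) * dep w y + r * dep w (y + u) ≤ dep w (y + r * u) := by
    unfold dep
    refine le_max_of_le_left (le_min ?_ ?_) <;> rw [b3]
    · linarith [mul_le_mul_of_nonneg_left t1 (sub_nonneg.2 hr1), mul_le_mul_of_nonneg_left t3 hr0]
    · linarith [mul_le_mul_of_nonneg_left t2 (sub_nonneg.2 hr1), mul_le_mul_of_nonneg_left t4 hr0]
  have b5 : dep w y ≤ w.om := depth_le H _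
  have b6 : dep w y / 2 ≤ dep w (y + r * u) := by
    nlinarith [mul_le_mul_of_nonneg_left he hr0, mul_le_mul_of_nonneg_left b5 hr0,
      mul_nonneg (sub_nonneg.2 hr1) hy.le]
  have b7 : r * w.om / 2 ≤ dep w (y + r * u) := by
    linarith [mul_le_mul_of_nonneg_left he hr0, mul_nonneg (sub_nonneg.2 hr1) hy.le]
  have h1 := hh_pos H
  have b8 : dpr w y / 2 ≤ dpr w (y + r * u) := by
    rw [dpr, dpr, slope, slope, ← dep, ← dep, mul_div_assoc]
    refine mul_le_mul_of_nonneg_left (le_min ?_ (by linarith [min_le_right (dep w y / w.et) 1])) h1.le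
    refine (div_le_div_of_nonneg_right (min_le_left _ _) zero_le_two).trans ?_
    rw [div_right_comm]
    exact div_le_div_of_nonneg_right b6 p2.le
  have b9 : 1 / (2 * w.om) * min (r * w.om / (2 * w.et)) 1 ≤ dpr w (y + r * u) := by
    rw [dpr, slope, ← dep, ← div_div]
    exact mul_le_mul (by rw [div_div]; exact hh_ge H)
      (min_le_min_right _ (by rw [← div_div]; exact div_le_div_of_nonneg_right b7 p2.le))
      (le_min (by positivity) zero_le_one) h1.le
  have c0 := (pq_bd H (y + r * u)).1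
  have c1 := mul_le_mul b6 b8 (div_nonneg (slope_nonneg H _) zero_le_two) (depth_nonneg _)
  have c2 := mul_le_mul b7 b9 (mul_nonneg (by positivity) (le_min (by positivity) zero_le_one))
    (depth_nonneg _)
  refine ⟨b2, by linarith [(pq_bd H y).2], le_trans (le_of_eq ?_)
    ((div_le_div_of_nonneg_right c2 zero_le_four).trans c0)⟩
  field_simp
  ring

end Win

open Win in
theorem win_proof : WinStmt := by
  intro w H
  have he : ∀ y (n : ℤ), dep w (y + n) = dep w y := fun y n => by rw [dep, dep, pos_per]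
  have hp : ∀ y (n : ℤ), pr w (y + n) = pr w y := fun y n => by rw [pr, pr, pos_per]
  have hd' : ∀ y (n : ℤ), dpr w (y + n) = dpr w y := fun y n => by rw [dpr, dpr, pos_per]
  have hq : ∀ y (n : ℤ), pq w (y + n) = pq w y := fun y n => by rw [pq, pq, hp]
  refine ⟨hh_ge H, hh_le H, hd H, ramp_zero H, ramp_one H, ramp_lin H, ramp_symm H, ramp_mono H,
    slope_cont, fun y => ?_, fun y => ?_, fun y => depth_nonneg _, fun y => depth_le H _,
    fun y => (pq_bd H y).1, fun y => (pq_bd H y).2, pq_nonneg H, pq_le,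
    fun y => slope_nonneg H _, dpr_le H, fun y => (pq_bd H y).2.trans ?_, fun y => (psi_bd H y).1,
    fun y => (psi_bd H y).2, psi_sq_le H, kp2_mul H, kp2_nonneg H, kp2_le H, hp, he, hd', hq,
    fun y n => by rw [psi, psi, he, hd'], fun y n => by rw [kp2, kp2, hd', hq], pr_meas, dep_meas,
    dpr_meas, pq_meas, psi_meas, kp2_meas, dep_supp, fun y h => ?_, fun y h => ?_, int_dpr H,
    int_win H, int_psi H, Fi_ge H, Fi_le H, zmean_id H, path H⟩
  · exact (ramp_zero H _ (min_le_right _ 0)).ge.trans (ramp_mono H (min_le_left _ 0))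
  · exact (ramp_mono H (le_max_left _ _)).trans (ramp_one H _ (le_max_right _ _)).le
  · exact mul_le_of_le_one_left (slope_nonneg H _) ((depth_le H _).trans (by linarith [H.2.1]))
  · have := not_le.1 fun h' => h (ramp_zero H _ h')
    unfold pos at this
    linarith
  · have := not_le.1 fun h' => h (ramp_one H _ h')
    unfold pos at this
    linarith

end Vale.Agent.P318.C
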