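import Vale.Agent.P318.B.PatBasic
import Vale.Agent.P318.B.Proj
import Vale.Agent.P318.C.Conc
import Vale.Agent.P318.C.Core
import Vale.Agent.P318.C.Dec
import Vale.Agent.P318.C.Deriv
import Vale.Agent.P318.C.Fibre
import Vale.Agent.P318.C.Fourier
import Vale.Agent.P318.C.G1
import Vale.Agent.P318.C.G2
import Vale.Agent.P318.C.Gauss
import Vale.Agent.P318.C.Geo
import Vale.Agent.P318.C.InstC
import Vale.Agent.P318.C.IsoC
import Vale.Agent.P318.C.Law
import Vale.Agent.P318.C.Lev
import Vale.Agent.P318.C.Line
import Vale.Agent.P318.C.Mean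
import Vale.Agent.P318.C.MetricC
import Vale.Agent.P318.C.Model
import Vale.Agent.P318.C.Near
import Vale.Agent.P318.C.Poin2
import Vale.Agent.P318.C.Poincare
import Vale.Agent.P318.C.RP
import Vale.Agent.P318.C.Small
import Vale.Agent.P318.C.Sum
import Vale.Agent.P318.C.TV
import Vale.Agent.P318.C.Typ
import Vale.Agent.P318.C.Win

/-! Assembly of track C, first half. -/

namespace Vale.Agent.P318.C

theorem near_all : NearStmt :=
  near_proof win_proof gauss_proof (deriv_proof win_proof) (small_proof win_proof hoef_proof)

theorem final_of (hB : BlockStmt) (hPr : ProfStmt) (hE : ExistCStmt) : FinalCStmt := by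
  have hW := win_proof
  have hD := deriv_proof hW
  have hF := fourier_proof hW
  have hTV := tv_proof hW gauss_proof hD
  have hP := poin2_proof hW hD hF hTV (noised_proof hW hD hF) fibre_proof
  have hI := isoC_proof hW hB hP
  have hL := law_proof hW
  have hC := conc_proof hW hL
  have hG := geoC_proof B.proj_proof lev_proof (dec_proof lev_proof B.pat_proof)
    (rp_proof lev_proof) (mean_proof hW hL hC B.proj_proof)
    (typC_proof hW hL hC B.pat_proof B.proj_proof)
    (g1_proof lev_proof core_proof B.pat_proof B.proj_proof)
    (g2_proof lev_proof (sum_proof core_proof) B.pat_proof B.proj_proof) hPr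
    (metricC_proof hW B.proj_proof)
  exact finalC_proof (instC_proof hE hI hG (model_proof hW hD))

end Vale.Agent.P318.C
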