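import Vale.Agent.P318.C.Block0

/-! The block lemma for the linear window. -/

namespace Vale.Agent.P318.C

open Finset MeasureTheory ProbabilityTheory
open M (ind bit wt1 wt Eb Dd pt zz U01 coef cube tm Per BM ip ch fc nsq gm chi kap k0 bb A0 A1
  Dual Lat lin Inv Ksh CND blk)
open M.Block (bm_int bm_const bm_mul bm_add bm_sub bm_sq bm_abs bm_comp bm_sum bm_of_mem bm_ind
  ind_sq tm_mono tm_nonneg tm_add tm_sub tm_cmul tm_const tm_sum abs_tm_le tm_cs tm_sq_le ip_add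
  ip_smul ip_single meas_ip tm_le_sqrt tm_mul_le bm_line bm_corr chi_le bm_chi exists_shift
  meas_lin exp_small)

namespace Block

section Kashin

variable {ι κ : Type} [Fintype ι] [DecidableEq ι] [Fintype κ] {w : Wn} {Γ : AddSubgroup (κ → ℝ)}
  {s : ι → κ → ℤ} {h : (ι → ℤ) → ℝ}

theorem bm_c1 (hD : DerivStmt) (ok : w.Ok) (hU : U01 h) (s : ι → κ → ℤ)
    (t : ι → ℝ) (j : ι) : BM fun η => c1 w h j (t + lin s η) := by
  obtain ⟨a, -, b⟩ := (hD ι w h ok hU).2.1 j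
  exact bm_comp ⟨a, 1, fun y => (b y).1.trans (b y).2⟩ (meas_lin s t)

theorem inv_c1 (hD : DerivStmt) (ok : w.Ok) (hU : U01 h)
    (hd : ∀ j, Dual Γ (s j)) (hi : Inv Γ s h) (t : ι → ℝ) (j : ι) {ρ : κ → ℝ} (hρ : ρ ∈ Γ)
    (β : κ → ℝ) : c1 w h j (t + lin s (β + ρ)) = c1 w h j (t + lin s β) := by
  obtain ⟨r, a, b⟩ := exists_shift hd hi hρ
  rw [b]
  exact (((hD ι w h ok hU).2.2.2.2.1 r a _).2.1 j).1

/-- The mean first derivatives lie in the kernel of the matrix. -/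
theorem kernel (R : WinAt w) (hD : DerivStmt) (ok : w.Ok)
    (hU : U01 h) (hn : ∀ n : κ → ℤ, (fun k => (n k : ℝ)) ∈ Γ) (hd : ∀ j, Dual Γ (s j))
    (hi : Inv Γ s h) (t : ι → ℝ) (k : κ) :
    ∑ j, tm (fun η => dpr w (t j + ip (s j) η) * c1 w h j (t + lin s η)) * (s j k : ℝ) = 0 := by
  classical
  have hT := M.torus_proof
  obtain ⟨⟨mE, uE⟩, -, -, -, iv, d1, -⟩ := hD ι w h ok hU
  have bE : BM fun η => Ey w h (t + lin s η) :=
    bm_comp (bm_of_mem mE (fun y => (uE y).1) fun y => (uE y).2) (meas_lin s t)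
  have pE : Per fun η => Ey w h (t + lin s η) := fun β n => by
    obtain ⟨r, a, b⟩ := exists_shift hd hi (hn n)
    simp only [b]
    exact (iv r a _).1
  have bj : ∀ j, BM fun η => (s j k : ℝ) *
      (dpr w (t j + ip (s j) η) * c1 w h j (t + lin s η)) := fun j =>
    bm_mul (bm_const _) (bm_mul (bm_line (bm_dpr R) _ _) (bm_c1 hD ok hU s t j))
  obtain ⟨Φ, hΦ⟩ : ∃ Φ : (κ → ℝ) → ℝ, Φ = fun η => ∑ j, (s j k : ℝ) *
    (dpr w (t j + ip (s j) η) * c1 w h j (t + lin s η)) := ⟨_, rfl⟩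
  have bΦ : BM Φ := hΦ ▸ bm_sum _ fun j _ => bj j
  have pΦ : Per Φ := fun β n => by
    rw [hΦ]
    refine sum_congr rfl fun j _ => ?_
    obtain ⟨m, hm⟩ := hd j _ (hn n)
    rw [inv_c1 hD ok hU hd hi t j (hn n), ip_add, hm, ← add_assoc, R.dpr_per]
  have e : ∀ η, Ey w h (t + lin s (η + Pi.single k 1)) - Ey w h (t + lin s η) =
      ∫ r in (0 : ℝ)..1, Φ (η + r • Pi.single k 1) := fun η => by
    have a : t + lin s (η + Pi.single k 1) = t + lin s η + fun j => (s j k : ℝ) :=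
      funext fun j => by simp only [Pi.add_apply, lin, ip_add, ip_single, mul_one, add_assoc]
    rw [a, d1, hΦ]
    refine intervalIntegral.integral_congr fun r _ => sum_congr rfl fun j _ => ?_
    have b : t + lin s (η + r • Pi.single k 1) = t + lin s η + r • fun j => (s j k : ℝ) :=
      funext fun j => by
        simp only [Pi.add_apply, lin, ip_add, ip_smul, ip_single, mul_one, add_assoc,
          Pi.smul_apply, smul_eq_mul]
    rw [b]
    simp only [Pi.add_apply, lin, ip_add, ip_smul, ip_single, mul_one, add_assoc, mul_assoc]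
  have z : tm (fun η => ∫ r in (0 : ℝ)..1, Φ (η + r • Pi.single k 1)) = 0 := by
    simp only [← e]
    have m : Measurable fun η : κ → ℝ => η + Pi.single k 1 := measurable_id.add_const _
    rw [tm_sub (bm_comp bE m) bE, (hT κ).1 _ pE bE, sub_self]
  have fin : IsFiniteMeasure (volume.restrict (Set.uIoc (0 : ℝ) 1)) := by
    rw [Set.uIoc_of_le zero_le_one]; infer_instance
  have sw := intervalIntegral_integral_swap (μ := cube κ) (a := 0) (b := 1)
    (f := fun r η => Φ (η + r • Pi.single k 1))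
    (bm_int (bm_comp bΦ (g := fun p : ℝ × (κ → ℝ) => p.2 + p.1 • Pi.single k 1) (by fun_prop)) _)
  have z2 : ∫ r in (0 : ℝ)..1, tm (fun η => Φ (η + r • Pi.single k 1)) = 0 := sw.trans z
  simp only [(hT κ).1 _ pΦ bΦ, intervalIntegral.integral_const, sub_zero, one_smul] at z2
  rw [hΦ, tm_sum _ fun j _ => bj j] at z2
  rw [← z2]
  exact sum_congr rfl fun j _ => by rw [tm_cmul, mul_comm]

theorem W1_eq (R : WinAt w) (hD : DerivStmt) (ok : w.Ok) (hU : U01 h) (s : ι → κ → ℤ)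
    (t : ι → ℝ) (J : Finset ι) : tm (fun η => W1 w J h (t + lin s η)) =
      ∑ j ∈ J, tm fun η => pq w (t j + ip (s j) η) * c1 w h j (t + lin s η) ^ 2 :=
  tm_sum J fun j _ => bm_mul (bm_line (bm_pq R) _ _) (bm_sq (bm_c1 hD ok hU s t j))

theorem W1_le (hD : DerivStmt) (ok : w.Ok) (hU : U01 h) (s : ι → κ → ℤ)
    (t : ι → ℝ) (J : Finset ι) : tm (fun η => W1 w J h (t + lin s η)) ≤ 1 := by
  obtain ⟨-, -, -, wb, -⟩ := hD ι w h ok hU
  exact (tm_mono (bm_comp (wb J).1 (meas_lin s t)) (bm_const 1)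
    fun η => ((wb J).2.2.2 _).2.1).trans (tm_const 1).le

/-- The mean first derivatives are small. -/
theorem kashin (R : WinAt w) (hD : DerivStmt) (ok : w.Ok)
    (hU : U01 h) (hn : ∀ n : κ → ℤ, (fun k => (n k : ℝ)) ∈ Γ) (hd : ∀ j, Dual Γ (s j))
    (hi : Inv Γ s h) (t : ι → ℝ) {J : Finset ι} (hJ : ∀ j, j ∉ J → s j = 0) {ε : ℝ} (hε : 0 ≤ ε)
    (hK : Ksh J s (ε ^ 2))
    (H : ∀ j ∈ J, Hyp w Γ (s j) fun η => c1 w h j (t + lin s η)) :
    ∑ j ∈ J, tm (fun η => dpr w (t j + ip (s j) η) * c1 w h j (t + lin s η)) ^ 2 ≤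
      Fi w * (ε * tm fun η => Inf w J h (t + lin s η)) := by
  obtain ⟨-, cb, -, -, -⟩ := hD ι w h ok hU
  have bc := bm_c1 hD ok hU s t
  have bd : ∀ j, BM fun η => dpr w (t j + ip (s j) η) := fun j => bm_line (bm_dpr R) _ _
  have bi : ∀ j, BM fun η => inf1 w h j (t + lin s η) := fun j =>
    bm_comp (bm_of_mem (cb j).2.1 (fun y => (abs_nonneg _).trans ((cb j).2.2 y).1)
      fun y => ((cb j).2.2 y).2) (meas_lin s t)
  have a1 := hK (fun j => tm fun η => dpr w (t j + ip (s j) η) * c1 w h j (t + lin s η))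
    fun k => by
      rw [← kernel R hD ok hU hn hd hi t k]
      exact sum_subset (subset_univ J) fun j _ hj => by simp [hJ j hj]
  have a2 : ∑ j ∈ J, |tm fun η => dpr w (t j + ip (s j) η) * c1 w h j (t + lin s η)| ≤
      tm fun η => Inf w J h (t + lin s η) := by
    refine le_trans (sum_le_sum fun j _ => (abs_tm_le _).trans
      (tm_mono (bm_abs (bm_mul (bd j) (bc j))) (bm_mul (bd j) (bi j)) fun η => ?_))
      (tm_sum J fun j _ => bm_mul (bd j) (bi j)).ge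
    rw [abs_mul, abs_of_nonneg (R.dpr_nonneg _)]
    exact mul_le_mul_of_nonneg_left ((cb j).2.2 _).1 (R.dpr_nonneg _)
  have F1 := R.Fi_ge
  have a3 : ∑ j ∈ J, tm (fun η => dpr w (t j + ip (s j) η) * c1 w h j (t + lin s η)) ^ 2 ≤
      Fi w ^ 2 := by
    refine (sum_le_sum fun j hj => (H j hj).cs_dpr (t j)).trans ?_
    rw [← mul_sum, ← W1_eq R hD ok hU]
    nlinarith [W1_le hD ok hU s t J]
  have a0 : 0 ≤ ∑ j ∈ J, |tm fun η => dpr w (t j + ip (s j) η) * c1 w h j (t + lin s η)| :=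
    sum_nonneg fun _ _ => abs_nonneg _
  have a4 := a1.trans (mul_le_mul_of_nonneg_left (pow_le_pow_left₀ a0 a2 2) (sq_nonneg ε))
  refine (abs_le_of_sq_le_sq' ?_ (mul_nonneg (by linarith) (mul_nonneg hε (a0.trans a2)))).2
  rw [sq, mul_pow, mul_pow]
  exact mul_le_mul a3 a4 (sum_nonneg fun _ _ => sq_nonneg _) (sq_nonneg _)

end Kashin

/-! ### Parameters -/

theorem params {c0 : ℝ} (hc : 0 < c0) : ∃ r0 : ℝ, 0 < r0 ∧ r0 ≤ 1 / 10 ∧
    ∀ r V : ℝ, 0 < r → r ≤ r0 → 1 / r ≤ V → V ≤ 2 / r →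
      bb V r ≤ 1 ∧ r ^ 2 / 3 ≤ A0 V r ∧ 0 ≤ A1 V r ∧
      (4 * Real.pi * r ^ 16 + 8 * Real.pi * Real.sqrt (2 * r ^ 16)) * A1 V r ≤ A0 V r / 8 ∧
      (2 * Real.exp (-(2 * Real.pi ^ 2 * c0 / r ^ 2)) + 3 * Real.exp (-(1 / (8 * r ^ 2)))) /
        r ^ 16 ≤ A0 V r / 8 := by
  have pi3 := Real.pi_gt_three
  have pi4 := Real.pi_lt_four
  obtain ⟨K, hK⟩ : ∃ K : ℝ, K = 2 * (3628800 / (2 * Real.pi ^ 2 * c0) ^ 10) +
    3 * (3628800 / (1 / 8) ^ 10) := ⟨_, rfl⟩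
  have K0 : 0 < K := by rw [hK]; positivity
  refine ⟨min (1 / 10) (1 / (24 * K)), by positivity, min_le_left _ _,
    fun r V r0 r1 V1 V2 => ?_⟩
  have ra : r ≤ 1 / 10 := r1.trans (min_le_left _ _)
  have rb : r * (24 * K) ≤ 1 := (le_div_iff₀ (by positivity)).1 (r1.trans (min_le_right _ _))
  have r2 : r ^ 2 ≤ 1 / 100 := by nlinarith
  have r4 : r ^ 4 ≤ 1 / 10000 := by nlinarith [sq_nonneg r, sq_nonneg (r ^ 2)]
  have p4 : 0 < r ^ 4 := by positivity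
  have V0 : 0 < V := lt_of_lt_of_le (by positivity) V1
  have p9 : 9 ≤ Real.pi ^ 2 := by nlinarith
  have p16 : Real.pi ^ 2 ≤ 16 := by nlinarith
  have i1 : 100 ≤ 1 / r ^ 2 := by rw [le_div_iff₀ (by positivity)]; linarith
  have i2 : 1 / V ^ 2 ≤ 1 / r ^ 2 := by
    have : r ≤ V := by
      refine le_trans ?_ V1
      rw [le_div_iff₀ r0]; nlinarith
    gcongr
  have i3 : 0 < 1 / V ^ 2 := by positivity
  have b1 : bb V r ≤ 1 := by
    unfold bb
    rw [div_le_one (by positivity)]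
    linarith
  have b2 : 9 * r ^ 2 ≤ bb V r := by
    unfold bb
    rw [le_div_iff₀ (by positivity)]
    have : r ^ 2 * (1 / r ^ 2) = 1 := by field_simp
    nlinarith [mul_le_mul_of_nonneg_left i2 (sq_nonneg r)]
  obtain ⟨-, -, k1, k2, k3, k4⟩ := M.gauss_proof.2 V r V0 r0 b1
  have k5 : r ^ 2 / 3 ≤ k0 V r := by
    unfold k0
    rw [le_div_iff₀ (by positivity), ← le_div_iff₀' (by positivity)]
    refine Real.sqrt_le_iff.2 ⟨by positivity, ?_⟩
    have v2 : V ^ 2 / r ^ 2 ≤ (2 / r) ^ 2 / r ^ 2 := by gcongr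
    rw [show (2 / r) ^ 2 / r ^ 2 = 4 * (1 / r ^ 4) by field_simp; norm_num] at v2
    rw [show (1 / (r ^ 2 / 3)) ^ 2 = 9 * (1 / r ^ 4) by field_simp; norm_num]
    have : 1 ≤ 1 / r ^ 4 := by rw [le_div_iff₀ p4]; linarith
    linarith
  refine ⟨b1, k5.trans k2, k3, ?_, ?_⟩
  · have s1 : Real.sqrt (2 * r ^ 16) ≤ 2 * r ^ 8 :=
      Real.sqrt_le_iff.2 ⟨by positivity, by nlinarith [pow_pos r0 16]⟩
    have s2 : r ^ 16 ≤ r ^ 8 := pow_le_pow_of_le_one r0.le (by linarith) (by norm_num)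
    have s3 : A1 V r ≤ 8 * k0 V r / (9 * r ^ 2) ^ 2 := k4.trans (by gcongr)
    have s4 : 4 * Real.pi * r ^ 16 + 8 * Real.pi * Real.sqrt (2 * r ^ 16) ≤ 81 * r ^ 8 := by
      have := Real.sqrt_nonneg (2 * r ^ 16)
      nlinarith [pow_pos r0 16, pow_pos r0 8]
    refine (mul_le_mul s4 s3 k3 (by positivity)).trans ?_
    rw [show 81 * r ^ 8 * (8 * k0 V r / (9 * r ^ 2) ^ 2) = 8 * r ^ 4 * k0 V r by
      field_simp; norm_num]
    nlinarith [mul_le_mul_of_nonneg_right r4 k1.le]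
  · have s1 := exp_small (c := 2 * Real.pi ^ 2 * c0) (by positivity) r0
    have s2 := exp_small (c := 1 / 8) (by norm_num) r0
    rw [show 1 / 8 / r ^ 2 = 1 / (8 * r ^ 2) by field_simp] at s2
    have s3 : 2 * Real.exp (-(2 * Real.pi ^ 2 * c0 / r ^ 2)) +
        3 * Real.exp (-(1 / (8 * r ^ 2))) ≤ K * r ^ 20 := by
      rw [hK]; linarith
    rw [div_le_iff₀ (by positivity)]
    refine s3.trans ?_
    have s4 : K * r ^ 2 ≤ 1 / 24 := by nlinarith
    calc K * r ^ 20 = K * r ^ 2 * r ^ 18 := by ring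
      _ ≤ 1 / 24 * r ^ 18 := by gcongr
      _ = r ^ 2 / 3 / 8 * r ^ 16 := by ring
      _ ≤ _ := by gcongr; exact k5.trans k2

theorem ex_unit {κ : Type} [Fintype κ] {s : κ → ℤ} (h3 : T3 s) (h : 0 < ∑ k, (s k : ℝ) ^ 2) :
    ∃ k, s k = 1 ∨ s k = -1 := by
  by_contra hn
  push Not at hn
  refine h.ne' (sum_eq_zero fun k _ => ?_)
  rcases h3 k with a | a | a
  · simp [a]
  · exact absurd a (hn k).1
  · exact absurd a (hn k).2

theorem sq_le_card {κ : Type} [Fintype κ] {s : κ → ℤ} (h3 : T3 s) :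
    ∑ k, (s k : ℝ) ^ 2 ≤ Fintype.card κ := by
  refine (sum_le_sum (g := fun _ => (1 : ℝ)) fun k _ => ?_).trans (by simp)
  rcases h3 k with a | a | a <;> simp [a]

theorem final {x1 x2 x3 D N d F C a q ε E : ℝ} (F1 : 1 ≤ F) (C0 : 0 < C) (a0 : 0 < a)
    (q1 : 1 ≤ q) (e1 : ε ≤ 1) (n2 : 0 ≤ x2) (n3 : 0 ≤ ε * x3) (nE : 0 ≤ E)
    (h1 : x1 ≤ 3 * F * D + d) (h2 : d ≤ F * (ε * x3)) (h3 : a / 4 * D ≤ N)
    (h4 : N ≤ a / 8 * D + C * (F * x2 + q * ε * x3 + ε * E)) :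
    x1 ≤ (24 * C / a + 1) * F ^ 2 * x2 + (24 * C / a + 1) * F * q * ε * x3 +
      (24 * C / a + 1) * F * E := by
  have F0 : 0 ≤ F := by linarith
  have h5 : D ≤ 8 * C / a * (F * x2 + q * ε * x3 + E) := by
    refine le_of_mul_le_mul_left ?_ (by positivity : 0 < a / 8)
    rw [show ∀ X : ℝ, a / 8 * (8 * C / a * X) = C * X from fun X => by field_simp]
    nlinarith [mul_le_mul_of_nonneg_left (mul_le_of_le_one_left nE e1) C0.le]
  have h6 := mul_le_mul_of_nonneg_left h5 (by positivity : 0 ≤ 3 * F)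
  have h7 := mul_le_mul_of_nonneg_left (le_mul_of_one_le_left n3 q1) F0
  have h8 : 0 ≤ F ^ 2 * x2 := by positivity
  have h9 : 0 ≤ F * E := by positivity
  rw [show 24 * C / a = 3 * (8 * C / a) by ring]
  generalize 8 * C / a = B at *
  nlinarith

end Block

open Block in
theorem block_proof (hW : WinStmt) (hL : LineStmt) (hD : DerivStmt) (hN : NearStmt) :
    BlockStmt := by
  intro c0 hc
  obtain ⟨r0, p0, p1, hp⟩ := params hc
  refine ⟨r0 ^ 16, by positivity, fun ω C1 h0 h1 hC => ?_⟩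
  obtain ⟨r, rp, rfl⟩ : ∃ r : ℝ, 0 < r ∧ r ^ 16 = ω :=
    ⟨ω ^ (((16 : ℕ) : ℝ)⁻¹), by positivity, Real.rpow_inv_natCast_pow h0.le (by norm_num)⟩
  have rr : r ≤ r0 := le_of_pow_le_pow_left₀ (by norm_num) p0.le h1
  obtain ⟨C, C0, hC⟩ := hN (r ^ 16) (2 / r) (r ^ 2 / 3 / 8) C1 (64 / (r ^ 16) ^ 2) h0
    (by positivity) (by positivity) hC (by positivity)
  refine ⟨24 * C / (r ^ 2 / 3) + 1, le_add_of_nonneg_left (by positivity), ?_⟩
  intro w ok hw ι κ _ _ _ _ Γ J s ε l hLat hd h3 hs hJ hZ hS hK e0 e1 hl t h hU hi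
  have R := hW w ok
  have cp : (0 : ℝ) < Fintype.card κ := Nat.cast_pos.2 Fintype.card_pos
  obtain ⟨σ, σ0, hσ⟩ : ∃ σ : ℝ, 0 < σ ∧ (2 / r) ^ 2 = σ ^ 2 * Fintype.card κ :=
    ⟨2 / r / Real.sqrt (Fintype.card κ), by positivity, by
      rw [div_pow (2 / r), Real.sq_sqrt cp.le, div_mul_cancel₀ _ cp.ne']⟩
  have H : ∀ j ∈ J, Hyp w Γ (s j) fun η => c1 w h j (t + lin s η) := fun j hj =>
    ⟨R, ok.1, hLat.1, h3 j, ex_unit (h3 j) (lt_of_lt_of_le (by positivity) (hs j hj)), hd j,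
      bm_c1 hD ok hU s t j, fun ρ hρ β => inv_c1 hD ok hU hd hi t j hρ β⟩
  obtain ⟨-, cb, -, wb, -⟩ := hD ι w h ok hU
  have key : ∀ j, ∃ m lam : ℝ, |m| ≤ 1 ∧ 0 ≤ lam ∧ lam ≤ 1 ∧ (j ∈ J →
      m ^ 2 ≤ 64 / w.om ^ 2 *
        tm (fun η => pq w (t j + ip (s j) η) * c1 w h j (t + lin s η) ^ 2) ∧
      r ^ 2 / 3 / 4 * tm (fun η => pq w (t j + ip (s j) η) * (c1 w h j (t + lin s η) - m) ^ 2) ≤
        ∫ ξ, (if |ip (s j) ξ| < 1 / 2 then lam * chi r (ip (s j) ξ) else 0) *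
          tm (fun η => pq w (t j + ip (s j) η) * (c1 w h j (t + lin s η) - m) *
            psi w (t j + ip (s j) (η + ξ)) *
            (c1 w h j (t + lin s η) - c1 w h j (t + lin s (η + ξ)))) ∂gm κ σ) := fun j => by
    by_cases hj : j ∈ J
    swap
    · exact ⟨0, 0, by simp, le_rfl, zero_le_one, fun h => absurd h hj⟩
    obtain ⟨m, m1, m2, m3⟩ := (H j hj).center
      (fun η => ((cb j).2.2 _).1.trans ((cb j).2.2 _).2) (t j)
    obtain ⟨V, V0, hV⟩ : ∃ V : ℝ, 0 ≤ V ∧ V ^ 2 = σ ^ 2 * ∑ k, (s j k : ℝ) ^ 2 :=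
      ⟨Real.sqrt _, Real.sqrt_nonneg _, Real.sq_sqrt (by positivity)⟩
    have V1 : 1 / r ≤ V := by
      refine le_of_pow_le_pow_left₀ two_ne_zero V0 ?_
      have := mul_le_mul_of_nonneg_left (hs j hj) (sq_nonneg σ)
      rw [show (1 / r) ^ 2 = (2 / r) ^ 2 / 4 by ring]
      linarith
    have V2 : V ≤ 2 / r := by
      refine le_of_pow_le_pow_left₀ two_ne_zero (by positivity) ?_
      have := mul_le_mul_of_nonneg_left (sq_le_card (h3 j)) (sq_nonneg σ)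
      linarith
    obtain ⟨b1, a0, a1, k1, k2⟩ := hp r V rp rr V1 V2
    have ap : 0 < A0 V r := lt_of_lt_of_le (by positivity) a0
    have ee : 2 * Real.pi ^ 2 * c0 / r ^ 2 =
        2 * Real.pi ^ 2 * σ ^ 2 * (c0 * Fintype.card κ / 4) := by
      rw [show 2 * Real.pi ^ 2 * σ ^ 2 * (c0 * Fintype.card κ / 4) =
        2 * Real.pi ^ 2 * c0 / 4 * (σ ^ 2 * Fintype.card κ) by ring, ← hσ]
      ring
    rw [ee, ← hw] at k2
    rw [← hw] at k1
    have O := ((H j hj).sub m).one hL (t j) hLat rp (lt_of_lt_of_le (by positivity) V1) hV b1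
      ap.le a1 m2 k1 k2
    simp only [sub_sub_sub_cancel_right] at O
    refine ⟨m, r ^ 2 / 3 / A0 V r, m1, by positivity, (div_le_one ap).2 a0, fun _ => ⟨m3, ?_⟩⟩
    have O2 := mul_le_mul_of_nonneg_left O (by positivity : 0 ≤ r ^ 2 / 3 / A0 V r)
    rw [← integral_const_mul, ← mul_assoc, show r ^ 2 / 3 / A0 V r * (A0 V r / 4) =
      r ^ 2 / 3 / 4 by field_simp] at O2
    refine O2.trans (le_of_eq (integral_congr_ae (Filter.Eventually.of_forall fun ξ => ?_)))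
    simp only
    split_ifs
    · rw [← mul_assoc]
    · rw [zero_mul, mul_zero]
  choose m lam m1 l0 l1 hk using key
  have b2 := W1_eq R hD ok hU s t J
  have hB : ∑ j ∈ J, m j ^ 2 ≤ 64 / (r ^ 16) ^ 2 := by
    refine (sum_le_sum fun j hj => (hk j hj).1).trans ?_
    rw [← mul_sum, ← b2, hw]
    exact mul_le_of_le_one_right (by positivity) (W1_le hD ok hU s t J)
  have N := (abs_le.1 (hC w ok hw ι κ Γ J s t h σ ε l (fun j u => lam j * chi r u) m hLat.1 hJ hU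
    hi σ0 hσ h3 hZ hS e0 hl (fun j => (bm_chi r).1.const_mul _) (fun j u =>
      (abs_of_nonneg (mul_nonneg (l0 j) (Real.exp_pos _).le)).trans_le
        (mul_le_one₀ (l1 j) (Real.exp_pos _).le (chi_le r u))) m1 hB)).2
  have O := sum_le_sum fun j hj => (hk j hj).2
  rw [← mul_sum] at O
  have U := sum_le_sum fun j hj => (H j hj).uncenter (m j) (t j)
  rw [sum_add_distrib, ← mul_sum, ← b2] at U
  have Ks := kashin R hD ok hU hLat.1 hd hi t hJ e0 hK H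
  have n1 : 0 ≤ tm fun η => W2 w J h (t + lin s η) := tm_nonneg fun η => ((wb J).2.2.2 _).2.2.1
  have n2 : 0 ≤ ε * tm fun η => Inf w J h (t + lin s η) :=
    mul_nonneg e0 (tm_nonneg fun η => ((wb J).2.2.2 _).2.2.2)
  have n3 : 0 ≤ (J.card : ℝ) * Real.exp (-l) := by positivity
  have q1 : 1 ≤ Real.sqrt l + l * w.et := by
    have := Real.one_le_sqrt.2 hl
    have := mul_nonneg (zero_le_one.trans hl) ok.2.2.1.le
    linarith
  rw [mul_assoc ε] at N
  have Z := final R.Fi_ge C0 (by positivity) q1 e1 n1 n2 n3 U Ks O N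
  rw [mul_assoc _ (J.card : ℝ)]
  exact Z

end Vale.Agent.P318.C
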