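import Vale.Agent.P318.C.StmtI
import Vale.Agent.P318.M.Block
import Vale.Agent.P318.M.Torus
import Vale.Agent.P318.M.Gauss

/-! The block lemma for the linear window: the estimate for one coordinate. -/

namespace Vale.Agent.P318.C.Block

open Finset MeasureTheory ProbabilityTheory
open M (ind bit wt1 wt Eb Dd pt zz U01 coef cube tm Per BM ip ch fc nsq gm chi kap k0 bb A0 A1
  Dual Lat lin Inv Ksh CND blk)
open M.Block (bm_int bm_const bm_mul bm_add bm_sub bm_sq bm_abs bm_comp bm_sum bm_of_mem bm_ind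
  ind_sq tm_mono tm_nonneg tm_add tm_sub tm_cmul tm_const tm_sum abs_tm_le tm_cs tm_sq_le ip_add
  ip_smul ip_single meas_ip tm_le_sqrt tm_mul_le bm_line bm_corr chi_le bm_chi)

variable {κ : Type} [Fintype κ]

/-- A function of `ip s` has Fourier coefficients on the line only. -/
theorem fc_line {s : κ → ℤ} {k1 : κ} (hs : s k1 = 1 ∨ s k1 = -1) {φ : ℝ → ℝ}
    (hP : Per fun β => φ (ip s β)) (hB : BM fun β => φ (ip s β)) {m : κ → ℤ}
    (hm : ¬ ∃ i : ℤ, m = i • s) : fc (fun β => φ (ip s β)) m = 0 := by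
  classical
  have sq : s k1 * s k1 = 1 := by rcases hs with h | h <;> simp [h]
  obtain ⟨k, hk⟩ : ∃ k, m k - m k1 * s k1 * s k ≠ 0 := by
    by_contra hn
    push Not at hn
    refine hm ⟨m k1 * s k1, funext fun k => ?_⟩
    rw [Pi.smul_apply, smul_eq_mul]
    linear_combination hn k
  have hk' : ((m k - m k1 * s k1 * s k : ℤ) : ℝ) ≠ 0 := Int.cast_ne_zero.2 hk
  obtain ⟨τ, hτ⟩ : ∃ τ : ℝ, τ * ((m k - m k1 * s k1 * s k : ℤ) : ℝ) = 1 / 2 :=
    ⟨1 / 2 / _, div_mul_cancel₀ _ hk'⟩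
  have sq' : (s k1 : ℝ) * s k1 = 1 := by exact_mod_cast sq
  refine (M.torus_proof κ).2.2.2.1 _ hP hB
    (Pi.single k τ + Pi.single k1 (-(τ * s k * s k1))) m (fun β => ?_) ?_
  · simp only [ip_add, ip_single]
    congr 1
    linear_combination (-(τ * s k)) * sq'
  · rintro ⟨n, hn⟩
    rw [ip_add, ip_single, ip_single] at hn
    have : (2 * n : ℝ) = 1 := by
      push_cast at hτ
      linear_combination 2 * hτ - 2 * hn
    have h2 : 2 * n = 1 := by exact_mod_cast this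
    omega

/-- Dual vectors off the line are far from the real line. -/
theorem far_line {Γ : AddSubgroup (κ → ℝ)} {sh : ℝ} (hL : Lat Γ sh) {s m : κ → ℤ} (hs : T3 s)
    (hd : Dual Γ s) (hm : Dual Γ m) (hn : ¬ ∃ i : ℤ, m = i • s) (η : ℝ) :
    sh / 4 ≤ ∑ k, ((m k : ℝ) + η * s k) ^ 2 := by
  have d : Dual Γ (m + round η • s) := fun ρ hρ => by
    obtain ⟨a, ha⟩ := hm ρ hρ
    obtain ⟨b, hb⟩ := hd ρ hρ
    refine ⟨a + round η * b, ?_⟩
    push_cast
    rw [← ha, ← hb]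
    simp only [ip, Pi.add_apply, Pi.smul_apply, smul_eq_mul, mul_sum, ← sum_add_distrib]
    exact sum_congr rfl fun k _ => by push_cast; ring
  rcases hL.2 _ d with h | h
  · exact absurd ⟨-round η, by rw [neg_smul]; exact eq_neg_of_add_eq_zero_left h⟩ hn
  · refine (div_le_div_of_nonneg_right h (by norm_num)).trans ?_
    rw [sum_div]
    refine sum_le_sum fun k _ => ?_
    have h1 := abs_le.1 (abs_sub_round η)
    have e : (m k : ℝ) + η * s k = ((m + round η • s) k : ℤ) + (η - round η) * s k := by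
      simp only [Pi.add_apply, Pi.smul_apply, smul_eq_mul]
      push_cast; ring
    rw [e]
    generalize (m + round η • s) k = w
    have h2 : -(1 / 2) ≤ (η - round η) * s k ∧ (η - round η) * s k ≤ 1 / 2 := by
      rcases hs k with h | h | h <;> rw [h] <;> push_cast <;> constructor <;>
        linarith [h1.1, h1.2]
    generalize (η - round η) * s k = θ at h2
    rcases lt_trichotomy w 0 with h3 | h3 | h3
    · have : (w : ℝ) ≤ -1 := by exact_mod_cast Int.le_sub_one_of_lt h3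
      nlinarith [h2.1, h2.2]
    · rw [h3]; simp; positivity
    · have : (1 : ℝ) ≤ w := by exact_mod_cast h3
      nlinarith [h2.1, h2.2]

section Win

variable {w : Wn}

theorem bm_pq (R : WinAt w) : BM (pq w) := bm_of_mem R.pq_meas R.pq_nonneg R.pq_le

theorem bm_dpr (R : WinAt w) : BM (dpr w) := bm_of_mem R.dpr_meas R.dpr_nonneg R.dpr_le

theorem bm_psi (R : WinAt w) : BM (psi w) :=
  bm_of_mem R.psi_meas R.psi_nonneg fun y => (R.psi_le y).trans (R.dpr_le y)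

theorem bm_kp2 (R : WinAt w) : BM (kp2 w) := bm_of_mem R.kp2_meas R.kp2_nonneg R.kp2_le

theorem pq_supp (R : WinAt w) {y : ℝ} (h : pq w y ≠ 0) : 0 < dep w y := by
  refine (R.dep_nonneg y).lt_of_ne fun h0 => h (le_antisymm ?_ (R.pq_nonneg y))
  simpa [← h0] using R.pq_le' y

theorem psi_supp (p : 0 < w.om) {y : ℝ} (h : psi w y ≠ 0) : 0 < dep w y := by
  unfold psi at h
  split_ifs at h with h1
  · exact (half_pos p).trans_le h1
  · exact absurd rfl h

theorem bm_sqrt {α : Type} [MeasurableSpace α] {F : α → ℝ} (h : BM F) :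
    BM fun x => Real.sqrt (F x) := by
  obtain ⟨m, C, hC⟩ := h
  exact bm_of_mem (a := Real.sqrt C) m.sqrt (fun _ => Real.sqrt_nonneg _)
    fun x => Real.sqrt_le_sqrt ((le_abs_self _).trans (hC x))

end Win

/-- The data for one coordinate. -/
structure Hyp (w : Wn) (Γ : AddSubgroup (κ → ℝ)) (s : κ → ℤ) (c : (κ → ℝ) → ℝ) : Prop where
  R : WinAt w
  pos : 0 < w.om
  int : ∀ n : κ → ℤ, (fun k => (n k : ℝ)) ∈ Γ
  t3 : T3 s
  ex : ∃ k, s k = 1 ∨ s k = -1
  dual : Dual Γ s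
  bm : BM c
  inv : ∀ ρ ∈ Γ, ∀ β, c (β + ρ) = c β

variable {w : Wn} {Γ : AddSubgroup (κ → ℝ)} {s : κ → ℤ} {c : (κ → ℝ) → ℝ}

namespace Hyp

theorem sub (H : Hyp w Γ s c) (m : ℝ) : Hyp w Γ s fun η => c η - m :=
  ⟨H.R, H.pos, H.int, H.t3, H.ex, H.dual, bm_sub H.bm (bm_const m),
    fun ρ hρ β => by simp only [H.inv ρ hρ]⟩

theorem shift (H : Hyp w Γ s c) {φ : ℝ → ℝ} (h : ∀ y (n : ℤ), φ (y + n) = φ y) (t : ℝ)
    {ρ : κ → ℝ} (hρ : ρ ∈ Γ) (β : κ → ℝ) : φ (t + ip s (β + ρ)) = φ (t + ip s β) := by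
  obtain ⟨n, hn⟩ := H.dual ρ hρ
  rw [ip_add, hn, ← add_assoc, h]

theorem per (H : Hyp w Γ s c) {F : (κ → ℝ) → ℝ} (h : ∀ ρ ∈ Γ, ∀ β, F (β + ρ) = F β) : Per F :=
  fun β n => h _ (H.int n) β

theorem bm0 (H : Hyp w Γ s c) (t : ℝ) : BM fun η => pq w (t + ip s η) * c η ^ 2 :=
  bm_mul (bm_line (bm_pq H.R) s t) (bm_sq H.bm)

theorem bm1 (H : Hyp w Γ s c) (t : ℝ) : BM fun η => pq w (t + ip s η) * c η :=
  bm_mul (bm_line (bm_pq H.R) s t) H.bm

theorem bm2 (H : Hyp w Γ s c) (t : ℝ) : BM fun η => psi w (t + ip s η) * c η :=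
  bm_mul (bm_line (bm_psi H.R) s t) H.bm

theorem per0 (H : Hyp w Γ s c) (t : ℝ) : Per fun η => pq w (t + ip s η) * c η ^ 2 :=
  H.per fun ρ hρ β => by simp only [H.shift H.R.pq_per t hρ, H.inv ρ hρ]

theorem inv1 (H : Hyp w Γ s c) (t : ℝ) {ρ : κ → ℝ} (hρ : ρ ∈ Γ) (β : κ → ℝ) :
    pq w (t + ip s (β + ρ)) * c (β + ρ) = pq w (t + ip s β) * c β := by
  simp only [H.shift H.R.pq_per t hρ, H.inv ρ hρ]

theorem per2 (H : Hyp w Γ s c) (t : ℝ) : Per fun η => psi w (t + ip s η) * c η :=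
  H.per fun ρ hρ β => by simp only [H.shift H.R.psi_per t hρ, H.inv ρ hρ]

theorem w_nonneg (H : Hyp w Γ s c) (t : ℝ) : 0 ≤ tm fun η => pq w (t + ip s η) * c η ^ 2 :=
  tm_nonneg fun _ => mul_nonneg (H.R.pq_nonneg _) (sq_nonneg _)

theorem sq1 (H : Hyp w Γ s c) (t : ℝ) (η : κ → ℝ) :
    (pq w (t + ip s η) * c η) ^ 2 ≤ 1 / 4 * (pq w (t + ip s η) * c η ^ 2) := by
  have := mul_le_mul_of_nonneg_right (H.R.pq_le (t + ip s η))
    (mul_nonneg (H.R.pq_nonneg (t + ip s η)) (sq_nonneg (c η)))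
  linarith

theorem sq2 (H : Hyp w Γ s c) (t : ℝ) (η : κ → ℝ) :
    (psi w (t + ip s η) * c η) ^ 2 ≤ 16 / w.om ^ 2 * (pq w (t + ip s η) * c η ^ 2) := by
  rw [mul_pow, ← mul_assoc]
  exact mul_le_mul_of_nonneg_right (H.R.psi_sq_le _) (sq_nonneg _)

theorem marg (H : Hyp w Γ s c) {φ : ℝ → ℝ} (hB : BM φ) (h : ∀ y (n : ℤ), φ (y + n) = φ y)
    (t : ℝ) : tm (fun β => φ (t + ip s β)) = ∫ x in (0 : ℝ)..1, φ x := by
  obtain ⟨k, hk⟩ := H.ex
  exact (M.torus_proof κ).2.2.2.2 φ s k t hB h hk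

theorem psi_lo (H : Hyp w Γ s c) (t : ℝ) : 1 / 2 ≤ tm fun β => psi w (t + ip s β) := by
  rw [H.marg (bm_psi H.R) H.R.psi_per]; exact H.R.int_psi

theorem dpr_one (H : Hyp w Γ s c) (t : ℝ) : tm (fun β => dpr w (t + ip s β)) = 1 := by
  rw [H.marg (bm_dpr H.R) H.R.dpr_per]; exact H.R.int_dpr

theorem psi_hi (H : Hyp w Γ s c) (t : ℝ) : tm (fun β => psi w (t + ip s β)) ≤ 1 := by
  rw [← H.dpr_one t]
  exact tm_mono (bm_line (bm_psi H.R) s t) (bm_line (bm_dpr H.R) s t) fun β => H.R.psi_le _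

/-- Cauchy-Schwarz with the score. -/
theorem cs_dpr (H : Hyp w Γ s c) (t : ℝ) :
    tm (fun η => dpr w (t + ip s η) * c η) ^ 2 ≤
      Fi w * tm fun η => pq w (t + ip s η) * c η ^ 2 := by
  have h := tm_cs (bm_sqrt (bm_line (bm_kp2 H.R) s t))
    (bm_mul (bm_sqrt (bm_line (bm_pq H.R) s t)) H.bm)
  have e1 : (fun η => Real.sqrt (kp2 w (t + ip s η)) * (Real.sqrt (pq w (t + ip s η)) * c η)) =
      fun η => dpr w (t + ip s η) * c η := funext fun η => by
    rw [← mul_assoc, ← Real.sqrt_mul (H.R.kp2_nonneg _), H.R.kp2_mul,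
      Real.sqrt_sq (H.R.dpr_nonneg _)]
  have e2 : (fun η => Real.sqrt (kp2 w (t + ip s η)) ^ 2) = fun η => kp2 w (t + ip s η) :=
    funext fun η => Real.sq_sqrt (H.R.kp2_nonneg _)
  have e3 : (fun η => (Real.sqrt (pq w (t + ip s η)) * c η) ^ 2) =
      fun η => pq w (t + ip s η) * c η ^ 2 :=
    funext fun η => by rw [mul_pow, Real.sq_sqrt (H.R.pq_nonneg _)]
  rw [e1, e2, e3, H.marg (bm_kp2 H.R) H.R.kp2_per] at h
  exact h

/-- Centering. -/
theorem center (H : Hyp w Γ s c) (hc : ∀ η, |c η| ≤ 1) (t : ℝ) :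
    ∃ m : ℝ, |m| ≤ 1 ∧ tm (fun η => psi w (t + ip s η) * (c η - m)) = 0 ∧
      m ^ 2 ≤ 64 / w.om ^ 2 * tm fun η => pq w (t + ip s η) * c η ^ 2 := by
  have bP := bm_line (bm_psi H.R) s t
  have lo := H.psi_lo t
  have h1 : |tm fun η => psi w (t + ip s η) * c η| ≤ tm fun η => psi w (t + ip s η) :=
    (abs_tm_le _).trans (tm_mono (bm_abs (H.bm2 t)) bP fun η => by
      rw [abs_mul, abs_of_nonneg (H.R.psi_nonneg _)]
      exact mul_le_of_le_one_right (H.R.psi_nonneg _) (hc η))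
  have h2 : tm (fun η => psi w (t + ip s η) * c η) ^ 2 ≤
      16 / w.om ^ 2 * tm fun η => pq w (t + ip s η) * c η ^ 2 :=
    (tm_sq_le (H.bm2 t)).trans ((tm_mono (bm_sq (H.bm2 t)) (bm_mul (bm_const _) (H.bm0 t))
      (H.sq2 t)).trans (tm_cmul _ _).le)
  have h3 : ∀ m : ℝ, tm (fun η => psi w (t + ip s η) * (c η - m)) =
      tm (fun η => psi w (t + ip s η) * c η) - m * tm fun η => psi w (t + ip s η) := fun m => by
    rw [← tm_cmul, ← tm_sub (H.bm2 t) (bm_mul (bm_const _) bP)]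
    exact congrArg tm (funext fun η => by ring)
  simp only [h3]
  generalize tm (fun η => psi w (t + ip s η) * c η) = x at *
  generalize tm (fun η => psi w (t + ip s η)) = a at *
  have ap : 0 < a := by linarith
  refine ⟨x / a, ?_, ?_, ?_⟩
  · rw [abs_div, abs_of_pos ap]; exact (div_le_one ap).2 h1
  · rw [div_mul_cancel₀ _ ap.ne', sub_self]
  · have : (x / a) ^ 2 ≤ 4 * x ^ 2 := by
      rw [div_pow, div_le_iff₀ (by positivity)]
      nlinarith [mul_le_mul_of_nonneg_left (show 1 / 4 ≤ a ^ 2 by nlinarith) (sq_nonneg x)]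
    rw [show ∀ y : ℝ, 64 / w.om ^ 2 * y = 4 * (16 / w.om ^ 2 * y) from fun y => by ring]
    linarith

/-- From the centered function back to the function. -/
theorem uncenter (H : Hyp w Γ s c) (m t : ℝ) :
    tm (fun η => pq w (t + ip s η) * c η ^ 2) ≤
      3 * Fi w * tm (fun η => pq w (t + ip s η) * (c η - m) ^ 2) +
        tm (fun η => dpr w (t + ip s η) * c η) ^ 2 := by
  have H' := H.sub m
  have h1 := H'.cs_dpr t
  have h0 := H'.w_nonneg t
  have bD := bm_line (bm_dpr H.R) s t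
  have h2 : tm (fun η => dpr w (t + ip s η) * (c η - m)) =
      tm (fun η => dpr w (t + ip s η) * c η) - m := by
    have : tm (fun η => dpr w (t + ip s η) * (c η - m)) =
        tm (fun η => dpr w (t + ip s η) * c η) - m * tm fun η => dpr w (t + ip s η) := by
      rw [← tm_cmul, ← tm_sub (bm_mul bD H.bm) (bm_mul (bm_const _) bD)]
      exact congrArg tm (funext fun η => by ring)
    rw [this, H.dpr_one, mul_one]
  have h3 : tm (fun η => pq w (t + ip s η) * c η ^ 2) ≤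
      2 * tm (fun η => pq w (t + ip s η) * (c η - m) ^ 2) + m ^ 2 / 2 := by
    rw [← tm_cmul, ← tm_const (κ := κ) (m ^ 2 / 2),
      ← tm_add (bm_mul (bm_const _) (H'.bm0 t)) (bm_const _)]
    refine tm_mono (H.bm0 t) (bm_add (bm_mul (bm_const _) (H'.bm0 t)) (bm_const _)) fun η => ?_
    have a1 := H.R.pq_nonneg (t + ip s η)
    have a2 := mul_le_mul_of_nonneg_right (H.R.pq_le (t + ip s η)) (sq_nonneg m)
    have a3 := mul_nonneg a1 (sq_nonneg (c η - 2 * m))
    nlinarith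
  have h4 := mul_le_mul_of_nonneg_right H.R.Fi_ge h0
  rw [h2] at h1
  generalize tm (fun η => dpr w (t + ip s η) * c η) = d at *
  nlinarith [sq_nonneg (2 * d - m)]

/-- The diagonal term is large. -/
theorem main_lb (H : Hyp w Γ s c) (hL : LineStmt) {σ a W : ℝ}
    (t : ℝ) (ha : 0 < a) (hW : 0 < W) (hσ : W ^ 2 = σ ^ 2 * ∑ k, (s k : ℝ) ^ 2) (hb : bb W a ≤ 1)
    (h0 : 0 ≤ A0 W a) (h1 : 0 ≤ A1 W a) :
    (A0 W a / 2 - 4 * Real.pi * w.om * A1 W a) * tm (fun η => pq w (t + ip s η) * c η ^ 2) ≤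
      ∫ ξ, chi a (ip s ξ) * tm (fun β => pq w (t + ip s β) * c β ^ 2 *
        psi w (t + ip s (β + ξ))) ∂gm κ σ := by
  have pP : Per fun η => psi w (t + ip s η) := H.per fun ρ hρ β => H.shift H.R.psi_per t hρ β
  have bP := bm_line (bm_psi H.R) s t
  obtain ⟨k, hk⟩ := H.ex
  have L := hL κ σ a W w.om t 0 s _ _ ha hW hσ hb H.t3 H.pos.le le_rfl (H.per0 t) (H.bm0 t) pP bP
    (fun β hβ => (H.R.dep_supp _ (pq_supp H.R (left_ne_zero_of_mul hβ))).le)
    (fun β hβ => (H.R.dep_supp _ (psi_supp H.pos hβ)).le)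
    (fun m hm _ h2 => absurd (fc_line hk (φ := fun x => psi w (t + x)) pP bP hm) h2)
  have e1 : (fun β => |pq w (t + ip s β) * c β ^ 2|) = fun β => pq w (t + ip s β) * c β ^ 2 :=
    funext fun β => abs_of_nonneg (mul_nonneg (H.R.pq_nonneg _) (sq_nonneg _))
  have e2 : (fun β => |psi w (t + ip s β)|) = fun β => psi w (t + ip s β) :=
    funext fun β => abs_of_nonneg (H.R.psi_nonneg _)
  rw [e1, e2, zero_mul, zero_mul, add_zero] at L
  have w0 := H.w_nonneg t
  have a1 := mul_le_mul_of_nonneg_left (H.psi_lo t) (mul_nonneg h0 w0)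
  have a2 := mul_le_mul_of_nonneg_left (H.psi_hi t) (mul_nonneg (mul_nonneg (by
    have := H.pos; positivity : 0 ≤ 4 * Real.pi * w.om) h1) w0)
  linarith [(abs_le.1 L).1]

/-- The crossed term is small. -/
theorem tail_ub (H : Hyp w Γ s c) (hL : LineStmt) {σ a W sh : ℝ} (t : ℝ) (hLat : Lat Γ sh)
    (ha : 0 < a) (hW : 0 < W) (hσ : W ^ 2 = σ ^ 2 * ∑ k, (s k : ℝ) ^ 2) (hb : bb W a ≤ 1)
    (h1 : 0 ≤ A1 W a) (hz : tm (fun η => psi w (t + ip s η) * c η) = 0) :
    ∫ ξ, chi a (ip s ξ) * tm (fun β => pq w (t + ip s β) * c β *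
        (psi w (t + ip s (β + ξ)) * c (β + ξ))) ∂gm κ σ ≤
      (8 * Real.pi * Real.sqrt (2 * w.om) * A1 W a +
        2 * Real.exp (-(2 * Real.pi ^ 2 * σ ^ 2 * (sh / 4))) / w.om) *
        tm (fun η => pq w (t + ip s η) * c η ^ 2) := by
  have p := H.pos
  have p1 : Per fun η => pq w (t + ip s η) * c η := H.per fun ρ hρ β => H.inv1 t hρ β
  have L := hL κ σ a W w.om t (Real.exp (-(2 * Real.pi ^ 2 * σ ^ 2 * (sh / 4)))) s _ _ ha hW hσ hb
    H.t3 p.le (Real.exp_pos _).le p1 (H.bm1 t) (H.per2 t) (H.bm2 t)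
    (fun β hβ => (H.R.dep_supp _ (pq_supp H.R (left_ne_zero_of_mul hβ))).le)
    (fun β hβ => (H.R.dep_supp _ (psi_supp p (left_ne_zero_of_mul hβ))).le)
    (fun m hm h2 _ => by
      have d : Dual Γ m := fun ρ hρ => by
        by_contra hn
        exact h2 ((M.torus_proof κ).2.2.2.1 _ p1 (H.bm1 t) ρ m (H.inv1 t hρ) hn)
      exact (M.gauss_proof.1 κ σ).2.2.2.1 a _ s m ha (far_line hLat H.t3 H.dual d hm))
  obtain ⟨v, hv⟩ : ∃ v, v = Real.sqrt (tm fun η => pq w (t + ip s η) * c η ^ 2) := ⟨_, rfl⟩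
  have w0 : 0 ≤ v := hv ▸ Real.sqrt_nonneg _
  have w2 : tm (fun η => pq w (t + ip s η) * c η ^ 2) = v ^ 2 := by
    rw [hv, Real.sq_sqrt (H.w_nonneg t)]
  have q1 : tm (fun η => (pq w (t + ip s η) * c η) ^ 2) ≤ (v / 2) ^ 2 :=
    (tm_mono (bm_sq (H.bm1 t)) (bm_mul (bm_const _) (H.bm0 t)) (H.sq1 t)).trans (by
      rw [tm_cmul, w2]; exact le_of_eq (by ring))
  have q2 : tm (fun η => (psi w (t + ip s η) * c η) ^ 2) ≤ (4 / w.om * v) ^ 2 :=
    (tm_mono (bm_sq (H.bm2 t)) (bm_mul (bm_const _) (H.bm0 t)) (H.sq2 t)).trans (by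
      rw [tm_cmul, w2]; exact le_of_eq (by ring))
  have n1 := tm_le_sqrt (H.bm1 t) (by positivity) q1
  have i1 : BM fun y => ind (0 < dep w y) :=
    bm_ind (measurableSet_lt measurable_const H.R.dep_meas)
  have n2 : tm (fun η => |psi w (t + ip s η) * c η|) ≤ 4 / w.om * v * Real.sqrt (2 * w.om) := by
    refine le_trans (le_of_eq (congrArg tm (funext fun η => ?_)))
      (tm_mul_le (bm_abs (H.bm2 t)) (bm_line i1 s t) (by positivity) (Real.sqrt_nonneg _)
        (by simpa only [sq_abs] using q2) ?_)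
    · by_cases h : psi w (t + ip s η) = 0
      · simp [h]
      · simp [ind, psi_supp p h]
    · simp only [ind_sq]
      rw [H.marg i1 (fun y n => by rw [H.R.dep_per]) t, Real.sq_sqrt (by positivity)]
      exact H.R.int_win
  have m3 := mul_le_mul_of_nonneg_left
    (mul_le_mul n1 n2 (tm_nonneg fun _ => abs_nonneg _) (by positivity))
    (mul_nonneg (by positivity : 0 ≤ 4 * Real.pi * w.om) h1)
  have m4 := mul_le_mul_of_nonneg_left (mul_le_mul (Real.sqrt_le_iff.2 ⟨by positivity, q1⟩)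
    (Real.sqrt_le_iff.2 ⟨by positivity, q2⟩) (Real.sqrt_nonneg _) (by positivity))
    (Real.exp_pos (-(2 * Real.pi ^ 2 * σ ^ 2 * (sh / 4)))).le
  rw [show 4 * Real.pi * w.om * A1 W a * (v / 2 * (4 / w.om * v * Real.sqrt (2 * w.om))) =
    8 * Real.pi * Real.sqrt (2 * w.om) * A1 W a * v ^ 2 by field_simp; ring] at m3
  rw [show ∀ x : ℝ, x * (v / 2 * (4 / w.om * v)) = 2 * x / w.om * v ^ 2 from fun x => by
    field_simp; ring] at m4
  rw [hz, mul_zero, sub_zero] at L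
  rw [w2]
  linarith [(abs_le.1 L).2]

/-- The far part of the move. -/
theorem far_ub (H : Hyp w Γ s c) (t : ℝ) (ξ : κ → ℝ) :
    tm (fun η => pq w (t + ip s η) * c η * psi w (t + ip s (η + ξ)) * (c η - c (η + ξ))) ≤
      3 / w.om * tm fun η => pq w (t + ip s η) * c η ^ 2 := by
  have p := H.pos
  have m : Measurable fun η : κ → ℝ => η + ξ := measurable_id.add_const ξ
  have b0 := bm_comp (H.bm0 t) m
  refine (tm_mono (G := fun η => 2 / w.om * (pq w (t + ip s η) * c η ^ 2) +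
    1 / w.om * (pq w (t + ip s (η + ξ)) * c (η + ξ) ^ 2))
    (bm_mul (bm_mul (H.bm1 t) (bm_comp (bm_line (bm_psi H.R) s t) m))
      (bm_sub H.bm (bm_comp H.bm m)))
    (bm_add (bm_mul (bm_const _) (H.bm0 t)) (bm_mul (bm_const _) b0)) fun η => ?_).trans ?_
  · have a1 := mul_le_mul_of_nonneg_left ((H.R.psi_le (t + ip s (η + ξ))).trans (H.R.dpr_le _))
      (mul_nonneg (H.R.pq_nonneg (t + ip s η)) (sq_nonneg (c η)))
    have a2 := mul_le_mul_of_nonneg_left (H.sq1 t η) (by positivity : 0 ≤ 4 / w.om)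
    have a3 := mul_le_mul_of_nonneg_left (H.sq2 t (η + ξ)) (by positivity : 0 ≤ w.om / 16)
    generalize pq w (t + ip s η) = P at *
    generalize pq w (t + ip s (η + ξ)) = P' at *
    generalize psi w (t + ip s (η + ξ)) = Q at *
    generalize w.om = ω at *
    have a4 : 0 ≤ 4 / ω * (P * c η) ^ 2 + P * c η * (Q * c (η + ξ)) +
        ω / 16 * (Q * c (η + ξ)) ^ 2 := by
      rw [show 4 / ω * (P * c η) ^ 2 + P * c η * (Q * c (η + ξ)) + ω / 16 * (Q * c (η + ξ)) ^ 2 =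
        4 / ω * (P * c η + ω / 8 * (Q * c (η + ξ))) ^ 2 by field_simp; ring]
      positivity
    rw [show ω / 16 * (16 / ω ^ 2 * (P' * c (η + ξ) ^ 2)) = 1 / ω * (P' * c (η + ξ) ^ 2) by
      field_simp] at a3
    rw [show 2 / ω * (P * c η ^ 2) = P * c η ^ 2 * (1 / ω) + 4 / ω * (1 / 4 * (P * c η ^ 2)) by
      field_simp; ring]
    linarith
  · rw [tm_add (bm_mul (bm_const _) (H.bm0 t)) (bm_mul (bm_const _) b0), tm_cmul, tm_cmul,
      (M.torus_proof κ).1 _ (H.per0 t) (H.bm0 t) ξ]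
    exact le_of_eq (by ring)

/-- The estimate for one coordinate. -/
theorem one (H : Hyp w Γ s c) (hL : LineStmt) {σ a W sh : ℝ} (t : ℝ) (hLat : Lat Γ sh)
    (ha : 0 < a) (hW : 0 < W) (hσ : W ^ 2 = σ ^ 2 * ∑ k, (s k : ℝ) ^ 2) (hb : bb W a ≤ 1)
    (h0 : 0 ≤ A0 W a) (h1 : 0 ≤ A1 W a) (hz : tm (fun η => psi w (t + ip s η) * c η) = 0)
    (k1 : (4 * Real.pi * w.om + 8 * Real.pi * Real.sqrt (2 * w.om)) * A1 W a ≤ A0 W a / 8)
    (k2 : (2 * Real.exp (-(2 * Real.pi ^ 2 * σ ^ 2 * (sh / 4))) +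
      3 * Real.exp (-(1 / (8 * a ^ 2)))) / w.om ≤ A0 W a / 8) :
    A0 W a / 4 * tm (fun η => pq w (t + ip s η) * c η ^ 2) ≤
      ∫ ξ, (if |ip s ξ| < 1 / 2 then chi a (ip s ξ) else 0) *
        tm (fun η => pq w (t + ip s η) * c η * psi w (t + ip s (η + ξ)) *
          (c η - c (η + ξ))) ∂gm κ σ := by
  have p := H.pos
  have A := H.main_lb hL t ha hW hσ hb h0 h1
  have B := H.tail_ub hL t hLat ha hW hσ hb h1 hz
  have bc := bm_comp (bm_chi a) (meas_ip s)
  have bP := bm_line (bm_psi H.R) s t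
  have c0' := bm_corr (H.bm0 t) bP
  have c1' := bm_corr (H.bm1 t) (H.bm2 t)
  have e : ∀ ξ, tm (fun η => pq w (t + ip s η) * c η * psi w (t + ip s (η + ξ)) *
      (c η - c (η + ξ))) = tm (fun β => pq w (t + ip s β) * c β ^ 2 *
        psi w (t + ip s (β + ξ))) - tm (fun β => pq w (t + ip s β) * c β *
        (psi w (t + ip s (β + ξ)) * c (β + ξ))) := fun ξ => by
    have m : Measurable fun η : κ → ℝ => η + ξ := measurable_id.add_const ξ
    rw [← tm_sub (bm_mul (H.bm0 t) (bm_comp bP m)) (bm_mul (H.bm1 t) (bm_comp (H.bm2 t) m))]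
    exact congrArg tm (funext fun η => by ring)
  have bw : BM fun ξ => if |ip s ξ| < 1 / 2 then chi a (ip s ξ) else 0 :=
    bm_of_mem (a := 1) (Measurable.ite (measurableSet_lt (meas_ip s).abs measurable_const) bc.1
      measurable_const) (fun ξ => by split_ifs; exacts [(Real.exp_pos _).le, le_rfl])
      fun ξ => by split_ifs; exacts [chi_le _ _, zero_le_one]
  have w0 := H.w_nonneg t
  have C := integral_mono (bm_int (bm_sub (bm_mul bc c0') (bm_mul bc c1')) (gm κ σ))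
    (bm_int (bm_add (bm_mul bw (bm_sub c0' c1')) (bm_const (Real.exp (-(1 / (8 * a ^ 2))) *
      (3 / w.om * tm fun η => pq w (t + ip s η) * c η ^ 2)))) (gm κ σ)) fun ξ => by
      have f := H.far_ub t ξ
      rw [e] at f
      simp only
      split_ifs with h
      · rw [← mul_sub]
        exact le_add_of_nonneg_right (by positivity)
      · rw [← mul_sub, zero_mul, zero_add]
        have g : chi a (ip s ξ) ≤ Real.exp (-(1 / (8 * a ^ 2))) := by
          refine Real.exp_le_exp.2 ?_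
          have := pow_le_pow_left₀ (by norm_num) (not_lt.1 h) 2
          rw [sq_abs] at this
          rw [neg_div, neg_le_neg_iff, div_le_div_iff₀ (by positivity) (by positivity)]
          nlinarith [sq_nonneg a]
        exact (mul_le_mul_of_nonneg_left f (Real.exp_pos _).le).trans
          (mul_le_mul_of_nonneg_right g (by positivity))
  rw [integral_sub (bm_int (bm_mul bc c0') _) (bm_int (bm_mul bc c1') _),
    integral_add (bm_int (bm_mul bw (bm_sub c0' c1')) _) (integrable_const _), integral_const,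
    probReal_univ, one_smul] at C
  simp only [e]
  have D1 := mul_le_mul_of_nonneg_right k1 w0
  have D2 := mul_le_mul_of_nonneg_right k2 w0
  rw [add_div, show ∀ x : ℝ, 3 * x / w.om = x * (3 / w.om) from fun x => by ring] at D2
  linarith

end Hyp

end Vale.Agent.P318.C.Block
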