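import Vale.Agent.P318.C.StmtI
import Vale.Agent.P318.M.Block
import Vale.Agent.P318.M.Torus
import Vale.Agent.P318.M.Gauss

/-! The block lemma for the linear window: the estimate for one coordinate. -/

namespace Vale.Agent.P318.C.Block2

open Finset MeasureTheory ProbabilityTheory
open M (ind tm Per BM ip fc gm chi kap k0 bb A0 A1 Dual Lat lin Inv U01 Ksh torus_proof)
open M.Block (bm_int bm_const bm_mul bm_add bm_sub bm_sq bm_abs bm_comp bm_sum bm_of_mem bm_ind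
  ind_sq tm_mono tm_nonneg tm_add tm_sub tm_cmul tm_const tm_sum abs_tm_le tm_cs tm_sq_le ip_add
  ip_smul ip_single meas_ip tm_le_sqrt tm_mul_le bm_line bm_corr chi_le bm_chi)

variable {κ : Type} [Fintype κ]

theorem fc_line {s : κ → ℤ} {k0 : κ} (hs : s k0 = 1 ∨ s k0 = -1) {φ : ℝ → ℝ}
    (hP : Per fun β => φ (ip s β)) (hB : BM fun β => φ (ip s β)) {m : κ → ℤ}
    (hm : ¬ ∃ i : ℤ, m = i • s) : fc (fun β => φ (ip s β)) m = 0 := by
  classical
  have sq : s k0 * s k0 = 1 := by rcases hs with h | h <;> simp [h]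
  obtain ⟨k, hk⟩ : ∃ k, m k - m k0 * s k0 * s k ≠ 0 := by
    by_contra hn
    push Not at hn
    refine hm ⟨m k0 * s k0, funext fun k => ?_⟩
    rw [Pi.smul_apply, smul_eq_mul]
    linear_combination hn k
  have hk' : ((m k - m k0 * s k0 * s k : ℤ) : ℝ) ≠ 0 := Int.cast_ne_zero.2 hk
  obtain ⟨τ, hτ⟩ : ∃ τ : ℝ, τ * ((m k - m k0 * s k0 * s k : ℤ) : ℝ) = 1 / 2 :=
    ⟨1 / 2 / _, div_mul_cancel₀ _ hk'⟩
  have sq' : (s k0 : ℝ) * s k0 = 1 := by exact_mod_cast sq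
  refine (torus_proof κ).2.2.2.1 _ hP hB (Pi.single k τ + Pi.single k0 (-(τ * s k0 * s k))) m
    (fun β => ?_) ?_
  · simp only [ip_add, ip_single]
    congr 1
    linear_combination (-(τ * s k)) * sq'
  · rintro ⟨n, hn⟩
    rw [ip_add, ip_single, ip_single] at hn
    have : (2 * n : ℝ) = 1 := by
      push_cast at hτ
      linear_combination 2 * hτ - 2 * hn
    have h2 : 2 * n = 1 := by exact_mod_cast this
    omega

theorem far_line {Γ : AddSubgroup (κ → ℝ)} {sh : ℝ} (hL : Lat Γ sh) {s m : κ → ℤ} (hs : T3 s)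
    (hd : Dual Γ s) (hm : Dual Γ m) (hn : ¬ ∃ i : ℤ, m = i • s) (η : ℝ) :
    sh / 4 ≤ ∑ k, ((m k : ℝ) + η * s k) ^ 2 := by
  have d : Dual Γ (m + round η • s) := fun ρ hρ => by
    obtain ⟨a, ha⟩ := hm ρ hρ
    obtain ⟨b, hb⟩ := hd ρ hρ
    refine ⟨a + round η * b, ?_⟩
    push_cast
    rw [← ha, ← hb]
    simp only [ip, Pi.add_apply, Pi.smul_apply, smul_eq_mul, mul_sum, ← sum_add_distrib]
    exact sum_congr rfl fun k _ => by push_cast; ring
  rcases hL.2 _ d with h | h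
  · exact absurd ⟨-round η, by rw [neg_smul]; exact eq_neg_of_add_eq_zero_left h⟩ hn
  · refine (div_le_div_of_nonneg_right h (by norm_num)).trans ?_
    rw [sum_div]
    refine sum_le_sum fun k _ => ?_
    have h1 := abs_le.1 (abs_sub_round η)
    have e : (m k : ℝ) + η * s k = ((m + round η • s) k : ℤ) + (η - round η) * s k := by
      simp only [Pi.add_apply, Pi.smul_apply, smul_eq_mul]
      push_cast; ring
    rw [e]
    generalize (m + round η • s) k = w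
    have h2 : -(1 / 2) ≤ (η - round η) * s k ∧ (η - round η) * s k ≤ 1 / 2 := by
      rcases hs k with h | h | h <;> rw [h] <;> push_cast <;> constructor <;>
        linarith [h1.1, h1.2]
    generalize (η - round η) * s k = θ at h2
    rcases lt_trichotomy w 0 with h3 | h3 | h3
    · have : (w : ℝ) ≤ -1 := by exact_mod_cast Int.le_sub_one_of_lt h3
      nlinarith [h2.1, h2.2]
    · rw [h3]; simp; positivity
    · have : (1 : ℝ) ≤ w := by exact_mod_cast h3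
      nlinarith [h2.1, h2.2]

variable {w : Wn}

theorem bm_pq (R : WinAt w) : BM (pq w) := bm_of_mem R.pq_meas R.pq_nonneg R.pq_le

theorem bm_dpr (R : WinAt w) : BM (dpr w) := bm_of_mem R.dpr_meas R.dpr_nonneg R.dpr_le

theorem bm_psi (R : WinAt w) : BM (psi w) :=
  bm_of_mem R.psi_meas R.psi_nonneg fun y => (R.psi_le y).trans (R.dpr_le y)

theorem bm_kp2 (R : WinAt w) : BM (kp2 w) := bm_of_mem R.kp2_meas R.kp2_nonneg R.kp2_le

theorem pq_supp (R : WinAt w) {y : ℝ} (h : pq w y ≠ 0) : 0 < dep w y := by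
  refine (R.dep_nonneg y).lt_of_ne fun h0 => h (le_antisymm ?_ (R.pq_nonneg y))
  simpa [← h0] using R.pq_le' y

theorem psi_supp (hω : 0 < w.om) {y : ℝ} (h : psi w y ≠ 0) : 0 < dep w y := by
  unfold psi at h
  split_ifs at h with h1
  · linarith
  · exact absurd rfl h

/-- The data for one coordinate. -/
structure Hyp (w : Wn) (Γ : AddSubgroup (κ → ℝ)) (s : κ → ℤ) (c : (κ → ℝ) → ℝ) : Prop where
  R : WinAt w
  pos : 0 < w.om
  int : ∀ n : κ → ℤ, (fun k => (n k : ℝ)) ∈ Γ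
  t3 : T3 s
  unit : ∃ k, s k = 1 ∨ s k = -1
  dual : Dual Γ s
  bm : BM c
  inv : ∀ ρ ∈ Γ, ∀ β, c (β + ρ) = c β

variable {Γ : AddSubgroup (κ → ℝ)} {s : κ → ℤ} {c : (κ → ℝ) → ℝ}

namespace Hyp

theorem shift (H : Hyp w Γ s c) {φ : ℝ → ℝ} (h : ∀ y (n : ℤ), φ (y + n) = φ y) (t : ℝ)
    {ρ : κ → ℝ} (hρ : ρ ∈ Γ) (β : κ → ℝ) : φ (t + ip s (β + ρ)) = φ (t + ip s β) := by
  obtain ⟨n, hn⟩ := H.dual ρ hρ
  rw [ip_add, hn, ← add_assoc, h]

theorem per (H : Hyp w Γ s c) {F : (κ → ℝ) → ℝ} (h : ∀ ρ ∈ Γ, ∀ β, F (β + ρ) = F β) : Per F :=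
  fun β n => h _ (H.int n) β

theorem bm0 (H : Hyp w Γ s c) (t : ℝ) : BM fun η => pq w (t + ip s η) * c η ^ 2 :=
  bm_mul (bm_line (bm_pq H.R) s t) (bm_sq H.bm)

theorem bm1 (H : Hyp w Γ s c) (t : ℝ) : BM fun η => pq w (t + ip s η) * c η :=
  bm_mul (bm_line (bm_pq H.R) s t) H.bm

theorem bm2 (H : Hyp w Γ s c) (t : ℝ) : BM fun η => psi w (t + ip s η) * c η :=
  bm_mul (bm_line (bm_psi H.R) s t) H.bm

theorem per0 (H : Hyp w Γ s c) (t : ℝ) : Per fun η => pq w (t + ip s η) * c η ^ 2 :=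
  H.per fun ρ hρ β => by simp only [H.shift H.R.pq_per t hρ, H.inv ρ hρ]

theorem inv1 (H : Hyp w Γ s c) (t : ℝ) {ρ : κ → ℝ} (hρ : ρ ∈ Γ) (β : κ → ℝ) :
    pq w (t + ip s (β + ρ)) * c (β + ρ) = pq w (t + ip s β) * c β := by
  simp only [H.shift H.R.pq_per t hρ, H.inv ρ hρ]

theorem per2 (H : Hyp w Γ s c) (t : ℝ) : Per fun η => psi w (t + ip s η) * c η :=
  H.per fun ρ hρ β => by simp only [H.shift H.R.psi_per t hρ, H.inv ρ hρ]

theorem w_nonneg (H : Hyp w Γ s c) (t : ℝ) : 0 ≤ tm fun η => pq w (t + ip s η) * c η ^ 2 :=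
  tm_nonneg fun _ => mul_nonneg (H.R.pq_nonneg _) (sq_nonneg _)

theorem sq1 (H : Hyp w Γ s c) (t : ℝ) (η : κ → ℝ) :
    (pq w (t + ip s η) * c η) ^ 2 ≤ 1 / 4 * (pq w (t + ip s η) * c η ^ 2) := by
  have := mul_le_mul_of_nonneg_right (H.R.pq_le (t + ip s η))
    (mul_nonneg (H.R.pq_nonneg (t + ip s η)) (sq_nonneg (c η)))
  linarith

theorem sq2 (H : Hyp w Γ s c) (t : ℝ) (η : κ → ℝ) :
    (psi w (t + ip s η) * c η) ^ 2 ≤ 16 / w.om ^ 2 * (pq w (t + ip s η) * c η ^ 2) := by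
  rw [mul_pow, ← mul_assoc]
  exact mul_le_mul_of_nonneg_right (H.R.psi_sq_le _) (sq_nonneg _)

theorem marg (H : Hyp w Γ s c) {φ : ℝ → ℝ} (hB : BM φ)
    (h : ∀ y (n : ℤ), φ (y + n) = φ y) (t : ℝ) :
    tm (fun β => φ (t + ip s β)) = ∫ x in (0 : ℝ)..1, φ x := by
  obtain ⟨k, hk⟩ := H.unit
  exact (torus_proof κ).2.2.2.2 φ s k t hB h hk

theorem psi_lo (H : Hyp w Γ s c) (t : ℝ) : 1 / 2 ≤ tm fun β => psi w (t + ip s β) := by
  rw [H.marg (bm_psi H.R) H.R.psi_per]; exact H.R.int_psi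

theorem tm_dpr (H : Hyp w Γ s c) (t : ℝ) : tm (fun β => dpr w (t + ip s β)) = 1 := by
  rw [H.marg (bm_dpr H.R) H.R.dpr_per t, H.R.int_dpr]

theorem psi_hi (H : Hyp w Γ s c) (t : ℝ) : tm (fun β => psi w (t + ip s β)) ≤ 1 := by
  rw [← H.tm_dpr t]
  exact tm_mono (bm_line (bm_psi H.R) s t) (bm_line (bm_dpr H.R) s t) fun β => H.R.psi_le _

theorem fisher (H : Hyp w Γ s c) (t : ℝ) :
    tm (fun η => dpr w (t + ip s η) * c η) ^ 2 ≤
      Fi w * tm fun η => pq w (t + ip s η) * c η ^ 2 := by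
  have bs : ∀ {φ : ℝ → ℝ}, BM φ → BM fun y => Real.sqrt (φ y) := fun ⟨m, C, hC⟩ =>
    ⟨m.sqrt, Real.sqrt C, fun y => by
      rw [abs_of_nonneg (Real.sqrt_nonneg _)]
      exact Real.sqrt_le_sqrt ((le_abs_self _).trans (hC y))⟩
  have := tm_cs (bm_line (bs (bm_kp2 H.R)) s t) (bm_mul (bm_line (bs (bm_pq H.R)) s t) H.bm)
  simp only [mul_pow, Real.sq_sqrt (H.R.kp2_nonneg _), Real.sq_sqrt (H.R.pq_nonneg _),
    ← mul_assoc, ← Real.sqrt_mul (H.R.kp2_nonneg _), H.R.kp2_mul,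
    Real.sqrt_sq (H.R.dpr_nonneg _)] at this
  rwa [H.marg (bm_kp2 H.R) H.R.kp2_per t] at this

theorem main_lb (H : Hyp w Γ s c) (hL : LineStmt) {σ a W : ℝ}
    (t : ℝ) (ha : 0 < a) (hW : 0 < W) (hσ : W ^ 2 = σ ^ 2 * ∑ k, (s k : ℝ) ^ 2) (hb : bb W a ≤ 1)
    (h0 : 0 ≤ A0 W a) (h1 : 0 ≤ A1 W a) :
    (A0 W a / 2 - 4 * Real.pi * w.om * A1 W a) * tm (fun η => pq w (t + ip s η) * c η ^ 2) ≤
      ∫ ξ, chi a (ip s ξ) * tm (fun β => pq w (t + ip s β) * c β ^ 2 *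
        psi w (t + ip s (β + ξ))) ∂gm κ σ := by
  have pP : Per fun η => psi w (t + ip s η) := H.per fun ρ hρ β => H.shift H.R.psi_per t hρ β
  have bP := bm_line (bm_psi H.R) s t
  obtain ⟨k, hk⟩ := H.unit
  have L := hL κ σ a W w.om t 0 s _ _ ha hW hσ hb H.t3 H.pos.le le_rfl (H.per0 t) (H.bm0 t) pP bP
    (fun β hβ => (H.R.dep_supp _ (pq_supp H.R (left_ne_zero_of_mul hβ))).le)
    (fun β hβ => (H.R.dep_supp _ (psi_supp H.pos hβ)).le)
    (fun m hm _ h2 => absurd (fc_line hk (φ := fun x => psi w (t + x)) pP bP hm) h2)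
  have e1 : (fun β => |pq w (t + ip s β) * c β ^ 2|) = fun β => pq w (t + ip s β) * c β ^ 2 :=
    funext fun β => abs_of_nonneg (mul_nonneg (H.R.pq_nonneg _) (sq_nonneg _))
  have e2 : (fun β => |psi w (t + ip s β)|) = fun β => psi w (t + ip s β) :=
    funext fun β => abs_of_nonneg (H.R.psi_nonneg _)
  rw [e1, e2, zero_mul, zero_mul, add_zero] at L
  have w0 := H.w_nonneg t
  have a1 := mul_le_mul_of_nonneg_left (H.psi_lo t) (mul_nonneg h0 w0)
  have a2 := mul_le_mul_of_nonneg_left (H.psi_hi t) (mul_nonneg (mul_nonneg (by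
    have := H.pos; positivity : 0 ≤ 4 * Real.pi * w.om) h1) w0)
  linarith [(abs_le.1 L).1]

theorem tail_ub (H : Hyp w Γ s c) (hL : LineStmt) {σ a W sh : ℝ} (t : ℝ) (hLat : Lat Γ sh)
    (ha : 0 < a) (hW : 0 < W) (hσ : W ^ 2 = σ ^ 2 * ∑ k, (s k : ℝ) ^ 2) (hb : bb W a ≤ 1)
    (h1 : 0 ≤ A1 W a) (hz : tm (fun η => psi w (t + ip s η) * c η) = 0) :
    ∫ ξ, chi a (ip s ξ) * tm (fun β => pq w (t + ip s β) * c β *
        (psi w (t + ip s (β + ξ)) * c (β + ξ))) ∂gm κ σ ≤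
      (8 * Real.pi * Real.sqrt (2 * w.om) * A1 W a +
        2 * Real.exp (-(2 * Real.pi ^ 2 * σ ^ 2 * (sh / 4))) / w.om) *
        tm (fun η => pq w (t + ip s η) * c η ^ 2) := by
  have p := H.pos
  have p1 : Per fun η => pq w (t + ip s η) * c η := H.per fun ρ hρ β => H.inv1 t hρ β
  have L := hL κ σ a W w.om t (Real.exp (-(2 * Real.pi ^ 2 * σ ^ 2 * (sh / 4)))) s _ _ ha hW hσ
    hb H.t3 p.le (Real.exp_pos _).le p1 (H.bm1 t) (H.per2 t) (H.bm2 t)
    (fun β hβ => (H.R.dep_supp _ (pq_supp H.R (left_ne_zero_of_mul hβ))).le)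
    (fun β hβ => (H.R.dep_supp _ (psi_supp p (left_ne_zero_of_mul hβ))).le)
    (fun m hm h2 _ => by
      have d : Dual Γ m := fun ρ hρ => by
        by_contra hn
        exact h2 ((torus_proof κ).2.2.2.1 _ p1 (H.bm1 t) ρ m (H.inv1 t hρ) hn)
      exact (M.gauss_proof.1 κ σ).2.2.2.1 a _ s m ha (far_line hLat H.t3 H.dual d hm))
  obtain ⟨v, hv⟩ : ∃ v, v = Real.sqrt (tm fun η => pq w (t + ip s η) * c η ^ 2) := ⟨_, rfl⟩
  have w0 : 0 ≤ v := hv ▸ Real.sqrt_nonneg _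
  have w2 : tm (fun η => pq w (t + ip s η) * c η ^ 2) = v ^ 2 := by
    rw [hv, Real.sq_sqrt (H.w_nonneg t)]
  have q1 : tm (fun η => (pq w (t + ip s η) * c η) ^ 2) ≤ (v / 2) ^ 2 :=
    (tm_mono (bm_sq (H.bm1 t)) (bm_mul (bm_const _) (H.bm0 t)) (H.sq1 t)).trans (by
      rw [tm_cmul, w2]; exact le_of_eq (by ring))
  have q2 : tm (fun η => (psi w (t + ip s η) * c η) ^ 2) ≤ (4 / w.om * v) ^ 2 :=
    (tm_mono (bm_sq (H.bm2 t)) (bm_mul (bm_const _) (H.bm0 t)) (H.sq2 t)).trans (by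
      rw [tm_cmul, w2]; exact le_of_eq (by ring))
  have n1 := tm_le_sqrt (H.bm1 t) (by positivity) q1
  have i1 : BM fun y => ind (0 < dep w y) :=
    bm_ind (measurableSet_lt measurable_const H.R.dep_meas)
  have n2 : tm (fun η => |psi w (t + ip s η) * c η|) ≤ 4 / w.om * v * Real.sqrt (2 * w.om) := by
    refine le_trans (le_of_eq (congrArg tm (funext fun η => ?_)))
      (tm_mul_le (bm_abs (H.bm2 t)) (bm_line i1 s t) (by positivity) (Real.sqrt_nonneg _)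
        (by simpa only [sq_abs] using q2) ?_)
    · by_cases h : psi w (t + ip s η) = 0
      · simp [h]
      · simp [ind, psi_supp p h]
    · simp only [ind_sq]
      rw [H.marg i1 (fun y n => by rw [H.R.dep_per]) t, Real.sq_sqrt (by positivity)]
      exact H.R.int_win
  have m3 := mul_le_mul_of_nonneg_left
    (mul_le_mul n1 n2 (tm_nonneg fun _ => abs_nonneg _) (by positivity))
    (mul_nonneg (by positivity : 0 ≤ 4 * Real.pi * w.om) h1)
  have m4 := mul_le_mul_of_nonneg_left (mul_le_mul (Real.sqrt_le_iff.2 ⟨by positivity, q1⟩)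
    (Real.sqrt_le_iff.2 ⟨by positivity, q2⟩) (Real.sqrt_nonneg _) (by positivity))
    (Real.exp_pos (-(2 * Real.pi ^ 2 * σ ^ 2 * (sh / 4)))).le
  rw [show 4 * Real.pi * w.om * A1 W a * (v / 2 * (4 / w.om * v * Real.sqrt (2 * w.om))) =
    8 * Real.pi * Real.sqrt (2 * w.om) * A1 W a * v ^ 2 by field_simp; ring] at m3
  rw [show ∀ x : ℝ, x * (v / 2 * (4 / w.om * v)) = 2 * x / w.om * v ^ 2 from fun x => by
    field_simp; ring] at m4
  rw [w2]
  rw [hz, mul_zero, sub_zero] at L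
  linarith [(abs_le.1 L).2]

theorem far_ub (H : Hyp w Γ s c) (t : ℝ) (ξ : κ → ℝ) :
    tm (fun η => pq w (t + ip s η) * c η * psi w (t + ip s (η + ξ)) * (c η - c (η + ξ))) ≤
      3 / w.om * tm fun η => pq w (t + ip s η) * c η ^ 2 := by
  have p := H.pos
  have m : Measurable fun η : κ → ℝ => η + ξ := measurable_id.add_const ξ
  have b0 := bm_comp (H.bm0 t) m
  refine (tm_mono (G := fun η => 2 / w.om * (pq w (t + ip s η) * c η ^ 2) +
    1 / w.om * (pq w (t + ip s (η + ξ)) * c (η + ξ) ^ 2))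
    (bm_mul (bm_mul (H.bm1 t) (bm_comp (bm_line (bm_psi H.R) s t) m))
      (bm_sub H.bm (bm_comp H.bm m)))
    (bm_add (bm_mul (bm_const _) (H.bm0 t)) (bm_mul (bm_const _) b0)) fun η => ?_).trans ?_
  · have a1 := mul_le_mul_of_nonneg_left ((H.R.psi_le (t + ip s (η + ξ))).trans (H.R.dpr_le _))
      (mul_nonneg (H.R.pq_nonneg (t + ip s η)) (sq_nonneg (c η)))
    have a2 := mul_le_mul_of_nonneg_left (H.sq1 t η) (by positivity : 0 ≤ 4 / w.om)
    have a3 := mul_le_mul_of_nonneg_left (H.sq2 t (η + ξ)) (by positivity : 0 ≤ w.om / 16)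
    generalize pq w (t + ip s η) = P at *
    generalize pq w (t + ip s (η + ξ)) = P' at *
    generalize psi w (t + ip s (η + ξ)) = Q at *
    have a4 : 0 ≤ 4 / w.om * (P * c η) ^ 2 + P * c η * (Q * c (η + ξ)) +
        w.om / 16 * (Q * c (η + ξ)) ^ 2 := by
      rw [show 4 / w.om * (P * c η) ^ 2 + P * c η * (Q * c (η + ξ)) +
        w.om / 16 * (Q * c (η + ξ)) ^ 2 =
        4 / w.om * (P * c η + w.om / 8 * (Q * c (η + ξ))) ^ 2 by field_simp; ring]
      positivity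
    rw [show w.om / 16 * (16 / w.om ^ 2 * (P' * c (η + ξ) ^ 2)) =
      1 / w.om * (P' * c (η + ξ) ^ 2) by field_simp] at a3
    rw [show 2 / w.om * (P * c η ^ 2) =
      P * c η ^ 2 * (1 / w.om) + 4 / w.om * (1 / 4 * (P * c η ^ 2)) by field_simp; ring]
    linarith
  · rw [tm_add (bm_mul (bm_const _) (H.bm0 t)) (bm_mul (bm_const _) b0), tm_cmul, tm_cmul,
      (torus_proof κ).1 _ (H.per0 t) (H.bm0 t) ξ]
    exact le_of_eq (by field_simp; ring)

theorem one (H : Hyp w Γ s c) (hL : LineStmt) {σ a W sh : ℝ} (t : ℝ) (hLat : Lat Γ sh)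
    (ha : 0 < a) (hW : 0 < W) (hσ : W ^ 2 = σ ^ 2 * ∑ k, (s k : ℝ) ^ 2) (hb : bb W a ≤ 1)
    (h0 : 0 ≤ A0 W a) (h1 : 0 ≤ A1 W a) (hz : tm (fun η => psi w (t + ip s η) * c η) = 0)
    (k1 : (4 * Real.pi * w.om + 8 * Real.pi * Real.sqrt (2 * w.om)) * A1 W a ≤ A0 W a / 8)
    (k2 : (2 * Real.exp (-(2 * Real.pi ^ 2 * σ ^ 2 * (sh / 4))) +
      3 * Real.exp (-(1 / (8 * a ^ 2)))) / w.om ≤ A0 W a / 8) :
    A0 W a / 4 * tm (fun η => pq w (t + ip s η) * c η ^ 2) ≤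
      ∫ ξ, (if |ip s ξ| < 1 / 2 then chi a (ip s ξ) else 0) *
        tm (fun η => pq w (t + ip s η) * c η * psi w (t + ip s (η + ξ)) *
          (c η - c (η + ξ))) ∂gm κ σ := by
  have p := H.pos
  have A := H.main_lb hL t ha hW hσ hb h0 h1
  have B := H.tail_ub hL t hLat ha hW hσ hb h1 hz
  have bc := bm_comp (bm_chi a) (meas_ip s)
  have bP := bm_line (bm_psi H.R) s t
  have c0' := bm_corr (H.bm0 t) bP
  have c1' := bm_corr (H.bm1 t) (H.bm2 t)
  have e : ∀ ξ, tm (fun η => pq w (t + ip s η) * c η * psi w (t + ip s (η + ξ)) *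
      (c η - c (η + ξ))) = tm (fun β => pq w (t + ip s β) * c β ^ 2 *
        psi w (t + ip s (β + ξ))) - tm (fun β => pq w (t + ip s β) * c β *
        (psi w (t + ip s (β + ξ)) * c (β + ξ))) := fun ξ => by
    have m : Measurable fun η : κ → ℝ => η + ξ := measurable_id.add_const ξ
    rw [← tm_sub (bm_mul (H.bm0 t) (bm_comp bP m)) (bm_mul (H.bm1 t) (bm_comp (H.bm2 t) m))]
    exact congrArg tm (funext fun η => by ring)
  have bw : BM fun ξ => if |ip s ξ| < 1 / 2 then chi a (ip s ξ) else 0 :=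
    bm_of_mem (a := 1) (Measurable.ite (measurableSet_lt (meas_ip s).abs measurable_const) bc.1
      measurable_const) (fun ξ => by split_ifs; exacts [(Real.exp_pos _).le, le_rfl])
      fun ξ => by split_ifs; exacts [chi_le _ _, zero_le_one]
  have w0 := H.w_nonneg t
  have C := integral_mono (bm_int (bm_sub (bm_mul bc c0') (bm_mul bc c1')) (gm κ σ))
    (bm_int (bm_add (bm_mul bw (bm_sub c0' c1')) (bm_const (Real.exp (-(1 / (8 * a ^ 2))) *
      (3 / w.om * tm fun η => pq w (t + ip s η) * c η ^ 2)))) (gm κ σ)) fun ξ => by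
      have f := H.far_ub t ξ
      rw [e] at f
      simp only
      split_ifs with h
      · rw [← mul_sub]
        exact le_add_of_nonneg_right (by positivity)
      · rw [← mul_sub, zero_mul, zero_add]
        have g : chi a (ip s ξ) ≤ Real.exp (-(1 / (8 * a ^ 2))) := by
          refine Real.exp_le_exp.2 ?_
          have := pow_le_pow_left₀ (by norm_num) (not_lt.1 h) 2
          rw [sq_abs] at this
          rw [neg_div, neg_le_neg_iff, div_le_div_iff₀ (by positivity) (by positivity)]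
          nlinarith [sq_nonneg a]
        exact (mul_le_mul_of_nonneg_left f (Real.exp_pos _).le).trans
          (mul_le_mul_of_nonneg_right g (by positivity))
  rw [integral_sub (bm_int (bm_mul bc c0') _) (bm_int (bm_mul bc c1') _),
    integral_add (bm_int (bm_mul bw (bm_sub c0' c1')) _) (integrable_const _), integral_const,
    probReal_univ, one_smul] at C
  simp only [e]
  have D1 := mul_le_mul_of_nonneg_right k1 w0
  have D2 := mul_le_mul_of_nonneg_right k2 w0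
  rw [add_div, show ∀ x : ℝ, 3 * x / w.om = x * (3 / w.om) from fun x => by ring] at D2
  linarith

end Hyp

end Vale.Agent.P318.C.Block2
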