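import Vale.Agent.P318.M.Stmt

/-!
Track C: definitions for the linear window (trapezoidal derivative, ends rounded at depth `et`).
The window-free notions (`ind`, `Eb`, `Dd`, `pt`, `zz`, `tm`, `ip`, `lin`, `Inv`, `Lat`, ...) are
those of `Vale.Agent.P318.M`.  Only used inside the proof.
-/

namespace Vale.Agent.P318.C

open Finset MeasureTheory ProbabilityTheory
open M (ind bit wt1 wt Eb Dd pt zz U01 coef cube tm Per BM ip ch fc nsq gm chi kap k0 bb A0 A1
  Dual Lat lin Inv Ksh CND blk)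

noncomputable section

/-- The window: half width `om`, ends rounded at depth `et`. -/
structure Wn where
  om : ℝ
  et : ℝ

def Wn.Ok (w : Wn) : Prop := 0 < w.om ∧ w.om ≤ 1 / 8 ∧ 0 < w.et ∧ w.et ≤ w.om / 4

/-- The slope in the linear part. -/
def Wn.hh (w : Wn) : ℝ := 1 / (2 * w.om - w.et)

/-- `C^1` ramp from `0` (for `x ≤ 0`) to `1` (for `x ≥ 2 om`), linear on `[et, 2 om - et]`. -/
def ramp (w : Wn) (x : ℝ) : ℝ :=
  w.hh / (2 * w.et) * ((max x 0) ^ 2 - (max (x - w.et) 0) ^ 2 -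
    (max (x - (2 * w.om - w.et)) 0) ^ 2 + (max (x - 2 * w.om) 0) ^ 2)

/-- Distance to the nearest end of `[0, 2 om]` (zero outside). -/
def depth (w : Wn) (x : ℝ) : ℝ := max (min x (2 * w.om - x)) 0

/-- The derivative of `ramp`. -/
def slope (w : Wn) (x : ℝ) : ℝ := w.hh * min (depth w x / w.et) 1

def pos (w : Wn) (y : ℝ) : ℝ := Int.fract y - 1 / 2 + w.om

/-- Probability that the bit at offset `y` is `true`. -/
def pr (w : Wn) (y : ℝ) : ℝ := ramp w (pos w y)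

def dep (w : Wn) (y : ℝ) : ℝ := depth w (pos w y)

/-- Derivative of `pr w` (away from the integers). -/
def dpr (w : Wn) (y : ℝ) : ℝ := slope w (pos w y)

def pq (w : Wn) (y : ℝ) : ℝ := pr w y * (1 - pr w y)

/-- `dpr` restricted to the middle half of the window. -/
def psi (w : Wn) (y : ℝ) : ℝ := if w.om / 2 ≤ dep w y then dpr w y else 0

/-- Squared score. -/
def kp2 (w : Wn) (y : ℝ) : ℝ := dpr w y ^ 2 / pq w y

/-- Fisher information of the window. -/
def Fi (w : Wn) : ℝ := ∫ t in (0 : ℝ)..1, kp2 w t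

/-- Mean of `φ z` when the offset is uniform and `z = fract y - bit`. -/
def zmean (w : Wn) (φ : ℝ → ℝ) : ℝ :=
  ∫ t in (0 : ℝ)..1, ((1 - pr w t) * φ (Int.fract t) + pr w t * φ (Int.fract t - 1))

section Bits

variable {ι : Type} [Fintype ι] [DecidableEq ι]

def py (w : Wn) (y : ι → ℝ) : ι → ℝ := fun i => pr w (y i)

def Ey (w : Wn) (h : (ι → ℤ) → ℝ) (y : ι → ℝ) : ℝ := Eb (py w y) fun b => h (pt y b)

def c1 (w : Wn) (h : (ι → ℤ) → ℝ) (j : ι) (y : ι → ℝ) : ℝ :=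
  Eb (py w y) (Dd j fun b => h (pt y b))

def c2 (w : Wn) (h : (ι → ℤ) → ℝ) (j j' : ι) (y : ι → ℝ) : ℝ :=
  Eb (py w y) (Dd j' (Dd j fun b => h (pt y b)))

def inf1 (w : Wn) (h : (ι → ℤ) → ℝ) (j : ι) (y : ι → ℝ) : ℝ :=
  Eb (py w y) fun b => |Dd j (fun b' => h (pt y b')) b|

def W1 (w : Wn) (J : Finset ι) (h : (ι → ℤ) → ℝ) (y : ι → ℝ) : ℝ :=
  ∑ j ∈ J, pq w (y j) * c1 w h j y ^ 2

def W2 (w : Wn) (J : Finset ι) (h : (ι → ℤ) → ℝ) (y : ι → ℝ) : ℝ :=
  ∑ j ∈ J, ∑ j' ∈ J.erase j, pq w (y j) * pq w (y j') * c2 w h j j' y ^ 2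

/-- Total influence of the coordinates of `J`, weighted by `dpr`. -/
def Inf (w : Wn) (J : Finset ι) (h : (ι → ℤ) → ℝ) (y : ι → ℝ) : ℝ :=
  ∑ j ∈ J, dpr w (y j) * inf1 w h j y

/-- Fourier weight of `S` for the function `h` at offset `y`. -/
def fw (w : Wn) (h : (ι → ℤ) → ℝ) (S : Finset ι) (y : ι → ℝ) : ℝ :=
  (∏ i ∈ S, pq w (y i)) * coef (py w y) (fun b => h (pt y b)) S ^ 2

def Q1 (w : Wn) (ρ : ℝ) (J : Finset ι) (h : (ι → ℤ) → ℝ) (y : ι → ℝ) : ℝ :=
  ∑ S : Finset ι, if (S ∩ J).card = 1 then fw w h S y * ρ ^ (2 * (S.card - 1)) else 0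

def Q2 (w : Wn) (ρ : ℝ) (J : Finset ι) (h : (ι → ℤ) → ℝ) (y : ι → ℝ) : ℝ :=
  ∑ S : Finset ι, if (S ∩ J).card = 2 then 2 * fw w h S y * ρ ^ (2 * (S.card - 2)) else 0

/-- `f` with noise on the coordinates outside `J`. -/
def noised (w : Wn) (ρ : ℝ) (J : Finset ι) (f : (ι → ℤ) → ℝ) (y : ι → ℝ) (b : ι → Bool)
    (x : ι → ℤ) : ℝ :=
  ∑ a : ι → Bool,
    (∏ i, if i ∈ J then (if a i then (0 : ℝ) else 1)
      else ρ * (if a i = b i then 1 else 0) + (1 - ρ) * wt1 (pr w (y i)) (a i)) *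
    f fun i => if i ∈ J then x i else pt y a i

/-- Number of elements of `S` which share their block of the partition `π` with another one. -/
def coll {Vb : Type} [DecidableEq Vb] (π : ι → Vb) (S : Finset ι) : ℕ :=
  (S.filter fun i => ∃ j ∈ S, j ≠ i ∧ π j = π i).card

end Bits

section Torus

variable {κ : Type} [Fintype κ]

/-- Entries in `{0, 1, -1}`. -/
def T3 (s : κ → ℤ) : Prop := ∀ k, s k = 0 ∨ s k = 1 ∨ s k = -1

variable {ι : Type} [Fintype ι] [DecidableEq ι]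

/-- The large entries of `S^T V` (on `J`) have small `ℓ2` norm (follows from upper RIP). -/
def SplitT (J : Finset ι) (s : ι → κ → ℤ) (C1 C2 : ℝ) : Prop :=
  ∀ V : κ → ℝ, ∑ j ∈ J, (if C2 * nsq V < ip (s j) V ^ 2 then ip (s j) V ^ 2 else 0) ≤ C1 * nsq V

/-- Two different rows of `J` have many coordinates where the first vanishes and the second
does not. -/
def ZPat (J : Finset ι) (s : ι → κ → ℤ) : Prop :=
  ∀ j ∈ J, ∀ j' ∈ J, j ≠ j' →
    (Fintype.card κ : ℝ) / 16 ≤ (univ.filter fun k => s j k = 0 ∧ s j' k ≠ 0).card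

/-- The conclusion of the block lemma for one block. -/
def BlockAt (w : Wn) (L E1 E0 : ℝ) (Γ : AddSubgroup (κ → ℝ)) (J : Finset ι) (s : ι → κ → ℤ) :
    Prop :=
  ∀ (t : ι → ℝ) (h : (ι → ℤ) → ℝ), U01 h → Inv Γ s h →
    tm (fun η => W1 w J h (t + lin s η)) ≤
      L * tm (fun η => W2 w J h (t + lin s η)) + E1 * tm (fun η => Inf w J h (t + lin s η)) + E0

/-- The properties of the semimetric `dd` on the integer points which are used in the end. -/
structure MetricAt (w : Wn) (D1 D2 : ℝ) (s : ι → κ → ℤ) (c : ι → ℝ)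
    (dd : (ι → ℤ) → (ι → ℤ) → ℝ) : Prop where
  cnd : CND dd
  tri : ∀ x y z, dd x z ≤ dd x y + dd y z
  inv : ∀ x', Inv ⊤ s fun x => dd x x'
  bdd : ∃ C, ∀ x x', dd x x' ≤ C
  edge : tm (fun β => ∑ j, dpr w ((c + lin s β) j) * Eb (py w (c + lin s β)) fun b =>
    dd (pt (c + lin s β) (Function.update b j true))
      (pt (c + lin s β) (Function.update b j false))) ≤ D1
  spread : ∀ x', tm (fun β => Ey w (fun x => ind (dd x x' < D2)) (c + lin s β)) ≤ 1 / 10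

end Torus

end

end Vale.Agent.P318.C
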