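import Vale.Agent.P318.C.ParStmt

/-!
Track C, part (E): the deterministic half of the existence of the system.
-/

namespace Vale.Agent.P318.C

open Finset
open B (cd Kt Bk bk)

/-- The weights of the blocks. -/
noncomputable def wtC {n : ℕ} {A : Type} [DecidableEq A] {m : A → ℕ} (a0 : A) (Mf : A → ℕ)
    (π : (a : A) → Fin n → Fin (m a)) (l : ℝ) (J : Bk m) : ℝ :=
  if J.1 = a0 then max (n : ℝ) (l ^ (22 / 5 : ℝ) * Mf a0) else (bk π J).card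

/-- A sample with all properties gives the system. -/
def DetStmt : Prop :=
  ∀ (n : ℕ) (l C K C1 CG : ℝ) (A A' : Type) [Fintype A] [DecidableEq A] [Fintype A']
    [DecidableEq A'] (a0 : A) (m Mf cl : A → ℕ) (ph : A' → A) (sc : A' → ℕ) (Kn : ℕ) (c : ℕ → ℕ)
    (ns : A → ℕ) (LGa : A → ℝ) (e : ℕ → ℝ) (nt : ℕ) (Ω : A → Type) [∀ a, Fintype (Ω a)]
    (π : (a : A) → Fin n → Fin (m a))
    (ρ : Fin n → ((a : A) → Ω a) → (a : A) → Fin (Mf a) → ℤ)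
    (Γ : (a : A) → AddSubgroup (Fin (Mf a) → ℝ)) (τ0 : ℝ)
    (Γt : AddSubgroup (Kt (fun J : Bk m => Mf J.1) → ℝ)) (v0 : Fin (m a0))
    (x : Fin n → (a : A) → Ω a),
    Par n l C a0 m Mf cl ph sc Kn c ns LGa e nt → Parts a0 m π →
    (∀ (c : ℕ) (t : ℝ), 100 * Real.log (cd (Fin n)) ≤
        1 / l ^ (1 / 100 : ℝ) * (univ.filter fun a => cl a = c).card →
      (∀ a, cl a = c → 8 * t ≤ 1 / l ^ (1 / 100 : ℝ) * m a) → ∀ T : Finset (Fin n),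
        (T.card : ℝ) ≤ t → ∑ a ∈ univ.filter fun a => cl a = c, (coll (π a) T : ℝ) ≤
          1 / l ^ (1 / 100 : ℝ) * T.card * (univ.filter fun a => cl a = c).card) →
    Law a0 ρ Γ τ0 → Glue a0 π ρ Γ Γt →
    1 ≤ K → K ≤ C → 1 ≤ C1 → C1 ≤ C → 1 ≤ CG → CG ≤ C →
    RipS (M := fun J : Bk m => Mf J.1) (bk π) (smp π ρ x) K (l + 1) 0 →
    RipS (M := fun J : Bk m => Mf J.1) (bk π) (smp π ρ x) K (5 * Real.log l) (1 / l ^ 5) →
    (∀ J : Bk m, J.1 ≠ a0 → (∀ j ∈ bk π J,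
        (Mf J.1 : ℝ) / 4 ≤ ∑ k, (smp π ρ x J j k : ℝ) ^ 2) ∧ ZPat (bk π J) (smp π ρ x J) ∧
        RipUL (bk π J) (smp π ρ x J) (ns J.1) (C1 * Mf J.1) (Mf J.1 / 8)) →
    LowG (M := fun J : Bk m => Mf J.1) (bk π) (smp π ρ x) (1 / CG) →
    C1c (M := fun J : Bk m => Mf J.1) (bk π) (smp π ρ x) (fun J => Γ J.1) ⟨a0, v0⟩
      (wtC a0 Mf π l) (n ^ 8) (l ^ (33 / 10 : ℝ)) →
    LeaveOut (M := fun J : Bk m => Mf J.1) (bk π) (smp π ρ x) (2 / (1 / CG)) (l ^ 2) →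
    GAll (M := fun J : Bk m => Mf J.1) (bk π) (smp π ρ x) (fun J => Γ J.1) ⟨a0, v0⟩
        (wtC a0 Mf π l) l (2 * cd A) K (5 * Real.log l) (1 / CG) (2 * cd A / l ^ (22 / 5 : ℝ)) ∧
      IAll (M := fun J : Bk m => Mf J.1) (bk π) (smp π ρ x) (fun J => Γ J.1)
        (fun a' j => ⟨ph a', π (ph a') j⟩) sc Kn e Γt l (1 / 10000) C1 (Mf a0 / 10000)
        (4 * K * Mf a0) (4 * K * Mf a0 / nt)

end Vale.Agent.P318.C
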