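import Vale.Agent.P318.C.EStmt
import Vale.Agent.P318.RSparse
import Vale.Agent.P318.RHash
import Vale.Agent.P318.B.C1

/-!
Track C: the leave-out estimate holds with probability at least `9 / 10`.
-/

namespace Vale.Agent.P318.C

open Finset
open M (ind ip nsq lin)
open B (cd av Kt tc res zone Bk bk sb)
open scoped BigOperators

namespace ELeave

section Det

variable {ι B : Type} [Fintype ι] [DecidableEq ι] [Fintype B] [DecidableEq B] {M : B → ℕ}
  (s : (J : B) → ι → Fin (M J) → ℤ) (L : Finset B) (I T : Finset ι)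

/-- The left side of the linear system `Sol`. -/
noncomputable def Phi : (Kt M → ℝ) →ₗ[ℝ] (Kt M → ℝ) where
  toFun τ x := if x.1 ∈ L then τ x else ∑ i ∈ Iᶜ, (tc s i x : ℝ) * lin (tc s) τ i
  map_add' τ τ' := by
    funext x
    by_cases h : x.1 ∈ L <;> simp [h, lin, ip, mul_add, sum_add_distrib]
  map_smul' c τ := by
    funext x
    by_cases h : x.1 ∈ L
    · simp [h]
    · simp only [h, if_false, lin, ip, Pi.smul_apply, smul_eq_mul, RingHom.id_apply, mul_sum]
      exact sum_congr rfl fun _ _ => sum_congr rfl fun _ _ => by ring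

/-- The right side. -/
noncomputable def rhs (y : ι → ℝ) : Kt M → ℝ :=
  fun x => if x.1 ∈ L then 0 else ∑ j ∈ T, y j * tc s j x

lemma sol_iff (y : ι → ℝ) (τ : Kt M → ℝ) : Sol s L I T y τ ↔ Phi s L I τ = rhs s L T y := by
  constructor
  · rintro ⟨h1, h2⟩
    funext x
    by_cases h : x.1 ∈ L
    · simp [Phi, rhs, h, h1 x h]
    · simp [Phi, rhs, h, h2 x h]
  · intro h
    refine ⟨fun x hx => ?_, fun x hx => ?_⟩
    · simpa [Phi, rhs, hx] using congrFun h x
    · simpa [Phi, rhs, hx] using congrFun h x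

/-- A solution for the unit vector `l`. -/
noncomputable def sl (l : ι) : Kt M → ℝ := Classical.epsilon (Sol s L I T (Pi.single l 1))

omit [Fintype ι] [DecidableEq ι] [DecidableEq B] in
lemma en_eq (blk : B → Finset ι) (τ : Kt M → ℝ) :
    en blk τ = ∑ x : Kt M, ((blk x.1).card : ℝ) * τ x ^ 2 := by
  rw [en, Fintype.sum_sigma]
  exact sum_congr rfl fun J _ => by rw [nsq, mul_sum]; rfl

variable {s L I T} {blk : B → Finset ι} {E : ℝ}

lemma inj (hne : ∀ J, (blk J).Nonempty)
    (H : ∀ y τ, Sol s L I T y τ → en blk τ ≤ E * ∑ j ∈ T, y j ^ 2) :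
    Function.Injective (Phi s L I) := by
  rw [injective_iff_map_eq_zero]
  intro τ hτ
  have h1 := H 0 τ ((sol_iff s L I T 0 τ).2 (by rw [hτ]; funext x; simp [rhs]))
  simp only [Pi.zero_apply, ne_eq, OfNat.ofNat_ne_zero, not_false_eq_true, zero_pow,
    sum_const_zero, mul_zero, en_eq] at h1
  funext x
  have h2 := (sum_eq_zero_iff_of_nonneg fun x _ => by positivity).1
    (le_antisymm h1 (sum_nonneg fun x _ => by positivity)) x (mem_univ _)
  have h3 : (0 : ℝ) < (blk x.1).card := Nat.cast_pos.2 (hne _).card_pos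
  simpa [h3.ne'] using h2

lemma sol_comb (hi : Function.Injective (Phi s L I)) (y : ι → ℝ) :
    Sol s L I T y fun x => ∑ l ∈ T, y l * sl s L I T l x := by
  have h1 : ∀ l, Phi s L I (sl s L I T l) = rhs s L T (Pi.single l 1) := fun l => by
    obtain ⟨τ, hτ⟩ := LinearMap.injective_iff_surjective.1 hi (rhs s L T (Pi.single l 1))
    exact (sol_iff s L I T _ _).1 (Classical.epsilon_spec ⟨τ, (sol_iff s L I T _ _).2 hτ⟩)
  have e : (fun x => ∑ l ∈ T, y l * sl s L I T l x) = ∑ l ∈ T, y l • sl s L I T l := by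
    funext x
    simp [Finset.sum_apply]
  rw [sol_iff, e, map_sum]
  funext x
  simp only [map_smul, h1, Finset.sum_apply, Pi.smul_apply, smul_eq_mul, rhs]
  by_cases h : x.1 ∈ L
  · simp [h]
  · simp only [h, if_false]
    refine sum_congr rfl fun l hl => ?_
    rw [sum_eq_single l (fun j _ hj => by simp [hj]) (fun h => absurd hl h)]
    simp

lemma sol_eq (hi : Function.Injective (Phi s L I)) {y : ι → ℝ} {τ : Kt M → ℝ}
    (h : Sol s L I T y τ) : τ = fun x => ∑ l ∈ T, y l * sl s L I T l x :=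
  hi (((sol_iff s L I T _ _).1 h).trans ((sol_iff s L I T _ _).1 (sol_comb hi y)).symm)

variable (blk s L I T) in
/-- The rescaled solutions. -/
noncomputable def yv (mm : ℝ) (l : ι) (x : Kt M) : ℝ :=
  √((blk x.1).card / mm) * sl s L I T l x

variable (blk) in
/-- The rescaling factor of the rows. -/
noncomputable def fac (mm : ℝ) (J : B) : ℝ :=
  if mm ≤ (blk J).card then √(mm / (blk J).card) else 0

omit [Fintype ι] [DecidableEq ι] [Fintype B] [DecidableEq B] in
lemma fac_sq_le {mm : ℝ} (hm : 0 < mm) (J : B) : fac blk mm J ^ 2 ≤ 1 := by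
  unfold fac
  split_ifs with h
  · rw [Real.sq_sqrt (by positivity)]
    exact div_le_one_of_le₀ h (by positivity)
  · simp

lemma opLe (hne : ∀ J, (blk J).Nonempty) {mm : ℝ} (hm : 0 < mm) (hE : 0 ≤ E)
    (H : ∀ y τ, Sol s L I T y τ → en blk τ ≤ E * ∑ j ∈ T, y j ^ 2) :
    R.OpLe (yv s L I T blk mm) T √(E / mm) := by
  intro y z
  have h1 := H y _ (sol_comb (inj hne H) y)
  have e : ∑ l ∈ T, y l * ∑ x, yv s L I T blk mm l x * z x =
      ∑ x, (∑ l ∈ T, y l * yv s L I T blk mm l x) * z x := by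
    simp only [mul_sum, sum_mul]
    rw [sum_comm]
    exact sum_congr rfl fun _ _ => sum_congr rfl fun _ _ => by ring
  rw [e]
  refine (R.abs_dot_le _ _).trans (mul_le_mul_of_nonneg_right ?_ (R.nr_nonneg _))
  refine R.nr_le_of_sq_le (by positivity) ?_
  rw [mul_pow, Real.sq_sqrt (by positivity), Real.sq_sqrt (sum_nonneg fun _ _ => sq_nonneg _),
    div_mul_eq_mul_div, le_div_iff₀ hm]
  refine le_trans (le_of_eq ?_) h1
  rw [en_eq, sum_mul]
  refine sum_congr rfl fun x _ => ?_
  have e2 : ∑ l ∈ T, y l * yv s L I T blk mm l x =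
      √((blk x.1).card / mm) * ∑ l ∈ T, y l * sl s L I T l x := by
    rw [mul_sum]
    exact sum_congr rfl fun _ _ => by rw [yv]; ring
  rw [e2, mul_pow, Real.sq_sqrt (by positivity)]
  field_simp

lemma cross_eq (hi : Function.Injective (Phi s L I)) {mm : ℝ} (hm : 0 < mm) {y : ι → ℝ}
    {τ : Kt M → ℝ} (h : Sol s L I T y τ) (i : ι) :
    ∑ l ∈ T, y l * ∑ x : Kt M, fac blk mm x.1 * tc s i x * yv s L I T blk mm l x =
      ipBig blk s mm τ i := by
  have e : ∀ x : Kt M, ∑ l ∈ T, y l * (fac blk mm x.1 * tc s i x * yv s L I T blk mm l x) =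
      if mm ≤ (blk x.1).card then tc s i x * τ x else 0 := fun x => by
    rw [sol_eq hi h]
    unfold fac yv
    split_ifs with hx
    · have h3 : (0 : ℝ) < (blk x.1).card := hm.trans_le hx
      have h4 : √(mm / (blk x.1).card) * √((blk x.1).card / mm) = 1 := by
        rw [← Real.sqrt_mul (by positivity), div_mul_div_cancel₀ h3.ne', div_self hm.ne',
          Real.sqrt_one]
      rw [mul_sum]
      refine sum_congr rfl fun l _ => ?_
      linear_combination (y l * tc s i x * sl s L I T l x) * h4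
    · simp
  simp only [mul_sum]
  rw [sum_comm, sum_congr rfl fun x _ => e x, Fintype.sum_sigma, ipBig, sum_filter]
  refine sum_congr rfl fun J _ => ?_
  split_ifs with hJ
  · rfl
  · simp

end Det

section Prob

variable {ι B Ω : Type} [Fintype ι] [DecidableEq ι] [Fintype B] [DecidableEq B] {M : B → ℕ}
  [Fintype Ω] [Nonempty Ω]

/-- The failure of the estimate for given sets. -/
def Bad (blk : B → Finset ι) (s : (J : B) → ι → Fin (M J) → ℤ) (E KX : ℝ) (I I1 : Finset ι)
    (L : Finset B) : Prop :=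
  (∀ y τ, Sol s L I (I \ I1) y τ → en blk τ ≤ E * ∑ j ∈ I \ I1, y j ^ 2) ∧
    ∃ (v y : ι → ℝ) (τ : Kt M → ℝ), Sol s L I (I \ I1) y τ ∧
      KX * E * Real.sqrt (I.card / cd ι) * (∑ j ∈ I1, v j ^ 2) * ∑ j ∈ I \ I1, y j ^ 2 <
        (∑ j ∈ I1, v j * ipBig blk s (Real.sqrt (I.card * cd ι)) τ j) ^ 2

lemma pr_bad {blk : B → Finset ι} (hne : ∀ J, (blk J).Nonempty)
    (r : ι → Ω → (J : B) → Fin (M J) → ℤ)
    (hr : ∀ i, R.SG (fun ω (x : Kt M) => (r i ω x.1 x.2 : ℝ)) 2) {E KX : ℝ} (hE : 0 < E)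
    (hK : 0 ≤ KX) {I I1 : Finset ι} (hI : I.Nonempty) (h1 : I1 ⊆ I) (L : Finset B) :
    R.pr (fun w : ι → Ω => Bad blk (fun J i => r i (w i) J) E KX I I1 L) ≤
      2 * Real.exp ((9 - KX / 196) * I.card) := by
  have hc : (0 : ℝ) < I.card := Nat.cast_pos.2 hI.card_pos
  have hn : 0 < cd ι := hc.trans_le (Nat.cast_le.2 (card_le_univ I))
  set mm := Real.sqrt (I.card * cd ι) with hmm
  have hm : 0 < mm := by positivity
  have hK0 : 0 < √(E / mm) := by positivity
  have hq : 0 ≤ KX * E * Real.sqrt (I.card / cd ι) := by positivity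
  have h := R.pr_cross_freeze (ρ := fun i ω (x : Kt M) => fac blk mm x.1 * r i ω x.1 x.2)
    one_le_two (S := I1) (fun i _ v => by
      refine le_trans (le_of_eq ?_) ((hr i fun x => v x * fac blk mm x.1).trans ?_)
      · simp only [mul_assoc]
      · refine mul_le_mul_of_nonneg_left (Real.exp_le_exp.2 (sum_le_sum fun x _ => ?_)) zero_le_two
        rw [mul_pow]
        exact mul_le_of_le_one_right (sq_nonneg _) (fac_sq_le hm _))
    (fun w => yv (fun J i => r i (w i) J) L I (I \ I1) blk mm) (T := I \ I1)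
    (fun w w0 l _ => by
      have e : Sol (fun J i => r i (I1.piecewise w w0 i) J) L I (I \ I1) (Pi.single l 1) =
          Sol (fun J i => r i (w0 i) J) L I (I \ I1) (Pi.single l 1) := by
        funext τ
        unfold Sol
        congr 1
        refine forall_congr fun x => forall_congr fun _ => ?_
        congr 1
        · refine sum_congr rfl fun i hi => ?_
          simp only [tc, lin, ip,
            piecewise_eq_of_notMem _ _ _ fun h => mem_compl.1 hi (h1 h)]
        · refine sum_congr rfl fun i hi => ?_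
          simp only [tc, piecewise_eq_of_notMem _ _ _ (mem_sdiff.1 hi).2]
      funext x
      simp only [yv, sl, e])
    (Real.sqrt_nonneg (KX * E * Real.sqrt (I.card / cd ι))) hK0
  refine le_trans (R.pr_mono fun w hw => ?_) (h.trans ?_)
  · obtain ⟨H, v, y, τ, hs, hlt⟩ := hw
    refine ⟨opLe hne hm hE.le H, fun hc => hlt.not_ge ?_⟩
    have h2 := hc v y
    have e : ∑ i ∈ I1, ∑ l ∈ I \ I1, v i * y l * ∑ x : Kt M, fac blk mm x.1 * r i (w i) x.1 x.2 *
        yv (fun J i => r i (w i) J) L I (I \ I1) blk mm l x =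
        ∑ j ∈ I1, v j * ipBig blk (fun J i => r i (w i) J) mm τ j := by
      refine sum_congr rfl fun i _ => ?_
      rw [← cross_eq (inj hne H) hm hs i, mul_sum]
      exact sum_congr rfl fun l _ => mul_assoc _ _ _
    rw [e] at h2
    have h3 := pow_le_pow_left₀ (abs_nonneg _) h2 2
    rwa [sq_abs, mul_pow, mul_pow, Real.sq_sqrt hq, Real.sq_sqrt (sum_nonneg fun _ _ => sq_nonneg _),
      Real.sq_sqrt (sum_nonneg fun _ _ => sq_nonneg _)] at h3
  · have e1 : Real.sqrt (I.card / cd ι) * mm = I.card := by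
      rw [hmm, ← Real.sqrt_mul (by positivity),
        show (I.card : ℝ) / cd ι * (I.card * cd ι) = I.card ^ 2 by field_simp, Real.sqrt_sq hc.le]
    have e2 : √(KX * E * Real.sqrt (I.card / cd ι)) ^ 2 / (196 * √(E / mm) ^ 2) =
        KX / 196 * I.card := by
      rw [Real.sq_sqrt hq, Real.sq_sqrt (by positivity), div_eq_iff (by positivity)]
      field_simp
      linear_combination KX * e1
    have e3 : ((I \ I1).card : ℝ) + I1.card = I.card := by
      exact_mod_cast card_sdiff_add_card_eq_card h1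
    have e4 : (2 : ℝ) ^ I1.card ≤ Real.exp I1.card := by
      rw [← mul_one (I1.card : ℝ), Real.exp_nat_mul]
      exact pow_le_pow_left₀ zero_le_two (by linarith [Real.add_one_le_exp (1 : ℝ)]) _
    have e5 : (0 : ℝ) ≤ (I \ I1).card := Nat.cast_nonneg _
    rw [e2, mul_assoc]
    refine mul_le_mul_of_nonneg_left ((mul_le_mul_of_nonneg_right e4 (by positivity)).trans ?_)
      zero_le_two
    rw [← Real.exp_add]
    exact Real.exp_le_exp.2 (by nlinarith)

lemma pr_not {blk : B → Finset ι} (hne : ∀ J, (blk J).Nonempty)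
    (hb : ∀ I : Finset ι, (univ.filter fun J => blk J ⊆ I).card ≤ I.card)
    (r : ι → Ω → (J : B) → Fin (M J) → ℤ)
    (hr : ∀ i, R.SG (fun ω (x : Kt M) => (r i ω x.1 x.2 : ℝ)) 2) {E KX : ℝ} (hE : 0 < E)
    (hK : 0 ≤ KX) :
    R.pr (fun w : ι → Ω => ¬ LeaveOut blk (fun J i => r i (w i) J) E KX) ≤
      2 * (Real.exp (cd ι * Real.exp (11 - KX / 196)) - 1) := by
  refine le_trans ?_ (mul_le_mul_of_nonneg_left (R.sum_nonempty_pow_le (Real.exp_pos _).le)
    zero_le_two)
  rw [mul_sum]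
  refine le_trans (R.pr_mono fun w hw => ?_) ((R.pr_exists_mem_le (univ.erase ∅)
    fun (I : Finset ι) (w : ι → Ω) =>
      ∃ q ∈ I.powerset ×ˢ (univ.filter fun J => blk J ⊆ I).powerset,
        Bad blk (fun J i => r i (w i) J) E KX I q.1 q.2).trans (sum_le_sum fun I hI => ?_))
  · unfold LeaveOut at hw
    push Not at hw
    obtain ⟨I, I1, L, h1, h2, H, v, y, τ, hs, hlt⟩ := hw
    refine ⟨I, mem_erase.2 ⟨?_, mem_univ _⟩, (I1, L), mem_product.2 ⟨mem_powerset.2 h1,
      mem_powerset.2 fun J hJ => mem_filter.2 ⟨mem_univ _,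
        (subset_biUnion_of_mem blk hJ).trans h2⟩⟩, H, v, y, τ, hs, hlt⟩
    rintro rfl
    rw [subset_empty.1 h1] at hlt
    simp at hlt
  · have hI' := nonempty_iff_ne_empty.2 (mem_erase.1 hI).1
    refine (R.pr_exists_mem_le_card_mul _ _ fun q hq =>
      pr_bad hne r hr hE hK hI' (mem_powerset.1 (mem_product.1 hq).1) q.2).trans ?_
    have e4 : ∀ k : ℕ, k ≤ I.card → (2 : ℝ) ^ k ≤ Real.exp I.card := fun k hk => by
      rw [← mul_one (I.card : ℝ), Real.exp_nat_mul]
      exact (pow_le_pow_right₀ one_le_two hk).trans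
        (pow_le_pow_left₀ zero_le_two (by linarith [Real.add_one_le_exp (1 : ℝ)]) _)
    rw [card_product, card_powerset, card_powerset]
    push_cast
    refine (mul_le_mul_of_nonneg_right (mul_le_mul (e4 _ le_rfl) (e4 _ (hb I)) (by positivity)
      (by positivity)) (by positivity)).trans (le_of_eq ?_)
    rw [mul_left_comm, ← Real.exp_nat_mul, ← Real.exp_add, ← Real.exp_add]
    congr 2
    ring

end Prob

section Rows

variable {ι A : Type} [Fintype ι] [DecidableEq ι] [Fintype A] [DecidableEq A] {m Mf : A → ℕ}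
  {Ω : A → Type} [∀ a, Fintype (Ω a)]

omit [Fintype ι] [DecidableEq ι] in
lemma expect_update [∀ a, Nonempty (Ω a)] (a : A) (f : ((a : A) → Ω a) → ℝ) :
    𝔼 ω, f ω = 𝔼 ω, 𝔼 t : Ω a, f (Function.update ω a t) := by
  let e : ((a : A) → Ω a) × Ω a ≃ ((a : A) → Ω a) × Ω a :=
    { toFun := fun p => (Function.update p.1 a p.2, p.1 a)
      invFun := fun p => (Function.update p.1 a p.2, p.1 a)
      left_inv := fun p => by simp
      right_inv := fun p => by simp }
  have h1 := Fintype.expect_equiv e (fun p => f (Function.update p.1 a p.2)) (fun p => f p.1)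
    fun _ => rfl
  rw [← univ_product_univ, expect_product, expect_product] at h1
  rw [h1]
  exact expect_congr rfl fun ω _ => (Fintype.expect_const (ι := Ω a) (f ω)).symm

variable {a0 : A} {ρ : ι → ((a : A) → Ω a) → (a : A) → Fin (Mf a) → ℤ}
  {Γ : (a : A) → AddSubgroup (Fin (Mf a) → ℝ)} {τ0 : ℝ}

omit [DecidableEq ι] in
lemma step (h : Law a0 ρ Γ τ0) (j : ι) (v : (a : A) → Fin (Mf a) → ℝ) {S : Finset A} {b : A}
    (h0 : a0 ∉ S) (hb : b ∉ S) :
    𝔼 ω, ∏ a ∈ insert b S, Real.exp (ip (ρ j ω a) (v a)) ≤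
      (1 + τ0) * Real.exp (nsq (v b)) * 𝔼 ω, ∏ a ∈ S, Real.exp (ip (ρ j ω a) (v a)) := by
  have := h.ne
  rw [expect_update b, mul_expect]
  refine expect_le_expect fun ω _ => ?_
  have e : ∀ t : Ω b, ∏ a ∈ insert b S, Real.exp (ip (ρ j (Function.update ω b t) a) (v a)) =
      Real.exp (ip (ρ j (Function.update ω b t) b) (v b)) *
        ∏ a ∈ S, Real.exp (ip (ρ j ω a) (v a)) := fun t => by
    rw [prod_insert hb]
    congr 1
    refine prod_congr rfl fun a ha => ?_
    rw [h.dep j _ ω a (fun e => h0 (e ▸ ha)) (Function.update_of_ne (ne_of_mem_of_not_mem ha hb) _ _)]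
  simp only [e]
  rw [← expect_mul]
  refine mul_le_mul_of_nonneg_right ?_ (prod_nonneg fun _ _ => (Real.exp_pos _).le)
  rw [Fintype.expect_eq_sum_div_card]
  exact h.sg j ω b (v b)

omit [DecidableEq ι] in
lemma expect_le (h : Law a0 ρ Γ τ0) (j : ι) (v : (a : A) → Fin (Mf a) → ℝ) :
    𝔼 ω, Real.exp (∑ a, ip (ρ j ω a) (v a)) ≤ 2 * Real.exp (∑ a, nsq (v a)) := by
  have := h.ne
  have h0 := h.tau_nonneg
  have key : ∀ S : Finset A, a0 ∉ S → 𝔼 ω, ∏ a ∈ S, Real.exp (ip (ρ j ω a) (v a)) ≤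
      ∏ a ∈ S, ((1 + τ0) * Real.exp (nsq (v a))) := fun S => by
    induction S using Finset.induction_on with
    | empty => simp
    | insert b S hb ih =>
      intro hS
      have h1 : a0 ∉ S := fun e => hS (mem_insert_of_mem e)
      rw [prod_insert hb]
      exact (step h j v h1 hb).trans (mul_le_mul_of_nonneg_left (ih h1) (by positivity))
  have h1 := (step h j v (notMem_erase a0 univ) (notMem_erase a0 univ)).trans
    (mul_le_mul_of_nonneg_left (key _ (notMem_erase a0 univ)) (by positivity))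
  rw [insert_erase (mem_univ a0), mul_prod_erase univ (fun a => (1 + τ0) * Real.exp (nsq (v a)))
    (mem_univ a0), prod_mul_distrib, prod_const, ← Real.exp_sum] at h1
  simp only [Real.exp_sum univ fun a => ip _ (v a)]
  refine h1.trans (mul_le_mul_of_nonneg_right ?_ (Real.exp_pos _).le)
  have h2 : (1 + τ0) ^ (univ : Finset A).card ≤ Real.exp (cd A * τ0) := by
    rw [card_univ, cd, Real.exp_nat_mul]
    exact pow_le_pow_left₀ (by positivity) (by linarith [Real.add_one_le_exp τ0]) _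
  have h3 : cd A * τ0 ≤ 1 / 2 := by
    have h4 := h.tau_le
    have h5 : 0 ≤ cd A := Nat.cast_nonneg _
    have h6 : 0 ≤ cd ι := Nat.cast_nonneg _
    nlinarith [mul_nonneg (mul_nonneg h0 h5) h6]
  refine h2.trans ((Real.exp_le_exp.2 h3).trans ?_)
  have h7 := Real.add_one_le_exp (-(1 / 2 : ℝ))
  have h8 := Real.exp_pos (1 / 2 : ℝ)
  rw [Real.exp_neg, le_inv_comm₀ (by norm_num) h8] at h7
  exact h7.trans (by norm_num)

omit [DecidableEq ι] in
lemma sg (h : Law a0 ρ Γ τ0) (π : (a : A) → ι → Fin (m a)) (j : ι) :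
    R.SG (fun ω (x : Kt fun J : Bk m => Mf J.1) =>
      ((if π x.1.1 j = x.1.2 then ρ j ω x.1.1 x.2 else 0 : ℤ) : ℝ)) 2 := by
  intro v
  refine le_trans (le_of_eq ?_) ((expect_le h j fun a k => v ⟨⟨a, π a j⟩, k⟩).trans ?_)
  · refine expect_congr rfl fun ω _ => ?_
    congr 1
    rw [Fintype.sum_sigma, Fintype.sum_sigma]
    refine sum_congr rfl fun a _ => ?_
    rw [sum_eq_single (π a j) (fun u _ hu => by simp [hu.symm]) (by simp)]
    simp [ip, mul_comm]
  · gcongr
    rw [Fintype.sum_sigma, Fintype.sum_sigma]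
    exact sum_le_sum fun a _ => single_le_sum
      (f := fun u : Fin (m a) => ∑ k, v ⟨⟨a, u⟩, k⟩ ^ 2)
      (fun _ _ => sum_nonneg fun _ _ => sq_nonneg _) (mem_univ (π a j))

omit [DecidableEq A] in
lemma card_sub (a0 : A) (π : (a : A) → ι → Fin (m a)) (h : ∀ J : Bk m, cd A ≤ (bk π J).card)
    (I : Finset ι) : (univ.filter fun J => bk π J ⊆ I).card ≤ I.card := by
  have hA : 0 < Fintype.card A := Fintype.card_pos_iff.2 ⟨a0⟩
  refine Nat.le_of_mul_le_mul_right ?_ hA
  have h1 : (univ.filter fun J => bk π J ⊆ I).card * Fintype.card A ≤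
      ∑ J ∈ univ.filter fun J => bk π J ⊆ I, (bk π J).card := by
    rw [← smul_eq_mul]
    exact card_nsmul_le_sum _ _ _ fun J _ => Nat.cast_le.1 (h J)
  refine h1.trans ?_
  rw [← card_sigma, ← card_univ, ← card_product]
  refine card_le_card_of_injOn (fun q => (q.2, q.1.1)) (fun q hq => ?_) fun q hq q' hq' e => ?_
  · obtain ⟨h2, h3⟩ := mem_sigma.1 (mem_coe.1 hq)
    exact mem_coe.2 (mem_product.2 ⟨(mem_filter.1 h2).2 h3, mem_univ _⟩)
  · obtain ⟨⟨a, u⟩, i⟩ := q
    obtain ⟨⟨a', u'⟩, i'⟩ := q'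
    obtain ⟨rfl, rfl⟩ := Prod.mk.inj e
    have h2 : π a i = u := (mem_filter.1 (mem_sigma.1 (mem_coe.1 hq)).2).2
    have h3 : π a i = u' := (mem_filter.1 (mem_sigma.1 (mem_coe.1 hq')).2).2
    rw [← h2, ← h3]

end Rows

end ELeave

open ELeave in
theorem leave_proof : LeaveStmt := by
  refine ⟨6000, by norm_num, ?_⟩
  intro ι A _ _ _ _ a0 m Mf Ω _ π ρ Γ τ0 E KX h hE hn hA hne hK
  have := h.ne
  have hl : 2 / 3 ≤ Real.log (cd ι) :=
    le_trans (by linarith [Real.log_two_gt_d9]) (Real.log_le_log two_pos hn)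
  rw [B.C1p.av_ind]
  refine (pr_not (M := fun J : Bk m => Mf J.1) hne (card_sub a0 π hA)
    (fun i ω J k => if π J.1 i = J.2 then ρ i ω J.1 k else 0) (ELeave.sg h π) hE (by linarith)).trans ?_
  have h1 : cd ι * Real.exp (11 - KX / 196) ≤ 1 / 40 := by
    rw [← Real.exp_log (x := cd ι) (by linarith), ← Real.exp_add]
    refine (Real.exp_le_exp.2 (by linarith : _ ≤ -(8 : ℝ))).trans ?_
    rw [Real.exp_neg, one_div]
    refine inv_anti₀ (by norm_num) ?_
    have h2 := Real.quadratic_le_exp_of_nonneg (by norm_num : (0 : ℝ) ≤ 8)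
    linarith
  have h2 := Real.add_one_le_exp (-(1 / 40 : ℝ))
  rw [Real.exp_neg, le_inv_comm₀ (by norm_num) (Real.exp_pos _)] at h2
  have h3 := (Real.exp_le_exp.2 h1).trans h2
  norm_num at h3 ⊢
  linarith

end Vale.Agent.P318.C
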