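import Vale.Agent.P318.C.IStmt

/-!
Track C, part (E): the pieces of the proof of `ExistCStmt`.
Every part is a `Prop`; a part is proved as `theorem x_proof (h1 : AStmt) ... : XStmt`.
-/

namespace Vale.Agent.P318.C

open Finset MeasureTheory
open M (ind Eb pt zz tm BM ip nsq Dual Lat lin Inv U01 blk)
open B (cf nd cd av Op Kt tc res Pat pS pJ pD pw zone Bk bk sb rw msq)

noncomputable section

/-! ### The law of the rows -/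

section Law

variable {ι A : Type} [Fintype ι] [DecidableEq ι] [Fintype A] [DecidableEq A] {m Mf : A → ℕ}
  {Ω : A → Type} [∀ a, Fintype (Ω a)]

/-- The row of the coordinate `j` is `ρ j ω`, `ω` uniform.  The part in the partition `a ≠ a0`
depends only on `ω a`. -/
structure Law (a0 : A) (ρ : ι → ((a : A) → Ω a) → (a : A) → Fin (Mf a) → ℤ)
    (Γ : (a : A) → AddSubgroup (Fin (Mf a) → ℝ)) (τ0 : ℝ) : Prop where
  ne : ∀ a, Nonempty (Ω a)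
  dep : ∀ j ω ω' a, a ≠ a0 → ω a = ω' a → ρ j ω a = ρ j ω' a
  t3 : ∀ j ω a, T3 (ρ j ω a)
  sg : ∀ j ω a (v : Fin (Mf a) → ℝ),
    av (fun t : Ω a => Real.exp (ip (ρ j (Function.update ω a t) a) v)) ≤
      (1 + τ0) * Real.exp (nsq v)
  den : ∀ j ω a (E : (Fin (Mf a) → ℤ) → Prop),
    av (fun t : Ω a => ind (E (ρ j (Function.update ω a t) a))) ≤
      2 * Real.exp (Mf a / 100) * av fun e : Fin (Mf a) → Bool × Bool => ind (E (rw e))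
  sb : ∀ j ω a (Δ : Fin (Mf a) → ℝ) (z η : ℝ), 0 < η → η ≤ 1 / 2 →
    (∀ γ ∈ Γ a, η ^ 2 ≤ nsq (Δ - γ)) →
    1 / 20 ≤ av fun t : Ω a => ind (η / 10 ≤ nd (ip (ρ j (Function.update ω a t) a) Δ + z))
  jsb : ∀ j ω a (Δ : Fin (Mf a) → ℝ) (Δ0 : Fin (Mf a0) → ℝ) (z η : ℝ), a ≠ a0 → 0 < η →
    η ≤ 1 / 2 → (∀ γ ∈ Γ a, η ^ 2 ≤ nsq (Δ - γ)) → nsq Δ0 ≤ 16 * η ^ 2 →
    1 / 20 ≤ av fun t : Ω a × Ω a0 => ind (η / 10 ≤
      nd (ip (ρ j (Function.update (Function.update ω a t.1) a0 t.2) a) Δ +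
        ip (ρ j (Function.update (Function.update ω a t.1) a0 t.2) a0) Δ0 + z))
  int : ∀ a (n : Fin (Mf a) → ℤ), (fun k => (n k : ℝ)) ∈ Γ a
  min : ∀ a, ∀ γ ∈ Γ a, γ ≠ 0 → 1 ≤ nsq γ
  dual : ∀ j ω a, a ≠ a0 → Dual (Γ a) (ρ j ω a)
  lat : ∀ a, a ≠ a0 → Lat (Γ a) (Mf a / 10000)
  tau_nonneg : 0 ≤ τ0
  tau_le : τ0 * (cd A * (cd ι + 1)) ≤ 1 / 2

/-- The system given by the sample `x`. -/
def smp (π : (a : A) → ι → Fin (m a)) (ρ : ι → ((a : A) → Ω a) → (a : A) → Fin (Mf a) → ℤ)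
    (x : ι → (a : A) → Ω a) (J : Bk m) : ι → Fin (Mf J.1) → ℤ :=
  sb π (fun a i => ρ i (x i) a) J

/-- The global lattice. -/
def Glue (a0 : A) (π : (a : A) → ι → Fin (m a))
    (ρ : ι → ((a : A) → Ω a) → (a : A) → Fin (Mf a) → ℤ)
    (Γ : (a : A) → AddSubgroup (Fin (Mf a) → ℝ))
    (Γt : AddSubgroup (Kt (fun J : Bk m => Mf J.1) → ℝ)) : Prop :=
  Lat Γt (Mf a0 / 10000) ∧ (∀ x j, Dual Γt (tc (smp π ρ x) j)) ∧
    ∀ v : Fin (m a0), ∀ γ0 ∈ Γ a0, ∃ γ ∈ Γt, res (M := fun J : Bk m => Mf J.1) γ ⟨a0, v⟩ = γ0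

/-- Balanced partitions with small intersections; `a0` is the trivial partition. -/
structure Parts (a0 : A) (m : A → ℕ) (π : (a : A) → ι → Fin (m a)) : Prop where
  top : m a0 = 1
  pos : ∀ a, 1 ≤ m a
  lo : ∀ J : Bk m, cd ι ≤ 2 * m J.1 * (bk π J).card
  hi : ∀ J : Bk m, (m J.1 : ℝ) * (bk π J).card ≤ 2 * cd ι
  cross : ∀ J J' : Bk m, J ≠ J' →
    ((bk π J ∩ bk π J').card : ℝ) * cd ι ≤ 2 * (bk π J).card * (bk π J').card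

end Law

/-- Upper and lower restricted isometry for sets of at most `n` rows. -/
def RipUL {ι κ : Type} [Fintype κ] (J : Finset ι) (s : ι → κ → ℤ) (n : ℕ) (C1 c1 : ℝ) : Prop :=
  ∀ T ⊆ J, T.card ≤ n → ∀ v : ι → ℝ,
    ∑ k, (∑ j ∈ T, v j * (s j k : ℝ)) ^ 2 ≤ C1 * ∑ j ∈ T, v j ^ 2 ∧
      c1 * ∑ j ∈ T, v j ^ 2 ≤ ∑ k, (∑ j ∈ T, v j * (s j k : ℝ)) ^ 2

end

/-! ### Existence -/

/-- Random partitions.  The class `cl a` of the partition `a` has `D` members. -/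
def PartStmt : Prop :=
  ∀ (ι A : Type) [Fintype ι] [DecidableEq ι] [Fintype A] [DecidableEq A] (a0 : A) (m : A → ℕ)
    (cl : A → ℕ) (θ : ℝ), m a0 = 1 → (∀ a, 1 ≤ m a) → 16 ≤ cd ι → cd A ≤ cd ι →
    (∀ a, 10000 * (m a : ℝ) ^ 2 * Real.log (cd ι) ≤ cd ι) → 0 < θ → θ ≤ 1 →
    ∃ π : (a : A) → ι → Fin (m a), Parts a0 m π ∧
      ∀ (c : ℕ) (t : ℝ), 100 * Real.log (cd ι) ≤ θ * (univ.filter fun a => cl a = c).card →
        (∀ a, cl a = c → 8 * t ≤ θ * m a) → ∀ T : Finset ι, (T.card : ℝ) ≤ t →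
          ∑ a ∈ univ.filter fun a => cl a = c, (coll (π a) T : ℝ) ≤
            θ * T.card * (univ.filter fun a => cl a = c).card

/-- Codes, global parity checks and the law of the rows. -/
def LawExStmt : Prop :=
  ∃ C : ℝ, 1 ≤ C ∧ ∀ (ι A : Type) [Fintype ι] [DecidableEq ι] [Fintype A] [DecidableEq A] (a0 : A)
    (m Mf : A → ℕ) (π : (a : A) → ι → Fin (m a)) (L : ℝ), m a0 = 1 → 1 ≤ L → cd A ≤ Real.exp L →
    cd ι ≤ Real.exp L →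
    (∀ a, C * L ≤ Mf a) → (∀ a, (Mf a : ℝ) ≤ Real.exp L) →
    ∑ a ∈ univ.erase a0, m a * Mf a ≤ Mf a0 →
    ∃ (Ω : A → Type) (_ : ∀ a, Fintype (Ω a)) (ρ : ι → ((a : A) → Ω a) → (a : A) → Fin (Mf a) → ℤ)
      (Γ : (a : A) → AddSubgroup (Fin (Mf a) → ℝ)) (τ0 : ℝ)
      (Γt : AddSubgroup (Kt (fun J : Bk m => Mf J.1) → ℝ)),
      Law a0 ρ Γ τ0 ∧ Glue a0 π ρ Γ Γt

/-- Restricted operator norms. -/
def RipSStmt : Prop :=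
  ∃ C : ℝ, 1 ≤ C ∧ ∀ (ι A : Type) [Fintype ι] [DecidableEq ι] [Fintype A] [DecidableEq A] (a0 : A)
    (m Mf : A → ℕ) (Ω : A → Type) [∀ a, Fintype (Ω a)] (π : (a : A) → ι → Fin (m a))
    (ρ : ι → ((a : A) → Ω a) → (a : A) → Fin (Mf a) → ℤ)
    (Γ : (a : A) → AddSubgroup (Fin (Mf a) → ℝ)) (τ0 LG εR : ℝ), Law a0 ρ Γ τ0 → 1 ≤ LG →
    (Real.exp (-LG) ≤ εR ∨ (εR = 0 ∧ cd ι ≤ Real.exp LG)) →
    av (fun x : ι → (a : A) → Ω a =>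
        ind (¬ RipS (M := fun J : Bk m => Mf J.1) (bk π) (smp π ρ x) C LG εR)) ≤
      ∑ J : Bk m, 10 * Real.exp (-(Mf J.1 : ℝ))

/-- Norms, zero patterns, restricted isometry in the blocks of one partition `a ≠ a0`. -/
def RowIStmt : Prop :=
  ∃ C : ℝ, 1 ≤ C ∧ ∀ (ι A : Type) [Fintype ι] [DecidableEq ι] [Fintype A] [DecidableEq A] (a0 : A)
    (m Mf : A → ℕ) (Ω : A → Type) [∀ a, Fintype (Ω a)] (π : (a : A) → ι → Fin (m a))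
    (ρ : ι → ((a : A) → Ω a) → (a : A) → Fin (Mf a) → ℤ)
    (Γ : (a : A) → AddSubgroup (Fin (Mf a) → ℝ)) (τ0 LG : ℝ) (J : Bk m) (n : ℕ),
    Law a0 ρ Γ τ0 → J.1 ≠ a0 → 1 ≤ LG → C * (n * LG + Real.exp (-LG) * (bk π J).card) ≤ Mf J.1 →
    av (fun x : ι → (a : A) → Ω a => ind (¬ ((∀ j ∈ bk π J,
          (Mf J.1 : ℝ) / 4 ≤ ∑ k, (smp π ρ x J j k : ℝ) ^ 2) ∧ ZPat (bk π J) (smp π ρ x J) ∧
          RipUL (bk π J) (smp π ρ x J) n (C * Mf J.1) (Mf J.1 / 8)))) ≤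
      C * (cd ι + 1) ^ 2 * Real.exp (-(Mf J.1 / C : ℝ))

/-- The Gram matrix of the system. -/
def LowGStmt : Prop :=
  ∃ C : ℝ, 1 ≤ C ∧ ∀ (ι A : Type) [Fintype ι] [DecidableEq ι] [Fintype A] [DecidableEq A] (a0 : A)
    (m Mf : A → ℕ) (Ω : A → Type) [∀ a, Fintype (Ω a)] (π : (a : A) → ι → Fin (m a))
    (ρ : ι → ((a : A) → Ω a) → (a : A) → Fin (Mf a) → ℤ)
    (Γ : (a : A) → AddSubgroup (Fin (Mf a) → ℝ)) (τ0 K Lg Lam : ℝ), Law a0 ρ Γ τ0 → Parts a0 m π →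
    1 ≤ K → 1 ≤ Lg → (∀ a, 1 ≤ Mf a) →
    (∀ a, a ≠ a0 → Lam * Mf a * m a * Real.sqrt (m a) ≤ cd ι) → Lam * Mf a0 ≤ cd A * cd ι →
    C * K * Lg * cd A ^ 3 ≤ Lam →
    av (fun x : ι → (a : A) → Ω a =>
        ind (RipS (M := fun J : Bk m => Mf J.1) (bk π) (smp π ρ x) K Lg 0 ∧
          ¬ LowG (M := fun J : Bk m => Mf J.1) (bk π) (smp π ρ x) (1 / C))) ≤
      cd A * ∑ J : Bk m, 10 * Real.exp (-(Mf J.1 : ℝ))

/-- The property `C1c`. -/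
def C1cStmt : Prop :=
  ∀ (ι A : Type) [Fintype ι] [DecidableEq ι] [Fintype A] [DecidableEq A] (a0 : A)
    (m Mf : A → ℕ) (Ω : A → Type) [∀ a, Fintype (Ω a)] (π : (a : A) → ι → Fin (m a))
    (ρ : ι → ((a : A) → Ω a) → (a : A) → Fin (Mf a) → ℤ)
    (Γ : (a : A) → AddSubgroup (Fin (Mf a) → ℝ)) (τ0 Υ : ℝ) (v0 : Fin (m a0)) (wt : Bk m → ℝ)
    (g : ℕ), Law a0 ρ Γ τ0 → m a0 = 1 → 0 < Υ →
    av (fun x : ι → (a : A) → Ω a =>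
        ind (¬ C1c (M := fun J : Bk m => Mf J.1) (bk π) (smp π ρ x) (fun J => Γ J.1) ⟨a0, v0⟩
          wt g Υ)) ≤
      Real.exp (∑ J : Bk m, 2 * (2 * g + 1 : ℝ) ^ Mf J.1 * Real.exp (-(wt J / (160 * Υ)))) - 1

/-- The leave-out estimate. -/
def LeaveStmt : Prop :=
  ∃ C : ℝ, 1 ≤ C ∧ ∀ (ι A : Type) [Fintype ι] [DecidableEq ι] [Fintype A] [DecidableEq A] (a0 : A)
    (m Mf : A → ℕ) (Ω : A → Type) [∀ a, Fintype (Ω a)] (π : (a : A) → ι → Fin (m a))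
    (ρ : ι → ((a : A) → Ω a) → (a : A) → Fin (Mf a) → ℤ)
    (Γ : (a : A) → AddSubgroup (Fin (Mf a) → ℝ)) (τ0 E KX : ℝ), Law a0 ρ Γ τ0 → 0 < E →
    2 ≤ cd ι → (∀ J : Bk m, cd A ≤ (bk π J).card) → (∀ J : Bk m, (bk π J).Nonempty) →
    C * Real.log (cd ι) ≤ KX →
    av (fun x : ι → (a : A) → Ω a =>
        ind (¬ LeaveOut (M := fun J : Bk m => Mf J.1) (bk π) (smp π ρ x) E KX)) ≤ 1 / 10

end Vale.Agent.P318.C
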