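import Vale.Agent.P318.C.StmtI
import Vale.Agent.P318.B.Stmt

/-!
Track C, part (G): definitions for the geometry of the linear window.
Only used inside the proof.
-/

namespace Vale.Agent.P318.C

open Finset MeasureTheory
open M (ind Eb pt zz tm BM ip nsq Dual lin Inv CND perp vv)
open B (cf nd cd av Op IsProj rr Nice Red Kt tc res Pat pS pJ pD pw zone)

noncomputable section

/-! ### The law of the position in the window -/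

/-- Mean of `Φ z` for independent coordinates `z j = fract (c j) - bit`. -/
def zE {ι : Type} [Fintype ι] [DecidableEq ι] (w : Wn) (Φ : (ι → ℝ) → ℝ) : ℝ :=
  tm fun c => Eb (py w c) fun b => Φ (zz c b)

/-- Measurable, and bounded on the cube `[-1,1]^ι`. -/
def LB {ι : Type} (Φ : (ι → ℝ) → ℝ) : Prop :=
  Measurable Φ ∧ ∃ C, ∀ z, (∀ i, |z i| ≤ 1) → |Φ z| ≤ C

/-- Bernstein functions: the composition with a nonnegative kernel of negative type is of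
negative type. -/
def Bern (ψ : ℝ → ℝ) : Prop :=
  ∀ (X : Type) (ρ : X → X → ℝ), CND ρ → (∀ x y, 0 ≤ ρ x y) → CND fun x y => ψ (ρ x y)

/-! ### Test functions of one coordinate -/

def sg (x : ℝ) : ℝ := if 0 < x then 1 else if x < 0 then -1 else 0

/-- Convex hinge used in the first estimate (`τ = 1/2 + ω + η`). -/
def hg (ω η ϑ t : ℝ) : ℝ :=
  if 4 * ω < |ϑ| then max (-(1 / 2 + ω + η) + |ϑ| - ω - sg ϑ * t) 0 else 0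

/-- Decreasing ramp: `1` left of `c - ρ`, `0` right of `c`. -/
def rp (c ρ x : ℝ) : ℝ := max (min ((c - x) / ρ) 1) 0

/-- The end of the ramp. -/
def cc (ω η ϑ ϑ' : ℝ) : ℝ := -(1 / 2 + ω) + max |ϑ| |ϑ'| - 3 * η

def R1 (ω η ϑ ϑ' t : ℝ) : ℝ := if 0 < ϑ * ϑ' then rp (cc ω η ϑ ϑ') η (sg ϑ * t) else 0

def R2 (ω η ϑ ϑ' t : ℝ) : ℝ :=
  if 0 < ϑ * ϑ' ∧ |ϑ| ≤ |ϑ'| then rp (cc ω η ϑ ϑ') η (sg ϑ * t + |ϑ|) else 0

def R3 (ω η ϑ ϑ' t : ℝ) : ℝ :=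
  if 0 < ϑ * ϑ' ∧ |ϑ'| < |ϑ| then rp (cc ω η ϑ ϑ') η (sg ϑ * t + |ϑ'|) else 0

/-- Lower bound for the mean of `R1 - R2 - R3`. -/
def mu (ω η ϑ ϑ' : ℝ) : ℝ :=
  if 0 < ϑ * ϑ' then min |ϑ| |ϑ'| * (max |ϑ| |ϑ'| - 5 * η / ω) else 0

/-- The six tests of the second estimate. -/
def tf (ω η ϑ ϑ' t : ℝ) : Fin 6 → ℝ :=
  ![R1 ω η ϑ ϑ' t, R2 ω η ϑ ϑ' t, R3 ω η ϑ ϑ' t, ϑ * t, ϑ' * t, sg ϑ * t]

/-! ### Systems of blocks -/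

section System

variable {ι B : Type} [Fintype ι] [DecidableEq ι] [Fintype B] [DecidableEq B] {M : B → ℕ}

/-- Energy `∑ |J| |τ_J|^2`. -/
def en (blk : B → Finset ι) (τ : Kt M → ℝ) : ℝ := ∑ J, ((blk J).card : ℝ) * nsq (res τ J)

/-- Entropy of a pattern. -/
def ent (Le : ℝ) {g : ℕ} (π : Pat M g) : ℝ := Le * ∑ J ∈ pS π, (M J : ℝ)

def th1 (s : (J : B) → ι → Fin (M J) → ℤ) {g : ℕ} (π : Pat M g) (j : ι) : ℝ := cf (pw s π j)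

def th2 (s : (J : B) → ι → Fin (M J) → ℤ) {g : ℕ} (π π' : Pat M g) (j : ι) : ℝ :=
  th1 s π j + cf (pw s π' j - th1 s π j)

/-- The test of the first estimate. -/
def T1 (ω η : ℝ) (ϑ u : ι → ℝ) : ℝ := ∑ j, (hg ω η (ϑ j) (u j) + ϑ j * u j)

def T2 (ω η : ℝ) (ϑ ϑ' u : ι → ℝ) (i : Fin 6) : ℝ := ∑ j, tf ω η (ϑ j) (ϑ' j) (u j) i

/-- Lipschitz constant of `T1 ∘ perp`. -/
def Lip1 {κ : Type} [Fintype κ] (S : ι → κ → ℤ) (Sp : (ι → ℝ) →ₗ[ℝ] (κ → ℝ)) (ω : ℝ)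
    (ϑ : ι → ℝ) : ℝ :=
  1 + Real.sqrt ((univ.filter fun j => 4 * ω < |ϑ j|).card) +
    Real.sqrt (∑ j, perp S Sp ϑ j ^ 2)

/-- Good vertices: the tests are close to their means. -/
def GoodC (w : Wn) (η Le : ℝ) (blk : B → Finset ι) (s : (J : B) → ι → Fin (M J) → ℤ)
    (Sp : (ι → ℝ) →ₗ[ℝ] (Kt M → ℝ)) (g : ℕ) (u : ι → ℝ) : Prop :=
  (∀ i, |u i| ≤ 1 / 2 + w.om + η) ∧
  (∀ π : Pat M g, |T1 w.om η (th1 s π) u -
      zE w fun z => T1 w.om η (th1 s π) (perp (tc s) Sp z)| ≤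
    6 * Lip1 (tc s) Sp w.om (th1 s π) * Real.sqrt (ent Le π)) ∧
  ∀ π π' : Pat M g, pS π = pS π' → ∀ i,
    |T2 w.om η (th1 s π) (th2 s π π') u i -
      zE w fun z => T2 w.om η (th1 s π) (th2 s π π') (perp (tc s) Sp z) i| ≤
    12 / η * Real.sqrt ((zone blk (pS π)).card * ent Le π)

/-- The means of the ramp tests. -/
def MeanOK (w : Wn) (η : ℝ) (s : (J : B) → ι → Fin (M J) → ℤ)
    (Sp : (ι → ℝ) →ₗ[ℝ] (Kt M → ℝ)) : Prop :=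
  ∀ ϑ ϑ' : ι → ℝ, (∀ j, |ϑ j| ≤ 1 / 2) → (∀ j, |ϑ' j - ϑ j| ≤ 1 / 2) →
    ∑ j, mu w.om η (ϑ j) (ϑ' j) ≤
      zE w (fun z => T2 w.om η ϑ ϑ' (perp (tc s) Sp z) 0) -
        zE w (fun z => T2 w.om η ϑ ϑ' (perp (tc s) Sp z) 1) -
        zE w fun z => T2 w.om η ϑ ϑ' (perp (tc s) Sp z) 2

/-- Restricted operator norms (`LG = log n`, `εR = 0`, or `LG` small and `εR = exp (-LG)`). -/
def RipS (blk : B → Finset ι) (s : (J : B) → ι → Fin (M J) → ℤ) (K LG εR : ℝ) : Prop :=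
  ∀ J, ∀ T ⊆ blk J, Op T (s J) (K * (M J + LG * T.card + εR * (blk J).card))

/-- Lower bound for the Gram matrix of the whole system. -/
def LowG (blk : B → Finset ι) (s : (J : B) → ι → Fin (M J) → ℤ) (cG : ℝ) : Prop :=
  ∀ τ : Kt M → ℝ, cG * en blk τ ≤ ∑ j, lin (tc s) τ j ^ 2

/-- The structure of the system; `J0` is the top block, `wt J` the weight of the block `J`. -/
structure CSys (blk : B → Finset ι) (s : (J : B) → ι → Fin (M J) → ℤ)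
    (Γ : (J : B) → AddSubgroup (Fin (M J) → ℝ)) (J0 : B) (wt : B → ℝ) (F Lm Cn φ : ℝ) :
    Prop where
  zero : ∀ J j, j ∉ blk J → s J j = 0
  ent : ∀ J j k, |(s J j k : ℝ)| ≤ 1
  deg : ∀ i, ((univ.filter fun J => i ∈ blk J).card : ℝ) ≤ F
  row : ∀ i, ∑ x, |(tc s i x : ℝ)| ≤ Cn
  ne : ∀ J, (blk J).Nonempty
  top : blk J0 = univ
  dim_pos : ∀ J, 1 ≤ M J
  dim_le : ∀ J, (M J : ℝ) ≤ Cn
  dim2 : ∀ J, (M J : ℝ) * Real.sqrt (cd ι) ≤ (blk J).card * Real.sqrt (blk J).card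
  frac : ∀ i, ∑ J ∈ univ.filter fun J => i ∈ blk J, (M J : ℝ) / (blk J).card ≤ φ
  wt_ge : ∀ J, ((blk J).card : ℝ) ≤ wt J
  wt_dim : ∀ J, Lm * M J ≤ wt J
  wt_sum : ∀ S : Finset B, ∑ J ∈ S, wt J ≤ F * (zone blk S).card
  cross : ∀ J J', J ≠ J' → ((blk J ∩ blk J').card : ℝ) * cd ι ≤ 2 * (blk J).card * (blk J').card
  int : ∀ J (n : Fin (M J) → ℤ), (fun k => (n k : ℝ)) ∈ Γ J
  min : ∀ J, ∀ γ ∈ Γ J, γ ≠ 0 → 1 ≤ nsq γ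
  dual : ∀ J, J ≠ J0 → ∀ j, Dual (Γ J) (s J j)
  glue : ∀ γ0 ∈ Γ J0, ∃ γ : Kt M → ℝ, res γ J0 = γ0 ∧ ∀ j, ∃ n : ℤ, lin (tc s) γ j = n
  unit : ∀ i, ∃ x, tc s i x = 1 ∨ tc s i x = -1
  one_le_F : 1 ≤ F
  one_le_Lm : 1 ≤ Lm
  one_le_Cn : 1 ≤ Cn

/-- Drifts of patterns of small entropy are visible on a constant fraction of the zone. -/
def C1c (blk : B → Finset ι) (s : (J : B) → ι → Fin (M J) → ℤ)
    (Γ : (J : B) → AddSubgroup (Fin (M J) → ℝ)) (J0 : B) (wt : B → ℝ) (g : ℕ) (Υ : ℝ) : Prop :=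
  ∀ (π : Pat M g) (η : ℝ), 0 < η → η ≤ 1 / 2 →
    ∑ J ∈ pS π, wt J ≤ Υ * (zone blk (pJ π)).card →
    (∀ J ∈ pJ π, ∀ γ ∈ Γ J, η ^ 2 ≤ nsq (res (pD π) J - γ)) →
    (J0 ∈ pJ π ∨ nsq (res (pD π) J0) ≤ 16 * η ^ 2) →
    ((zone blk (pJ π)).card : ℝ) / 40 ≤
      (((zone blk (pJ π)).filter fun i => η / 10 ≤ nd (pw s π i)).card : ℝ)

/-- Decoding: heavy blocks `H` of small total weight, the other blocks give a small drift. -/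
def Dec (s : (J : B) → ι → Fin (M J) → ℤ) (wt : B → ℝ) (Υ1 δ1 : ℝ) : Prop :=
  ∀ (x : ι → ℤ) (τ0 : Kt M → ℝ), ∃ (k : ι → ℤ) (τ : Kt M → ℝ) (H : Finset B),
    (∀ j, (x j : ℝ) - lin (tc s) τ0 j = k j - lin (tc s) τ j) ∧ (∀ y, |τ y| ≤ 1 / 2) ∧
    ∑ J ∈ H, wt J ≤ Υ1 * (∑ j, ((x j : ℝ) - lin (tc s) τ0 j) ^ 2 + 1) ∧
    ∀ T : Finset ι, ∑ j ∈ T, (∑ J ∈ Hᶜ, ip (s J j) (res τ J)) ^ 2 ≤
      δ1 * (∑ j, ((x j : ℝ) - lin (tc s) τ0 j) ^ 2 + 1) + δ1 * T.card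

/-- `τ` vanishes on the blocks of `L` and solves `G τ = ∑ y j s j` on the other blocks, where
`G` is the Gram matrix of the rows outside `I`. -/
def Sol (s : (J : B) → ι → Fin (M J) → ℤ) (L : Finset B) (I I2 : Finset ι) (y : ι → ℝ)
    (τ : Kt M → ℝ) : Prop :=
  (∀ x, x.1 ∈ L → τ x = 0) ∧
    ∀ x, x.1 ∉ L → ∑ i ∈ Iᶜ, (tc s i x : ℝ) * lin (tc s) τ i = ∑ j ∈ I2, y j * tc s j x

/-- The part of `lin (tc s) τ j` which comes from the blocks of size at least `m`. -/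
def ipBig (blk : B → Finset ι) (s : (J : B) → ι → Fin (M J) → ℤ) (m : ℝ) (τ : Kt M → ℝ)
    (j : ι) : ℝ :=
  ∑ J ∈ univ.filter fun J => m ≤ (blk J).card, ip (s J j) (res τ J)

/-- Leave-out estimate. -/
def LeaveOut (blk : B → Finset ι) (s : (J : B) → ι → Fin (M J) → ℤ) (A KX : ℝ) : Prop :=
  ∀ (I I1 : Finset ι) (L : Finset B), I1 ⊆ I → zone blk L ⊆ I →
    (∀ y τ, Sol s L I (I \ I1) y τ → en blk τ ≤ A * ∑ j ∈ I \ I1, y j ^ 2) →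
    ∀ (v y : ι → ℝ) (τ : Kt M → ℝ), Sol s L I (I \ I1) y τ →
      (∑ j ∈ I1, v j * ipBig blk s (Real.sqrt (I.card * cd ι)) τ j) ^ 2 ≤
        KX * A * Real.sqrt (I.card / cd ι) * (∑ j ∈ I1, v j ^ 2) * ∑ j ∈ I \ I1, y j ^ 2

/-- On a set `I` which is sparse in the blocks outside `L`, the projection onto the columns
outside `L` is almost diagonal. -/
def RP (blk : B → Finset ι) (s : (J : B) → ι → Fin (M J) → ℤ) (ϱ0 d0 Z : ℝ) : Prop :=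
  ∀ (I : Finset ι) (L : Finset B), zone blk L ⊆ I →
    (∀ J, J ∉ L → ((blk J ∩ I).card : ℝ) ≤ ϱ0 * (blk J).card) →
    ∃ d : ι → ℝ, (∀ j, |d j| ≤ d0) ∧ ∀ (f : ι → ℝ) (τ : Kt M → ℝ), (∀ j, j ∉ I → f j = 0) →
      (∀ x, x.1 ∈ L → τ x = 0) →
      (∀ x, x.1 ∉ L → ∑ j, (tc s j x : ℝ) * (f j - lin (tc s) τ j) = 0) →
      ∀ (I1 : Finset ι) (ϱ1 : ℝ), I1 ⊆ I → 0 ≤ ϱ1 →
        (∀ J, J ∉ L → ((blk J ∩ I1).card : ℝ) ≤ ϱ1 * (blk J).card) →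
        ∑ j ∈ I1, (lin (tc s) τ j - d j * f j) ^ 2 ≤
          Z * (Real.sqrt (Real.sqrt (I.card / cd ι)) + ϱ1) * ∑ j, f j ^ 2

end System

end

end Vale.Agent.P318.C
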