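import Vale.Agent.P318.C.GStmt

/-!
Track C: the link between the isoperimetric part, the geometry and the existence of the system.
Every part is a `Prop`; a part is proved as `theorem x_proof (h1 : AStmt) ... : XStmt`.
-/

namespace Vale.Agent.P318.C

open Finset MeasureTheory
open M (U01 tm Dual Lat lin Inv Ksh)
open B (cd Kt tc)

/-- The hypotheses of the block lemma for one block. -/
structure BlkOK {ι κ : Type} [Fintype ι] [DecidableEq ι] [Fintype κ]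
    (Γ : AddSubgroup (κ → ℝ)) (J : Finset ι) (s : ι → κ → ℤ) (c0 C1 e : ℝ) : Prop where
  lat : Lat Γ (c0 * cd κ)
  dual : ∀ j, Dual Γ (s j)
  norm : ∀ j ∈ J, cd κ / 4 ≤ ∑ k, (s j k : ℝ) ^ 2
  zpat : ZPat J s
  split : SplitT J s (C1 * cd κ) (e ^ 2 * cd κ)
  ksh : Ksh J s (e ^ 2)

/-- All hypotheses of the isoperimetric part; `l` plays the role of `log (card ι)`.
`P a` is a partition of `ι` into blocks of the system, used at the dyadic scale `sc a`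
(the same partition may be listed for several scales). -/
structure IAll {ι B A : Type} [Fintype ι] [DecidableEq ι] [Fintype B] [DecidableEq B]
    [Fintype A] [DecidableEq A] {M : B → ℕ}
    (blk : B → Finset ι) (s : (J : B) → ι → Fin (M J) → ℤ)
    (Γ : (J : B) → AddSubgroup (Fin (M J) → ℝ)) (P : A → ι → B) (sc : A → ℕ) (Kn : ℕ)
    (e : ℕ → ℝ) (Γt : AddSubgroup (Kt M → ℝ)) (l c0 C1 sh C1t C2t : ℝ) : Prop where
  l_eq : l = Real.log (cd ι)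
  cardB : cd B ≤ cd ι ^ 2
  zero : ∀ J j, j ∉ blk J → s J j = 0
  t3 : ∀ J j, T3 (s J j)
  dim_pos : ∀ J, 1 ≤ M J
  part : ∀ a i j, j ∈ blk (P a i) ↔ P a j = P a i
  one_le : 1 ≤ Kn
  coll : ∀ k ∈ Icc 1 Kn, (univ.filter fun a => sc a = k).Nonempty ∧
    ∀ T : Finset ι, (T.card : ℝ) ≤ l ^ (1 / 100 : ℝ) * 2 ^ k →
      ∑ a ∈ univ.filter fun a => sc a = k, (coll (P a) T : ℝ) ≤
        1 / l ^ (1 / 100 : ℝ) * T.card * (univ.filter fun a => sc a = k).card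
  block : ∀ a i, sc a ∈ Icc 1 Kn →
    BlkOK (Γ (P a i)) (blk (P a i)) (s (P a i)) c0 C1 (e (sc a))
  e_mem : ∀ k, 0 ≤ e k ∧ e k ≤ 1
  e_sum : (∑ k ∈ Icc 1 Kn, (1 / 2 : ℝ) ^ k * e k) + 1 / 2 ^ Kn ≤
    l ^ (9 / 4 : ℝ) / Real.sqrt (cd ι)
  lat : Lat Γt sh
  dual : ∀ j, Dual Γt (tc s j)
  split : SplitT univ (tc s) C1t C2t
  sh_pos : 0 < sh
  C1t_pos : 0 < C1t
  C1t_le : C1t ≤ l ^ (1 / 50 : ℝ) * sh
  C2t_nonneg : 0 ≤ C2t
  C2t_le : C2t ≤ l ^ 5 / cd ι * sh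

/-- `PoincareStmt` for a system of blocks. -/
def Poin2Stmt : Prop :=
  ∃ C : ℝ, 0 < C ∧ ∀ (ι B A : Type) [Fintype ι] [DecidableEq ι] [Fintype B] [DecidableEq B]
    [Fintype A] [DecidableEq A] (M : B → ℕ) (blk : B → Finset ι)
    (s : (J : B) → ι → Fin (M J) → ℤ) (Γ : (J : B) → AddSubgroup (Fin (M J) → ℝ))
    (P : A → ι → B) (sc : A → ℕ) (Kn : ℕ) (Γt : AddSubgroup (Kt M → ℝ))
    (c : ι → ℝ) (f : (ι → ℤ) → ℝ) (w : Wn) (E1 : ℕ → ℝ) (L θ X E0 sh C1 C2 : ℝ), w.Ok →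
    (∀ k, 0 ≤ E1 k) → 0 ≤ E0 → 1 ≤ L → 0 ≤ θ → θ * (1 + 2 * L) ≤ 1 / 2 → 2 ≤ X →
    200 * L * X * Real.exp (-X) ≤ 1 → 1 ≤ Kn →
    (∀ k ∈ Icc 1 Kn, (univ.filter fun a => sc a = k).Nonempty ∧
      ∀ T : Finset ι, (T.card : ℝ) ≤ X * 2 ^ k →
        ∑ a ∈ univ.filter fun a => sc a = k, (coll (P a) T : ℝ) ≤
          θ * T.card * (univ.filter fun a => sc a = k).card) →
    (∀ J j, j ∉ blk J → s J j = 0) → (∀ a i j, j ∈ blk (P a i) ↔ P a j = P a i) →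
    (∀ a i, sc a ∈ Icc 1 Kn →
      BlockAt w L (E1 (sc a)) E0 (Γ (P a i)) (blk (P a i)) (s (P a i))) →
    0 < sh → 0 < C1 → 0 ≤ C2 → Lat Γt sh → (∀ j, Dual Γt (tc s j)) → (∀ j, T3 (tc s j)) →
    SplitT univ (tc s) C1 C2 → U01 f → Inv ⊤ (tc s) f →
    tm (fun β => Ey w (fun x => f x ^ 2) (c + lin (tc s) β)) -
        tm (fun β => Ey w f (c + lin (tc s) β)) ^ 2 ≤
      C * ((1 + Fi w * (C1 / sh)) *
          (((∑ k ∈ Icc 1 Kn, (1 / 2 : ℝ) ^ k * E1 k) + 1 / 2 ^ Kn) *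
            tm (fun β => Inf w univ f (c + lin (tc s) β)) + cd B * E0) +
        Real.sqrt (C2 / sh) * tm (fun β => Inf w univ f (c + lin (tc s) β)))

/-- The isoperimetric inequality with numbers. -/
def IsoCStmt : Prop :=
  ∀ c0 C1 : ℝ, 0 < c0 → 0 ≤ C1 → ∃ ω0 : ℝ, 0 < ω0 ∧ ∀ ω : ℝ, 0 < ω → ω ≤ ω0 → ∃ l0 : ℝ,
    ∀ (ι B A : Type) [Fintype ι] [DecidableEq ι] [Fintype B] [DecidableEq B]
      [Fintype A] [DecidableEq A] (M : B → ℕ) (blk : B → Finset ι)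
      (s : (J : B) → ι → Fin (M J) → ℤ) (Γ : (J : B) → AddSubgroup (Fin (M J) → ℝ))
      (P : A → ι → B) (sc : A → ℕ) (Kn : ℕ) (e : ℕ → ℝ) (Γt : AddSubgroup (Kt M → ℝ))
      (l sh C1t C2t : ℝ), l0 ≤ l → IAll blk s Γ P sc Kn e Γt l c0 C1 sh C1t C2t →
      ∀ (c : ι → ℝ) (f : (ι → ℤ) → ℝ), (∀ x, f x = 0 ∨ f x = 1) → Inv ⊤ (tc s) f →
        tm (fun β => Ey ⟨ω, 1 / l ^ (11 / 10 : ℝ)⟩ f (c + lin (tc s) β)) *
            (1 - tm fun β => Ey ⟨ω, 1 / l ^ (11 / 10 : ℝ)⟩ f (c + lin (tc s) β)) ≤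
          l ^ (14 / 5 : ℝ) / Real.sqrt (cd ι) *
            tm (fun β => Inf ⟨ω, 1 / l ^ (11 / 10 : ℝ)⟩ univ f (c + lin (tc s) β)) + 1 / 100

/-- Existence of the system.  The lattices `Γ` of the geometry and `Γ'` of the isoperimetric
part may differ. -/
def ExistCStmt : Prop :=
  ∃ c0 C1 : ℝ, 0 < c0 ∧ 0 ≤ C1 ∧ ∃ n0 : ℕ, ∀ n : ℕ, n0 ≤ n →
    ∃ (B A : Type) (_ : Fintype B) (_ : DecidableEq B) (_ : Fintype A) (_ : DecidableEq A)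
      (M : B → ℕ) (blk : B → Finset (Fin n)) (s : (J : B) → Fin n → Fin (M J) → ℤ)
      (Γ Γ' : (J : B) → AddSubgroup (Fin (M J) → ℝ)) (J0 : B) (wt : B → ℝ) (F K LG cG φ : ℝ)
      (P : A → Fin n → B) (sc : A → ℕ) (Kn : ℕ) (e : ℕ → ℝ) (Γt : AddSubgroup (Kt M → ℝ))
      (sh C1t C2t : ℝ),
      GAll blk s Γ J0 wt (Real.log n) F K LG cG φ ∧
        IAll blk s Γ' P sc Kn e Γt (Real.log n) c0 C1 sh C1t C2t

/-- The instance: `n` coordinates, at most `exp (3 n)` vertices. -/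
def InstCStmt : Prop :=
  ∃ c : ℝ, 0 < c ∧ ∃ n0 : ℕ, ∀ n : ℕ, n0 ≤ n → ∀ N : ℕ, Real.exp (3 * n) ≤ N →
    c * Real.sqrt n / Real.log n ^ (57 / 20 : ℝ) ≤ gap N

def FinalCStmt : Prop :=
  ∃ c : ℝ, 0 < c ∧ ∃ N0 : ℕ, ∀ N : ℕ, N0 ≤ N →
    c * Real.sqrt (Real.log N) / Real.log (Real.log N) ^ (57 / 20 : ℝ) ≤ gap N

end Vale.Agent.P318.C
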