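import Vale.Agent.P318.C.GStmt

/-!
Track C, part (G): the means of the ramp tests.
-/

namespace Vale.Agent.P318.C

open Finset MeasureTheory
open M (ind lin perp)
open B (IsProj Kt tc)

namespace Mean

theorem rp_cont (c ρ : ℝ) : Continuous (rp c ρ) := by
  unfold rp
  fun_prop

theorem rp_nonneg (c ρ x : ℝ) : 0 ≤ rp c ρ x := le_max_right _ _

theorem rp_anti {c ρ x y : ℝ} (hρ : 0 < ρ) (h : x ≤ y) : rp c ρ y ≤ rp c ρ x :=
  max_le_max (min_le_min (div_le_div_of_nonneg_right (by linarith) hρ.le) le_rfl) le_rfl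

theorem rp_zero {c ρ x : ℝ} (hρ : 0 < ρ) (h : c ≤ x) : rp c ρ x = 0 :=
  max_eq_right ((min_le_left _ _).trans (div_nonpos_of_nonpos_of_nonneg (by linarith) hρ.le))

theorem rp_one {c ρ x : ℝ} (hρ : 0 < ρ) (h : x ≤ c - ρ) : rp c ρ x = 1 := by
  rw [rp, min_eq_right ((one_le_div hρ).2 (by linarith)), max_eq_left zero_le_one]

theorem int_zero {f : ℝ → ℝ} {a b : ℝ} (hab : a ≤ b) (h : ∀ t, a ≤ t → t ≤ b → f t = 0) :
    ∫ t in a..b, f t = 0 := by
  rw [intervalIntegral.integral_congr (g := fun _ => 0) fun t ht => by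
    rw [Set.uIcc_of_le hab] at ht
    exact h t ht.1 ht.2]
  simp

/-- Moving a decreasing profile against an increasing density. -/
theorem shift {g r : ℝ → ℝ} (hg : Continuous g) (hr : Continuous r) (hm : Monotone r)
    {a b x d : ℝ} (hd : 0 ≤ d) (hax : a ≤ x) (hxb : x ≤ b) (r0 : ∀ t, t ≤ a → r t = 0)
    (g0 : ∀ t, 0 ≤ g t) (g1 : ∀ t, t ≤ x → g t = 1) (g2 : ∀ t, b ≤ t → g t = 0) :
    ∫ t in (x - d)..x, r t ≤ ∫ t in a..b, (g t - g (t + d)) * r t := by
  have c1 : Continuous fun t => g t * r (t - d) := by fun_prop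
  have c2 : Continuous fun t => g t * (r t - r (t - d)) := by fun_prop
  have e1 : ∫ t in a..b, g (t + d) * r t = ∫ t in a..b, g t * r (t - d) := by
    have h1 := intervalIntegral.integral_comp_add_right (a := a) (b := b)
      (fun t => g t * r (t - d)) d
    simp only [add_sub_cancel_right] at h1
    have h2 := intervalIntegral.integral_add_adjacent_intervals (μ := volume)
      (c1.intervalIntegrable a (a + d)) (c1.intervalIntegrable (a + d) (b + d))
    have h3 := intervalIntegral.integral_add_adjacent_intervals (μ := volume)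
      (c1.intervalIntegrable a b) (c1.intervalIntegrable b (b + d))
    rw [int_zero (by linarith) fun t _ h => by rw [r0 _ (by linarith), mul_zero]] at h2
    rw [int_zero (a := b) (by linarith) fun t h _ => by rw [g2 _ h, zero_mul]] at h3
    linarith
  have e2 : ∫ t in a..b, (g t - g (t + d)) * r t = ∫ t in a..b, g t * (r t - r (t - d)) := by
    simp only [sub_mul, mul_sub]
    rw [intervalIntegral.integral_sub (Continuous.intervalIntegrable (by fun_prop) _ _)
      (Continuous.intervalIntegrable (by fun_prop) _ _), e1, intervalIntegral.integral_sub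
      (Continuous.intervalIntegrable (by fun_prop) _ _) (c1.intervalIntegrable _ _)]
  have e3 : ∫ t in a..x, g t * (r t - r (t - d)) = ∫ t in (x - d)..x, r t := by
    rw [intervalIntegral.integral_congr (g := fun t => r t - r (t - d)) fun t ht => by
      rw [Set.uIcc_of_le hax] at ht
      simp only [g1 t ht.2, one_mul], intervalIntegral.integral_sub (hr.intervalIntegrable _ _)
      (Continuous.intervalIntegrable (by fun_prop) _ _), intervalIntegral.integral_comp_sub_right]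
    have h2 := intervalIntegral.integral_add_adjacent_intervals (μ := volume)
      (hr.intervalIntegrable (a - d) a) (hr.intervalIntegrable a x)
    have h3 := intervalIntegral.integral_add_adjacent_intervals (μ := volume)
      (hr.intervalIntegrable (a - d) (x - d)) (hr.intervalIntegrable (x - d) x)
    rw [int_zero (by linarith) fun t _ h => r0 _ h] at h2
    linarith
  have e4 : 0 ≤ ∫ t in x..b, g t * (r t - r (t - d)) :=
    intervalIntegral.integral_nonneg hxb fun t _ =>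
      mul_nonneg (g0 t) (sub_nonneg.2 (hm (by linarith)))
  rw [e2, ← intervalIntegral.integral_add_adjacent_intervals (c2.intervalIntegrable a x)
    (c2.intervalIntegrable x b), e3]
  linarith

section Win

variable {w : Wn} (ho : w.Ok) (h : WinAt w)
include h

theorem ramp_nonneg (x : ℝ) : 0 ≤ ramp w x := by
  rw [← h.ramp_zero (min x 0) (min_le_right _ _)]
  exact h.ramp_mono (min_le_left _ _)

theorem ramp_cont : Continuous (ramp w) :=
  continuous_iff_continuousAt.2 fun x => (h.deriv x).continuousAt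

theorem zmean_nonneg {φ : ℝ → ℝ} (hφ : ∀ t, 0 ≤ φ t) : 0 ≤ zmean w φ :=
  intervalIntegral.integral_nonneg zero_le_one fun t _ =>
    add_nonneg (mul_nonneg (sub_nonneg.2 (h.pr_le t)) (hφ _)) (mul_nonneg (h.pr_nonneg t) (hφ _))

include ho

theorem ramp_ge (s : ℝ) : min (s / (2 * w.om)) 1 - w.et / w.om ≤ ramp w s := by
  obtain ⟨h1, -, h2, h3⟩ := ho
  have key : ∀ x, w.et ≤ x → x ≤ 2 * w.om - w.et → (x - w.et / 2) / (2 * w.om) ≤ ramp w x :=
    fun x a b => by
      rw [h.ramp_lin x a b, div_eq_inv_mul, ← one_div]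
      exact mul_le_mul_of_nonneg_right h.hh_ge (by linarith)
  have e : w.et / w.om = 2 * w.et / (2 * w.om) := by field_simp
  rcases le_total s w.et with a | a
  · refine le_trans ?_ (ramp_nonneg h s)
    rw [sub_nonpos, e]
    exact (min_le_left _ _).trans (div_le_div_of_nonneg_right (by linarith) (by linarith))
  rcases le_total s (2 * w.om - w.et) with b | b
  · refine le_trans ?_ (key s a b)
    rw [sub_le_iff_le_add, e, ← add_div]
    exact (min_le_left _ _).trans (div_le_div_of_nonneg_right (by linarith) (by linarith))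
  · refine le_trans ?_ ((key _ (by linarith) le_rfl).trans (h.ramp_mono b))
    rw [sub_le_iff_le_add, e, ← add_div]
    exact (min_le_right _ _).trans ((one_le_div (by linarith)).2 (by linarith))

theorem pair_ge {η m m' u : ℝ} (hη : 0 < η) (he : w.et ≤ η) (h1 : m ≤ 1 / 2) (h2 : m ≤ m')
    (h3 : m' ≤ m + 1 / 2) (u0 : 0 ≤ u) (u1 : u ≤ m) :
    2 * (m' - 4 * η / w.om) ≤ ramp w (m' - 26 / 5 * η - u) + ramp w (m' - 26 / 5 * η - m + u) := by
  have a1 := ramp_ge ho h (m' - 26 / 5 * η - u)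
  have a2 := ramp_ge ho h (m' - 26 / 5 * η - m + u)
  obtain ⟨o1, o2, -, -⟩ := ho
  have e1 : w.et / w.om ≤ η / w.om := div_le_div_of_nonneg_right he o1.le
  have e2 : 0 < η / w.om := div_pos hη o1
  have e3 : 4 * η / w.om = 4 * (η / w.om) := mul_div_assoc _ _ _
  have key : ∀ x, 0 ≤ x → 4 * x - 13 / 5 * (η / w.om) ≤ (x - 26 / 5 * η) / (2 * w.om) :=
    fun x hx => by
      have : 4 * x ≤ x / (2 * w.om) := by
        rw [le_div_iff₀ (by linarith)]
        nlinarith
      have e : (x - 26 / 5 * η) / (2 * w.om) = x / (2 * w.om) - 13 / 5 * (η / w.om) := by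
        field_simp
        ring
      linarith
  have k1 := key (m' - u) (by linarith)
  have k2 := key (m' - m + u) (by linarith)
  rw [show m' - u - 26 / 5 * η = m' - 26 / 5 * η - u by ring] at k1
  rw [show m' - m + u - 26 / 5 * η = m' - 26 / 5 * η - m + u by ring] at k2
  rcases min_cases ((m' - 26 / 5 * η - u) / (2 * w.om)) 1 with ⟨b1, -⟩ | ⟨b1, -⟩ <;>
    rcases min_cases ((m' - 26 / 5 * η - m + u) / (2 * w.om)) 1 with ⟨b2, -⟩ | ⟨b2, -⟩ <;>
    rw [b1] at a1 <;> rw [b2] at a2 <;> linarith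

theorem int_ge {η m m' : ℝ} (hη : 0 < η) (he : w.et ≤ η) (h0 : 0 ≤ m) (h1 : m ≤ 1 / 2)
    (h2 : m ≤ m') (h3 : m' ≤ m + 1 / 2) :
    m * (m' - 4 * η / w.om) ≤ ∫ s in (m' - 26 / 5 * η - m)..(m' - 26 / 5 * η), ramp w s := by
  have c := ramp_cont h
  have e1 := intervalIntegral.integral_comp_sub_left (a := 0) (b := m) (ramp w) (m' - 26 / 5 * η)
  have e2 := intervalIntegral.integral_comp_add_left (a := 0) (b := m) (ramp w)
    (m' - 26 / 5 * η - m)
  rw [sub_zero] at e1
  rw [add_zero, sub_add_cancel] at e2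
  have e3 := intervalIntegral.integral_mono_on (μ := volume) h0
    (continuous_const.intervalIntegrable _ _) (Continuous.intervalIntegrable
      (u := fun u => ramp w (m' - 26 / 5 * η - u) + ramp w (m' - 26 / 5 * η - m + u))
      (by fun_prop) _ _) fun u hu => pair_ge ho h hη he h1 h2 h3 hu.1 hu.2
  rw [intervalIntegral.integral_add (Continuous.intervalIntegrable (by fun_prop) _ _)
    (Continuous.intervalIntegrable (by fun_prop) _ _), e1, e2, intervalIntegral.integral_const,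
    sub_zero, smul_eq_mul] at e3
  linarith

end Win

theorem bdd_of_cont {φ : ℝ → ℝ} (hφ : Continuous φ) : ∃ C, ∀ t, |t| ≤ 1 → |φ t| ≤ C := by
  obtain ⟨C, hC⟩ := (isCompact_Icc (a := (-1 : ℝ)) (b := 1)).exists_bound_of_continuousOn
    hφ.continuousOn
  exact ⟨C, fun t ht => hC t (abs_le.1 ht)⟩

theorem one_dim (hW : WinStmt) (hL : LawStmt) (w : Wn) (η p ζ m m' : ℝ) (ho : w.Ok) (hη : 0 < η)
    (hη' : η ≤ 1 / 8) (he : w.et ≤ η) (p0 : 0 ≤ p) (p1 : p ≤ η ^ 2) (hζ : |ζ| ≤ η) (h0 : 0 ≤ m)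
    (h1 : m ≤ 1 / 2) (h2 : m ≤ m') (h3 : m' ≤ m + 1 / 2) :
    m * (m' - 4 * η / w.om) ≤ zmean w fun t =>
      rp (-(1 / 2 + w.om) + m' - 3 * η) η ((1 - p) * t - ζ) -
        rp (-(1 / 2 + w.om) + m' - 3 * η) η ((1 - p) * t - ζ + m) := by
  have h := hW w ho
  rcases le_total m' (4 * η / w.om) with hm | hm
  · exact (mul_nonpos_of_nonneg_of_nonpos h0 (sub_nonpos.2 hm)).trans
      (zmean_nonneg h fun t => sub_nonneg.2 (rp_anti hη (by linarith)))
  have hi := int_ge ho h hη he h0 h1 h2 h3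
  obtain ⟨o1, o2, -, -⟩ := id ho
  obtain ⟨z1, z2⟩ := abs_le.1 hζ
  have hm' : 32 * η ≤ m' := le_trans (by rw [le_div_iff₀ o1]; nlinarith) hm
  have p2 : p ≤ η / 8 := by nlinarith
  have p3 : 0 < 1 - p := by linarith
  set c := -(1 / 2 + w.om) + m' - 3 * η with hc
  have rc := rp_cont c η
  have cr := ramp_cont h
  have cg : Continuous fun t => rp c η ((1 - p) * t - ζ) := by fun_prop
  have hd : m ≤ m / (1 - p) := by
    rw [le_div_iff₀ p3]
    nlinarith
  have g2 : ∀ t, 1 / 2 - w.om ≤ t → c ≤ (1 - p) * t - ζ := fun t ht => by nlinarith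
  have hs := shift (r := fun t => ramp w (t + 1 / 2 + w.om)) cg (by fun_prop)
    (fun a b hab => h.ramp_mono (by linarith)) (a := -1) (b := 1) (x := c - 11 / 5 * η)
    (h0.trans hd) (by linarith) (by linarith) (fun t ht => h.ramp_zero _ (by linarith))
    (fun t => rp_nonneg _ _ _) (fun t ht => rp_one hη (by nlinarith))
    fun t ht => rp_zero hη (g2 t (by linarith))
  have cφ : Continuous fun t => rp c η ((1 - p) * t - ζ) - rp c η ((1 - p) * t - ζ + m) := by
    fun_prop
  rw [((hL w ho).1 _ cφ.measurable (bdd_of_cont cφ)).1]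
  refine hi.trans (le_trans ?_ (hs.trans (le_of_eq (intervalIntegral.integral_congr fun t _ => ?_))))
  · have e := intervalIntegral.integral_comp_add_right (a := c - 11 / 5 * η - m / (1 - p))
      (b := c - 11 / 5 * η) (ramp w) (1 / 2 + w.om)
    simp only [add_assoc]
    rw [e, show c - 11 / 5 * η + (1 / 2 + w.om) = m' - 26 / 5 * η by rw [hc]; ring]
    refine intervalIntegral.integral_mono_interval (by linarith) (by linarith) le_rfl
      (Filter.Eventually.of_forall fun t => ramp_nonneg h t) (cr.intervalIntegrable _ _)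
  · have e : (1 - p) * (t + m / (1 - p)) - ζ = (1 - p) * t - ζ + m := by
      field_simp
      ring
    simp only [e]
    rcases le_total t (1 / 2 - w.om) with ht | ht
    · rw [h.ramp_zero (t - 1 / 2 + w.om) (by linarith), sub_zero]
    · rw [rp_zero hη (g2 t ht), rp_zero hη ((g2 t ht).trans (by linarith)), sub_self, zero_mul,
        zero_mul]

section Sum

variable {ι : Type} [Fintype ι] [DecidableEq ι]

theorem diag {κ : Type} [Fintype κ] {S : ι → κ → ℤ} {Sp : (ι → ℝ) →ₗ[ℝ] (κ → ℝ)}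
    (h : IsProj S Sp) (j : ι) :
    lin S (Sp (Pi.single j 1)) j = ∑ i, lin S (Sp (Pi.single i 1)) j ^ 2 := by
  have key : ∀ i j, lin S (Sp (Pi.single j 1)) i =
      ∑ k, lin S (Sp (Pi.single i 1)) k * lin S (Sp (Pi.single j 1)) k := fun i j => by
    have := h (Pi.single i 1) (Sp (Pi.single j 1))
    simp only [sub_mul, sum_sub_distrib, Pi.single_apply, ite_mul, one_mul, zero_mul, sum_ite_eq',
      mem_univ, if_true] at this
    linarith
  rw [key j j]
  refine sum_congr rfl fun i _ => ?_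
  rw [sq, key i j, key j i]
  simp only [mul_comm]

theorem zE_sum (hL : LawStmt) {w : Wn} (ho : w.Ok) (T : Finset ι) {Φ : ι → (ι → ℝ) → ℝ}
    (hΦ : ∀ j, Continuous (Φ j)) : zE w (fun z => ∑ j ∈ T, Φ j z) = ∑ j ∈ T, zE w (Φ j) := by
  obtain ⟨h1, h2, h3, -⟩ := (hL w ho).2 ι
  induction T using Finset.induction_on with
  | empty => simpa using h3 0
  | insert j T hj ih =>
    simp only [sum_insert hj]
    rw [((h2 _ (h1 _ (hΦ j))).2.2.2.2 _ (h1 _ (by fun_prop))).1, ih]

theorem tail (hL : LawStmt) (hC : ConcStmt) {w : Wn} (ho : w.Ok) {η Pm : ℝ} (hη : 0 < η)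
    (hP : 0 < Pm) {a : ι → ℝ} (ha : ∑ i, a i ^ 2 ≤ Pm) :
    zE w (fun z => ind (η < |∑ i, a i * z i|)) ≤ 2 * Real.exp (-η ^ 2 / (16 * Pm)) := by
  have := hC ι w (fun z => ∑ i, a i * z i) (Real.sqrt Pm) η ho (Real.sqrt_pos.2 hP) hη.le
    ⟨convex_univ, fun x _ y _ s t _ _ _ => le_of_eq (by
      simp only [Pi.add_apply, Pi.smul_apply, smul_eq_mul, mul_sum, ← sum_add_distrib]
      exact sum_congr rfl fun i _ => by ring)⟩ fun z z' => by
      rw [← Real.sqrt_mul hP.le, ← sum_sub_distrib]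
      refine Real.abs_le_sqrt ?_
      simp only [← mul_sub]
      exact (sum_mul_sq_le_sq_mul_sq _ _ _).trans
        (mul_le_mul_of_nonneg_right ha (sum_nonneg fun _ _ => sq_nonneg _))
  rw [((hL w ho).2 ι).2.2.2 a, Real.sq_sqrt hP.le] at this
  simpa only [sub_zero] using this

theorem coord (hW : WinStmt) (hL : LawStmt) (hC : ConcStmt) {w : Wn} (ho : w.Ok) {η Pm : ℝ}
    (hη : 0 < η) (hη' : η ≤ 1 / 8) (he : w.et ≤ η) (hP : 0 < Pm) (hP' : Pm ≤ η ^ 2)
    (hx : 2 * Real.exp (-η ^ 2 / (16 * Pm)) ≤ η) {a : ι → ℝ} (ha : ∑ i, a i ^ 2 ≤ Pm) {j : ι}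
    (p0 : 0 ≤ a j) (p1 : a j ≤ Pm) {σ m m' : ℝ} (hσ : σ = 1 ∨ σ = -1) (h0 : 0 ≤ m)
    (h1 : m ≤ 1 / 2) (h2 : m ≤ m') (h3 : m' ≤ m + 1 / 2) :
    m * (m' - 5 * η / w.om) ≤ zE w fun z : ι → ℝ =>
      rp (-(1 / 2 + w.om) + m' - 3 * η) η (σ * (z j - ∑ i, a i * z i)) -
        rp (-(1 / 2 + w.om) + m' - 3 * η) η (σ * (z j - ∑ i, a i * z i) + m) := by
  set c := -(1 / 2 + w.om) + m' - 3 * η with hc
  have rc := rp_cont c η
  obtain ⟨l0, l⟩ := hL w ho
  obtain ⟨l1, l2, l3, -⟩ := l ι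
  let b : ι → ℝ := Function.update a j 0
  have hb : ∑ i, b i ^ 2 ≤ Pm := le_trans (sum_le_sum fun i _ => by
    by_cases hi : i = j
    · simp only [b, hi, Function.update_self]
      nlinarith [sq_nonneg (a j)]
    · simp only [b, Function.update_of_ne hi, le_refl]) ha
  have e : ∀ (z : ι → ℝ) t, Function.update z j t j - ∑ i, a i * Function.update z j t i =
      (1 - a j) * t - ∑ i, b i * z i := fun z t => by
    rw [← add_sum_erase _ _ (mem_univ j), ← add_sum_erase _ (fun i => b i * z i) (mem_univ j),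
      sum_congr rfl (g := fun i => b i * z i) fun i hi => by
        simp only [b, Function.update_of_ne (ne_of_mem_erase hi)]]
    simp only [b, Function.update_self]
    ring
  have bi : LB fun z : ι → ℝ => ind (η < |∑ i, b i * z i|) :=
    ⟨Measurable.ite (measurableSet_lt measurable_const (by fun_prop)) measurable_const
      measurable_const, 1, fun z _ => by simp only [ind]; split_ifs <;> simp⟩
  have bm : LB fun z : ι → ℝ => -m * ind (η < |∑ i, b i * z i|) :=
    ⟨bi.1.const_mul _, m, fun z _ => by simp only [ind]; split_ifs <;> simp [h0, abs_of_nonneg]⟩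
  have bc : LB fun _ : ι → ℝ => m * (m' - 4 * η / w.om) := l1 _ continuous_const
  have bs : LB fun z : ι → ℝ => m * (m' - 4 * η / w.om) + -m * ind (η < |∑ i, b i * z i|) := by
    obtain ⟨C, hC⟩ := bm.2
    exact ⟨bm.1.const_add _, |m * (m' - 4 * η / w.om)| + C, fun z hz =>
      (abs_add_le _ _).trans (by linarith [hC z hz])⟩
  obtain ⟨-, -, r, -⟩ := l2 (fun z => rp c η (σ * (z j - ∑ i, a i * z i)) -
    rp c η (σ * (z j - ∑ i, a i * z i) + m)) (l1 _ (by fun_prop))
  rw [(r j).2]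
  refine le_trans ?_ (((l2 _ bs).2.2.2.2 _ (r j).1).2 fun z _ => ?_)
  · rw [((l2 _ bc).2.2.2.2 _ bm).1, l3, (l2 _ bi).2.2.2.1]
    have t1 := mul_le_mul_of_nonneg_left ((tail hL hC ho hη hP hb).trans hx) h0
    have t2 : η ≤ η / w.om := by
      rw [le_div_iff₀ ho.1]
      nlinarith [ho.2.1]
    have t3 := mul_le_mul_of_nonneg_left t2 h0
    rw [mul_div_assoc, mul_div_assoc]
    linarith
  simp only [e]
  unfold ind
  split_ifs with hz
  · refine le_trans ?_ (zmean_nonneg (hW w ho) fun t => sub_nonneg.2 (rp_anti hη (by linarith)))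
    have := div_pos (mul_pos four_pos hη) ho.1
    nlinarith
  rw [mul_zero, add_zero]
  rcases hσ with rfl | rfl
  · simp only [one_mul]
    exact one_dim hW hL w η _ _ m m' ho hη hη' he p0 (p1.trans hP') (not_lt.1 hz) h0 h1 h2 h3
  · have cφ : Continuous fun t => rp c η ((1 - a j) * t - -∑ i, b i * z i) -
        rp c η ((1 - a j) * t - -∑ i, b i * z i + m) := by fun_prop
    refine (one_dim hW hL w η _ (-∑ i, b i * z i) m m' ho hη hη' he p0 (p1.trans hP')
      (by rw [abs_neg]; exact not_lt.1 hz) h0 h1 h2 h3).trans (le_of_eq ?_)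
    rw [← (l0 _ cφ.measurable (bdd_of_cont cφ)).2]
    refine congrArg (zmean w) (funext fun t => ?_)
    rw [show (1 - a j) * -t - -∑ i, b i * z i = -1 * ((1 - a j) * t - ∑ i, b i * z i) by ring]

theorem R_cont (ω η ϑ ϑ' : ℝ) :
    Continuous (R1 ω η ϑ ϑ') ∧ Continuous (R2 ω η ϑ ϑ') ∧ Continuous (R3 ω η ϑ ϑ') := by
  have := rp_cont (cc ω η ϑ ϑ') η
  unfold R1 R2 R3
  refine ⟨?_, ?_, ?_⟩ <;> split_ifs <;> fun_prop

theorem R_eq {ω η ϑ ϑ' : ℝ} (h : 0 < ϑ * ϑ') (t : ℝ) :
    R1 ω η ϑ ϑ' t - R2 ω η ϑ ϑ' t - R3 ω η ϑ ϑ' t =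
      rp (cc ω η ϑ ϑ') η (sg ϑ * t) - rp (cc ω η ϑ ϑ') η (sg ϑ * t + min |ϑ| |ϑ'|) := by
  unfold R1 R2 R3
  rcases le_or_gt |ϑ| |ϑ'| with a | a
  · simp [h, a, not_lt.2 a]
  · simp [h, a, not_le.2 a, min_eq_right a.le]

end Sum

end Mean

open Mean in
theorem mean_proof (hW : WinStmt) (hL : LawStmt) (hC : ConcStmt) (hP : B.ProjStmt) :
    MeanStmt := by
  refine ⟨one_dim hW hL, fun ι B _ _ _ _ M s Sp w η Pm ho hη hη' he hp P0 P1 hs hx ϑ ϑ' h1 h2 => ?_⟩
  have e : ∀ z j, perp (tc s) Sp z j = z j - ∑ i, lin (tc s) (Sp (Pi.single i 1)) j * z i :=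
    fun z j => by rw [perp, ((hP.1 ι _ (tc s)).2 Sp hp).2.2.2.2.2 z j]
  have c : ∀ j, Continuous fun z => perp (tc s) Sp z j := fun j => by
    simp only [e]
    fun_prop
  have c1 := fun j => (R_cont w.om η (ϑ j) (ϑ' j)).1.comp (c j)
  have c2 := fun j => (R_cont w.om η (ϑ j) (ϑ' j)).2.1.comp (c j)
  have c3 := fun j => (R_cont w.om η (ϑ j) (ϑ' j)).2.2.comp (c j)
  refine le_trans ?_ (le_of_eq (congrArg₂ (· - ·) (congrArg₂ (· - ·) (zE_sum hL ho univ c1)
    (zE_sum hL ho univ c2)) (zE_sum hL ho univ c3)).symm)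
  simp only [← sum_sub_distrib]
  refine sum_le_sum fun j _ => ?_
  obtain ⟨l1, l2, l3, -⟩ := (hL w ho).2 ι
  have sub : ∀ Φ Ψ : (ι → ℝ) → ℝ, Continuous Φ → Continuous Ψ →
      zE w Φ - zE w Ψ = zE w fun z => Φ z - Ψ z := fun Φ Ψ a b => by
    have := ((l2 _ (l1 _ (a.sub b))).2.2.2.2 _ (l1 _ b)).1
    simp only [Pi.sub_apply, sub_add_cancel] at this
    exact sub_eq_of_eq_add this
  rw [sub _ _ (c1 j) (c2 j), sub _ _ ((c1 j).fun_sub (c2 j)) (c3 j)]
  simp only [Function.comp_apply]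
  by_cases h : 0 < ϑ j * ϑ' j
  · have a1 := abs_abs_sub_abs_le_abs_sub (ϑ' j) (ϑ j)
    have a2 := abs_le.1 (a1.trans (h2 j))
    simp only [R_eq h, mu, if_pos h, cc, e]
    refine coord hW hL hC ho hη hη' he P0 P1 hx (hs j)
      (by rw [diag hp]; exact sum_nonneg fun _ _ => sq_nonneg _) (by rw [diag hp]; exact hs j)
      ?_ (le_min (abs_nonneg _) (abs_nonneg _)) ((min_le_left _ _).trans (h1 j)) min_le_max ?_
    · unfold sg
      rcases lt_trichotomy (ϑ j) 0 with a | a | a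
      · simp [a, a.le]
      · simp [a] at h
      · simp [a]
    · rcases le_total |ϑ j| |ϑ' j| with a | a
      · rw [min_eq_left a, max_eq_right a]
        linarith [a2.2]
      · rw [min_eq_right a, max_eq_left a]
        linarith [a2.1]
  · simp only [R1, R2, R3, mu, h, false_and, if_false, sub_self, l3, le_refl]

end Vale.Agent.P318.C
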