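import Vale.Agent.P318.C.StmtI
import Vale.Agent.P318.M.Near
import Vale.Agent.P318.M.Block0
import Vale.Agent.P318.M.Torus
import Vale.Agent.P318.M.Gauss

/-!
The part of the Gaussian move which stays in the same window (linear window): pointwise facts.
-/

namespace Vale.Agent.P318.C.Near

open Finset MeasureTheory ProbabilityTheory
open M (U01 cube tm Per BM ip nsq gm lin Inv)
open M.Near (ip_add ip_sub ip_smul continuous_ip measurable_ip measurable_lin lin_add lin_smul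
  abs_ip_le ivec ivec_cast off_shift swap3 int3 integrable_sum_abs)
open M.Block (bm_int bm_const bm_mul bm_add bm_sub bm_sq bm_comp bm_sum bm_of_mem)

set_option linter.unusedSectionVars false

/-- The data. -/
structure Dt (ι κ : Type) where
  w : Wn
  J : Finset ι
  s : ι → κ → ℤ
  t : ι → ℝ
  h : (ι → ℤ) → ℝ
  χ : ι → ℝ → ℝ
  m : ι → ℝ

variable {ι κ : Type} [Fintype ι] [DecidableEq ι] [Fintype κ]

/-- The facts which are used. -/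
structure Hyp (d : Dt ι κ) (B : ℝ) : Prop where
  ok : d.w.Ok
  W : WinAt d.w
  u01 : U01 d.h
  hs : ∀ j, j ∉ d.J → d.s j = 0
  χm : ∀ j, Measurable (d.χ j)
  χb : ∀ j u, |d.χ j u| ≤ 1
  mb : ∀ j, |d.m j| ≤ 1
  mB : ∑ j ∈ d.J, d.m j ^ 2 ≤ B
  c1m : ∀ j, Measurable (c1 d.w d.h j)
  c1b : ∀ j y, |c1 d.w d.h j y| ≤ 1
  c2m : ∀ j j', Measurable (c2 d.w d.h j j')
  c2b : ∀ j j' y, |c2 d.w d.h j j' y| ≤ 2
  bm2 : BM (W2 d.w d.J d.h)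
  bmI : BM (Inf d.w d.J d.h)
  W1le : ∀ y, W1 d.w d.J d.h y ≤ 1
  W2nn : ∀ y, 0 ≤ W2 d.w d.J d.h y
  Inn : ∀ y, 0 ≤ Inf d.w d.J d.h y
  inv1 : ∀ (n : κ → ℤ) y j, c1 d.w d.h j (y + fun i => (ivec d.s n i : ℝ)) = c1 d.w d.h j y
  inv2 : ∀ (n : κ → ℤ) y j j',
    c2 d.w d.h j j' (y + fun i => (ivec d.s n i : ℝ)) = c2 d.w d.h j j' y
  invW : ∀ (n : κ → ℤ) y, W2 d.w d.J d.h (y + fun i => (ivec d.s n i : ℝ)) = W2 d.w d.J d.h y
  invI : ∀ (n : κ → ℤ) y, Inf d.w d.J d.h (y + fun i => (ivec d.s n i : ℝ)) = Inf d.w d.J d.h y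
  d2 : ∀ (y u : ι → ℝ) (j : ι), (∀ r : ℝ, 0 ≤ r → r ≤ 1 → ⌊y j + r * u j⌋ = ⌊y j⌋) →
      c1 d.w d.h j (y + u) - c1 d.w d.h j y =
        ∫ r in (0 : ℝ)..1, ∑ j' ∈ univ.erase j,
          u j' * dpr d.w (y j' + r * u j') * c2 d.w d.h j j' (y + r • u)

lemma mkHyp (hW : WinStmt) (hD : DerivStmt) (d : Dt ι κ) {B : ℝ} {Γ : AddSubgroup (κ → ℝ)}
    (ok : d.w.Ok) (hΓ : ∀ n : κ → ℤ, (fun k => (n k : ℝ)) ∈ Γ) (hs : ∀ j, j ∉ d.J → d.s j = 0)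
    (hh : U01 d.h) (hI : Inv Γ d.s d.h) (χm : ∀ j, Measurable (d.χ j))
    (χb : ∀ j u, |d.χ j u| ≤ 1) (mb : ∀ j, |d.m j| ≤ 1) (mB : ∑ j ∈ d.J, d.m j ^ 2 ≤ B) :
    Hyp d B := by
  obtain ⟨-, h1, h2, h3, h4, -, h6⟩ := hD ι d.w d.h ok hh
  have hr : ∀ n : κ → ℤ, ∀ x, d.h (x + ivec d.s n) = d.h x := fun n =>
    hI _ (hΓ n) _ (ivec_cast d.s n)
  exact
    { ok := ok
      W := hW _ ok
      u01 := hh
      hs := hs
      χm := χm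
      χb := χb
      mb := mb
      mB := mB
      c1m := fun j => (h1 j).1
      c1b := fun j y => ((h1 j).2.2 y).1.trans ((h1 j).2.2 y).2
      c2m := fun j j' => (h2 j j').1
      c2b := fun j j' => (h2 j j').2
      bm2 := (h3 _).2.1
      bmI := (h3 _).2.2.1
      W1le := fun y => ((h3 _).2.2.2 y).2.1
      W2nn := fun y => ((h3 _).2.2.2 y).2.2.1
      Inn := fun y => ((h3 _).2.2.2 y).2.2.2
      inv1 := fun n y j => ((h4 _ (hr n) y).2.1 j).1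
      inv2 := fun n y j j' => (h4 _ (hr n) y).2.2.1 j j'
      invW := fun n y => ((h4 _ (hr n) y).2.2.2 _).2.1
      invI := fun n y => ((h4 _ (hr n) y).2.2.2 _).2.2
      d2 := h6 }

noncomputable section

def ct (χ : ℝ → ℝ) (u : ℝ) : ℝ := if |u| < 1 / 2 then χ u else 0

namespace Dt

variable (d : Dt ι κ)

def y (η : κ → ℝ) : ι → ℝ := d.t + lin d.s η

def dd (j : ι) (y : ι → ℝ) : ℝ := pq d.w (y j) * (c1 d.w d.h j y - d.m j) ^ 2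

def Ph (j : ι) (y : ι → ℝ) (u : ℝ) : ℝ :=
  ct (d.χ j) u * (pq d.w (y j) * (c1 d.w d.h j y - d.m j) * psi d.w (y j + u))

def Hj (j : ι) (ξ : κ → ℝ) (y : ι → ℝ) : ℝ :=
  ∑ j' ∈ d.J.erase j, ip (d.s j') ξ * dpr d.w (y j') * c2 d.w d.h j j' y

/-- The weight as a function of the first half of the move. -/
def ph (r : ℝ) (j : ι) (τ : κ → ℝ) (v : ℝ) (ξ : κ → ℝ) : ℝ :=
  d.Ph j (d.y (τ - r • ξ)) (ip (d.s j) ξ + v)

def U (ρ r : ℝ) (j : ι) (τ : κ → ℝ) (v : ℝ) : κ → ℝ :=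
  fun k => ∫ ξ, ξ k * d.ph r j τ v ξ ∂gm κ ρ

def q (r : ℝ) (j : ι) (τ : κ → ℝ) (v : ℝ) : ℝ := pq d.w (d.y τ j + r * v)

def Dm (ρ r : ℝ) (j : ι) (τ : κ → ℝ) : ℝ := ∫ ξ, d.dd j (d.y (τ - r • ξ)) ∂gm κ ρ

lemma y_add (η ξ : κ → ℝ) : d.y (η + ξ) = d.y η + lin d.s ξ := by
  unfold y; rw [lin_add, add_assoc]

lemma y_add_apply (η ξ : κ → ℝ) (j : ι) : d.y (η + ξ) j = d.y η j + ip (d.s j) ξ := by
  rw [y_add]; rfl

lemma y_smul_apply (η ξ : κ → ℝ) (r : ℝ) (j : ι) :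
    d.y (η + r • ξ) j = d.y η j + r * ip (d.s j) ξ := by
  rw [y_add_apply, ip_smul]

lemma y_back (τ ξ : κ → ℝ) (r v : ℝ) (j : ι) :
    d.y (τ - r • ξ) j + r * (ip (d.s j) ξ + v) = d.y τ j + r * v := by
  simp only [y, Pi.add_apply, lin, ip_sub, ip_smul]; ring

lemma y_int (η : κ → ℝ) (n : κ → ℤ) :
    d.y (η + fun k => (n k : ℝ)) = d.y η + fun i => (ivec d.s n i : ℝ) := off_shift _ _ _ _

@[fun_prop]
lemma measurable_y : Measurable d.y := by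
  unfold y; fun_prop

lemma Hj_add (j : ι) (ξ ξ' : κ → ℝ) (y : ι → ℝ) :
    d.Hj j (ξ + ξ') y = d.Hj j ξ y + d.Hj j ξ' y := by
  simp only [Hj, ip_add, add_mul, sum_add_distrib]

end Dt

end

lemma abs_ct_le {χ : ℝ → ℝ} (hχ : ∀ u, |χ u| ≤ 1) (u : ℝ) : |ct χ u| ≤ 1 := by
  unfold ct; split_ifs
  · exact hχ _
  · simp

lemma measurable_ct {χ : ℝ → ℝ} (hχ : Measurable χ) : Measurable (ct χ) := by
  unfold ct
  refine Measurable.ite ?_ hχ measurable_const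
  exact measurableSet_lt (by fun_prop) measurable_const

namespace Hyp

variable {d : Dt ι κ} {B : ℝ}

lemma om_pos (H : Hyp d B) : 0 < d.w.om := H.ok.1

lemma et_pos (H : Hyp d B) : 0 < d.w.et := H.ok.2.2.1

lemma psi_le (H : Hyp d B) (y : ℝ) : psi d.w y ≤ 1 / d.w.om :=
  (H.W.psi_le y).trans (H.W.dpr_le y)

lemma cm_le (H : Hyp d B) (j : ι) (y : ι → ℝ) : |c1 d.w d.h j y - d.m j| ≤ 2 := by
  have := abs_sub (c1 d.w d.h j y) (d.m j)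
  linarith [H.c1b j y, H.mb j]

lemma dd_nonneg (H : Hyp d B) (j : ι) (y : ι → ℝ) : 0 ≤ d.dd j y :=
  mul_nonneg (H.W.pq_nonneg _) (sq_nonneg _)

lemma dd_le (H : Hyp d B) (j : ι) (y : ι → ℝ) : d.dd j y ≤ 1 := by
  have h1 := H.W.pq_le (y j)
  have h2 : (c1 d.w d.h j y - d.m j) ^ 2 ≤ 2 ^ 2 := by
    rw [← sq_abs]; exact pow_le_pow_left₀ (abs_nonneg _) (H.cm_le j y) 2
  unfold Dt.dd
  calc _ ≤ 1 / 4 * 2 ^ 2 := mul_le_mul h1 h2 (sq_nonneg _) (by norm_num)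
    _ = 1 := by norm_num

lemma dd_meas (H : Hyp d B) (j : ι) : Measurable (d.dd j) := by
  have h1 := H.W.pq_meas
  have h3 := H.c1m j
  unfold Dt.dd
  fun_prop

lemma dd_bm (H : Hyp d B) (j : ι) : BM (d.dd j) :=
  bm_of_mem (H.dd_meas j) (H.dd_nonneg j) (H.dd_le j)

lemma sum_dd_le (H : Hyp d B) (y : ι → ℝ) : ∑ j ∈ d.J, d.dd j y ≤ 2 + B / 2 := by
  have h1 := H.W1le y
  have h2 := H.mB
  have : ∑ j ∈ d.J, d.dd j y ≤
      ∑ j ∈ d.J, (2 * (pq d.w (y j) * c1 d.w d.h j y ^ 2) + 1 / 2 * d.m j ^ 2) := by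
    refine sum_le_sum fun j _ => ?_
    have a1 := H.W.pq_le (y j)
    have a2 := H.W.pq_nonneg (y j)
    unfold Dt.dd
    nlinarith [mul_nonneg a2 (sq_nonneg (c1 d.w d.h j y + d.m j)),
      mul_nonneg (sub_nonneg.2 a1) (sq_nonneg (d.m j))]
  rw [sum_add_distrib, ← mul_sum, ← mul_sum] at this
  unfold W1 at h1
  linarith

lemma Ph_meas (H : Hyp d B) (j : ι) : Measurable fun p : (ι → ℝ) × ℝ => d.Ph j p.1 p.2 := by
  have h1 := H.W.pq_meas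
  have h2 := H.W.psi_meas
  have h3 := H.c1m j
  have h4 := measurable_ct (H.χm j)
  unfold Dt.Ph
  fun_prop

lemma Hj_meas (H : Hyp d B) (j : ι) :
    Measurable fun p : (κ → ℝ) × (ι → ℝ) => d.Hj j p.1 p.2 := by
  have h1 := H.W.dpr_meas
  unfold Dt.Hj
  refine Finset.measurable_sum _ fun j' _ => ?_
  have h3 := H.c2m j j'
  fun_prop

/-- If the weight is nonzero, the segment stays in the window. -/
lemma stay (H : Hyp d B) {j : ι} {y : ι → ℝ} {u : ℝ} (hne : d.Ph j y u ≠ 0) {r : ℝ}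
    (hr0 : 0 ≤ r) (hr1 : r ≤ 1) :
    ⌊y j + r * u⌋ = ⌊y j⌋ ∧ pq d.w (y j) ≤ 16 * pq d.w (y j + r * u) ∧
      r / 16 * min (r * d.w.om / (2 * d.w.et)) 1 ≤ pq d.w (y j + r * u) := by
  unfold Dt.Ph at hne
  have hw := left_ne_zero_of_mul hne
  have hg := right_ne_zero_of_mul hne
  have hu : |u| < 1 / 2 := by
    by_contra hc
    exact hw (by unfold ct; rw [if_neg hc])
  have hpq : pq d.w (y j) ≠ 0 := left_ne_zero_of_mul (left_ne_zero_of_mul hg)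
  have hps : psi d.w (y j + u) ≠ 0 := right_ne_zero_of_mul hg
  have hee : 0 < dep d.w (y j) := by
    rcases (H.W.dep_nonneg (y j)).lt_or_eq with h1 | h1
    · exact h1
    · exfalso
      have h2 := H.W.pq_le' (y j)
      rw [← h1] at h2
      exact hpq (le_antisymm (by simpa using h2) (H.W.pq_nonneg _))
  have he3 : d.w.om / 2 ≤ dep d.w (y j + u) := by
    by_contra hc
    apply hps
    unfold psi; rw [if_neg hc]
  exact H.W.path _ _ r hu hee he3 hr0 hr1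

lemma Ph_sq (H : Hyp d B) (j : ι) (y : ι → ℝ) (u : ℝ) :
    d.Ph j y u ^ 2 ≤ 1 / d.w.om ^ 2 * pq d.w (y j) * d.dd j y := by
  have h0 := H.om_pos
  have hw2 : ct (d.χ j) u ^ 2 ≤ 1 := by
    rw [← sq_abs]; exact pow_le_one₀ (abs_nonneg _) (abs_ct_le (H.χb j) u)
  have hp2 : psi d.w (y j + u) ^ 2 ≤ (1 / d.w.om) ^ 2 :=
    pow_le_pow_left₀ (H.W.psi_nonneg _) (H.psi_le _) 2
  have a := H.W.pq_nonneg (y j)
  have b := H.dd_nonneg j y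
  have e : d.Ph j y u ^ 2 =
      ct (d.χ j) u ^ 2 * psi d.w (y j + u) ^ 2 * pq d.w (y j) * d.dd j y := by
    unfold Dt.Ph Dt.dd; ring
  rw [e]
  calc _ ≤ 1 * (1 / d.w.om) ^ 2 * pq d.w (y j) * d.dd j y := by gcongr
    _ = _ := by ring

lemma Ph2 (H : Hyp d B) (j : ι) (y : ι → ℝ) (u : ℝ) {r : ℝ} (hr0 : 0 ≤ r) (hr1 : r ≤ 1) :
    d.Ph j y u ^ 2 ≤ 16 / d.w.om ^ 2 * pq d.w (y j + r * u) * d.dd j y := by
  have h0 := H.om_pos
  have a := H.W.pq_nonneg (y j + r * u)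
  have b := H.dd_nonneg j y
  by_cases hne : d.Ph j y u = 0
  · rw [hne]; simp only [ne_eq, OfNat.ofNat_ne_zero, not_false_eq_true, zero_pow]; positivity
  have h1 := (H.stay hne hr0 hr1).2.1
  refine (H.Ph_sq j y u).trans ?_
  calc _ ≤ 1 / d.w.om ^ 2 * (16 * pq d.w (y j + r * u)) * d.dd j y := by gcongr
    _ = _ := by ring

lemma Ph1 (H : Hyp d B) (j : ι) (y : ι → ℝ) (u : ℝ) {r : ℝ} (hr0 : 0 ≤ r) (hr1 : r ≤ 1) :
    d.Ph j y u ^ 2 ≤ 1024 / d.w.om ^ 2 * pq d.w (y j + r * u) ^ 2 := by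
  have h0 := H.om_pos
  have a := H.W.pq_nonneg (y j + r * u)
  by_cases hne : d.Ph j y u = 0
  · rw [hne]; simp only [ne_eq, OfNat.ofNat_ne_zero, not_false_eq_true, zero_pow]; positivity
  have h1 := (H.stay hne hr0 hr1).2.1
  refine (H.Ph2 j y u hr0 hr1).trans ?_
  have h2 : (c1 d.w d.h j y - d.m j) ^ 2 ≤ 2 ^ 2 := by
    rw [← sq_abs]; exact pow_le_pow_left₀ (abs_nonneg _) (H.cm_le j y) 2
  have h3 : d.dd j y ≤ 16 * pq d.w (y j + r * u) * 2 ^ 2 :=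
    mul_le_mul h1 h2 (sq_nonneg _) (by positivity)
  calc _ ≤ 16 / d.w.om ^ 2 * pq d.w (y j + r * u) * (16 * pq d.w (y j + r * u) * 2 ^ 2) := by
        gcongr
    _ = _ := by ring

lemma Ph3 (H : Hyp d B) (j : ι) (y : ι → ℝ) (u : ℝ) {r : ℝ} (hr0 : 0 < r) (hr1 : r ≤ 1)
    (hr : 2 * d.w.et / d.w.om ≤ r) :
    d.Ph j y u ^ 2 ≤ 256 / (d.w.om ^ 2 * r) * pq d.w (y j + r * u) ^ 2 * d.dd j y := by
  have h0 := H.om_pos
  have he := H.et_pos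
  have a := H.W.pq_nonneg (y j + r * u)
  have b := H.dd_nonneg j y
  by_cases hne : d.Ph j y u = 0
  · rw [hne]; simp only [ne_eq, OfNat.ofNat_ne_zero, not_false_eq_true, zero_pow]; positivity
  have h1 := (H.stay hne hr0.le hr1).2.2
  have h2 : 1 ≤ r * d.w.om / (2 * d.w.et) := by
    rw [div_le_iff₀ h0] at hr
    rw [le_div_iff₀ (by positivity)]; linarith
  rw [min_eq_right h2, mul_one] at h1
  have h3 : 1 ≤ 16 * pq d.w (y j + r * u) / r := by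
    rw [le_div_iff₀ hr0]; linarith
  refine (H.Ph2 j y u hr0.le hr1).trans ?_
  calc _ = 1 * (16 / d.w.om ^ 2 * pq d.w (y j + r * u) * d.dd j y) := by ring
    _ ≤ (16 * pq d.w (y j + r * u) / r) *
        (16 / d.w.om ^ 2 * pq d.w (y j + r * u) * d.dd j y) := by gcongr
    _ = _ := by field_simp; ring

lemma abs_Ph_le (H : Hyp d B) (j : ι) (y : ι → ℝ) (u : ℝ) : |d.Ph j y u| ≤ 1 / d.w.om := by
  have h0 := H.om_pos
  refine abs_le_of_sq_le_sq' ?_ (by positivity) |> abs_le.2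
  refine (H.Ph_sq j y u).trans ?_
  have a := H.W.pq_le (y j)
  have a' := H.W.pq_nonneg (y j)
  have b := H.dd_le j y
  have b' := H.dd_nonneg j y
  calc _ ≤ 1 / d.w.om ^ 2 * 1 * 1 := by gcongr; linarith
    _ = _ := by ring

lemma claim1 (H : Hyp d B) (j : ι) (ξ : κ → ℝ) (η : κ → ℝ) :
    d.Ph j (d.y η) (ip (d.s j) ξ) * (c1 d.w d.h j (d.y η) - c1 d.w d.h j (d.y (η + ξ))) =
      -∫ r in (0 : ℝ)..1, d.Ph j (d.y η) (ip (d.s j) ξ) * d.Hj j ξ (d.y (η + r • ξ)) := by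
  by_cases hne : d.Ph j (d.y η) (ip (d.s j) ξ) = 0
  · rw [hne]; simp
  rw [intervalIntegral.integral_const_mul, ← mul_neg]
  congr 1
  have h2 := H.d2 (d.y η) (lin d.s ξ) j fun r hr0 hr1 => (H.stay hne hr0 hr1).1
  rw [d.y_add, ← neg_sub, h2]
  congr 1
  refine intervalIntegral.integral_congr fun r _ => ?_
  have h4 : d.y (η + r • ξ) = d.y η + r • lin d.s ξ := by
    rw [d.y_add, lin_smul]
  simp only [Dt.Hj, h4]
  symm
  refine sum_subset (erase_subset_erase _ (subset_univ _)) fun j' hj' hj'' => ?_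
  have : j' ∉ d.J := fun hJ => hj'' (mem_erase.2 ⟨(mem_erase.1 hj').1, hJ⟩)
  simp [lin, H.hs j' this, ip]

lemma abs_Hj_le (H : Hyp d B) (j : ι) (ξ : κ → ℝ) (y : ι → ℝ) :
    |d.Hj j ξ y| ≤
      (∑ j' ∈ d.J.erase j, (∑ k, |(d.s j' k : ℝ)|) * (1 / d.w.om) * 2) * ∑ k, |ξ k| := by
  have h0 := H.om_pos
  unfold Dt.Hj
  refine (abs_sum_le_sum_abs _ _).trans ?_
  rw [sum_mul]
  refine sum_le_sum fun j' _ => ?_
  rw [abs_mul, abs_mul, abs_of_nonneg (H.W.dpr_nonneg _)]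
  have h1 := abs_ip_le (d.s j') ξ
  have h2 := H.W.dpr_le (y j')
  have h3 := H.c2b j j' y
  have h4 := H.W.dpr_nonneg (y j')
  have h5 : 0 ≤ (∑ k, |(d.s j' k : ℝ)|) * ∑ k, |ξ k| := (abs_nonneg _).trans h1
  calc _ ≤ ((∑ k, |(d.s j' k : ℝ)|) * ∑ k, |ξ k|) * (1 / d.w.om) * 2 := by gcongr
    _ = _ := by ring

/-- Domination of the integrand. -/
lemma abs_F_le (H : Hyp d B) (j : ι) : ∃ C : ℝ, ∀ (ξ : κ → ℝ) (y y' : ι → ℝ) (u : ℝ),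
    |d.Ph j y u * d.Hj j ξ y'| ≤ C * ∑ k, |ξ k| := by
  refine ⟨1 / d.w.om * ∑ j' ∈ d.J.erase j, (∑ k, |(d.s j' k : ℝ)|) * (1 / d.w.om) * 2,
    fun ξ y y' u => ?_⟩
  have h0 := H.om_pos
  rw [abs_mul, mul_assoc]
  exact mul_le_mul (H.abs_Ph_le j y u) (H.abs_Hj_le j ξ y') (abs_nonneg _) (by positivity)

lemma per_F (H : Hyp d B) (j : ι) (u : ℝ) (ξ ζ : κ → ℝ) :
    Per fun η => d.Ph j (d.y η) u * d.Hj j ξ (d.y (η + ζ)) := by
  intro η n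
  have e1 : (η + fun k => (n k : ℝ)) + ζ = (η + ζ) + fun k => (n k : ℝ) := by abel
  have e2 : ∀ (a : ℝ) (i : ℤ), a + i + u = a + u + i := fun a i => by ring
  simp only [Dt.Ph, Dt.Hj, e1, Dt.y_int, H.inv1, H.inv2]
  simp only [Pi.add_apply (d.y _), e2, H.W.pq_per, H.W.psi_per, H.W.dpr_per]

lemma per_dd (H : Hyp d B) (j : ι) : Per fun η => d.dd j (d.y η) := by
  intro η n
  simp only [Dt.dd, Dt.y_int, H.inv1]
  simp only [Pi.add_apply (d.y _), H.W.pq_per]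

lemma per_W2 (H : Hyp d B) : Per fun η => W2 d.w d.J d.h (d.y η) := by
  intro η n
  simp only [Dt.y_int, H.invW]

lemma per_Inf (H : Hyp d B) : Per fun η => Inf d.w d.J d.h (d.y η) := by
  intro η n
  simp only [Dt.y_int, H.invI]

/-! ### The vectors `U` -/

lemma ph_meas (H : Hyp d B) (r : ℝ) (j : ι) :
    Measurable fun p : ((κ → ℝ) × ℝ) × (κ → ℝ) => d.ph r j p.1.1 p.1.2 p.2 :=
  (H.Ph_meas j).comp (f := fun p : ((κ → ℝ) × ℝ) × (κ → ℝ) =>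
    (d.y (p.1.1 - r • p.2), ip (d.s j) p.2 + p.1.2)) (by fun_prop)

lemma ph_bm (H : Hyp d B) (r : ℝ) (j : ι) (τ : κ → ℝ) (v : ℝ) : BM (d.ph r j τ v) :=
  ⟨(H.ph_meas r j).comp (f := fun ξ => ((τ, v), ξ)) (by fun_prop), _,
    fun _ => H.abs_Ph_le _ _ _⟩

lemma U_meas (H : Hyp d B) (ρ r : ℝ) (j : ι) (k : κ) :
    Measurable fun p : (κ → ℝ) × ℝ => d.U ρ r j p.1 p.2 k := by
  have : Measurable fun p : ((κ → ℝ) × ℝ) × (κ → ℝ) => p.2 k * d.ph r j p.1.1 p.1.2 p.2 :=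
    Measurable.mul (by fun_prop) (H.ph_meas r j)
  exact (this.stronglyMeasurable.integral_prod_right' (ν := gm κ ρ)).measurable

lemma ddb_bm (H : Hyp d B) (r : ℝ) (j : ι) :
    BM fun p : (κ → ℝ) × (κ → ℝ) => d.dd j (d.y (p.1 - r • p.2)) :=
  bm_comp (H.dd_bm j) (by fun_prop)

lemma ddb_int (H : Hyp d B) (ρ r : ℝ) (j : ι) (τ : κ → ℝ) :
    Integrable (fun ξ => d.dd j (d.y (τ - r • ξ))) (gm κ ρ) :=
  bm_int (bm_comp (H.dd_bm j) (by fun_prop)) _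

lemma Dm_nonneg (H : Hyp d B) (ρ r : ℝ) (j : ι) (τ : κ → ℝ) : 0 ≤ d.Dm ρ r j τ :=
  integral_nonneg fun _ => H.dd_nonneg _ _

lemma Dm_le (H : Hyp d B) (ρ r : ℝ) (j : ι) (τ : κ → ℝ) : d.Dm ρ r j τ ≤ 1 := by
  have : d.Dm ρ r j τ ≤ ∫ _ξ, (1 : ℝ) ∂gm κ ρ :=
    integral_mono (H.ddb_int ρ r j τ) (integrable_const _) fun ξ => H.dd_le _ _
  simpa using this

lemma Dm_bm (H : Hyp d B) (ρ r : ℝ) (j : ι) : BM (d.Dm ρ r j) :=
  bm_of_mem ((H.ddb_bm r j).1.stronglyMeasurable.integral_prod_right' (ν := gm κ ρ)).measurable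
    (H.Dm_nonneg ρ r j) (H.Dm_le ρ r j)

lemma sum_Dm_le (H : Hyp d B) (ρ r : ℝ) (τ : κ → ℝ) : ∑ j ∈ d.J, d.Dm ρ r j τ ≤ 2 + B / 2 := by
  unfold Dt.Dm
  rw [← integral_finsetSum _ fun j _ => H.ddb_int ρ r j τ]
  have : ∫ ξ, ∑ j ∈ d.J, d.dd j (d.y (τ - r • ξ)) ∂gm κ ρ ≤ ∫ _ξ, (2 + B / 2) ∂gm κ ρ :=
    integral_mono (integrable_finsetSum _ fun j _ => H.ddb_int ρ r j τ) (integrable_const _)
      fun ξ => H.sum_dd_le _
  simpa using this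

lemma U_le (H : Hyp d B) (ρ r : ℝ) (j : ι) (τ : κ → ℝ) (v : ℝ) {g : (κ → ℝ) → ℝ}
    (hg : Integrable g (gm κ ρ)) (hle : ∀ ξ, d.ph r j τ v ξ ^ 2 ≤ g ξ) :
    nsq (d.U ρ r j τ v) ≤ ρ ^ 2 * ∫ ξ, g ξ ∂gm κ ρ := by
  refine (M.Gauss.bessel ρ _ (H.ph_bm r j τ v)).trans ?_
  exact mul_le_mul_of_nonneg_left
    (integral_mono (bm_int (bm_sq (H.ph_bm r j τ v)) _) hg hle) (sq_nonneg _)

lemma U1 (H : Hyp d B) (ρ : ℝ) {r : ℝ} (hr0 : 0 ≤ r) (hr1 : r ≤ 1) (j : ι) (τ : κ → ℝ) (v : ℝ) :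
    nsq (d.U ρ r j τ v) ≤ ρ ^ 2 * (1024 / d.w.om ^ 2 * d.q r j τ v ^ 2) := by
  have := H.U_le ρ r j τ v (g := fun _ => 1024 / d.w.om ^ 2 * d.q r j τ v ^ 2)
    (integrable_const _) fun ξ => by
      have := H.Ph1 j (d.y (τ - r • ξ)) (ip (d.s j) ξ + v) hr0 hr1
      rwa [d.y_back] at this
  simpa using this

lemma U2 (H : Hyp d B) (ρ : ℝ) {r : ℝ} (hr0 : 0 ≤ r) (hr1 : r ≤ 1) (j : ι) (τ : κ → ℝ) (v : ℝ) :
    nsq (d.U ρ r j τ v) ≤ ρ ^ 2 * (16 / d.w.om ^ 2 * d.q r j τ v * d.Dm ρ r j τ) := by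
  have := H.U_le ρ r j τ v
    (g := fun ξ => 16 / d.w.om ^ 2 * d.q r j τ v * d.dd j (d.y (τ - r • ξ)))
    ((H.ddb_int ρ r j τ).const_mul _) fun ξ => by
      have := H.Ph2 j (d.y (τ - r • ξ)) (ip (d.s j) ξ + v) hr0 hr1
      rwa [d.y_back] at this
  rwa [integral_const_mul] at this

lemma U3 (H : Hyp d B) (ρ : ℝ) {r : ℝ} (hr0 : 0 < r) (hr1 : r ≤ 1)
    (hr : 2 * d.w.et / d.w.om ≤ r) (j : ι) (τ : κ → ℝ) (v : ℝ) :
    nsq (d.U ρ r j τ v) ≤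
      ρ ^ 2 * (256 / (d.w.om ^ 2 * r) * d.q r j τ v ^ 2 * d.Dm ρ r j τ) := by
  have := H.U_le ρ r j τ v
    (g := fun ξ => 256 / (d.w.om ^ 2 * r) * d.q r j τ v ^ 2 * d.dd j (d.y (τ - r • ξ)))
    ((H.ddb_int ρ r j τ).const_mul _) fun ξ => by
      have := H.Ph3 j (d.y (τ - r • ξ)) (ip (d.s j) ξ + v) hr0 hr1 hr
      rwa [d.y_back] at this
  rwa [integral_const_mul] at this

/-- Integration of the first half of the move. -/
lemma int_first (H : Hyp d B) (ρ r : ℝ) (j : ι) (τ : κ → ℝ) (v : ℝ) (y : ι → ℝ) :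
    ∫ ξ, d.ph r j τ v ξ * d.Hj j ξ y ∂gm κ ρ =
      ∑ j' ∈ d.J.erase j, dpr d.w (y j') * c2 d.w d.h j j' y * ip (d.s j') (d.U ρ r j τ v) := by
  have hi : ∀ k, Integrable (fun ξ : κ → ℝ => ξ k) (gm κ ρ) := fun k =>
    (M.Gauss.mem2 ρ k).integrable (by simp)
  have hia : ∀ k, Integrable (fun ξ : κ → ℝ => ξ k * d.ph r j τ v ξ) (gm κ ρ) := fun k =>
    (hi k).mul_bdd (H.ph_bm r j τ v).1.aestronglyMeasurable
      (ae_of_all _ fun ξ => H.abs_Ph_le _ _ _)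
  have e1 : ∀ ξ, d.ph r j τ v ξ * d.Hj j ξ y =
      ∑ j' ∈ d.J.erase j, ∑ k, (dpr d.w (y j') * c2 d.w d.h j j' y * (d.s j' k : ℝ)) *
        (ξ k * d.ph r j τ v ξ) := by
    intro ξ
    rw [Dt.Hj, mul_sum]
    refine sum_congr rfl fun j' _ => ?_
    simp only [ip, sum_mul, mul_sum]
    exact sum_congr rfl fun k _ => by ring
  simp_rw [e1]
  rw [integral_finsetSum _ fun j' _ =>
    integrable_finsetSum _ fun k _ => (hia k).const_mul _]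
  refine sum_congr rfl fun j' _ => ?_
  rw [integral_finsetSum _ fun k _ => (hia k).const_mul _]
  simp only [integral_const_mul, ip, mul_sum]
  refine sum_congr rfl fun k _ => ?_
  simp only [Dt.U]
  ring

end Hyp

/-- Mean over the torus and the Gaussian shift. -/
lemma shift_int {G : (κ → ℝ) → ℝ} (hP : Per G) (hB : BM G) (ρ c : ℝ) :
    ∫ p : (κ → ℝ) × (κ → ℝ), G (p.2 + c • p.1) ∂(gm κ ρ).prod (cube κ) = tm G := by
  rw [integral_prod _ (bm_int (bm_comp hB (by fun_prop)) _)]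
  have : ∀ ξ : κ → ℝ, ∫ η, G (η + c • ξ) ∂cube κ = tm G := fun ξ =>
    (M.torus_proof κ).1 G hP hB (c • ξ)
  simp [this]

end Vale.Agent.P318.C.Near
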