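import Vale.Agent.P318.C.Near0

/-!
The part of the Gaussian move which stays in the same window: the bound at one time `r`.
-/

namespace Vale.Agent.P318.C.Near

open Finset MeasureTheory ProbabilityTheory
open M (U01 cube tm Per BM ip nsq gm lin Inv)
open M.Near (ip_add ip_sub ip_smul continuous_ip measurable_ip measurable_lin lin_add lin_smul
  abs_ip_le ivec ivec_cast off_shift swap3 int3 integrable_sum_abs)
open M.Block (bm_int bm_const bm_mul bm_add bm_sub bm_sq bm_comp bm_sum bm_of_mem)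

set_option linter.unusedSectionVars false

variable {ι κ : Type} [Fintype ι] [DecidableEq ι] [Fintype κ]

noncomputable section

namespace Dt

variable (d : Dt ι κ)

def X (ρ r : ℝ) (j j' : ι) (τ : κ → ℝ) (v : ℝ) : ℝ := ip (d.s j') (d.U ρ r j τ v)

/-- The large entries. -/
def M1 (ρ r C2 : ℝ) (j j' : ι) (τ : κ → ℝ) (v : ℝ) : ℝ :=
  if C2 * nsq (d.U ρ r j τ v) < d.X ρ r j j' τ v ^ 2 then d.X ρ r j j' τ v else 0

/-- The small entries. -/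
def M2 (ρ r C2 : ℝ) (j j' : ι) (τ : κ → ℝ) (v : ℝ) : ℝ :=
  if C2 * nsq (d.U ρ r j τ v) < d.X ρ r j j' τ v ^ 2 then 0 else d.X ρ r j j' τ v

def g (ρ r C2 : ℝ) (j j' : ι) (τ : κ → ℝ) (v : ℝ) : ℝ :=
  d.M1 ρ r C2 j j' τ v ^ 2 / d.q r j τ v

def S (ρ r : ℝ) (j : ι) (p : (κ → ℝ) × (κ → ℝ)) : ℝ :=
  ∑ j' ∈ d.J.erase j, dpr d.w (d.y (p.2 + r • p.1) j') * c2 d.w d.h j j' (d.y (p.2 + r • p.1)) *
    d.X ρ r j j' p.2 (ip (d.s j) p.1)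

/-- The integrand of the large part. -/
def Lg (ρ r C2 : ℝ) (j j' : ι) (p : (κ → ℝ) × (κ → ℝ)) : ℝ :=
  kp2 d.w (d.y (p.2 + r • p.1) j') * d.g ρ r C2 j j' p.2 (ip (d.s j) p.1)

def N (σ : ℝ) (j : ι) (r : ℝ) : ℝ :=
  ∫ ξ, ∫ η, d.Ph j (d.y η) (ip (d.s j) ξ) * d.Hj j ξ (d.y (η + r • ξ)) ∂cube κ ∂gm κ σ

lemma X_eq (ρ r C2 : ℝ) (j j' : ι) (τ : κ → ℝ) (v : ℝ) :
    d.X ρ r j j' τ v = d.M1 ρ r C2 j j' τ v + d.M2 ρ r C2 j j' τ v := by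
  unfold M1 M2; split_ifs <;> simp

lemma q_eq (r : ℝ) (j : ι) (τ ξ : κ → ℝ) :
    pq d.w (d.y (τ + r • ξ) j) = d.q r j τ (ip (d.s j) ξ) := by
  rw [y_smul_apply]; rfl

end Dt

end

lemma nsq_nonneg (V : κ → ℝ) : 0 ≤ nsq V := sum_nonneg fun _ _ => sq_nonneg _

lemma ip_sq_le (m : κ → ℤ) (V : κ → ℝ) : ip m V ^ 2 ≤ (∑ k, (m k : ℝ) ^ 2) * nsq V :=
  sum_mul_sq_le_sq_mul_sq _ _ _

lemma amgm {z a b l : ℝ} (ha : 0 ≤ a) (hb : 0 ≤ b) (hl : 0 < l) (h : z ^ 2 = a * b) :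
    |z| ≤ 1 / (2 * l) * a + l / 2 * b := by
  refine abs_le.2 (abs_le_of_sq_le_sq' ?_ (by positivity))
  have e : (1 / (2 * l) * a + l / 2 * b) ^ 2 = (1 / (2 * l) * a - l / 2 * b) ^ 2 + a * b := by
    field_simp; ring
  rw [e, h]
  exact le_add_of_nonneg_left (sq_nonneg _)

lemma div_le_of {a b c : ℝ} (hb : 0 ≤ b) (hc : 0 ≤ c) (h : a ≤ c * b) : a / b ≤ c :=
  div_le_of_le_mul₀ hb hc h

namespace Hyp

variable {d : Dt ι κ} {B : ℝ}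

lemma q_nonneg (H : Hyp d B) (r : ℝ) (j : ι) (τ : κ → ℝ) (v : ℝ) : 0 ≤ d.q r j τ v :=
  H.W.pq_nonneg _

lemma M2_sq (ρ r : ℝ) {C2 : ℝ} (hC2 : 0 ≤ C2) (j j' : ι) (τ : κ → ℝ) (v : ℝ) :
    d.M2 ρ r C2 j j' τ v ^ 2 ≤ C2 * nsq (d.U ρ r j τ v) := by
  unfold Dt.M2; split_ifs with h
  · simpa using mul_nonneg hC2 (nsq_nonneg _)
  · exact not_lt.1 h

lemma M1_sum (ρ r : ℝ) {C1 C2 : ℝ} (hS : SplitT d.J d.s C1 C2) (j : ι) (τ : κ → ℝ) (v : ℝ) :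
    ∑ j' ∈ d.J, d.M1 ρ r C2 j j' τ v ^ 2 ≤ C1 * nsq (d.U ρ r j τ v) := by
  refine le_trans (le_of_eq ?_) (hS (d.U ρ r j τ v))
  refine sum_congr rfl fun j' _ => ?_
  unfold Dt.M1 Dt.X; split_ifs <;> simp

lemma X_sq_le (H : Hyp d B) (ρ : ℝ) {r : ℝ} (hr0 : 0 ≤ r) (hr1 : r ≤ 1) (j j' : ι) (τ : κ → ℝ)
    (v : ℝ) : d.X ρ r j j' τ v ^ 2 ≤
      (∑ k, (d.s j' k : ℝ) ^ 2) * (ρ ^ 2 * (1024 / d.w.om ^ 2 * d.q r j τ v ^ 2)) :=
  (ip_sq_le _ _).trans (mul_le_mul_of_nonneg_left (H.U1 ρ hr0 hr1 j τ v)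
    (sum_nonneg fun _ _ => sq_nonneg _))

lemma X_zero (H : Hyp d B) (ρ : ℝ) {r : ℝ} (hr0 : 0 ≤ r) (hr1 : r ≤ 1) (j j' : ι) (τ : κ → ℝ)
    (v : ℝ) (hq : d.q r j τ v = 0) : d.X ρ r j j' τ v = 0 := by
  have := H.X_sq_le ρ hr0 hr1 j j' τ v
  rw [hq] at this
  simpa using this

lemma nU_meas (H : Hyp d B) (ρ r : ℝ) (j : ι) :
    Measurable fun p : (κ → ℝ) × ℝ => nsq (d.U ρ r j p.1 p.2) :=
  Finset.measurable_sum _ fun k _ => (H.U_meas ρ r j k).pow_const 2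

lemma X_meas (H : Hyp d B) (ρ r : ℝ) (j j' : ι) :
    Measurable fun p : (κ → ℝ) × ℝ => d.X ρ r j j' p.1 p.2 :=
  Finset.measurable_sum _ fun k _ => (H.U_meas ρ r j k).const_mul _

lemma X_bm (H : Hyp d B) (ρ : ℝ) {r : ℝ} (hr0 : 0 ≤ r) (hr1 : r ≤ 1) (j j' : ι) :
    BM fun p : (κ → ℝ) × ℝ => d.X ρ r j j' p.1 p.2 := by
  refine ⟨H.X_meas ρ r j j',
    Real.sqrt ((∑ k, (d.s j' k : ℝ) ^ 2) * (ρ ^ 2 * (1024 / d.w.om ^ 2 * (1 / 4) ^ 2))),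
    fun p => Real.abs_le_sqrt ((H.X_sq_le ρ hr0 hr1 j j' _ _).trans ?_)⟩
  have h1 := H.q_nonneg r j p.1 p.2
  have h2 : d.q r j p.1 p.2 ≤ 1 / 4 := H.W.pq_le _
  have h3 : 0 ≤ ∑ k, (d.s j' k : ℝ) ^ 2 := sum_nonneg fun _ _ => sq_nonneg _
  gcongr

lemma g_meas (H : Hyp d B) (ρ r C2 : ℝ) (j j' : ι) :
    Measurable fun p : (κ → ℝ) × ℝ => d.g ρ r C2 j j' p.1 p.2 := by
  have h1 := H.X_meas ρ r j j'
  have h2 := H.nU_meas ρ r j
  have h3 := H.W.pq_meas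
  unfold Dt.g Dt.M1 Dt.q
  refine Measurable.div (Measurable.pow_const (Measurable.ite ?_ h1 measurable_const) 2)
    (by fun_prop)
  exact measurableSet_lt (h2.const_mul _) (h1.pow_const 2)

lemma g_nonneg (H : Hyp d B) (ρ r C2 : ℝ) (j j' : ι) (τ : κ → ℝ) (v : ℝ) :
    0 ≤ d.g ρ r C2 j j' τ v := div_nonneg (sq_nonneg _) (H.q_nonneg _ _ _ _)

lemma g_sum (H : Hyp d B) (ρ : ℝ) {r : ℝ} (hr0 : 0 ≤ r) (hr1 : r ≤ 1) {C1 C2 : ℝ} (hC1 : 0 ≤ C1)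
    (hS : SplitT d.J d.s C1 C2) (j : ι) (τ : κ → ℝ) (v : ℝ) :
    ∑ j' ∈ d.J, d.g ρ r C2 j j' τ v ≤ C1 * ρ ^ 2 * (16 / d.w.om ^ 2) * d.Dm ρ r j τ := by
  unfold Dt.g
  rw [← sum_div]
  have h0 := H.Dm_nonneg ρ r j τ
  refine div_le_of (H.q_nonneg _ _ _ _) (by positivity) ?_
  refine (M1_sum ρ r hS j τ v).trans ?_
  refine (mul_le_mul_of_nonneg_left (H.U2 ρ hr0 hr1 j τ v) hC1).trans (le_of_eq ?_)
  ring

lemma g_bm (H : Hyp d B) (ρ : ℝ) {r : ℝ} (hr0 : 0 ≤ r) (hr1 : r ≤ 1) {C1 C2 : ℝ} (hC1 : 0 ≤ C1)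
    (hS : SplitT d.J d.s C1 C2) (j : ι) {j' : ι} (hj' : j' ∈ d.J) :
    BM fun p : (κ → ℝ) × ℝ => d.g ρ r C2 j j' p.1 p.2 := by
  refine bm_of_mem (a := C1 * ρ ^ 2 * (16 / d.w.om ^ 2) * 1) (H.g_meas ρ r C2 j j')
    (fun p => H.g_nonneg _ _ _ _ _ _ _) fun p => ?_
  refine (single_le_sum (f := fun j' => d.g ρ r C2 j j' p.1 p.2)
    (fun _ _ => H.g_nonneg _ _ _ _ _ _ _) hj').trans ((H.g_sum ρ hr0 hr1 hC1 hS j _ _).trans ?_)
  exact mul_le_mul_of_nonneg_left (H.Dm_le _ _ _ _) (by positivity)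

lemma kp2_bm (H : Hyp d B) : BM (kp2 d.w) := bm_of_mem H.W.kp2_meas H.W.kp2_nonneg H.W.kp2_le

lemma dpr_bm (H : Hyp d B) : BM (dpr d.w) := bm_of_mem H.W.dpr_meas H.W.dpr_nonneg H.W.dpr_le

lemma gP_bm (H : Hyp d B) (ρ : ℝ) {r : ℝ} (hr0 : 0 ≤ r) (hr1 : r ≤ 1) {C1 C2 : ℝ} (hC1 : 0 ≤ C1)
    (hS : SplitT d.J d.s C1 C2) (j : ι) {j' : ι} (hj' : j' ∈ d.J) :
    BM fun p : (κ → ℝ) × (κ → ℝ) => d.g ρ r C2 j j' p.2 (ip (d.s j) p.1) :=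
  bm_comp (g := fun p : (κ → ℝ) × (κ → ℝ) => (p.2, ip (d.s j) p.1))
    (H.g_bm ρ hr0 hr1 hC1 hS j hj') (by fun_prop)

lemma Lg_bm (H : Hyp d B) (ρ : ℝ) {r : ℝ} (hr0 : 0 ≤ r) (hr1 : r ≤ 1) {C1 C2 : ℝ} (hC1 : 0 ≤ C1)
    (hS : SplitT d.J d.s C1 C2) (j : ι) {j' : ι} (hj' : j' ∈ d.J) : BM (d.Lg ρ r C2 j j') :=
  bm_mul (bm_comp H.kp2_bm (by fun_prop)) (H.gP_bm ρ hr0 hr1 hC1 hS j hj')

lemma S_bm (H : Hyp d B) (ρ : ℝ) {r : ℝ} (hr0 : 0 ≤ r) (hr1 : r ≤ 1) (j : ι) : BM (d.S ρ r j) :=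
  bm_sum _ fun j' _ => bm_mul (bm_mul (bm_comp H.dpr_bm (by fun_prop))
    (bm_comp ⟨H.c2m j j', 2, H.c2b j j'⟩ (by fun_prop)))
    (bm_comp (g := fun p : (κ → ℝ) × (κ → ℝ) => (p.2, ip (d.s j) p.1))
      (H.X_bm ρ hr0 hr1 j j') (by fun_prop))

/-- One term of the large part. -/
lemma large_pt (H : Hyp d B) (ρ : ℝ) {r : ℝ} (hr0 : 0 ≤ r) (hr1 : r ≤ 1) (C2 : ℝ) {lam : ℝ}
    (hlam : 0 < lam) (j j' : ι) (p : (κ → ℝ) × (κ → ℝ)) :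
    |dpr d.w (d.y (p.2 + r • p.1) j') * c2 d.w d.h j j' (d.y (p.2 + r • p.1)) *
        d.M1 ρ r C2 j j' p.2 (ip (d.s j) p.1)| ≤
      1 / (2 * lam) * (pq d.w (d.y (p.2 + r • p.1) j) * pq d.w (d.y (p.2 + r • p.1) j') *
        c2 d.w d.h j j' (d.y (p.2 + r • p.1)) ^ 2) + lam / 2 * d.Lg ρ r C2 j j' p := by
  have a1 := H.W.pq_nonneg (d.y (p.2 + r • p.1) j)
  have a2 := H.W.pq_nonneg (d.y (p.2 + r • p.1) j')
  refine amgm (by positivity) (mul_nonneg (H.W.kp2_nonneg _) (H.g_nonneg _ _ _ _ _ _ _)) hlam ?_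
  unfold Dt.Lg Dt.g
  rw [d.q_eq]
  by_cases hq : d.q r j p.2 (ip (d.s j) p.1) = 0
  · have : d.M1 ρ r C2 j j' p.2 (ip (d.s j) p.1) = 0 := by
      unfold Dt.M1; rw [H.X_zero ρ hr0 hr1 j j' _ _ hq]; simp
    rw [this]; simp
  · rw [mul_pow, mul_pow, ← H.W.kp2_mul]
    field_simp

/-- The small part at one point. -/
lemma small_pt (H : Hyp d B) (hS : SmallStmt) (hB : 0 ≤ B) (ρ : ℝ) {r : ℝ} (hr0 : 0 < r)
    (hr1 : r ≤ 1) {C2 A l : ℝ} (hC2 : 0 ≤ C2) (hA : 0 ≤ A) (hl : 1 ≤ l)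
    (hA2 : C2 * ρ ^ 2 * (256 / d.w.om ^ 2) * (2 + B / 2) ≤ A ^ 2) (p : (κ → ℝ) × (κ → ℝ)) :
    |∑ j ∈ d.J, ∑ j' ∈ d.J.erase j, dpr d.w (d.y (p.2 + r • p.1) j') *
        c2 d.w d.h j j' (d.y (p.2 + r • p.1)) * d.M2 ρ r C2 j j' p.2 (ip (d.s j) p.1)| ≤
      (Real.sqrt l * A / Real.sqrt r + if r < 2 * d.w.et / d.w.om then 4 * l * A else 0) *
          Inf d.w d.J d.h (d.y (p.2 + r • p.1)) +
        d.J.card * (24 * A / d.w.om * Real.exp (-l)) / Real.sqrt r := by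
  have h0 := H.om_pos
  have hI := H.Inn (d.y (p.2 + r • p.1))
  have hs0 : 0 < Real.sqrt r := Real.sqrt_pos.2 hr0
  have hs1 : Real.sqrt r ≤ 1 := Real.sqrt_le_one.2 hr1
  have hz : ∀ j j', pq d.w (d.y (p.2 + r • p.1) j) = 0 →
      d.M2 ρ r C2 j j' p.2 (ip (d.s j) p.1) = 0 := by
    intro j j' hq
    rw [d.q_eq] at hq
    unfold Dt.M2; rw [H.X_zero ρ hr0.le hr1 j j' _ _ hq]; simp
  have hD := H.sum_Dm_le ρ r p.2
  have hq := fun j => H.q_nonneg r j p.2 (ip (d.s j) p.1)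
  have hDm := fun j => H.Dm_nonneg ρ r j p.2
  split_ifs with hr
  · have key := (hS ι d.w d.J d.h (d.y (p.2 + r • p.1))
      (fun j j' => d.M2 ρ r C2 j j' p.2 (ip (d.s j) p.1)) (2 * A) l H.ok H.u01 (by positivity) hl
      hz).2 (fun j j' => ?_) (fun j' => ?_)
    · refine key.trans (add_le_add ?_ ?_)
      · refine mul_le_mul_of_nonneg_right ?_ hI
        have : 0 ≤ Real.sqrt l * A / Real.sqrt r := by positivity
        linarith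
      · rw [le_div_iff₀ hs0]
        calc _ ≤ d.J.card * (12 * (2 * A) / d.w.om * Real.exp (-l)) * 1 := by gcongr
          _ = _ := by ring
    · rw [d.q_eq]
      refine abs_le.2 (abs_le_of_sq_le_sq' ?_ (by positivity))
      rw [div_pow]
      refine div_le_of (sq_nonneg _) (sq_nonneg _) ?_
      refine (M2_sq ρ r hC2 j j' _ _).trans ?_
      refine (mul_le_mul_of_nonneg_left (H.U1 ρ hr0.le hr1 j _ _) hC2).trans ?_
      have e : C2 * (ρ ^ 2 * (1024 / d.w.om ^ 2 * d.q r j p.2 (ip (d.s j) p.1) ^ 2)) =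
          4 * (C2 * ρ ^ 2 * (256 / d.w.om ^ 2)) * d.q r j p.2 (ip (d.s j) p.1) ^ 2 := by ring
      rw [e]
      refine mul_le_mul_of_nonneg_right ?_ (sq_nonneg _)
      have : 0 ≤ C2 * ρ ^ 2 * (256 / d.w.om ^ 2) := by positivity
      nlinarith
    · calc ∑ j ∈ d.J, d.M2 ρ r C2 j j' p.2 (ip (d.s j) p.1) ^ 2 / pq d.w (d.y (p.2 + r • p.1) j)
          ≤ ∑ j ∈ d.J, C2 * ρ ^ 2 * (16 / d.w.om ^ 2) * d.Dm ρ r j p.2 := by
            refine sum_le_sum fun j _ => ?_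
            rw [d.q_eq]
            have := hDm j
            refine div_le_of (hq j) (by positivity) ?_
            refine (M2_sq ρ r hC2 j j' _ _).trans ?_
            refine (mul_le_mul_of_nonneg_left (H.U2 ρ hr0.le hr1 j _ _) hC2).trans (le_of_eq ?_)
            ring
        _ ≤ C2 * ρ ^ 2 * (16 / d.w.om ^ 2) * (2 + B / 2) := by
            rw [← mul_sum]; gcongr
        _ ≤ C2 * ρ ^ 2 * (256 / d.w.om ^ 2) * (2 + B / 2) := by gcongr; norm_num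
        _ ≤ (2 * A) ^ 2 := by nlinarith [sq_nonneg A]
  · have key := (hS ι d.w d.J d.h (d.y (p.2 + r • p.1))
      (fun j j' => d.M2 ρ r C2 j j' p.2 (ip (d.s j) p.1)) (A / Real.sqrt r) l H.ok H.u01
      (by positivity) hl hz).1 (fun j' => ?_)
    · refine key.trans (add_le_add (le_of_eq (by ring)) ?_)
      calc _ = d.J.card * (1 * A / d.w.om * Real.exp (-l)) / Real.sqrt r := by ring
        _ ≤ _ := by gcongr; norm_num
    · calc ∑ j ∈ d.J, (d.M2 ρ r C2 j j' p.2 (ip (d.s j) p.1) / pq d.w (d.y (p.2 + r • p.1) j)) ^ 2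
          ≤ ∑ j ∈ d.J, C2 * ρ ^ 2 * (256 / (d.w.om ^ 2 * r)) * d.Dm ρ r j p.2 := by
            refine sum_le_sum fun j _ => ?_
            rw [d.q_eq, div_pow]
            have := hDm j
            refine div_le_of (sq_nonneg _) (by positivity) ?_
            refine (M2_sq ρ r hC2 j j' _ _).trans ?_
            refine (mul_le_mul_of_nonneg_left (H.U3 ρ hr0 hr1 (not_lt.1 hr) j _ _) hC2).trans
              (le_of_eq ?_)
            ring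
        _ ≤ C2 * ρ ^ 2 * (256 / (d.w.om ^ 2 * r)) * (2 + B / 2) := by
            rw [← mul_sum]; gcongr
        _ = C2 * ρ ^ 2 * (256 / d.w.om ^ 2) * (2 + B / 2) / r := by field_simp
        _ ≤ A ^ 2 / r := by gcongr
        _ = (A / Real.sqrt r) ^ 2 := by rw [div_pow, Real.sq_sqrt hr0.le]

/-- Smoothing of the squared score. -/
lemma large_int (H : Hyp d B) (hG : GaussStmt) {ρ r n0 : ℝ} (hρ : 0 < ρ) (hr0 : 0 < r)
    (hr1 : r ≤ 1) (hn : 0 < n0) {C1 C2 : ℝ} (hC1 : 0 ≤ C1) (hS : SplitT d.J d.s C1 C2) (j : ι)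
    {j' : ι} (hj' : j' ∈ d.J) (hT : T3 (d.s j'))
    (hZ : n0 ≤ (univ.filter fun k => d.s j k = 0 ∧ d.s j' k ≠ 0).card) :
    ∫ p, d.Lg ρ r C2 j j' p ∂(gm κ ρ).prod (cube κ) ≤ Fi d.w * (1 + 1 / (r * ρ * Real.sqrt n0)) *
      ∫ p, d.g ρ r C2 j j' p.2 (ip (d.s j) p.1) ∂(gm κ ρ).prod (cube κ) := by
  have i1 := bm_int (H.Lg_bm ρ hr0.le hr1 hC1 hS j hj') ((gm κ ρ).prod (cube κ))
  have i2 := bm_int (H.gP_bm ρ hr0.le hr1 hC1 hS j hj') ((gm κ ρ).prod (cube κ))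
  rw [integral_prod_symm _ i1, integral_prod_symm _ i2, ← integral_const_mul]
  refine integral_mono i1.integral_prod_right (i2.integral_prod_right.const_mul _) fun τ => ?_
  have := (hG κ ρ).2 (d.s j) (d.s j') (kp2 d.w) (fun v => d.g ρ r C2 j j' τ v) (d.y τ j') r n0
    hρ hr0 hn hT hZ H.kp2_bm H.W.kp2_nonneg H.W.kp2_per
    (bm_comp (g := fun v : ℝ => (τ, v)) (H.g_bm ρ hr0.le hr1 hC1 hS j hj') (by fun_prop))
    (fun v => H.g_nonneg _ _ _ _ _ _ _)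
  simpa only [Dt.Lg, Dt.y_smul_apply, Fi] using this

lemma Dm_int (H : Hyp d B) (ρ r : ℝ) (j : ι) :
    ∫ p, d.Dm ρ r j p.2 ∂(gm κ ρ).prod (cube κ) = tm fun η => d.dd j (d.y η) := by
  rw [integral_fun_snd, probReal_univ, one_smul,
    ← shift_int (H.per_dd j) (bm_comp (H.dd_bm j) (by fun_prop)) ρ (-r),
    integral_prod_symm _ (bm_int (bm_comp (H.dd_bm j) (by fun_prop)) _)]
  simp only [Dt.Dm, neg_smul, sub_eq_add_neg]

lemma large_sum (H : Hyp d B) (hG : GaussStmt) {ρ r n0 : ℝ} (hρ : 0 < ρ) (hr0 : 0 < r)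
    (hr1 : r ≤ 1) (hn : 0 < n0) {C1 C2 : ℝ} (hC1 : 0 ≤ C1) (hS : SplitT d.J d.s C1 C2)
    (hT : ∀ j, T3 (d.s j)) (hZ : ∀ j ∈ d.J, ∀ j' ∈ d.J, j ≠ j' →
      n0 ≤ (univ.filter fun k => d.s j k = 0 ∧ d.s j' k ≠ 0).card) :
    ∫ p, ∑ j ∈ d.J, ∑ j' ∈ d.J.erase j, d.Lg ρ r C2 j j' p ∂(gm κ ρ).prod (cube κ) ≤
      Fi d.w * (1 + 1 / (r * ρ * Real.sqrt n0)) * (C1 * ρ ^ 2 * (16 / d.w.om ^ 2)) *
        ∑ j ∈ d.J, tm fun η => d.dd j (d.y η) := by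
  have i1 := fun j j' (hj' : j' ∈ d.J.erase j) =>
    bm_int (H.Lg_bm ρ hr0.le hr1 hC1 hS j (mem_of_mem_erase hj')) ((gm κ ρ).prod (cube κ))
  have i2 := fun j j' (hj' : j' ∈ d.J.erase j) =>
    bm_int (H.gP_bm ρ hr0.le hr1 hC1 hS j (mem_of_mem_erase hj')) ((gm κ ρ).prod (cube κ))
  have hF : 0 ≤ Fi d.w * (1 + 1 / (r * ρ * Real.sqrt n0)) :=
    mul_nonneg (zero_le_one.trans H.W.Fi_ge) (by positivity)
  rw [integral_finsetSum _ fun j _ => integrable_finsetSum _ (i1 j), mul_sum]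
  refine sum_le_sum fun j hj => ?_
  rw [integral_finsetSum _ (i1 j)]
  refine (sum_le_sum fun j' hj' => H.large_int hG hρ hr0 hr1 hn hC1 hS j (mem_of_mem_erase hj')
    (hT j') (hZ j hj j' (mem_of_mem_erase hj') (ne_of_mem_erase hj').symm)).trans ?_
  rw [← mul_sum, ← integral_finsetSum _ (i2 j), mul_assoc _ (C1 * ρ ^ 2 * (16 / d.w.om ^ 2)),
    ← H.Dm_int ρ r j, ← integral_const_mul (C1 * ρ ^ 2 * (16 / d.w.om ^ 2))]
  refine mul_le_mul_of_nonneg_left ?_ hF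
  refine integral_mono (integrable_finsetSum _ (i2 j))
    ((bm_int (bm_comp (H.Dm_bm ρ r j) measurable_snd) _).const_mul _) fun p => ?_
  refine le_trans ?_ (H.g_sum ρ hr0.le hr1 hC1 hS j p.2 (ip (d.s j) p.1))
  exact sum_le_sum_of_subset_of_nonneg (erase_subset _ _) fun _ _ _ => H.g_nonneg _ _ _ _ _ _ _

/-- The bound for the pairing at time `r`. -/
lemma S_le (H : Hyp d B) (hG : GaussStmt) (hSm : SmallStmt) (hB : 0 ≤ B) {ρ r n0 : ℝ}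
    (hρ : 0 < ρ) (hr0 : 0 < r) (hr1 : r ≤ 1) (hn : 0 < n0) {C1 C2 A l lam : ℝ} (hC1 : 0 ≤ C1)
    (hC2 : 0 ≤ C2) (hA : 0 ≤ A) (hl : 1 ≤ l) (hlam : 0 < lam) (hS : SplitT d.J d.s C1 C2)
    (hT : ∀ j, T3 (d.s j)) (hZ : ∀ j ∈ d.J, ∀ j' ∈ d.J, j ≠ j' →
      n0 ≤ (univ.filter fun k => d.s j k = 0 ∧ d.s j' k ≠ 0).card)
    (hA2 : C2 * ρ ^ 2 * (256 / d.w.om ^ 2) * (2 + B / 2) ≤ A ^ 2) :
    |∑ j ∈ d.J, ∫ p, d.S ρ r j p ∂(gm κ ρ).prod (cube κ)| ≤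
      1 / (2 * lam) * tm (fun η => W2 d.w d.J d.h (d.y η)) +
      lam / 2 * (Fi d.w * (1 + 1 / (r * ρ * Real.sqrt n0)) * (C1 * ρ ^ 2 * (16 / d.w.om ^ 2)) *
        ∑ j ∈ d.J, tm fun η => d.dd j (d.y η)) +
      ((Real.sqrt l * A / Real.sqrt r + if r < 2 * d.w.et / d.w.om then 4 * l * A else 0) *
          tm (fun η => Inf d.w d.J d.h (d.y η)) +
        d.J.card * (24 * A / d.w.om * Real.exp (-l)) / Real.sqrt r) := by
  set α := Real.sqrt l * A / Real.sqrt r + if r < 2 * d.w.et / d.w.om then 4 * l * A else 0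
  set β := d.J.card * (24 * A / d.w.om * Real.exp (-l)) / Real.sqrt r
  have b2 : BM fun η => W2 d.w d.J d.h (d.y η) := bm_comp H.bm2 (by fun_prop)
  have bI : BM fun η => Inf d.w d.J d.h (d.y η) := bm_comp H.bmI (by fun_prop)
  have i1 : Integrable (fun p : (κ → ℝ) × (κ → ℝ) => W2 d.w d.J d.h (d.y (p.2 + r • p.1)))
      ((gm κ ρ).prod (cube κ)) := bm_int (bm_comp H.bm2 (by fun_prop)) _
  have i2 : Integrable (fun p => ∑ j ∈ d.J, ∑ j' ∈ d.J.erase j, d.Lg ρ r C2 j j' p)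
      ((gm κ ρ).prod (cube κ)) := integrable_finsetSum _ fun j _ => integrable_finsetSum _
    fun j' hj' => bm_int (H.Lg_bm ρ hr0.le hr1 hC1 hS j (mem_of_mem_erase hj')) _
  have i3 : Integrable (fun p : (κ → ℝ) × (κ → ℝ) => Inf d.w d.J d.h (d.y (p.2 + r • p.1)))
      ((gm κ ρ).prod (cube κ)) := bm_int (bm_comp H.bmI (by fun_prop)) _
  have j1 := i1.const_mul (1 / (2 * lam))
  have j2 := i2.const_mul (lam / 2)
  have j3 := i3.const_mul α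
  have j4 : Integrable (fun _ : (κ → ℝ) × (κ → ℝ) => β) ((gm κ ρ).prod (cube κ)) :=
    integrable_const _
  rw [← integral_finsetSum _ fun j _ => bm_int (H.S_bm ρ hr0.le hr1 j) _]
  have hb := norm_integral_le_of_norm_le (μ := (gm κ ρ).prod (cube κ))
    (f := fun p => ∑ j ∈ d.J, d.S ρ r j p) ((j1.add j2).add (j3.add j4))
    (ae_of_all _ fun p => by
      have e : ∑ j ∈ d.J, d.S ρ r j p =
          (∑ j ∈ d.J, ∑ j' ∈ d.J.erase j, dpr d.w (d.y (p.2 + r • p.1) j') *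
            c2 d.w d.h j j' (d.y (p.2 + r • p.1)) * d.M1 ρ r C2 j j' p.2 (ip (d.s j) p.1)) +
          ∑ j ∈ d.J, ∑ j' ∈ d.J.erase j, dpr d.w (d.y (p.2 + r • p.1) j') *
            c2 d.w d.h j j' (d.y (p.2 + r • p.1)) * d.M2 ρ r C2 j j' p.2 (ip (d.s j) p.1) := by
        simp only [Dt.S, d.X_eq ρ r C2, mul_add, sum_add_distrib]
      rw [Real.norm_eq_abs, e]
      refine (abs_add_le _ _).trans (add_le_add ?_ (H.small_pt hSm hB ρ hr0 hr1 hC2 hA hl hA2 p))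
      refine (abs_sum_le_sum_abs _ _).trans ?_
      refine (sum_le_sum fun j _ => (abs_sum_le_sum_abs _ _).trans
        (sum_le_sum fun j' _ => H.large_pt ρ hr0.le hr1 C2 hlam j j' p)).trans (le_of_eq ?_)
      simp only [sum_add_distrib, ← mul_sum, Pi.add_apply, W2])
  rw [Real.norm_eq_abs, integral_add' (j1.add j2) (j3.add j4), integral_add' j1 j2,
    integral_add' j3 j4, integral_const_mul, integral_const_mul, integral_const_mul,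
    shift_int H.per_W2 b2 ρ r, shift_int H.per_Inf bI ρ r, integral_const, probReal_univ,
    one_smul] at hb
  refine hb.trans ?_
  have := H.large_sum hG hρ hr0 hr1 hn hC1 hS hT hZ
  gcongr

/-- Splitting of the Gaussian move. -/
lemma N_eq (H : Hyp d B) (hG : GaussStmt) {σ ρ : ℝ} (hσ : σ ^ 2 = 2 * ρ ^ 2) {r : ℝ}
    (hr0 : 0 ≤ r) (hr1 : r ≤ 1) (j : ι) :
    d.N σ j r = 2 * ∫ p, d.S ρ r j p ∂(gm κ ρ).prod (cube κ) := by
  obtain ⟨C, hC⟩ := H.abs_F_le j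
  have hPm := H.Ph_meas j
  have hHm := H.Hj_meas j
  have hi : ∀ σ k, Integrable (fun ξ : κ → ℝ => ξ k) (gm κ σ) := fun σ k =>
    (M.Gauss.mem2 σ k).integrable (by simp)
  -- the integrand as a function of `(ξ1, ξ2, η)`
  set Φ : (κ → ℝ) → (κ → ℝ) → (κ → ℝ) → ℝ := fun a b η =>
    d.Ph j (d.y η) (ip (d.s j) b) * d.Hj j a (d.y (η + r • b)) with hΦ
  have hΦm : Measurable fun p : ((κ → ℝ) × (κ → ℝ)) × (κ → ℝ) => Φ p.1.1 p.1.2 p.2 :=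
    (hPm.comp (f := fun p : ((κ → ℝ) × (κ → ℝ)) × (κ → ℝ) => (d.y p.2, ip (d.s j) p.1.2))
      (by fun_prop)).mul (hHm.comp (f := fun p : ((κ → ℝ) × (κ → ℝ)) × (κ → ℝ) =>
        (p.1.1, d.y (p.2 + r • p.1.2))) (by fun_prop))
  have hΦb : ∀ a b, BM (Φ a b) := fun a b =>
    ⟨hΦm.comp (f := fun η => ((a, b), η)) (by fun_prop), _, fun η => hC a _ _ _⟩
  set G : (κ → ℝ) × (κ → ℝ) → ℝ := fun p => ∫ η, Φ p.1 p.2 η ∂cube κ with hGdef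
  have hGm : Measurable G := (hΦm.stronglyMeasurable.integral_prod_right' (ν := cube κ)).measurable
  have hGb : ∀ p, |G p| ≤ C * ∑ k, |p.1 k| := fun p => by
    simpa using norm_integral_le_of_norm_le_const (μ := cube κ) (f := Φ p.1 p.2)
      (C := C * ∑ k, |p.1 k|) (ae_of_all _ fun η => hC p.1 _ _ _)
  have hFm : Measurable fun ξ => G (ξ, ξ) := hGm.comp (by fun_prop)
  have hFi : Integrable (fun ξ => G (ξ, ξ)) (gm κ σ) :=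
    Integrable.mono' (integrable_sum_abs (hi σ) C) hFm.aestronglyMeasurable
      (ae_of_all _ fun ξ => hGb (ξ, ξ))
  have e0 : d.N σ j r = ∫ ξ, G (ξ, ξ) ∂gm κ σ := rfl
  rw [e0, ((hG κ σ).1 ρ _ hσ hFm hFi).2]
  have hG1 : Integrable (fun p : (κ → ℝ) × (κ → ℝ) => G (p.1, p.1 + p.2))
      ((gm κ ρ).prod (gm κ ρ)) :=
    Integrable.mono' ((integrable_sum_abs (hi ρ) C).comp_fst (gm κ ρ))
      (hGm.comp (by fun_prop)).aestronglyMeasurable (ae_of_all _ fun p => hGb (p.1, p.1 + p.2))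
  have hG2 : Integrable (fun p : (κ → ℝ) × (κ → ℝ) => G (p.2, p.2 + p.1))
      ((gm κ ρ).prod (gm κ ρ)) := hG1.swap
  have e1 : ∀ p : (κ → ℝ) × (κ → ℝ),
      G (p.1 + p.2, p.1 + p.2) = G (p.1, p.1 + p.2) + G (p.2, p.2 + p.1) := by
    intro p
    rw [add_comm p.2 p.1]
    simp only [hGdef]
    rw [← integral_add (bm_int (hΦb _ _) _) (bm_int (hΦb _ _) _)]
    simp only [hΦ, d.Hj_add, mul_add]
  have e2 : ∫ p, G (p.2, p.2 + p.1) ∂(gm κ ρ).prod (gm κ ρ) =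
      ∫ p, G (p.1, p.1 + p.2) ∂(gm κ ρ).prod (gm κ ρ) :=
    integral_prod_swap (fun p : (κ → ℝ) × (κ → ℝ) => G (p.1, p.1 + p.2))
  simp_rw [e1]
  rw [integral_add hG1 hG2, e2, ← two_mul, integral_prod _ hG1]
  congr 1
  set Ψ : (κ → ℝ) → (κ → ℝ) → (κ → ℝ) → ℝ := fun b τ a =>
    d.ph r j τ (ip (d.s j) b) a * d.Hj j a (d.y (τ + r • b)) with hΨ
  have e3 : ∀ a b : κ → ℝ, G (a, a + b) = ∫ τ, Ψ b τ a ∂cube κ := by
    intro a b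
    have := (M.torus_proof κ).1 _ (H.per_F j (ip (d.s j) (a + b)) a (r • (a + b)))
      (hΦb a (a + b)) (-(r • a))
    simp only [tm] at this
    simp only [hGdef, hΦ, hΨ]
    rw [← this]
    refine integral_congr_ae (ae_of_all _ fun τ => ?_)
    have : τ + -(r • a) + r • (a + b) = τ + r • b := by rw [smul_add]; abel
    simp only [this, Dt.ph, ip_add, sub_eq_add_neg]
  have hint : Integrable (fun p : ((κ → ℝ) × (κ → ℝ)) × (κ → ℝ) => Ψ p.1.1 p.1.2 p.2)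
      (((gm κ ρ).prod (cube κ)).prod (gm κ ρ)) := by
    refine Integrable.mono' ((integrable_sum_abs (hi ρ) C).comp_snd _) ?_
      (ae_of_all _ fun p => hC p.2 _ _ _)
    exact (((H.ph_meas r j).comp (f := fun p : ((κ → ℝ) × (κ → ℝ)) × (κ → ℝ) =>
      ((p.1.2, ip (d.s j) p.1.1), p.2)) (by fun_prop)).mul
      (hHm.comp (f := fun p : ((κ → ℝ) × (κ → ℝ)) × (κ → ℝ) =>
        (p.2, d.y (p.1.2 + r • p.1.1))) (by fun_prop))).aestronglyMeasurable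
  simp only [e3]
  rw [← swap3 (gm κ ρ) (cube κ) (gm κ ρ) Ψ hint,
    integral_prod _ (bm_int (H.S_bm ρ hr0 hr1 j) _)]
  simp only [hΨ, H.int_first]
  rfl

end Hyp

end Vale.Agent.P318.C.Near
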