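import Vale.Agent.P318.C.EStmt

/-!
Track C, part (E): the numerical parameters of the system.
-/

namespace Vale.Agent.P318.C

open Finset
open B (cd)

/-- The parameters.  `A` indexes the partitions (`a0` is the trivial one), `A'` the pairs
(dyadic scale, partition used at this scale); `C` dominates the constants of the existence
lemmas. -/
structure Par (n : ℕ) (l C : ℝ) {A A' : Type} [Fintype A] [DecidableEq A] [Fintype A']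
    [DecidableEq A'] (a0 : A) (m Mf : A → ℕ) (cl : A → ℕ) (ph : A' → A) (sc : A' → ℕ) (Kn : ℕ)
    (c : ℕ → ℕ) (ns : A → ℕ) (LGa : A → ℝ) (e : ℕ → ℝ) (nt : ℕ) : Prop where
  l_eq : l = Real.log n
  n_ge : 16 ≤ n
  l_ge : 100 ≤ l
  top : m a0 = 1
  pos : ∀ a, 1 ≤ m a
  cardA : 2 * cd A ≤ l ^ (21 / 20 : ℝ)
  cardA_le : cd A ≤ n
  msq : ∀ a, 10000 * (m a : ℝ) ^ 2 * l ≤ n
  mA : ∀ a, 2 * cd A * m a ≤ n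
  M_ge : ∀ a, l ^ 2 ≤ Mf a
  M_le : ∀ a, (Mf a : ℝ) ≤ n
  sum_le : ∑ a ∈ univ.erase a0, m a * Mf a ≤ Mf a0
  dim : ∀ a, a ≠ a0 → 3 * l ^ (22 / 5 : ℝ) * Mf a * m a * Real.sqrt (m a) ≤ n
  dim0 : l ^ (22 / 5 : ℝ) * Mf a0 ≤ cd A * n
  C_le : C ≤ l ^ (1 / 20 : ℝ)
  C_le' : C * l ≤ l ^ 2
  lowg : C * C * (l + 1) * cd A ^ 3 ≤ l ^ (22 / 5 : ℝ)
  phi : 2 * cd A / l ^ (22 / 5 : ℝ) ≤ 1 / l ^ (33 / 10 : ℝ)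
  LG_ge : 1 ≤ 5 * Real.log l
  LG_le : 5 * Real.log l ≤ l ^ (1 / 20 : ℝ)
  LG_exp : Real.exp (-(5 * Real.log l)) ≤ 1 / l ^ 5
  fail1 : (n : ℝ) ^ 2 * (10 * Real.exp (-l ^ 2)) ≤ 1 / 100
  fail2 : (n : ℝ) * (C * (n + 1) ^ 2 * Real.exp (-(l ^ 2 / C))) ≤ 1 / 100
  fail3 : Real.exp (n * (2 * Real.exp (-l ^ 2))) - 1 ≤ 1 / 100
  c1 : Real.log (2 * ((n ^ 8 : ℕ) : ℝ) + 1) + 1 ≤ l ^ (22 / 5 : ℝ) / (160 * l ^ (33 / 10 : ℝ))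
  Kn_pos : 1 ≤ Kn
  ph_ne : ∀ a', ph a' ≠ a0
  bij : ∀ k ∈ Icc 1 Kn, ∀ f : A → ℝ, ∑ a' ∈ univ.filter fun a' => sc a' = k, f (ph a') =
    ∑ a ∈ univ.filter fun a => cl a = c k, f a
  cls : ∀ k ∈ Icc 1 Kn,
    100 * l ≤ 1 / l ^ (1 / 100 : ℝ) * (univ.filter fun a => cl a = c k).card
  m_ge : ∀ k ∈ Icc 1 Kn, ∀ a, cl a = c k →
    8 * (l ^ (1 / 100 : ℝ) * 2 ^ k) ≤ 1 / l ^ (1 / 100 : ℝ) * m a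
  ns_pos : ∀ a, 1 ≤ ns a
  LGa_ge : ∀ a, 1 ≤ LGa a
  row : ∀ a, a ≠ a0 → C * (ns a * LGa a + Real.exp (-LGa a) * (2 * n / m a)) ≤ Mf a
  e_mem : ∀ k, 0 ≤ e k ∧ e k ≤ 1
  e_ge : ∀ a', sc a' ∈ Icc 1 Kn → (33 * C + 1) / ns (ph a') ≤ e (sc a') ^ 2
  e_sum : (∑ k ∈ Icc 1 Kn, (1 / 2 : ℝ) ^ k * e k) + 1 / 2 ^ Kn ≤ l ^ (9 / 4 : ℝ) / Real.sqrt n
  nt_pos : 1 ≤ nt
  nt_le : cd A * (5 * Real.log l) * nt ≤ Mf a0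
  eps_le : cd A * (1 / l ^ 5 * n) ≤ Mf a0
  C1t : 40000 * C ≤ l ^ (1 / 50 : ℝ)
  C2t : 40000 * C * n ≤ l ^ 5 * nt

def ParStmt : Prop :=
  ∀ C : ℝ, 1 ≤ C → ∃ n0 : ℕ, ∀ n : ℕ, n0 ≤ n →
    ∃ (A A' : Type) (_ : Fintype A) (_ : DecidableEq A) (_ : Fintype A') (_ : DecidableEq A')
      (a0 : A) (m Mf : A → ℕ) (cl : A → ℕ) (ph : A' → A) (sc : A' → ℕ) (Kn : ℕ) (c : ℕ → ℕ)
      (ns : A → ℕ) (LGa : A → ℝ) (e : ℕ → ℝ) (nt : ℕ),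
      Par n (Real.log n) C a0 m Mf cl ph sc Kn c ns LGa e nt

end Vale.Agent.P318.C
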