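import Vale.Agent.P318.C.Defs

/-!
Track C, part (I): statements of the isoperimetric part for the linear window.
Every part is a `Prop`; a part is proved as `theorem x_proof (h1 : AStmt) ... : XStmt`.
-/

namespace Vale.Agent.P318.C

open Finset MeasureTheory ProbabilityTheory
open M (ind bit wt1 wt Eb Dd pt zz U01 coef cube tm Per BM ip ch fc nsq gm chi kap k0 bb A0 A1
  Dual Lat lin Inv Ksh CND blk)

/-- Facts on the window. -/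
structure WinAt (w : Wn) : Prop where
  hh_ge : 1 / (2 * w.om) ≤ w.hh
  hh_le : w.hh ≤ 1 / w.om
  deriv : ∀ x, HasDerivAt (ramp w) (slope w x) x
  ramp_zero : ∀ x, x ≤ 0 → ramp w x = 0
  ramp_one : ∀ x, 2 * w.om ≤ x → ramp w x = 1
  ramp_lin : ∀ x, w.et ≤ x → x ≤ 2 * w.om - w.et → ramp w x = w.hh * (x - w.et / 2)
  ramp_symm : ∀ x, ramp w (2 * w.om - x) = 1 - ramp w x
  ramp_mono : Monotone (ramp w)
  slope_cont : Continuous (slope w)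
  pr_nonneg : ∀ y, 0 ≤ pr w y
  pr_le : ∀ y, pr w y ≤ 1
  dep_nonneg : ∀ y, 0 ≤ dep w y
  dep_le : ∀ y, dep w y ≤ w.om
  pq_ge : ∀ y, dep w y * dpr w y / 4 ≤ pq w y
  pq_le' : ∀ y, pq w y ≤ dep w y * dpr w y
  pq_nonneg : ∀ y, 0 ≤ pq w y
  pq_le : ∀ y, pq w y ≤ 1 / 4
  dpr_nonneg : ∀ y, 0 ≤ dpr w y
  dpr_le : ∀ y, dpr w y ≤ 1 / w.om
  pq_le_dpr : ∀ y, pq w y ≤ dpr w y
  psi_nonneg : ∀ y, 0 ≤ psi w y
  psi_le : ∀ y, psi w y ≤ dpr w y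
  psi_sq_le : ∀ y, psi w y ^ 2 ≤ 16 / w.om ^ 2 * pq w y
  kp2_mul : ∀ y, kp2 w y * pq w y = dpr w y ^ 2
  kp2_nonneg : ∀ y, 0 ≤ kp2 w y
  kp2_le : ∀ y, kp2 w y ≤ 4 / (w.om * w.et)
  pr_per : ∀ y (n : ℤ), pr w (y + n) = pr w y
  dep_per : ∀ y (n : ℤ), dep w (y + n) = dep w y
  dpr_per : ∀ y (n : ℤ), dpr w (y + n) = dpr w y
  pq_per : ∀ y (n : ℤ), pq w (y + n) = pq w y
  psi_per : ∀ y (n : ℤ), psi w (y + n) = psi w y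
  kp2_per : ∀ y (n : ℤ), kp2 w (y + n) = kp2 w y
  pr_meas : Measurable (pr w)
  dep_meas : Measurable (dep w)
  dpr_meas : Measurable (dpr w)
  pq_meas : Measurable (pq w)
  psi_meas : Measurable (psi w)
  kp2_meas : Measurable (kp2 w)
  dep_supp : ∀ y, 0 < dep w y → |Int.fract y - 1 / 2| < w.om
  pr_ne_zero : ∀ y, pr w y ≠ 0 → 1 / 2 - w.om < Int.fract y
  pr_ne_one : ∀ y, pr w y ≠ 1 → Int.fract y < 1 / 2 + w.om
  int_dpr : ∫ t in (0 : ℝ)..1, dpr w t = 1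
  int_win : ∫ t in (0 : ℝ)..1, ind (0 < dep w t) ≤ 2 * w.om
  int_psi : 1 / 2 ≤ ∫ t in (0 : ℝ)..1, psi w t
  Fi_ge : 1 ≤ Fi w
  Fi_le : Fi w ≤ 8 / w.om * (1 + Real.log (w.om / w.et))
  zmean_id : zmean w (fun z => z) = 0
  path : ∀ y u r, |u| < 1 / 2 → 0 < dep w y → w.om / 2 ≤ dep w (y + u) → 0 ≤ r → r ≤ 1 →
    ⌊y + r * u⌋ = ⌊y⌋ ∧ pq w y ≤ 16 * pq w (y + r * u) ∧
      r / 16 * min (r * w.om / (2 * w.et)) 1 ≤ pq w (y + r * u)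

def WinStmt : Prop := ∀ w : Wn, w.Ok → WinAt w

/-- Splitting of the Gaussian move and smoothing of a periodic weight. -/
def GaussStmt : Prop :=
  ∀ (κ : Type) [Fintype κ] (σ : ℝ),
    (∀ (σ' : ℝ) (F : (κ → ℝ) → ℝ), σ ^ 2 = 2 * σ' ^ 2 → Measurable F → Integrable F (gm κ σ) →
      Integrable (fun p : (κ → ℝ) × (κ → ℝ) => F (p.1 + p.2)) ((gm κ σ').prod (gm κ σ')) ∧
      ∫ ξ, F ξ ∂gm κ σ = ∫ p, F (p.1 + p.2) ∂(gm κ σ').prod (gm κ σ')) ∧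
    ∀ (s s' : κ → ℤ) (q g : ℝ → ℝ) (a r n0 : ℝ), 0 < σ → 0 < r → 0 < n0 → T3 s' →
      n0 ≤ (univ.filter fun k => s k = 0 ∧ s' k ≠ 0).card → BM q → (∀ x, 0 ≤ q x) →
      (∀ x (n : ℤ), q (x + n) = q x) → BM g → (∀ x, 0 ≤ g x) →
      ∫ ξ, q (a + r * ip s' ξ) * g (ip s ξ) ∂gm κ σ ≤
        (∫ x in (0 : ℝ)..1, q x) * (1 + 1 / (r * σ * Real.sqrt n0)) * ∫ ξ, g (ip s ξ) ∂gm κ σ

/-- The weighted Gaussian move acts as the mean on functions supported in the window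
(`M.LineStmt` for rows with entries in `{0,1,-1}`). -/
def LineStmt : Prop :=
  ∀ (κ : Type) [Fintype κ] (σ ε W ω t e : ℝ) (s : κ → ℤ) (F G : (κ → ℝ) → ℝ),
    0 < ε → 0 < W → W ^ 2 = σ ^ 2 * ∑ k, (s k : ℝ) ^ 2 → bb W ε ≤ 1 → T3 s → 0 ≤ ω → 0 ≤ e →
    Per F → BM F → Per G → BM G →
    (∀ β, F β ≠ 0 → |Int.fract (t + ip s β) - 1 / 2| ≤ ω) →
    (∀ β, G β ≠ 0 → |Int.fract (t + ip s β) - 1 / 2| ≤ ω) →
    (∀ m : κ → ℤ, (¬ ∃ i : ℤ, m = i • s) → fc F m ≠ 0 → fc G m ≠ 0 → ‖kap σ ε s m‖ ≤ e) →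
    |∫ ξ, chi ε (ip s ξ) * tm (fun β => F β * G (β + ξ)) ∂gm κ σ - A0 W ε * tm F * tm G| ≤
      4 * Real.pi * ω * A1 W ε * tm (fun β => |F β|) * tm (fun β => |G β|) +
        e * Real.sqrt (tm fun β => F β ^ 2) * Real.sqrt (tm fun β => G β ^ 2)

/-- Hoeffding form of the tail bound of `M.BitStmt`. -/
def HoefStmt : Prop :=
  ∀ (ι : Type) [Fintype ι] [DecidableEq ι] (p : ι → ℝ), (∀ i, 0 ≤ p i ∧ p i ≤ 1) →
    ∀ (G : (ι → Bool) → ℝ) (a : ι → ℝ) (A l : ℝ), (∀ b, |G b| ≤ 1) → 0 ≤ A → 1 ≤ l →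
      ∑ j, a j ^ 2 ≤ A ^ 2 →
      |Eb p fun b => G b * ∑ j, a j * (bit (b j) - p j)| ≤
        Real.sqrt l * A * Eb p (fun b => |G b|) + A * Real.exp (-l)

/-- Measurability, bounds, invariance and derivatives along segments. -/
def DerivStmt : Prop :=
  ∀ (ι : Type) [Fintype ι] [DecidableEq ι] (w : Wn) (h : (ι → ℤ) → ℝ), w.Ok → U01 h →
    (Measurable (Ey w h) ∧ U01 (Ey w h)) ∧
    (∀ j, Measurable (c1 w h j) ∧ Measurable (inf1 w h j) ∧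
      ∀ y, |c1 w h j y| ≤ inf1 w h j y ∧ inf1 w h j y ≤ 1) ∧
    (∀ j j', Measurable (c2 w h j j') ∧ ∀ y, |c2 w h j j' y| ≤ 2) ∧
    (∀ J, BM (W1 w J h) ∧ BM (W2 w J h) ∧ BM (Inf w J h) ∧
      ∀ y, 0 ≤ W1 w J h y ∧ W1 w J h y ≤ 1 ∧ 0 ≤ W2 w J h y ∧ 0 ≤ Inf w J h y) ∧
    (∀ r : ι → ℤ, (∀ x, h (x + r) = h x) → ∀ y,
      Ey w h (y + fun i => (r i : ℝ)) = Ey w h y ∧
      (∀ j, c1 w h j (y + fun i => (r i : ℝ)) = c1 w h j y ∧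
        inf1 w h j (y + fun i => (r i : ℝ)) = inf1 w h j y) ∧
      (∀ j j', c2 w h j j' (y + fun i => (r i : ℝ)) = c2 w h j j' y) ∧
      ∀ J, W1 w J h (y + fun i => (r i : ℝ)) = W1 w J h y ∧
        W2 w J h (y + fun i => (r i : ℝ)) = W2 w J h y ∧
        Inf w J h (y + fun i => (r i : ℝ)) = Inf w J h y) ∧
    (∀ y u : ι → ℝ, Ey w h (y + u) - Ey w h y =
      ∫ r in (0 : ℝ)..1, ∑ j, u j * dpr w (y j + r * u j) * c1 w h j (y + r • u)) ∧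
    ∀ (y u : ι → ℝ) (j : ι), (∀ r : ℝ, 0 ≤ r → r ≤ 1 → ⌊y j + r * u j⌋ = ⌊y j⌋) →
      c1 w h j (y + u) - c1 w h j y =
        ∫ r in (0 : ℝ)..1, ∑ j' ∈ univ.erase j,
          u j' * dpr w (y j' + r * u j') * c2 w h j j' (y + r • u)

/-- Fourier expansion in the bits. -/
def FourierStmt : Prop :=
  ∀ (ι : Type) [Fintype ι] [DecidableEq ι] (w : Wn) (f : (ι → ℤ) → ℝ), w.Ok → U01 f →
    (∀ S, Measurable (fw w f S) ∧ ∀ y, 0 ≤ fw w f S y) ∧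
    (∀ y, ∑ S : Finset ι, fw w f S y ≤ 1) ∧
    (∀ y, Ey w (fun x => f x ^ 2) y - Ey w f y ^ 2 =
      ∑ S : Finset ι, if S = ∅ then 0 else fw w f S y) ∧
    (∀ y, ∑ S : Finset ι, (S.card : ℝ) * fw w f S y ≤ Inf w univ f y) ∧
    (∀ y, W1 w univ f y = ∑ S : Finset ι, if S.card = 1 then fw w f S y else 0) ∧
    (∀ r : ι → ℤ, (∀ x, f (x + r) = f x) → ∀ S y, fw w f S (y + fun i => (r i : ℝ)) = fw w f S y) ∧
    ∀ (ρ : ℝ) (J : Finset ι) (y : ι → ℝ), 0 ≤ ρ → ρ ≤ 1 →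
      (∀ b, U01 (noised w ρ J f y b)) ∧
      (∀ (r : ι → ℤ) (b : ι → Bool), (∀ i, i ∉ J → r i = 0) → (∀ x, f (x + r) = f x) →
        ∀ x, noised w ρ J f y b (x + r) = noised w ρ J f y b x) ∧
      ∀ y' : ι → ℝ, (∀ i, i ∉ J → y' i = y i) →
        Eb (py w y) (fun b => W1 w J (noised w ρ J f y b) y') = Q1 w ρ J f y' ∧
        Eb (py w y) (fun b => W2 w J (noised w ρ J f y b) y') = Q2 w ρ J f y' ∧
        Eb (py w y) (fun b => Inf w J (noised w ρ J f y b) y') ≤ Inf w J f y'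

/-- The small entries: pairing at one point `y` of the torus.  `a j j'` is the small part of
`ip (s j') (U j)`, it vanishes when `pq (y j) = 0`. -/
def SmallStmt : Prop :=
  ∀ (ι : Type) [Fintype ι] [DecidableEq ι] (w : Wn) (J : Finset ι) (h : (ι → ℤ) → ℝ) (y : ι → ℝ)
    (a : ι → ι → ℝ) (A l : ℝ), w.Ok → U01 h → 0 ≤ A → 1 ≤ l →
    (∀ j j', pq w (y j) = 0 → a j j' = 0) →
    ((∀ j', ∑ j ∈ J, (a j j' / pq w (y j)) ^ 2 ≤ A ^ 2) →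
      |∑ j ∈ J, ∑ j' ∈ J.erase j, dpr w (y j') * c2 w h j j' y * a j j'| ≤
        Real.sqrt l * A * Inf w J h y + J.card * (A / w.om * Real.exp (-l))) ∧
    ((∀ j j', |a j j' / pq w (y j)| ≤ A) → (∀ j', ∑ j ∈ J, a j j' ^ 2 / pq w (y j) ≤ A ^ 2) →
      |∑ j ∈ J, ∑ j' ∈ J.erase j, dpr w (y j') * c2 w h j j' y * a j j'| ≤
        2 * l * A * Inf w J h y + J.card * (12 * A / w.om * Real.exp (-l)))

/-- The part of the move which stays in the same window. -/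
def NearStmt : Prop :=
  ∀ ω W δ C1 B : ℝ, 0 < ω → 0 < W → 0 < δ → 0 ≤ C1 → 0 ≤ B →
    ∃ C : ℝ, 0 < C ∧ ∀ w : Wn, w.Ok → w.om = ω →
      ∀ (ι κ : Type) [Fintype ι] [DecidableEq ι] [Fintype κ] [Nonempty κ]
      (Γ : AddSubgroup (κ → ℝ)) (J : Finset ι) (s : ι → κ → ℤ) (t : ι → ℝ) (h : (ι → ℤ) → ℝ)
      (σ ε l : ℝ) (χ : ι → ℝ → ℝ) (m : ι → ℝ),
      (∀ n : κ → ℤ, (fun k => (n k : ℝ)) ∈ Γ) → (∀ j, j ∉ J → s j = 0) → U01 h → Inv Γ s h →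
      0 < σ → W ^ 2 = σ ^ 2 * Fintype.card κ → (∀ j, T3 (s j)) → ZPat J s →
      SplitT J s (C1 * Fintype.card κ) (ε ^ 2 * Fintype.card κ) → 0 ≤ ε → 1 ≤ l →
      (∀ j, Measurable (χ j)) → (∀ j u, |χ j u| ≤ 1) → (∀ j, |m j| ≤ 1) → ∑ j ∈ J, m j ^ 2 ≤ B →
      |∑ j ∈ J, ∫ ξ, (if |ip (s j) ξ| < 1 / 2 then χ j (ip (s j) ξ) else 0) *
          tm (fun η => pq w ((t + lin s η) j) * (c1 w h j (t + lin s η) - m j) *
            psi w ((t + lin s (η + ξ)) j) *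
            (c1 w h j (t + lin s η) - c1 w h j (t + lin s (η + ξ)))) ∂gm κ σ| ≤
        δ * (∑ j ∈ J, tm fun η => pq w ((t + lin s η) j) * (c1 w h j (t + lin s η) - m j) ^ 2) +
          C * (Fi w * tm (fun η => W2 w J h (t + lin s η)) +
            (Real.sqrt l + l * w.et) * ε * tm (fun η => Inf w J h (t + lin s η)) +
            ε * J.card * Real.exp (-l))

/-- The block lemma. -/
def BlockStmt : Prop :=
  ∀ c0 : ℝ, 0 < c0 → ∃ ω0 : ℝ, 0 < ω0 ∧ ∀ ω C1 : ℝ, 0 < ω → ω ≤ ω0 → 0 ≤ C1 →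
    ∃ C : ℝ, 1 ≤ C ∧ ∀ w : Wn, w.Ok → w.om = ω →
      ∀ (ι κ : Type) [Fintype ι] [DecidableEq ι] [Fintype κ] [Nonempty κ]
      (Γ : AddSubgroup (κ → ℝ)) (J : Finset ι) (s : ι → κ → ℤ) (ε l : ℝ),
      Lat Γ (c0 * Fintype.card κ) → (∀ j, Dual Γ (s j)) → (∀ j, T3 (s j)) →
      (∀ j ∈ J, (Fintype.card κ : ℝ) / 4 ≤ ∑ k, (s j k : ℝ) ^ 2) → (∀ j, j ∉ J → s j = 0) →
      ZPat J s → SplitT J s (C1 * Fintype.card κ) (ε ^ 2 * Fintype.card κ) → Ksh J s (ε ^ 2) →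
      0 ≤ ε → ε ≤ 1 → 1 ≤ l →
      BlockAt w (C * Fi w ^ 2) (C * Fi w * (Real.sqrt l + l * w.et) * ε)
        (C * Fi w * J.card * Real.exp (-l)) Γ J s

/-- Variance on the torus of the fibre mean. -/
def TVStmt : Prop :=
  ∃ C : ℝ, 0 < C ∧ ∀ (ι κ : Type) [Fintype ι] [DecidableEq ι] [Fintype κ]
    (Γ : AddSubgroup (κ → ℝ)) (s : ι → κ → ℤ) (t : ι → ℝ) (f : (ι → ℤ) → ℝ) (w : Wn)
    (sh C1 C2 : ℝ), w.Ok → 0 < sh → 0 < C1 → 0 ≤ C2 → Lat Γ sh → (∀ j, Dual Γ (s j)) →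
    (∀ j, T3 (s j)) → SplitT univ s C1 C2 → U01 f → Inv Γ s f →
    tm (fun β => Ey w f (t + lin s β) ^ 2) - tm (fun β => Ey w f (t + lin s β)) ^ 2 ≤
      C * (Fi w * (C1 / sh) * tm (fun β => W1 w univ f (t + lin s β)) +
        Real.sqrt (C2 / sh) * tm (fun β => Inf w univ f (t + lin s β)))

/-- The block lemma for the noised function, averaged over the whole torus. -/
def NoisedStmt : Prop :=
  ∀ (ι K κ : Type) [Fintype ι] [DecidableEq ι] [Fintype K] [Fintype κ]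
    (Γ : AddSubgroup (K → ℝ)) (J : Finset ι) (s : ι → K → ℤ)
    (S : ι → κ → ℤ) (emb : (K → ℝ) → (κ → ℝ)) (c : ι → ℝ) (f : (ι → ℤ) → ℝ) (w : Wn)
    (L E1 E0 ρ : ℝ), w.Ok → 0 ≤ L → 0 ≤ E1 → 0 ≤ ρ → ρ ≤ 1 → BlockAt w L E1 E0 Γ J s →
    (∀ j, j ∉ J → s j = 0) → Measurable emb → (∀ η, lin S (emb η) = lin s η) →
    U01 f → Inv ⊤ S f →
    tm (fun β => Q1 w ρ J f (c + lin S β)) ≤
      L * tm (fun β => Q2 w ρ J f (c + lin S β)) + E1 * tm (fun β => Inf w J f (c + lin S β)) + E0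

/-- Summation over blocks, partitions and dyadic scales (no analysis). -/
def FibreStmt : Prop :=
  ∀ (ι A Vb : Type) [Fintype ι] [DecidableEq ι] [Fintype A] [DecidableEq A] [Fintype Vb]
    [DecidableEq Vb] (π : A → ι → Vb) (sc : A → ℕ) (Kn : ℕ) (wS : Finset ι → ℝ)
    (x : A × Vb → ℝ) (E1 : ℕ → ℝ) (I L θ X E0 : ℝ),
    (∀ S, 0 ≤ wS S) → (∀ a, ∑ v, x (a, v) ≤ I) → ∑ S, (S.card : ℝ) * wS S ≤ I →
    (∀ k, 0 ≤ E1 k) → 0 ≤ E0 → 1 ≤ L → 0 ≤ θ → θ * (1 + 2 * L) ≤ 1 / 2 → 2 ≤ X →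
    200 * L * X * Real.exp (-X) ≤ 1 → 1 ≤ Kn →
    (∀ k ∈ Icc 1 Kn, (univ.filter fun a => sc a = k).Nonempty ∧
      ∀ S : Finset ι, (S.card : ℝ) ≤ X * 2 ^ k →
        ∑ a ∈ univ.filter fun a => sc a = k, (coll (π a) S : ℝ) ≤
          θ * S.card * (univ.filter fun a => sc a = k).card) →
    (∀ J : A × Vb, sc J.1 ∈ Icc 1 Kn →
      (∑ S : Finset ι, if (S ∩ blk π J).card = 1 then
          wS S * (1 - (1 / 2 : ℝ) ^ sc J.1) ^ (S.card - 1) else 0) ≤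
        L * (∑ S : Finset ι, if (S ∩ blk π J).card = 2 then
          2 * wS S * (1 - (1 / 2 : ℝ) ^ sc J.1) ^ (S.card - 2) else 0) +
        E1 (sc J.1) * x J + E0) →
    (∑ S : Finset ι, if S = ∅ then 0 else wS S) ≤
      24 * (∑ k ∈ Icc 1 Kn, (1 / 2 : ℝ) ^ k * (E1 k * I + Fintype.card Vb * E0)) + 2 * I / 2 ^ Kn

/-- The Poincare inequality of the model. -/
def PoincareStmt : Prop :=
  ∃ C : ℝ, 0 < C ∧ ∀ (ι κ A Vb : Type) [Fintype ι] [DecidableEq ι] [Fintype κ] [Fintype A]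
    [DecidableEq A] [Fintype Vb] [DecidableEq Vb] (K : A → Type) [∀ a, Fintype (K a)]
    (π : A → ι → Vb) (sc : A → ℕ) (Kn : ℕ) (s : (J : A × Vb) → ι → K J.1 → ℤ)
    (Γb : (J : A × Vb) → AddSubgroup (K J.1 → ℝ)) (S : ι → κ → ℤ) (Γ : AddSubgroup (κ → ℝ))
    (emb : (J : A × Vb) → (K J.1 → ℝ) → (κ → ℝ)) (c : ι → ℝ) (f : (ι → ℤ) → ℝ) (w : Wn)
    (E1 : ℕ → ℝ) (L θ X E0 sh C1 C2 : ℝ), w.Ok →
    (∀ k, 0 ≤ E1 k) → 0 ≤ E0 → 1 ≤ L → 0 ≤ θ → θ * (1 + 2 * L) ≤ 1 / 2 → 2 ≤ X →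
    200 * L * X * Real.exp (-X) ≤ 1 → 1 ≤ Kn →
    (∀ k ∈ Icc 1 Kn, (univ.filter fun a => sc a = k).Nonempty ∧
      ∀ T : Finset ι, (T.card : ℝ) ≤ X * 2 ^ k →
        ∑ a ∈ univ.filter fun a => sc a = k, (coll (π a) T : ℝ) ≤
          θ * T.card * (univ.filter fun a => sc a = k).card) →
    (∀ J : A × Vb, sc J.1 ∈ Icc 1 Kn → BlockAt w L (E1 (sc J.1)) E0 (Γb J) (blk π J) (s J) ∧
      (∀ j, j ∉ blk π J → s J j = 0) ∧ Measurable (emb J) ∧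
      ∀ η, lin S (emb J η) = lin (s J) η) →
    0 < sh → 0 < C1 → 0 ≤ C2 → Lat Γ sh → (∀ j, Dual Γ (S j)) → (∀ j, T3 (S j)) →
    SplitT univ S C1 C2 → U01 f → Inv ⊤ S f →
    tm (fun β => Ey w (fun x => f x ^ 2) (c + lin S β)) -
        tm (fun β => Ey w f (c + lin S β)) ^ 2 ≤
      C * ((1 + Fi w * (C1 / sh)) *
          (((∑ k ∈ Icc 1 Kn, (1 / 2 : ℝ) ^ k * E1 k) + 1 / 2 ^ Kn) *
            tm (fun β => Inf w univ f (c + lin S β)) + Fintype.card Vb * E0) +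
        Real.sqrt (C2 / sh) * tm (fun β => Inf w univ f (c + lin S β)))

/-- From the model to the finite weighted instance; the number of vertices is at most
`Cn ^ card κ * 4 ^ card ι`. -/
def ModelStmt : Prop :=
  ∀ (ι κ : Type) [Fintype ι] [DecidableEq ι] [Fintype κ]
    (s : ι → κ → ℤ) (c : ι → ℝ) (dd : (ι → ℤ) → (ι → ℤ) → ℝ) (Cn : ℕ) (w : Wn) (δ D1 D2 : ℝ),
    w.Ok → 0 < δ → 0 < D1 → 0 < D2 → 1 ≤ Cn →
    (∀ j, ∑ k, |(s j k : ℝ)| ≤ Cn) → MetricAt w D1 D2 s c dd →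
    (∀ f : (ι → ℤ) → ℝ, (∀ x, f x = 0 ∨ f x = 1) → Inv ⊤ s f →
      tm (fun β => Ey w f (c + lin s β)) * (1 - tm fun β => Ey w f (c + lin s β)) ≤
        δ * tm (fun β => Inf w univ f (c + lin s β)) + 1 / 100) →
    ∀ N : ℕ, 101 * (Cn ^ Fintype.card κ * 4 ^ Fintype.card ι) ≤ N → D2 / (200 * δ * D1) ≤ gap N

/-- From upper and lower restricted isometry to `SplitT` and `Ksh`. -/
def RipStmt : Prop :=
  ∀ (ι κ : Type) [Fintype ι] [DecidableEq ι] [Fintype κ] (J : Finset ι) (s : ι → κ → ℤ) (n : ℕ)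
    (C1 c1' : ℝ), 1 ≤ n → 0 ≤ C1 →
    (∀ T ⊆ J, T.card ≤ n → ∀ v : ι → ℝ,
      ∑ k, (∑ j ∈ T, v j * (s j k : ℝ)) ^ 2 ≤ C1 * ∑ j ∈ T, v j ^ 2) →
    SplitT J s C1 (C1 / n) ∧
    (0 < c1' → (∀ T ⊆ J, T.card ≤ n → ∀ v : ι → ℝ,
      c1' * ∑ j ∈ T, v j ^ 2 ≤ ∑ k, (∑ j ∈ T, v j * (s j k : ℝ)) ^ 2) →
      Ksh J s ((4 * C1 / c1' + 1) / n))

end Vale.Agent.P318.C
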